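import Crest.Agent.R078.Basic

set_option autoImplicit false
set_option linter.unusedSectionVars false

/-!
# R78: unitary operators from isometries, diagonal operators, separability of `ℓ²(ι; E)`
-/

noncomputable section

namespace Crest.Agent.R078.Ops

open scoped ENNReal InnerProductSpace
open Crest.Agent.R078.Basic

section op

variable {E : Type} [NormedAddCommGroup E] [InnerProductSpace ℂ E] [CompleteSpace E]

/-- the bounded operator of a unitary isometry -/
def op (e : E ≃ₗᵢ[ℂ] E) : E →L[ℂ] E := e.toLinearIsometry.toContinuousLinearMap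

@[simp] theorem op_apply (e : E ≃ₗᵢ[ℂ] E) (f : E) : op e f = e f := rfl

theorem op_mul (e e' : E ≃ₗᵢ[ℂ] E) : op (e * e') = op e * op e' := rfl

@[simp] theorem op_one : op (1 : E ≃ₗᵢ[ℂ] E) = 1 := rfl

theorem inner_op_left (e : E ≃ₗᵢ[ℂ] E) (x y : E) : ⟪op e⁻¹ x, y⟫_ℂ = ⟪x, op e y⟫_ℂ := by
  have h : x = e (e⁻¹ x) := (e.apply_symm_apply x).symm
  conv_rhs => rw [h]
  exact (e.inner_map_map _ _).symm

theorem star_op (e : E ≃ₗᵢ[ℂ] E) : star (op e) = op e⁻¹ := by
  rw [ContinuousLinearMap.star_eq_adjoint]
  exact ((ContinuousLinearMap.eq_adjoint_iff _ _).mpr (inner_op_left e)).symm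

theorem op_mul_op_inv (e : E ≃ₗᵢ[ℂ] E) : op e * op e⁻¹ = 1 := by
  rw [← op_mul, mul_inv_cancel, op_one]

theorem op_inv_mul_op (e : E ≃ₗᵢ[ℂ] E) : op e⁻¹ * op e = 1 := by
  rw [← op_mul, inv_mul_cancel, op_one]

theorem op_mem_unitary (e : E ≃ₗᵢ[ℂ] E) : op e ∈ unitary (E →L[ℂ] E) := by
  rw [Unitary.mem_iff, star_op]
  exact ⟨op_inv_mul_op e, op_mul_op_inv e⟩

theorem exists_op_of_unitary (u : E →L[ℂ] E) (hu : u ∈ unitary (E →L[ℂ] E)) :
    ∃ e : E ≃ₗᵢ[ℂ] E, op e = u :=
  ⟨Unitary.linearIsometryEquiv ⟨u, hu⟩, rfl⟩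

end op

section diag

variable {ι : Type} {F : Type} [NormedAddCommGroup F] [InnerProductSpace ℂ F]

theorem summable_diag (a : F →L[ℂ] F) (f : L2 ι F) : Summable fun i => ‖a (f i)‖ ^ 2 := by
  have h := (hasSum_norm_sq f).summable.mul_left (‖a‖ ^ 2)
  refine Summable.of_nonneg_of_le (fun i => by positivity) (fun i => ?_) h
  rw [← mul_pow]
  exact pow_le_pow_left₀ (norm_nonneg _) (a.le_opNorm _) 2

/-- the diagonal operator `(diag a f) i = a (f i)` -/
def diag (a : F →L[ℂ] F) : L2 ι F →L[ℂ] L2 ι F :=
  LinearMap.mkContinuous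
    { toFun := fun f => ⟨fun i => a (f i), memℓp_two_of_summable (summable_diag a f)⟩
      map_add' := fun f g => by
        ext i
        exact map_add a _ _
      map_smul' := fun c f => by
        ext i
        exact map_smul a _ _ } ‖a‖
    (fun f => by
      have h : ‖(⟨fun i => a (f i), memℓp_two_of_summable (summable_diag a f)⟩ : L2 ι F)‖ ^ 2 ≤
          (‖a‖ * ‖f‖) ^ 2 := by
        rw [norm_sq_eq, mul_pow, norm_sq_eq f, ← tsum_mul_left]
        refine Summable.tsum_le_tsum (fun i => ?_) (summable_diag a f)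
          ((hasSum_norm_sq f).summable.mul_left _)
        rw [← mul_pow]
        exact pow_le_pow_left₀ (norm_nonneg _) (a.le_opNorm _) 2
      exact le_of_sq_le_sq h (by positivity))

@[simp] theorem diag_apply (a : F →L[ℂ] F) (f : L2 ι F) (i : ι) : diag a f i = a (f i) := rfl


@[simp] theorem diag_one : (diag (1 : F →L[ℂ] F) : L2 ι F →L[ℂ] L2 ι F) = 1 := rfl



theorem inner_diag_left [CompleteSpace F] (a : F →L[ℂ] F) (f g : L2 ι F) :
    ⟪diag (star a) f, g⟫_ℂ = ⟪f, diag a g⟫_ℂ := by
  rw [lp.inner_eq_tsum, lp.inner_eq_tsum]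
  refine tsum_congr fun i => ?_
  rw [diag_apply, diag_apply, ContinuousLinearMap.star_eq_adjoint,
    ContinuousLinearMap.adjoint_inner_left]

theorem star_diag [CompleteSpace F] (a : F →L[ℂ] F) :
    star (diag a : L2 ι F →L[ℂ] L2 ι F) = diag (star a) := by
  rw [ContinuousLinearMap.star_eq_adjoint]
  exact ((ContinuousLinearMap.eq_adjoint_iff _ _).mpr (inner_diag_left a)).symm

end diag

section separable

variable {ι : Type} {F : Type} [NormedAddCommGroup F] [InnerProductSpace ℂ F]

/-- the linear span of all `single`s is dense -/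
theorem mem_closure_span_single [DecidableEq ι] (f : L2 ι F) :
    f ∈ closure (Submodule.span ℂ
      (⋃ i : ι, Set.range (fun a : F => (lp.single 2 i a : L2 ι F))) : Set (L2 ι F)) := by
  have h := hasSum_single f
  refine mem_closure_of_tendsto h (Filter.Eventually.of_forall fun s => ?_)
  refine Submodule.sum_mem _ fun i _ => ?_
  apply Submodule.subset_span
  rw [Set.mem_iUnion]
  exact ⟨i, f i, rfl⟩

instance separableSpace_L2 [Countable ι] [TopologicalSpace.SeparableSpace F] :
    TopologicalSpace.SeparableSpace (L2 ι F) := by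
  classical
  have h1 : TopologicalSpace.IsSeparable
      (⋃ i : ι, Set.range (fun a : F => (lp.single 2 i a : L2 ι F))) := by
    refine TopologicalSpace.IsSeparable.iUnion fun i => ?_
    have : Continuous (fun a : F => (lp.single 2 i a : L2 ι F)) :=
      (lp.isometry_single (E := fun _ : ι => F) (p := 2) i).continuous
    exact TopologicalSpace.isSeparable_range this
  have h2 := h1.span (R := ℂ)
  have h3 := h2.closure
  rw [← TopologicalSpace.isSeparable_univ_iff]
  exact h3.mono (fun f _ => mem_closure_span_single f)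

/-- the star algebra generated by a countable set, closed up, is separable -/
theorem isSeparable_adjoin_closure {A : Type} [NormedRing A] [NormedAlgebra ℂ A] [StarRing A]
    [StarModule ℂ A] [ContinuousStar A] (s : Set A) (hs : s.Countable) :
    TopologicalSpace.IsSeparable ((StarAlgebra.adjoin ℂ s).topologicalClosure : Set A) := by
  have h1 : ((StarAlgebra.adjoin ℂ s).topologicalClosure : Set A) =
      closure (StarAlgebra.adjoin ℂ s : Set A) := StarSubalgebra.topologicalClosure_coe _
  rw [h1]
  apply TopologicalSpace.IsSeparable.closure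
  have h2 : (StarAlgebra.adjoin ℂ s : Set A) =
      (Submodule.span ℂ (Submonoid.closure (s ∪ star s) : Set A) : Set A) := by
    have := StarAlgebra.adjoin_eq_span (R := ℂ) s
    rw [← this]
    rfl
  rw [h2]
  apply TopologicalSpace.IsSeparable.span
  apply Set.Countable.isSeparable
  have : Countable (s ∪ star s : Set A) := by
    refine (hs.union ?_).to_subtype
    exact hs.preimage star_injective
  rw [Submonoid.closure_eq_mrange, MonoidHom.coe_mrange]
  have : Countable (FreeMonoid (s ∪ star s : Set A)) :=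
    inferInstanceAs (Countable (List (s ∪ star s : Set A)))
  exact Set.countable_range _

end separable

end Crest.Agent.R078.Ops
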