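import Crest.Agent.R078.Basic
import Crest.Agent.R078.Ops

-- ▼ part R078/NearRep
section

set_option autoImplicit false
set_option linter.unusedSectionVars false

/-!
# R78, S0105-F2: a unitary representation of a free group uniformly close to the left regular
representation, with a coefficient `s` at all generators.
-/

noncomputable section

namespace Crest.Agent.R078.NearRep

open scoped ENNReal InnerProductSpace
open Crest.Agent.R078.Basic

section rot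

variable {ι : Type} [DecidableEq ι]

/-- the coordinates of the rotation in the plane of `δ_x`, `δ_y` -/
def rotFun (c s : ℝ) (x y : ι) (f : ι → ℂ) (i : ι) : ℂ :=
  if i = x then c * f x - s * f y else if i = y then s * f x + c * f y else f i

theorem rotFun_left (c s : ℝ) (x y : ι) (f : ι → ℂ) :
    rotFun c s x y f x = c * f x - s * f y := by simp [rotFun]

theorem rotFun_right (c s : ℝ) {x y : ι} (h : x ≠ y) (f : ι → ℂ) :
    rotFun c s x y f y = s * f x + c * f y := by simp [rotFun, h.symm]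

theorem rotFun_ne (c s : ℝ) {x y i : ι} (h1 : i ≠ x) (h2 : i ≠ y) (f : ι → ℂ) :
    rotFun c s x y f i = f i := by simp [rotFun, h1, h2]

/-- the rotation as a linear map -/
def rotₗ (c s : ℝ) (x y : ι) : L2 ι ℂ →ₗ[ℂ] L2 ι ℂ :=
  LinearMap.id + (lp.lsingle (𝕜 := ℂ) (E := fun _ : ι => ℂ) 2 x) ∘ₗ
      (((c - 1 : ℝ) : ℂ) • lp.evalₗ (𝕜 := ℂ) (E := fun _ : ι => ℂ) 2 x
        - ((s : ℝ) : ℂ) • lp.evalₗ (𝕜 := ℂ) (E := fun _ : ι => ℂ) 2 y)
    + (lp.lsingle (𝕜 := ℂ) (E := fun _ : ι => ℂ) 2 y) ∘ₗ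
      (((s : ℝ) : ℂ) • lp.evalₗ (𝕜 := ℂ) (E := fun _ : ι => ℂ) 2 x
        + ((c - 1 : ℝ) : ℂ) • lp.evalₗ (𝕜 := ℂ) (E := fun _ : ι => ℂ) 2 y)

theorem rotₗ_eq (c s : ℝ) (x y : ι) (f : L2 ι ℂ) :
    rotₗ c s x y f = f + lp.single 2 x ((c - 1) * f x - s * f y)
      + lp.single 2 y (s * f x + (c - 1) * f y) := by
  simp only [rotₗ, LinearMap.add_apply, LinearMap.id_apply, LinearMap.comp_apply,
    LinearMap.sub_apply, LinearMap.smul_apply, smul_eq_mul]
  push_cast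
  rfl

theorem rotₗ_apply (c s : ℝ) {x y : ι} (h : x ≠ y) (f : L2 ι ℂ) (i : ι) :
    rotₗ c s x y f i = rotFun c s x y f i := by
  rw [rotₗ_eq, lp.coeFn_add, lp.coeFn_add, Pi.add_apply, Pi.add_apply]
  by_cases h1 : i = x
  · subst h1
    rw [rotFun_left, lp.single_apply_self, lp.single_apply_ne _ _ _ h]
    ring
  · by_cases h2 : i = y
    · subst h2
      rw [rotFun_right _ _ h, lp.single_apply_self, lp.single_apply_ne _ _ _ h.symm]
      ring
    · rw [rotFun_ne _ _ h1 h2, lp.single_apply_ne _ _ _ h1, lp.single_apply_ne _ _ _ h2]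
      ring

theorem rotₗ_rotₗ (c s : ℝ) (hcs : c ^ 2 + s ^ 2 = 1) {x y : ι} (h : x ≠ y) (f : L2 ι ℂ) :
    rotₗ c s x y (rotₗ c s y x f) = f := by
  have hcs' : (c : ℂ) ^ 2 + (s : ℂ) ^ 2 = 1 := by exact_mod_cast hcs
  ext i
  rw [rotₗ_apply _ _ h]
  by_cases h1 : i = x
  · subst h1
    rw [rotFun_left, rotₗ_apply _ _ h.symm, rotₗ_apply _ _ h.symm, rotFun_left,
      rotFun_right _ _ h.symm]
    linear_combination (f i) * hcs'
  · by_cases h2 : i = y
    · subst h2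
      rw [rotFun_right _ _ h, rotₗ_apply _ _ h.symm, rotₗ_apply _ _ h.symm, rotFun_left,
        rotFun_right _ _ h.symm]
      linear_combination (f i) * hcs'
    · rw [rotFun_ne _ _ h1 h2, rotₗ_apply _ _ h.symm, rotFun_ne _ _ h2 h1]

theorem norm_rotₗ (c s : ℝ) (hcs : c ^ 2 + s ^ 2 = 1) {x y : ι} (h : x ≠ y) (f : L2 ι ℂ) :
    ‖rotₗ c s x y f‖ = ‖f‖ := by
  have key : ‖rotₗ c s x y f‖ ^ 2 = ‖f‖ ^ 2 := by
    rw [rotₗ_eq, norm_sq_add_single, norm_sq_add_single]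
    rw [lp.coeFn_add, Pi.add_apply, lp.single_apply_ne _ _ _ h.symm, add_zero]
    have e1 : f x + ((c - 1) * f x - s * f y) = c * f x - s * f y := by ring
    have e2 : f y + (s * f x + (c - 1) * f y) = s * f x + c * f y := by ring
    rw [e1, e2]
    have e3 : ‖(c : ℂ) * f x - s * f y‖ ^ 2 + ‖(s : ℂ) * f x + c * f y‖ ^ 2
        = ‖f x‖ ^ 2 + ‖f y‖ ^ 2 := by
      simp only [Complex.sq_norm, Complex.normSq_apply, Complex.sub_re, Complex.sub_im,
        Complex.add_re, Complex.add_im, Complex.mul_re, Complex.mul_im, Complex.ofReal_re,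
        Complex.ofReal_im, zero_mul, sub_zero, add_zero]
      linear_combination ((f x).re ^ 2 + (f x).im ^ 2 + (f y).re ^ 2 + (f y).im ^ 2) * hcs
    linarith
  exact (sq_eq_sq₀ (norm_nonneg _) (norm_nonneg _)).mp key

/-- the rotation as a unitary -/
def rot (c s : ℝ) (hcs : c ^ 2 + s ^ 2 = 1) {x y : ι} (h : x ≠ y) : L2 ι ℂ ≃ₗᵢ[ℂ] L2 ι ℂ where
  toLinearEquiv := LinearEquiv.ofLinearMap (rotₗ c s x y) (rotₗ c s y x)
    (by
      refine LinearMap.ext fun f => ?_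
      exact rotₗ_rotₗ c s hcs h f)
    (by
      refine LinearMap.ext fun f => ?_
      exact rotₗ_rotₗ c s hcs h.symm f)
  norm_map' f := norm_rotₗ c s hcs h f

theorem rot_eq (c s : ℝ) (hcs : c ^ 2 + s ^ 2 = 1) {x y : ι} (h : x ≠ y) (f : L2 ι ℂ) :
    rot c s hcs h f = f + lp.single 2 x ((c - 1) * f x - s * f y)
      + lp.single 2 y (s * f x + (c - 1) * f y) := rotₗ_eq c s x y f

theorem rot_apply (c s : ℝ) (hcs : c ^ 2 + s ^ 2 = 1) {x y : ι} (h : x ≠ y) (f : L2 ι ℂ)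
    (i : ι) : rot c s hcs h f i = rotFun c s x y f i := rotₗ_apply c s h f i

theorem rot_inv (c s : ℝ) (hcs : c ^ 2 + s ^ 2 = 1) {x y : ι} (h : x ≠ y) :
    (rot c s hcs h)⁻¹ = rot c s hcs h.symm := by
  ext f i
  rfl

end rot

section lam

variable {G : Type} [Group G]

/-- the left regular representation, `(lam g f) x = f (g⁻¹ x)` -/
def lam : G →* (L2 G ℂ ≃ₗᵢ[ℂ] L2 G ℂ) where
  toFun g := wp (Equiv.mulLeft g⁻¹) (fun _ => 1)
  map_one' := by
    ext f x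
    simp
  map_mul' g h := by
    ext f x
    simp

@[simp] theorem lam_apply (g : G) (f : L2 G ℂ) (x : G) : lam g f x = f (g⁻¹ * x) := rfl


theorem lam_single [DecidableEq G] (g : G) (x : G) (a : ℂ) :
    lam g (lp.single 2 x a) = lp.single 2 (g * x) a := by
  have := wp_single (E := ℂ) (Equiv.mulLeft g⁻¹) (fun _ : G => 1) x a
  simpa [lam] using this

theorem mul_ne_mul_left' (g : G) {x y : G} (h : x ≠ y) : g * x ≠ g * y := fun h' =>
  h (mul_left_cancel h')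

theorem lam_rot [DecidableEq G] (c s : ℝ) (hcs : c ^ 2 + s ^ 2 = 1) {x y : G} (h : x ≠ y) (g : G) :
    lam g * rot c s hcs h = rot c s hcs (mul_ne_mul_left' g h) * lam g := by
  ext f z
  change rot c s hcs h f (g⁻¹ * z) = rot c s hcs (mul_ne_mul_left' g h) (lam g f) z
  rw [rot_apply, rot_apply]
  by_cases h1 : z = g * x
  · subst h1
    rw [rotFun_left, inv_mul_cancel_left, rotFun_left]
    simp
  · by_cases h2 : z = g * y
    · subst h2
      rw [rotFun_right _ _ (mul_ne_mul_left' g h), inv_mul_cancel_left, rotFun_right _ _ h]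
      simp
    · rw [rotFun_ne _ _ h1 h2, rotFun_ne]
      · simp
      · rintro h3
        apply h1
        rw [← h3]
        group
      · rintro h3
        apply h2
        rw [← h3]
        group

end lam

section rep

variable {α : Type} [DecidableEq α]

theorem rot_congr {ι : Type} [DecidableEq ι] (c s : ℝ) (hcs : c ^ 2 + s ^ 2 = 1)
    {x y x' y' : ι} (h : x ≠ y) (h' : x' ≠ y') (hx : x = x') (hy : y = y') :
    rot c s hcs h = rot c s hcs h' := by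
  subst hx hy
  rfl

theorem one_ne_letter (a : α × Bool) : (1 : FreeGroup α) ≠ FreeGroup.mk [a] := by
  intro h
  have h1 : (FreeGroup.mk [a]).toWord = [a] := by
    rw [FreeGroup.toWord_mk, FreeGroup.IsReduced.singleton.reduce_eq]
  rw [← h] at h1
  simp at h1

theorem one_ne_letter_inv (a : α × Bool) : (1 : FreeGroup α) ≠ (FreeGroup.mk [a])⁻¹ := by
  intro h
  apply one_ne_letter a
  rw [← inv_one, h, inv_inv]

/-- the near representation -/
def nearRep (c s : ℝ) (hcs : c ^ 2 + s ^ 2 = 1) :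
    FreeGroup α →* (L2 (FreeGroup α) ℂ ≃ₗᵢ[ℂ] L2 (FreeGroup α) ℂ) :=
  FreeGroup.lift (fun i => lam (FreeGroup.of i) * rot c s hcs (one_ne_letter_inv (i, true)))

theorem nearRep_letter (c s : ℝ) (hcs : c ^ 2 + s ^ 2 = 1) (a : α × Bool) :
    nearRep c s hcs (FreeGroup.mk [a]) =
      lam (FreeGroup.mk [a]) * rot c s hcs (one_ne_letter_inv a) := by
  obtain ⟨i, b⟩ := a
  cases b with
  | true =>
    exact FreeGroup.lift_apply_of
  | false =>
    have h1 : (FreeGroup.mk [(i, false)] : FreeGroup α) = (FreeGroup.of i)⁻¹ := rfl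
    have h2 : nearRep c s hcs (FreeGroup.mk [(i, false)]) =
        (lam (FreeGroup.of i) * rot c s hcs (one_ne_letter_inv (i, true)))⁻¹ := by
      rw [h1, map_inv]
      congr 1
    have h3 : (lam (FreeGroup.mk [(i, false)]) : L2 (FreeGroup α) ℂ ≃ₗᵢ[ℂ] L2 (FreeGroup α) ℂ) =
        (lam (FreeGroup.of i))⁻¹ := by
      rw [h1, map_inv]
    rw [h2, mul_inv_rev, rot_inv, h3, eq_inv_mul_iff_mul_eq, ← mul_assoc, lam_rot,
      mul_assoc, mul_inv_cancel, mul_one]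
    apply rot_congr
    · exact mul_inv_cancel _
    · exact mul_one _

/-- the discrepancy `P g = lam(g)⁻¹ π(g)`. -/
def disc (c s : ℝ) (hcs : c ^ 2 + s ^ 2 = 1) (g : FreeGroup α) :
    L2 (FreeGroup α) ℂ ≃ₗᵢ[ℂ] L2 (FreeGroup α) ℂ := (lam g)⁻¹ * nearRep c s hcs g

theorem disc_cons (c s : ℝ) (hcs : c ^ 2 + s ^ 2 = 1) (g : FreeGroup α) (a : α × Bool)
    (h : g⁻¹ ≠ (FreeGroup.mk [a] * g)⁻¹) :
    disc c s hcs (FreeGroup.mk [a] * g) = rot c s hcs h * disc c s hcs g := by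
  unfold disc
  rw [map_mul, map_mul, nearRep_letter, mul_inv_rev]
  have h2 := lam_rot c s hcs (one_ne_letter_inv a) g⁻¹
  have h3 : rot c s hcs h = rot c s hcs (mul_ne_mul_left' g⁻¹ (one_ne_letter_inv a)) := by
    apply rot_congr
    · simp
    · rw [mul_inv_rev]
  rw [h3, ← mul_assoc (rot c s hcs _), ← map_inv lam g, ← h2]
  group

theorem norm_sq_add3_le (a b c : ℂ) :
    ‖a + b + c‖ ^ 2 ≤ 3 * ‖a‖ ^ 2 + 3 * ‖b‖ ^ 2 + 3 * ‖c‖ ^ 2 := by
  have h : ‖a + b + c‖ ≤ ‖a‖ + ‖b‖ + ‖c‖ := norm_add₃_le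
  have h2 : ‖a + b + c‖ ^ 2 ≤ (‖a‖ + ‖b‖ + ‖c‖) ^ 2 := by gcongr
  nlinarith [sq_nonneg (‖a‖ - ‖b‖), sq_nonneg (‖a‖ - ‖c‖), sq_nonneg (‖b‖ - ‖c‖)]

theorem norm_sq_add2_le (a b : ℂ) :
    ‖a + b‖ ^ 2 ≤ 2 * ‖a‖ ^ 2 + 2 * ‖b‖ ^ 2 := by
  have h : ‖a + b‖ ≤ ‖a‖ + ‖b‖ := norm_add_le _ _
  have h2 : ‖a + b‖ ^ 2 ≤ (‖a‖ + ‖b‖) ^ 2 := by gcongr
  nlinarith [sq_nonneg (‖a‖ - ‖b‖)]

/-- the arithmetic of one step -/
theorem step_ineq (c s : ℝ) (hs : 0 < s) (hc : 0 ≤ c) (hs2 : s ^ 2 ≤ 1 / 10)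
    (hcs : c ^ 2 + s ^ 2 = 1) (y d f' : ℂ) (A B : ℝ)
    (hA : A + 2 * ‖d‖ ^ 2 + 10 * s ^ 2 * ‖y‖ ^ 2 ≤ 24 * s ^ 2 * B) :
    A - ‖d‖ ^ 2 + ‖d + ((c - 1) * y - s * f')‖ ^ 2 + ‖s * y + (c - 1) * f'‖ ^ 2
      + 2 * ‖s * y + (c - 1) * f'‖ ^ 2 + 10 * s ^ 2 * ‖s * y + c * f'‖ ^ 2
      ≤ 24 * s ^ 2 * (B + ‖f'‖ ^ 2) := by
  have hc1 : c ≤ 1 := by nlinarith
  have hc2 : 1 - c ≤ s ^ 2 := by nlinarith
  have hc3 : (1 - c) ^ 2 ≤ s ^ 4 := by
    have : (1 - c) ^ 2 ≤ (s ^ 2) ^ 2 := by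
      apply pow_le_pow_left₀ (by linarith) hc2
    calc (1 - c) ^ 2 ≤ (s ^ 2) ^ 2 := this
      _ = s ^ 4 := by ring
  have n1 : ‖((c : ℂ) - 1) * y‖ ^ 2 = (1 - c) ^ 2 * ‖y‖ ^ 2 := by
    rw [norm_mul, mul_pow]
    congr 1
    have : ((c : ℂ) - 1) = ((c - 1 : ℝ) : ℂ) := by push_cast; ring
    rw [this, Complex.norm_real, Real.norm_eq_abs, sq_abs]
    ring
  have n2 : ‖((c : ℂ) - 1) * f'‖ ^ 2 = (1 - c) ^ 2 * ‖f'‖ ^ 2 := by
    rw [norm_mul, mul_pow]
    congr 1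
    have : ((c : ℂ) - 1) = ((c - 1 : ℝ) : ℂ) := by push_cast; ring
    rw [this, Complex.norm_real, Real.norm_eq_abs, sq_abs]
    ring
  have n3 : ‖(s : ℂ) * y‖ ^ 2 = s ^ 2 * ‖y‖ ^ 2 := by
    rw [norm_mul, mul_pow, Complex.norm_real, Real.norm_eq_abs, sq_abs]
  have n4 : ‖-((s : ℂ) * f')‖ ^ 2 = s ^ 2 * ‖f'‖ ^ 2 := by
    rw [norm_neg, norm_mul, mul_pow, Complex.norm_real, Real.norm_eq_abs, sq_abs]
  have n5 : ‖(c : ℂ) * f'‖ ^ 2 = c ^ 2 * ‖f'‖ ^ 2 := by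
    rw [norm_mul, mul_pow, Complex.norm_real, Real.norm_eq_abs, sq_abs]
  have m1 : ‖d + ((c - 1) * y - s * f')‖ ^ 2 ≤
      3 * ‖d‖ ^ 2 + 3 * ((1 - c) ^ 2 * ‖y‖ ^ 2) + 3 * (s ^ 2 * ‖f'‖ ^ 2) := by
    have := norm_sq_add3_le d ((c - 1) * y) (-(s * f'))
    rw [n1, n4] at this
    have e : d + ((c - 1) * y - s * f') = d + (c - 1) * y + -(s * f') := by ring
    rw [e]
    exact this
  have m2 : ‖(s : ℂ) * y + (c - 1) * f'‖ ^ 2 ≤
      2 * (s ^ 2 * ‖y‖ ^ 2) + 2 * ((1 - c) ^ 2 * ‖f'‖ ^ 2) := by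
    have := norm_sq_add2_le (s * y) ((c - 1) * f')
    rwa [n3, n2] at this
  have m3 : ‖(s : ℂ) * y + c * f'‖ ^ 2 ≤
      2 * (s ^ 2 * ‖y‖ ^ 2) + 2 * (c ^ 2 * ‖f'‖ ^ 2) := by
    have := norm_sq_add2_le (s * y) (c * f')
    rwa [n3, n5] at this
  have hY : 0 ≤ ‖y‖ ^ 2 := by positivity
  have hF : 0 ≤ ‖f'‖ ^ 2 := by positivity
  have hs4 : s ^ 4 ≤ s ^ 2 / 10 := by nlinarith [sq_nonneg s]
  have k1 : (1 - c) ^ 2 * ‖y‖ ^ 2 ≤ (s ^ 2 / 10) * ‖y‖ ^ 2 := by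
    apply mul_le_mul_of_nonneg_right (le_trans hc3 hs4) hY
  have k2 : (1 - c) ^ 2 * ‖f'‖ ^ 2 ≤ (s ^ 2 / 10) * ‖f'‖ ^ 2 := by
    apply mul_le_mul_of_nonneg_right (le_trans hc3 hs4) hF
  have k3 : c ^ 2 * ‖f'‖ ^ 2 ≤ 1 * ‖f'‖ ^ 2 := by
    apply mul_le_mul_of_nonneg_right _ hF
    nlinarith [sq_nonneg s]
  have k4 : s ^ 2 * ‖(s : ℂ) * y + c * f'‖ ^ 2 ≤
      s ^ 2 * (2 * (s ^ 2 * ‖y‖ ^ 2) + 2 * (1 * ‖f'‖ ^ 2)) := by
    apply mul_le_mul_of_nonneg_left _ (sq_nonneg s)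
    linarith
  have k5 : s ^ 2 * (s ^ 2 * ‖y‖ ^ 2) ≤ (s ^ 2 / 10) * ‖y‖ ^ 2 := by
    have : s ^ 2 * (s ^ 2 * ‖y‖ ^ 2) = s ^ 4 * ‖y‖ ^ 2 := by ring
    rw [this]
    exact mul_le_mul_of_nonneg_right hs4 hY
  have hsY : 0 ≤ s ^ 2 * ‖y‖ ^ 2 := by positivity
  have hsF : 0 ≤ s ^ 2 * ‖f'‖ ^ 2 := by positivity
  nlinarith [m1, m2, m3, k1, k2, k3, k4, k5, hA]

theorem norm_mk {w : List (α × Bool)} (hw : FreeGroup.IsReduced w) :
    (FreeGroup.mk w).norm = w.length := by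
  rw [FreeGroup.norm, FreeGroup.toWord_mk, hw.reduce_eq]

/-- the induction along reduced words -/
theorem disc_induction (c s : ℝ) (hs : 0 < s) (hc : 0 ≤ c) (hs2 : s ^ 2 ≤ 1 / 10)
    (hcs : c ^ 2 + s ^ 2 = 1) (w : List (α × Bool)) (hw : FreeGroup.IsReduced w) :
    ∃ S : Finset (FreeGroup α), (FreeGroup.mk w)⁻¹ ∈ S ∧ (∀ x ∈ S, x.norm ≤ w.length) ∧
      (∀ (f : L2 (FreeGroup α) ℂ) (x : FreeGroup α), x ∉ S →
        disc c s hcs (FreeGroup.mk w) f x = f x) ∧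
      ∀ f : L2 (FreeGroup α) ℂ,
        ‖disc c s hcs (FreeGroup.mk w) f - f‖ ^ 2
          + 2 * ‖disc c s hcs (FreeGroup.mk w) f (FreeGroup.mk w)⁻¹ - f (FreeGroup.mk w)⁻¹‖ ^ 2
          + 10 * s ^ 2 * ‖disc c s hcs (FreeGroup.mk w) f (FreeGroup.mk w)⁻¹‖ ^ 2
          ≤ 24 * s ^ 2 * ∑ x ∈ S, ‖f x‖ ^ 2 := by
  induction w with
  | nil =>
    refine ⟨{1}, ?_, ?_, ?_, ?_⟩
    · have : (FreeGroup.mk ([] : List (α × Bool))) = 1 := rfl
      rw [this]
      simp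
    · intro x hx
      rw [Finset.mem_singleton] at hx
      subst hx
      simp
    · intro f x _
      have : (FreeGroup.mk ([] : List (α × Bool))) = 1 := rfl
      rw [this]
      simp [disc]
    · intro f
      have : (FreeGroup.mk ([] : List (α × Bool))) = 1 := rfl
      rw [this]
      have h2 : disc c s hcs (1 : FreeGroup α) f = f := by
        simp [disc]
      rw [h2, inv_one, sub_self, sub_self, Finset.sum_singleton]
      simp only [norm_zero]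
      nlinarith [mul_nonneg (sq_nonneg s) (sq_nonneg ‖f 1‖)]
  | cons a w ih =>
    have hw' : FreeGroup.IsReduced w := by
      rw [FreeGroup.IsReduced] at hw ⊢
      exact (List.isChain_cons.mp hw).2
    obtain ⟨S, hS0, hS1, hS2, hS3⟩ := ih hw'
    set g := (FreeGroup.mk w : FreeGroup α) with hg
    have hgw : (FreeGroup.mk (a :: w) : FreeGroup α) = FreeGroup.mk [a] * g := by
      rw [hg, FreeGroup.mul_mk]
      rfl
    set x' := (FreeGroup.mk (a :: w) : FreeGroup α)⁻¹ with hx'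
    have hx'norm : x'.norm = w.length + 1 := by
      rw [hx', FreeGroup.norm_inv_eq, norm_mk hw]
      rfl
    have hx'S : x' ∉ S := by
      intro h
      have := hS1 _ h
      omega
    have hginorm : (g⁻¹).norm = w.length := by
      rw [FreeGroup.norm_inv_eq, hg, norm_mk hw']
    have hne : g⁻¹ ≠ x' := by
      intro h
      rw [h] at hginorm
      omega
    have hne' : g⁻¹ ≠ (FreeGroup.mk [a] * g)⁻¹ := by
      rw [← hgw]
      exact hne
    have hcons : ∀ f : L2 (FreeGroup α) ℂ, disc c s hcs (FreeGroup.mk (a :: w)) f =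
        rot c s hcs hne (disc c s hcs g f) := by
      intro f
      have h1 := disc_cons c s hcs g a hne'
      rw [hgw, h1]
      have : rot c s hcs hne' = rot c s hcs hne := by
        apply rot_congr
        · rfl
        · rw [hx', hgw]
      rw [this]
      rfl
    refine ⟨insert x' S, Finset.mem_insert_self _ _, ?_, ?_, ?_⟩
    · intro x hx
      rw [Finset.mem_insert] at hx
      rcases hx with hx | hx
      · rw [hx, hx'norm]
        rfl
      · have := hS1 _ hx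
        rw [List.length_cons]
        omega
    · intro f x hx
      rw [Finset.mem_insert, not_or] at hx
      rw [hcons, rot_apply]
      have hgS : x ≠ g⁻¹ := by
        rintro rfl
        exact hx.2 hS0
      rw [rotFun_ne _ _ hgS hx.1]
      exact hS2 f x hx.2
    · intro f
      rw [Finset.sum_insert hx'S]
      have hF := hS2 f x' hx'S
      have h3 := hS3 f
      have hrot := rot_eq c s hcs hne (disc c s hcs g f)
      rw [hF] at hrot
      have hval : disc c s hcs (FreeGroup.mk (a :: w)) f x' =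
          s * disc c s hcs g f g⁻¹ + c * f x' := by
        rw [hcons, rot_apply, rotFun_right _ _ hne, hF]
      rw [hval]
      have hdiff : disc c s hcs (FreeGroup.mk (a :: w)) f - f =
          (disc c s hcs g f - f) +
            lp.single 2 g⁻¹ ((c - 1) * disc c s hcs g f g⁻¹ - s * f x') +
            lp.single 2 x' (s * disc c s hcs g f g⁻¹ + (c - 1) * f x') := by
        rw [hcons, hrot]
        abel
      have hnorm : ‖disc c s hcs (FreeGroup.mk (a :: w)) f - f‖ ^ 2 =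
          ‖disc c s hcs g f - f‖ ^ 2 - ‖disc c s hcs g f g⁻¹ - f g⁻¹‖ ^ 2
          + ‖(disc c s hcs g f g⁻¹ - f g⁻¹) + ((c - 1) * disc c s hcs g f g⁻¹ - s * f x')‖ ^ 2
          + ‖(s * disc c s hcs g f g⁻¹ + (c - 1) * f x' : ℂ)‖ ^ 2 := by
        rw [hdiff, norm_sq_add_single, norm_sq_add_single]
        have e1 : ((disc c s hcs g f - f) + lp.single 2 g⁻¹
            ((c - 1) * disc c s hcs g f g⁻¹ - s * f x') : L2 (FreeGroup α) ℂ) x' = 0 := by
          rw [lp.coeFn_add, Pi.add_apply, lp.single_apply_ne _ _ _ hne.symm, add_zero,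
            lp.coeFn_sub, Pi.sub_apply, hF, sub_self]
        rw [e1, zero_add]
        have e2 : (disc c s hcs g f - f : L2 (FreeGroup α) ℂ) g⁻¹ =
          disc c s hcs g f g⁻¹ - f g⁻¹ := by
          rw [lp.coeFn_sub, Pi.sub_apply]
        rw [e2]
        simp
      have hd' : (s * disc c s hcs g f g⁻¹ + c * f x' : ℂ) - f x' =
          s * disc c s hcs g f g⁻¹ + (c - 1) * f x' := by ring
      rw [hnorm, hd']
      have := step_ineq c s hs hc hs2 hcs (disc c s hcs g f g⁻¹)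
        (disc c s hcs g f g⁻¹ - f g⁻¹) (f x') (‖disc c s hcs g f - f‖ ^ 2)
        (∑ x ∈ S, ‖f x‖ ^ 2) h3
      rw [add_comm (‖f x'‖ ^ 2)]
      exact this

theorem norm_disc_sub_le (c s : ℝ) (hs : 0 < s) (hc : 0 ≤ c) (hs2 : s ^ 2 ≤ 1 / 10)
    (hcs : c ^ 2 + s ^ 2 = 1) (g : FreeGroup α) (f : L2 (FreeGroup α) ℂ) :
    ‖disc c s hcs g f - f‖ ≤ 5 * s * ‖f‖ := by
  obtain ⟨S, -, -, -, hS⟩ := disc_induction c s hs hc hs2 hcs g.toWord FreeGroup.isReduced_toWord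
  rw [FreeGroup.mk_toWord] at hS
  have h1 := hS f
  have h2 := sum_norm_sq_le f S
  have h3 : 24 * s ^ 2 * ∑ x ∈ S, ‖f x‖ ^ 2 ≤ 24 * s ^ 2 * ‖f‖ ^ 2 := by gcongr
  have h4 : ‖disc c s hcs g f - f‖ ^ 2 ≤ (5 * s * ‖f‖) ^ 2 := by
    have p1 : 0 ≤ 2 * ‖disc c s hcs g f g⁻¹ - f g⁻¹‖ ^ 2 := by positivity
    have p2 : 0 ≤ 10 * s ^ 2 * ‖disc c s hcs g f g⁻¹‖ ^ 2 := by positivity
    have p3 : 0 ≤ s ^ 2 * ‖f‖ ^ 2 := by positivity
    nlinarith
  exact le_of_sq_le_sq h4 (by positivity)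

theorem nearRep_eq (c s : ℝ) (hcs : c ^ 2 + s ^ 2 = 1) (g : FreeGroup α)
    (f : L2 (FreeGroup α) ℂ) : nearRep c s hcs g f = lam g (disc c s hcs g f) := by
  have : nearRep c s hcs g = lam g * disc c s hcs g := by
    rw [disc, mul_inv_cancel_left]
  rw [this]
  rfl

theorem norm_nearRep_sub_le (c s : ℝ) (hs : 0 < s) (hc : 0 ≤ c) (hs2 : s ^ 2 ≤ 1 / 10)
    (hcs : c ^ 2 + s ^ 2 = 1) (g : FreeGroup α) (f : L2 (FreeGroup α) ℂ) :
    ‖nearRep c s hcs g f - lam g f‖ ≤ 5 * s * ‖f‖ := by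
  rw [nearRep_eq, ← map_sub, LinearIsometryEquiv.norm_map]
  exact norm_disc_sub_le c s hs hc hs2 hcs g f

theorem nearRep_of_apply_one (c s : ℝ) (hcs : c ^ 2 + s ^ 2 = 1) (i : α) :
    nearRep c s hcs (FreeGroup.of i) (lp.single 2 (1 : FreeGroup α) (1 : ℂ)) 1 = s := by
  have h1 : nearRep c s hcs (FreeGroup.of i) =
      lam (FreeGroup.of i) * rot c s hcs (one_ne_letter_inv (i, true)) :=
    nearRep_letter c s hcs (i, true)
  rw [h1]
  change rot c s hcs (one_ne_letter_inv (i, true)) (lp.single 2 (1 : FreeGroup α) (1 : ℂ))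
    ((FreeGroup.of i)⁻¹ * 1) = s
  rw [mul_one, rot_apply]
  have h3 := rotFun_right c s (one_ne_letter_inv (i, true))
    (lp.single 2 (1 : FreeGroup α) (1 : ℂ) : L2 (FreeGroup α) ℂ)
  have h4 : (FreeGroup.mk [(i, true)] : FreeGroup α)⁻¹ ≠ 1 := (one_ne_letter_inv (i, true)).symm
  rw [lp.single_apply_self, lp.single_apply_ne _ _ _ h4] at h3
  rw [mul_one, mul_zero, add_zero] at h3
  exact h3

/-- **F2**: a unitary representation of a free group uniformly close to the left regular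
representation, with a coefficient `s` at all generators. -/
theorem exists_nearRep (s : ℝ) (hs : 0 < s) (hs2 : s ^ 2 ≤ 1 / 10) :
    ∃ π : FreeGroup α →* (L2 (FreeGroup α) ℂ ≃ₗᵢ[ℂ] L2 (FreeGroup α) ℂ),
      (∀ g f, ‖π g f - lam g f‖ ≤ 5 * s * ‖f‖) ∧
      ∀ i, π (FreeGroup.of i) (lp.single 2 (1 : FreeGroup α) (1 : ℂ)) 1 = s := by
  have hcs : (Real.sqrt (1 - s ^ 2)) ^ 2 + s ^ 2 = 1 := by
    rw [Real.sq_sqrt (by linarith)]
    ring
  exact ⟨nearRep _ s hcs, norm_nearRep_sub_le _ s hs (Real.sqrt_nonneg _) hs2 hcs,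
    nearRep_of_apply_one _ s hcs⟩

end rep

end Crest.Agent.R078.NearRep
end
end

-- ▼ part R078/ModelDefs

set_option autoImplicit false
set_option linter.unusedSectionVars false

/-!
# R78, S0105-F3: the model operators
-/

noncomputable section

namespace Crest.Agent.R078.Model

open scoped ENNReal InnerProductSpace
open Crest.Agent.R078.Basic Crest.Agent.R078.Ops Crest.Agent.R078.NearRep

variable {G : Type} [Group G] [DecidableEq G]

/-- `K = ℓ²(G)` -/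
abbrev K (G : Type) : Type := L2 G ℂ

/-- `E = ℓ²(G; K)` -/
abbrev E (G : Type) : Type := L2 G (K G)

/-- `(U σ g f) h = σ g (f (g⁻¹ h))` -/
def U (σ : G →* (K G ≃ₗᵢ[ℂ] K G)) : G →* (E G ≃ₗᵢ[ℂ] E G) where
  toFun g := wp (Equiv.mulLeft g⁻¹) (fun _ => σ g)
  map_one' := by
    ext f x y
    simp
  map_mul' g h := by
    ext f x y
    simp

@[simp] theorem U_apply (σ : G →* (K G ≃ₗᵢ[ℂ] K G)) (g : G) (f : E G) (h : G) :
    U σ g f h = σ g (f (g⁻¹ * h)) := rfl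

/-- `(R g f) h = f (h g)` -/
def R : G →* (E G ≃ₗᵢ[ℂ] E G) where
  toFun g := wp (Equiv.mulRight g) (fun _ => 1)
  map_one' := by
    ext f x y
    simp
  map_mul' g h := by
    ext f x y
    simp [mul_assoc]

@[simp] theorem R_apply (g : G) (f : E G) (h : G) : R g f h = f (h * g) := rfl

/-- `(W π f) h = π h (lam h)⁻¹ (f h)` -/
def W (π : G →* (K G ≃ₗᵢ[ℂ] K G)) : E G ≃ₗᵢ[ℂ] E G := wp 1 (fun h => π h * (lam h)⁻¹)

@[simp] theorem W_apply (π : G →* (K G ≃ₗᵢ[ℂ] K G)) (f : E G) (h : G) :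
    W π f h = π h ((lam h)⁻¹ (f h)) := rfl

/-- the matrix unit `|δ_k⟩⟨δ_l|` of `K` -/
def mu (k l : G) : K G →L[ℂ] K G :=
  (lp.singleContinuousLinearMap ℂ (fun _ : G => ℂ) 2 k).comp
    (lp.evalCLM ℂ (fun _ : G => ℂ) 2 l)

@[simp] theorem mu_apply (k l : G) (f : K G) : mu k l f = lp.single 2 k (f l) := rfl

theorem star_mu (k l : G) : star (mu k l) = mu l k := by
  rw [ContinuousLinearMap.star_eq_adjoint]
  symm
  rw [ContinuousLinearMap.eq_adjoint_iff]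
  intro x y
  rw [mu_apply, mu_apply, lp.inner_single_left, lp.inner_single_right]



/-- the diagonal projections `p h = diag |δ_h⟩⟨δ_h|` -/
def p (h : G) : E G →L[ℂ] E G := diag (mu h h)

/-- the basis of `E` -/
def eps (h k : G) : E G := lp.single 2 h (lp.single 2 k (1 : ℂ))

/-- the generators of the big algebra -/
def gens (π : G →* (K G ≃ₗᵢ[ℂ] K G)) : Set (E G →L[ℂ] E G) :=
  Set.range (fun g : G => op (U lam g)) ∪ Set.range (fun g : G => op (U π g)) ∪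
    Set.range (fun q : G × G => diag (mu q.1 q.2))

/-- the algebra `C E` -/
def CE (π : G →* (K G ≃ₗᵢ[ℂ] K G)) : StarSubalgebra ℂ (E G →L[ℂ] E G) :=
  (StarAlgebra.adjoin ℂ (gens π)).topologicalClosure

/-- the algebra `A₀` -/
def A0 (G : Type) [Group G] [DecidableEq G] : StarSubalgebra ℂ (E G →L[ℂ] E G) :=
  (StarAlgebra.adjoin ℂ (Set.range (fun g : G => op (U lam g)))).topologicalClosure

end Crest.Agent.R078.Model
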