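import Mathlib

set_option autoImplicit false
set_option linter.unusedSectionVars false

/-!
# R78 / S0105: the abstract part

Algebras of block diagonal operators with convergent blocks on `ℓ²(ℕ; E)`.
-/

noncomputable section

namespace Crest.Agent.R078.PartA

open scoped ENNReal InnerProductSpace Topology
open Filter

variable {E : Type} [NormedAddCommGroup E] [InnerProductSpace ℂ E] [CompleteSpace E]

/-- `ℓ²(ℕ; E)` -/
abbrev HH (E : Type) [NormedAddCommGroup E] : Type := lp (fun _ : ℕ => E) 2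

/-- inclusion of the `k`-th coordinate -/
def V (k : ℕ) : E →L[ℂ] HH E := lp.singleContinuousLinearMap ℂ (fun _ : ℕ => E) 2 k

/-- projection to the `k`-th coordinate -/
def P (k : ℕ) : HH E →L[ℂ] E := lp.evalCLM ℂ (fun _ : ℕ => E) 2 k

theorem V_apply (k : ℕ) (a : E) : V k a = lp.single 2 k a := rfl

theorem P_apply (k : ℕ) (f : HH E) : P k f = f k := rfl

theorem P_V_self_apply (k : ℕ) (a : E) : P k (V k a) = a := by
  rw [V_apply, P_apply, lp.single_apply_self]

theorem P_V_ne_apply {j k : ℕ} (h : j ≠ k) (a : E) : P j (V k a) = 0 := by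
  rw [V_apply, P_apply, lp.single_apply_ne _ _ _ h]



theorem norm_V_apply (k : ℕ) (a : E) : ‖V k a‖ = ‖a‖ := by
  rw [V_apply]
  exact lp.norm_single (E := fun _ : ℕ => E) (p := 2) (by norm_num) k a

theorem norm_P_apply_le (k : ℕ) (f : HH E) : ‖P k f‖ ≤ ‖f‖ := by
  rw [P_apply]
  exact lp.norm_apply_le_norm (by norm_num) f k



theorem adjoint_V (k : ℕ) : ContinuousLinearMap.adjoint (V k : E →L[ℂ] HH E) = P k := by
  symm
  rw [ContinuousLinearMap.eq_adjoint_iff]
  intro f a
  rw [P_apply, V_apply]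
  exact (lp.inner_single_right (𝕜 := ℂ) (G := fun _ : ℕ => E) k a f).symm

theorem adjoint_P (k : ℕ) : ContinuousLinearMap.adjoint (P k : HH E →L[ℂ] E) = V k := by
  rw [← adjoint_V, ContinuousLinearMap.adjoint_adjoint]

theorem hasSum_VP (f : HH E) : HasSum (fun k => V k (P k f)) f :=
  lp.hasSum_single (by norm_num) f

theorem ext_P {f g : HH E} (h : ∀ k, P k f = P k g) : f = g := by
  ext k
  exact h k

theorem ext_PT {F : Type} [NormedAddCommGroup F] [NormedSpace ℂ F] {S T : F →L[ℂ] HH E}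
    (h : ∀ k, P k ∘L S = P k ∘L T) : S = T := by
  ext f : 1
  exact ext_P fun k => by
    have := congrArg (fun R : F →L[ℂ] E => R f) (h k)
    simpa using this


theorem norm_sq_eq (f : HH E) : HasSum (fun k => ‖P k f‖ ^ 2) (‖f‖ ^ 2) := by
  have h := lp.hasSum_norm (p := 2) (by norm_num) f
  simpa [P_apply] using h

/-! ### diagonal operators -/

theorem memℓp_diag (a : ℕ → E →L[ℂ] E) (C : ℝ) (hC : ∀ k, ‖a k‖ ≤ C) (f : HH E) :
    Memℓp (fun k => a k (P k f)) 2 := by
  refine memℓp_gen ?_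
  simp only [ENNReal.toReal_ofNat, Real.rpow_ofNat]
  refine Summable.of_nonneg_of_le (fun k => by positivity) (fun k => ?_)
    ((norm_sq_eq f).summable.mul_left (C ^ 2))
  rw [← mul_pow]
  gcongr
  exact (a k).le_of_opNorm_le (hC k) _

/-- linear map version of the diagonal operator -/
def diagₗ (a : ℕ → E →L[ℂ] E) (C : ℝ) (hC : ∀ k, ‖a k‖ ≤ C) : HH E →ₗ[ℂ] HH E where
  toFun f := ⟨fun k => a k (P k f), memℓp_diag a C hC f⟩
  map_add' f g := by
    ext k
    change a k (P k (f + g)) = a k (P k f) + a k (P k g)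
    rw [map_add, map_add]
  map_smul' c f := by
    ext k
    change a k (P k (c • f)) = c • a k (P k f)
    rw [map_smul, map_smul]

theorem P_diagₗ (a : ℕ → E →L[ℂ] E) (C : ℝ) (hC : ∀ k, ‖a k‖ ≤ C) (f : HH E) (k : ℕ) :
    P k (diagₗ a C hC f) = a k (P k f) := rfl

theorem norm_diagₗ_le (a : ℕ → E →L[ℂ] E) (C : ℝ) (hC : ∀ k, ‖a k‖ ≤ C) (f : HH E) :
    ‖diagₗ a C hC f‖ ≤ C * ‖f‖ := by
  have hC0 : 0 ≤ C := (norm_nonneg _).trans (hC 0)
  have h1 := norm_sq_eq (diagₗ a C hC f)
  have h2 := (norm_sq_eq f).mul_left (C ^ 2)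
  have h3 : ‖diagₗ a C hC f‖ ^ 2 ≤ C ^ 2 * ‖f‖ ^ 2 := by
    refine hasSum_le (fun k => ?_) h1 h2
    rw [P_diagₗ, ← mul_pow]
    gcongr
    exact (a k).le_of_opNorm_le (hC k) _
  rw [← mul_pow] at h3
  exact le_of_sq_le_sq h3 (by positivity)

open Classical in
/-- The diagonal operator with (bounded) blocks `a k`. -/
def diag (a : ℕ → E →L[ℂ] E) : HH E →L[ℂ] HH E :=
  if h : ∃ C, ∀ k, ‖a k‖ ≤ C then
    (diagₗ a h.choose h.choose_spec).mkContinuous h.choose (norm_diagₗ_le a _ _)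
  else 0

theorem P_diag_apply {a : ℕ → E →L[ℂ] E} (h : ∃ C, ∀ k, ‖a k‖ ≤ C) (f : HH E) (k : ℕ) :
    P k (diag a f) = a k (P k f) := by
  rw [diag, dif_pos h]
  rfl


theorem norm_diag_le {a : ℕ → E →L[ℂ] E} {C : ℝ} (h : ∀ k, ‖a k‖ ≤ C) : ‖diag a‖ ≤ C := by
  have hC0 : 0 ≤ C := (norm_nonneg _).trans (h 0)
  refine ContinuousLinearMap.opNorm_le_bound _ hC0 fun f => ?_
  have h' : diag a f = diagₗ a C h f := by
    refine ext_P fun k => ?_
    rw [P_diag_apply ⟨C, h⟩, P_diagₗ]
  rw [h']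
  exact norm_diagₗ_le a C h f

/-! ### block diagonal operators -/

/-- The `k`-th diagonal block. -/
def blk (k : ℕ) (T : HH E →L[ℂ] HH E) : E →L[ℂ] E := P k ∘L T ∘L V k

theorem blk_apply (k : ℕ) (T : HH E →L[ℂ] HH E) (a : E) : blk k T a = P k (T (V k a)) := rfl

theorem blk_add (k : ℕ) (S T : HH E →L[ℂ] HH E) : blk k (S + T) = blk k S + blk k T := by
  ext a
  simp [blk_apply]

theorem blk_sub (k : ℕ) (S T : HH E →L[ℂ] HH E) : blk k (S - T) = blk k S - blk k T := by
  ext a
  simp [blk_apply]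

theorem blk_smul (k : ℕ) (c : ℂ) (T : HH E →L[ℂ] HH E) : blk k (c • T) = c • blk k T := by
  ext a
  simp [blk_apply]

theorem blk_one (k : ℕ) : blk k (1 : HH E →L[ℂ] HH E) = 1 := by
  ext a
  simp [blk_apply, P_V_self_apply]

theorem blk_star (k : ℕ) (T : HH E →L[ℂ] HH E) : blk k (star T) = star (blk k T) := by
  rw [blk, blk, ContinuousLinearMap.star_eq_adjoint, ContinuousLinearMap.star_eq_adjoint,
    ContinuousLinearMap.adjoint_comp, ContinuousLinearMap.adjoint_comp, adjoint_V, adjoint_P,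
    ContinuousLinearMap.comp_assoc]

theorem norm_blk_le (k : ℕ) (T : HH E →L[ℂ] HH E) : ‖blk k T‖ ≤ ‖T‖ := by
  refine ContinuousLinearMap.opNorm_le_bound _ (norm_nonneg _) fun a => ?_
  rw [blk_apply]
  refine (norm_P_apply_le _ _).trans ?_
  refine (T.le_opNorm _).trans ?_
  rw [norm_V_apply]

theorem continuous_blk (k : ℕ) : Continuous (blk k : (HH E →L[ℂ] HH E) → (E →L[ℂ] E)) := by
  have : LipschitzWith 1 (blk k : (HH E →L[ℂ] HH E) → (E →L[ℂ] E)) := by
    refine LipschitzWith.of_dist_le_mul fun S T => ?_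
    rw [dist_eq_norm, dist_eq_norm, ← blk_sub, NNReal.coe_one, one_mul]
    exact norm_blk_le _ _
  exact this.continuous

/-- block diagonal operators -/
def IsDiag (T : HH E →L[ℂ] HH E) : Prop := ∀ k, P k ∘L T = blk k T ∘L P k

theorem IsDiag.apply {T : HH E →L[ℂ] HH E} (h : IsDiag T) (k : ℕ) (f : HH E) :
    P k (T f) = blk k T (P k f) := by
  have := congrArg (fun R : HH E →L[ℂ] E => R f) (h k)
  simpa using this

theorem IsDiag.apply_V {T : HH E →L[ℂ] HH E} (h : IsDiag T) (k : ℕ) (a : E) :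
    T (V k a) = V k (blk k T a) := by
  refine ext_P fun j => ?_
  rw [h.apply]
  by_cases hj : j = k
  · subst hj
    rw [P_V_self_apply, P_V_self_apply]
  · rw [P_V_ne_apply hj, P_V_ne_apply hj, map_zero]

theorem IsDiag.comp_V {T : HH E →L[ℂ] HH E} (h : IsDiag T) (k : ℕ) :
    T ∘L V k = V k ∘L blk k T := by
  ext a
  rw [ContinuousLinearMap.comp_apply, h.apply_V]
  rfl

theorem IsDiag.add {S T : HH E →L[ℂ] HH E} (hS : IsDiag S) (hT : IsDiag T) : IsDiag (S + T) := by
  intro k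
  ext f
  rw [blk_add]
  simp [hS.apply, hT.apply]

theorem IsDiag.smul {T : HH E →L[ℂ] HH E} (c : ℂ) (hT : IsDiag T) : IsDiag (c • T) := by
  intro k
  ext f
  rw [blk_smul]
  simp [hT.apply]

theorem blk_mul {S T : HH E →L[ℂ] HH E} (hS : IsDiag S) (k : ℕ) :
    blk k (S * T) = blk k S * blk k T := by
  ext a
  change P k (S (T (V k a))) = blk k S (P k (T (V k a)))
  rw [hS.apply]

theorem IsDiag.mul {S T : HH E →L[ℂ] HH E} (hS : IsDiag S) (hT : IsDiag T) : IsDiag (S * T) := by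
  intro k
  ext f
  rw [blk_mul hS]
  simp [hS.apply, hT.apply]

theorem isDiag_one : IsDiag (1 : HH E →L[ℂ] HH E) := by
  intro k
  ext f
  rw [blk_one]
  simp

theorem IsDiag.star {T : HH E →L[ℂ] HH E} (hT : IsDiag T) : IsDiag (star T) := by
  intro k
  have h := congrArg ContinuousLinearMap.adjoint (hT.comp_V k)
  rw [ContinuousLinearMap.adjoint_comp, ContinuousLinearMap.adjoint_comp, adjoint_V] at h
  rw [blk_star]
  exact h

theorem isDiag_diag {a : ℕ → E →L[ℂ] E} (h : ∃ C, ∀ k, ‖a k‖ ≤ C) : IsDiag (diag a) := by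
  intro k
  ext f
  rw [ContinuousLinearMap.comp_apply, P_diag_apply h, ContinuousLinearMap.comp_apply, blk_apply,
    P_diag_apply h, P_V_self_apply]

theorem blk_diag {a : ℕ → E →L[ℂ] E} (h : ∃ C, ∀ k, ‖a k‖ ≤ C) (k : ℕ) : blk k (diag a) = a k := by
  ext f
  rw [blk_apply, P_diag_apply h, P_V_self_apply]

/-- constant diagonal -/
def ampl (a : E →L[ℂ] E) : HH E →L[ℂ] HH E := diag fun _ => a

theorem isDiag_ampl (a : E →L[ℂ] E) : IsDiag (ampl a) := isDiag_diag ⟨‖a‖, fun _ => le_rfl⟩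

theorem blk_ampl (a : E →L[ℂ] E) (k : ℕ) : blk k (ampl a) = a := blk_diag ⟨‖a‖, fun _ => le_rfl⟩ k

theorem norm_ampl_le (a : E →L[ℂ] E) : ‖ampl a‖ ≤ ‖a‖ := norm_diag_le fun _ => le_rfl

theorem isDiag_ext {S T : HH E →L[ℂ] HH E} (hS : IsDiag S) (hT : IsDiag T)
    (h : ∀ k, blk k S = blk k T) : S = T := by
  refine ext_PT fun k => ?_
  rw [hS k, hT k, h k]

theorem norm_le_of_blk {T : HH E →L[ℂ] HH E} (hT : IsDiag T) {C : ℝ} (h : ∀ k, ‖blk k T‖ ≤ C) :
    ‖T‖ ≤ C := by
  have h1 : T = diag fun k => blk k T :=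
    isDiag_ext hT (isDiag_diag ⟨C, h⟩) fun k => (blk_diag ⟨C, h⟩ k).symm
  rw [h1]
  exact norm_diag_le h

/-- elementary block diagonal operators `V k e P k` -/
def el (k : ℕ) (e : E →L[ℂ] E) : HH E →L[ℂ] HH E := V k ∘L e ∘L P k

theorem el_apply (k : ℕ) (e : E →L[ℂ] E) (f : HH E) : el k e f = V k (e (P k f)) := rfl

theorem blk_el_self (k : ℕ) (e : E →L[ℂ] E) : blk k (el k e) = e := by
  ext a
  rw [blk_apply, el_apply, P_V_self_apply, P_V_self_apply]

theorem blk_el_ne {j k : ℕ} (h : j ≠ k) (e : E →L[ℂ] E) : blk j (el k e) = 0 := by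
  ext a
  rw [blk_apply, el_apply, P_V_ne_apply h]
  rfl

theorem isDiag_el (k : ℕ) (e : E →L[ℂ] E) : IsDiag (el k e) := by
  intro j
  ext f
  rw [ContinuousLinearMap.comp_apply, ContinuousLinearMap.comp_apply, el_apply]
  by_cases h : j = k
  · subst h
    rw [blk_el_self, P_V_self_apply]
  · rw [blk_el_ne h, P_V_ne_apply h]
    rfl

theorem el_mul_left {T : HH E →L[ℂ] HH E} (hT : IsDiag T) (k : ℕ) (e : E →L[ℂ] E) :
    el k e * T = el k (e * blk k T) := by
  ext f : 1
  change V k (e (P k (T f))) = V k (e (blk k T (P k f)))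
  rw [hT.apply]

theorem el_mul_right {T : HH E →L[ℂ] HH E} (hT : IsDiag T) (k : ℕ) (e : E →L[ℂ] E) :
    T * el k e = el k (blk k T * e) := by
  ext f : 1
  change T (V k (e (P k f))) = V k (blk k T (e (P k f)))
  rw [hT.apply_V]

/-- The star algebra of block diagonal operators with blocks in `CE` converging to a point
of `D`. -/
def Alg (CE D : StarSubalgebra ℂ (E →L[ℂ] E)) : StarSubalgebra ℂ (HH E →L[ℂ] HH E) where
  carrier := {T | IsDiag T ∧ (∀ k, blk k T ∈ CE) ∧ ∃ x ∈ D, Tendsto (fun k => blk k T) atTop (𝓝 x)}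
  mul_mem' := by
    rintro S T ⟨hS1, hS2, x, hx, hSx⟩ ⟨hT1, hT2, y, hy, hTy⟩
    refine ⟨hS1.mul hT1, fun k => ?_, x * y, mul_mem hx hy, ?_⟩
    · rw [blk_mul hS1]
      exact mul_mem (hS2 k) (hT2 k)
    · simp only [blk_mul hS1]
      exact hSx.mul hTy
  add_mem' := by
    rintro S T ⟨hS1, hS2, x, hx, hSx⟩ ⟨hT1, hT2, y, hy, hTy⟩
    refine ⟨hS1.add hT1, fun k => ?_, x + y, add_mem hx hy, ?_⟩
    · rw [blk_add]
      exact add_mem (hS2 k) (hT2 k)
    · simp only [blk_add]
      exact hSx.add hTy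
  algebraMap_mem' := by
    intro c
    rw [Algebra.algebraMap_eq_smul_one]
    refine ⟨isDiag_one.smul c, fun k => ?_, c • 1, ?_, ?_⟩
    · rw [blk_smul, blk_one]
      exact SMulMemClass.smul_mem c (one_mem _)
    · exact SMulMemClass.smul_mem c (one_mem _)
    · simp only [blk_smul, blk_one]
      exact tendsto_const_nhds
  star_mem' := by
    rintro T ⟨hT1, hT2, x, hx, hTx⟩
    refine ⟨hT1.star, fun k => ?_, star x, star_mem hx, ?_⟩
    · rw [blk_star]
      exact star_mem (hT2 k)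
    · simp only [blk_star]
      exact hTx.star


theorem el_mem {CE D : StarSubalgebra ℂ (E →L[ℂ] E)} (k : ℕ) {e : E →L[ℂ] E} (he : e ∈ CE) :
    el k e ∈ Alg CE D := by
  refine ⟨isDiag_el k e, fun j => ?_, 0, zero_mem _, ?_⟩
  · by_cases h : j = k
    · subst h
      rw [blk_el_self]
      exact he
    · rw [blk_el_ne h]
      exact zero_mem _
  · refine tendsto_const_nhds.congr' ?_
    filter_upwards [eventually_gt_atTop k] with j hj
    rw [blk_el_ne hj.ne']

theorem ampl_mem {CE D : StarSubalgebra ℂ (E →L[ℂ] E)} {d : E →L[ℂ] E} (h1 : d ∈ CE) (h2 : d ∈ D) :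
    ampl d ∈ Alg CE D := by
  refine ⟨isDiag_ampl d, fun j => ?_, d, h2, ?_⟩
  · rw [blk_ampl]
    exact h1
  · simp only [blk_ampl]
    exact tendsto_const_nhds

/-! ### closedness -/

theorem isClosed_isDiag : IsClosed {T : HH E →L[ℂ] HH E | IsDiag T} := by
  have h : {T : HH E →L[ℂ] HH E | IsDiag T} = ⋂ k, {T | P k ∘L T = blk k T ∘L P k} := by
    ext T
    simp [IsDiag]
  rw [h]
  refine isClosed_iInter fun k => isClosed_eq ?_ ?_
  · exact continuous_const.clm_comp continuous_id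
  · exact (continuous_blk k).clm_comp continuous_const

theorem isClosed_Alg {CE D : StarSubalgebra ℂ (E →L[ℂ] E)}
    (hCE : IsClosed (CE : Set (E →L[ℂ] E))) (hD : IsClosed (D : Set (E →L[ℂ] E))) :
    IsClosed (Alg CE D : Set (HH E →L[ℂ] HH E)) := by
  refine IsSeqClosed.isClosed ?_
  intro S T hS hST
  choose hS1 hS2 x hx hSx using hS
  have hdist : ∀ n k, dist (blk k (S n)) (blk k T) ≤ dist (S n) T := fun n k => by
    rw [dist_eq_norm, dist_eq_norm, ← blk_sub]
    exact norm_blk_le _ _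
  have hT1 : IsDiag T := isClosed_isDiag.mem_of_tendsto hST (Eventually.of_forall hS1)
  have hT2 : ∀ k, blk k T ∈ CE := fun k =>
    hCE.mem_of_tendsto (((continuous_blk k).tendsto T).comp hST)
      (Eventually.of_forall fun n => hS2 n k)
  have hcau : CauchySeq fun k => blk k T := by
    rw [Metric.cauchySeq_iff']
    intro ε hε
    have h1 : ∀ᶠ n in atTop, dist (S n) T < ε / 4 :=
      (Metric.tendsto_nhds.mp hST) (ε / 4) (by positivity)
    obtain ⟨n, hn⟩ := h1.exists
    have h2 : ∀ᶠ k in atTop, dist (blk k (S n)) (x n) < ε / 4 :=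
      (Metric.tendsto_nhds.mp (hSx n)) (ε / 4) (by positivity)
    obtain ⟨N, hN⟩ := eventually_atTop.mp h2
    refine ⟨N, fun k hk => ?_⟩
    have h3 := hdist n k
    have h4 := hdist n N
    have h5 := hN k hk
    have h6 := hN N le_rfl
    calc dist (blk k T) (blk N T) ≤ dist (blk k T) (blk k (S n)) + dist (blk k (S n)) (x n)
          + dist (x n) (blk N (S n)) + dist (blk N (S n)) (blk N T) := by
            refine (dist_triangle4 _ (blk k (S n)) (x n) _).trans ?_
            linarith [dist_triangle (x n) (blk N (S n)) (blk N T)]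
      _ < ε := by
            rw [dist_comm (blk k T), dist_comm (x n)]
            linarith
  obtain ⟨y, hy⟩ := cauchySeq_tendsto_of_complete hcau
  have hyD : y ∈ D := by
    have h1 : Tendsto x atTop (𝓝 y) := by
      rw [tendsto_iff_dist_tendsto_zero]
      refine squeeze_zero (fun n => dist_nonneg) (fun n => ?_)
        (tendsto_iff_dist_tendsto_zero.mp hST)
      exact le_of_tendsto ((hSx n).dist hy) (Eventually.of_forall fun k => hdist n k)
    exact hD.mem_of_tendsto h1 (Eventually.of_forall hx)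
  exact ⟨hT1, hT2, y, hyD, hy⟩

/-! ### separability -/

/-- `blk` as a linear map -/
def blkₗ (k : ℕ) : (HH E →L[ℂ] HH E) →ₗ[ℂ] (E →L[ℂ] E) where
  toFun := blk k
  map_add' := blk_add k
  map_smul' := blk_smul k

theorem blk_sum (k : ℕ) {ι : Type} (s : Finset ι) (T : ι → (HH E →L[ℂ] HH E)) :
    blk k (∑ i ∈ s, T i) = ∑ i ∈ s, blk k (T i) := map_sum (blkₗ k) T s

theorem ampl_sub (a b : E →L[ℂ] E) : ampl a - ampl b = ampl (a - b) := by
  refine ext_PT fun k => ?_
  ext f
  simp only [ContinuousLinearMap.comp_apply, sub_apply, map_sub]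
  rw [ampl, ampl, ampl, P_diag_apply ⟨‖a‖, fun _ => le_rfl⟩, P_diag_apply ⟨‖b‖, fun _ => le_rfl⟩,
    P_diag_apply ⟨‖a - b‖, fun _ => le_rfl⟩]
  rfl

theorem continuous_ampl : Continuous (ampl : (E →L[ℂ] E) → (HH E →L[ℂ] HH E)) := by
  have : LipschitzWith 1 (ampl : (E →L[ℂ] E) → (HH E →L[ℂ] HH E)) := by
    refine LipschitzWith.of_dist_le_mul fun S T => ?_
    rw [dist_eq_norm, dist_eq_norm, ampl_sub, NNReal.coe_one, one_mul]
    exact norm_ampl_le _
  exact this.continuous

theorem continuous_el (k : ℕ) : Continuous (el k : (E →L[ℂ] E) → (HH E →L[ℂ] HH E)) :=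
  continuous_const.clm_comp (continuous_id.clm_comp continuous_const)

theorem isSeparable_Alg {CE D : StarSubalgebra ℂ (E →L[ℂ] E)}
    (hCEs : TopologicalSpace.IsSeparable (CE : Set (E →L[ℂ] E))) (hD : D ≤ CE) :
    TopologicalSpace.IsSeparable (Alg CE D : Set (HH E →L[ℂ] HH E)) := by
  let Ψ : ℕ → ((ℕ → (E →L[ℂ] E)) × (E →L[ℂ] E)) → (HH E →L[ℂ] HH E) :=
    fun N p => ∑ k ∈ Finset.range N, el k (p.1 k - p.2) + ampl p.2
  have hΨ : ∀ N, Continuous (Ψ N) := by
    intro N
    refine Continuous.add ?_ (continuous_ampl.comp continuous_snd)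
    refine continuous_finsetSum _ fun k _ => ?_
    exact (continuous_el k).comp
      (((continuous_apply k).comp continuous_fst).sub continuous_snd)
  have h1 : TopologicalSpace.IsSeparable
      (⋃ N, Ψ N '' ((Set.univ.pi fun _ : ℕ => (CE : Set (E →L[ℂ] E))) ×ˢ
        (CE : Set (E →L[ℂ] E)))) := by
    refine TopologicalSpace.IsSeparable.iUnion fun N => ?_
    refine TopologicalSpace.IsSeparable.image ?_ (hΨ N)
    exact TopologicalSpace.IsSeparable.prod
      (TopologicalSpace.IsSeparable.univ_pi fun _ => hCEs) hCEs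
  refine h1.closure.mono ?_
  rintro T ⟨hT1, hT2, x, hx, hTx⟩
  rw [Metric.mem_closure_iff]
  intro ε hε
  have h2 : ∀ᶠ k in atTop, dist (blk k T) x < ε / 2 :=
    (Metric.tendsto_nhds.mp hTx) (ε / 2) (by positivity)
  obtain ⟨N, hN⟩ := eventually_atTop.mp h2
  refine ⟨Ψ N (fun k => blk k T, x), ?_, ?_⟩
  · refine Set.mem_iUnion.mpr ⟨N, Set.mem_image_of_mem _ ⟨?_, hD hx⟩⟩
    intro k _
    exact hT2 k
  · have h3 : Ψ N (fun k => blk k T, x) ∈ Alg CE CE := by
      refine add_mem (sum_mem fun k _ => ?_) (ampl_mem (hD hx) (hD hx))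
      exact el_mem k (sub_mem (hT2 k) (hD hx))
    have h4 : T ∈ Alg CE CE := ⟨hT1, hT2, x, hD hx, hTx⟩
    have h5 : ∀ j, blk j (Ψ N (fun k => blk k T, x)) = if j < N then blk j T else x := by
      intro j
      change blk j (∑ k ∈ Finset.range N, el k (blk k T - x) + ampl x) = _
      rw [blk_add, blk_sum, blk_ampl]
      split_ifs with hj
      · rw [Finset.sum_eq_single_of_mem j (Finset.mem_range.mpr hj) fun i _ hij =>
          blk_el_ne hij.symm _, blk_el_self, sub_add_cancel]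
      · rw [Finset.sum_eq_zero, zero_add]
        intro i hi
        refine blk_el_ne ?_ _
        rintro rfl
        exact hj (Finset.mem_range.mp hi)
    rw [dist_eq_norm]
    refine (norm_le_of_blk (sub_mem h4 h3).1 (C := ε / 2) fun j => ?_).trans_lt (by linarith)
    rw [blk_sub, h5]
    split_ifs with hj
    · rw [sub_self, norm_zero]
      positivity
    · rw [← dist_eq_norm]
      exact (hN j (not_lt.mp hj)).le

instance separableSpace_HH [TopologicalSpace.SeparableSpace E] :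
    TopologicalSpace.SeparableSpace (HH E) := by
  rw [← TopologicalSpace.isSeparable_univ_iff]
  let Ψ : ℕ → (ℕ → E) → HH E := fun N p => ∑ k ∈ Finset.range N, V k (p k)
  have hΨ : ∀ N, Continuous (Ψ N) := by
    intro N
    refine continuous_finsetSum _ fun k _ => ?_
    exact (V k).continuous.comp (continuous_apply k)
  have h1 : TopologicalSpace.IsSeparable
      (⋃ N, Ψ N '' (Set.univ : Set (ℕ → E))) := by
    refine TopologicalSpace.IsSeparable.iUnion fun N => ?_
    refine TopologicalSpace.IsSeparable.image ?_ (hΨ N)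
    exact TopologicalSpace.isSeparable_univ_iff.mpr inferInstance
  refine h1.closure.mono fun f _ => ?_
  have h2 := (hasSum_VP f).tendsto_sum_nat
  refine mem_closure_of_tendsto h2 (Eventually.of_forall fun N => ?_)
  exact Set.mem_iUnion.mpr ⟨N, fun k => P k f, Set.mem_univ _, rfl⟩

/-! ### closeness of unit balls -/

theorem close {CE D D' : StarSubalgebra ℂ (E →L[ℂ] E)} (hD : D ≤ CE) (hD' : D' ≤ CE) {δ ε : ℝ}
    (hδ : 0 ≤ δ) (hε : 2 * δ < ε) (h : ∀ x ∈ D, ∃ y ∈ D', ‖x - y‖ ≤ δ * ‖x‖)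
    (T : HH E →L[ℂ] HH E) (hT : T ∈ Alg CE D) (hT0 : ‖T‖ ≤ 1) :
    ∃ S ∈ Alg CE D', ‖S‖ ≤ 1 ∧ ‖T - S‖ < ε := by
  obtain ⟨hT1, hT2, x, hx, hTx⟩ := hT
  have hx1 : ‖x‖ ≤ 1 :=
    le_of_tendsto hTx.norm (Eventually.of_forall fun k => (norm_blk_le k T).trans hT0)
  obtain ⟨y, hy, hxy⟩ := h x hx
  have hxy' : ‖y - x‖ ≤ δ := by
    rw [norm_sub_rev]
    refine hxy.trans ?_
    nlinarith
  set S' := T + ampl (y - x) with hS'
  have hS'mem : S' ∈ Alg CE D' := by
    refine ⟨hT1.add (isDiag_ampl _), fun k => ?_, y, hy, ?_⟩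
    · rw [hS', blk_add, blk_ampl]
      exact add_mem (hT2 k) (sub_mem (hD' hy) (hD hx))
    · simp only [hS', blk_add, blk_ampl]
      have := hTx.add_const (y - x)
      rwa [add_sub_cancel] at this
  have hampl : ‖ampl (y - x)‖ ≤ δ := (norm_ampl_le _).trans hxy'
  have hS'norm : ‖S'‖ ≤ 1 + δ := (norm_add_le _ _).trans (add_le_add hT0 hampl)
  have hpos : 0 < 1 + δ := by linarith
  refine ⟨(((1 + δ)⁻¹ : ℝ) : ℂ) • S', SMulMemClass.smul_mem _ hS'mem, ?_, ?_⟩
  · rw [norm_smul, Complex.norm_real, Real.norm_of_nonneg (by positivity)]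
    rw [inv_mul_le_iff₀ hpos, mul_one]
    exact hS'norm
  · have h1 : T - (((1 + δ)⁻¹ : ℝ) : ℂ) • S' =
        (((1 - (1 + δ)⁻¹ : ℝ)) : ℂ) • S' - ampl (y - x) := by
      rw [hS']
      push_cast
      module
    rw [h1]
    refine (norm_sub_le _ _).trans_lt ?_
    have h2 : 0 ≤ 1 - (1 + δ)⁻¹ := by
      rw [sub_nonneg]
      exact inv_le_one_of_one_le₀ (by linarith)
    rw [norm_smul, Complex.norm_real, Real.norm_of_nonneg h2]
    have h3 : (1 - (1 + δ)⁻¹) * ‖S'‖ ≤ (1 - (1 + δ)⁻¹) * (1 + δ) := by gcongr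
    have h4 : (1 - (1 + δ)⁻¹) * (1 + δ) = δ := by
      field_simp
      ring
    linarith

/-! ### commutants -/

theorem centralizer_Alg (CE D : StarSubalgebra ℂ (E →L[ℂ] E)) :
    Set.centralizer (Alg CE D : Set (HH E →L[ℂ] HH E)) =
      Set.centralizer {T : HH E →L[ℂ] HH E | ∃ k, ∃ e ∈ CE, T = el k e} := by
  refine Set.Subset.antisymm ?_ ?_
  · refine Set.centralizer_subset ?_
    rintro T ⟨k, e, he, rfl⟩
    exact el_mem k he
  · intro S hS
    rw [Set.mem_centralizer_iff] at hS ⊢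
    rintro T ⟨hT1, hT2, -⟩
    ext f : 1
    change T (S f) = S (T f)
    have h1 := hasSum_VP (T (S f))
    have h2 := (hasSum_VP (T f)).mapL S
    have h3 : ∀ k, V k (P k (T (S f))) = S (V k (P k (T f))) := by
      intro k
      have h4 := congrArg (fun R : HH E →L[ℂ] HH E => R f) (hS (el k (blk k T)) ⟨k, _, hT2 k, rfl⟩)
      change V k (blk k T (P k (S f))) = S (V k (blk k T (P k f))) at h4
      rw [hT1.apply, hT1.apply, h4]
    simp only [h3] at h1
    exact h1.unique h2

/-! ### non-conjugacy -/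

theorem el_mul_el (k : ℕ) (d e : E →L[ℂ] E) : el k d * el k e = el k (d * e) := by
  rw [el_mul_right (isDiag_el k d), blk_el_self]

theorem el_one_ne_zero [Nontrivial E] (k : ℕ) : el k (1 : E →L[ℂ] E) ≠ 0 := by
  intro h
  have := blk_el_self k (1 : E →L[ℂ] E)
  rw [h] at this
  have h2 : blk k (0 : HH E →L[ℂ] HH E) = 0 := (blkₗ k).map_zero
  rw [h2] at this
  exact zero_ne_one this

/-- Blocks of central idempotents are `0` or `1`. -/
theorem central_blk {CE D : StarSubalgebra ℂ (E →L[ℂ] E)}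
    (hcen : ∀ x ∈ CE, (∀ y ∈ CE, x * y = y * x) → ∃ c : ℂ, x = c • 1)
    {x : HH E →L[ℂ] HH E} (hx : x ∈ Alg CE D) (hc : ∀ y ∈ Alg CE D, x * y = y * x)
    (hxx : x * x = x) (l : ℕ) : blk l x = 0 ∨ blk l x = 1 := by
  obtain ⟨hx1, hx2, -⟩ := hx
  have h1 : ∀ e ∈ CE, blk l x * e = e * blk l x := by
    intro e he
    have h2 := hc (el l e) (el_mem l he)
    rw [el_mul_right hx1, el_mul_left hx1] at h2
    have h3 := congrArg (blk l) h2
    rwa [blk_el_self, blk_el_self] at h3
  obtain ⟨c, hcc⟩ := hcen _ (hx2 l) h1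
  have h4 : blk l x * blk l x = blk l x := by rw [← blk_mul hx1, hxx]
  rcases eq_or_ne c 0 with h0 | h0
  · left
    rw [hcc, h0, zero_smul]
  · right
    rw [hcc] at h4 ⊢
    rw [smul_mul_smul_comm, one_mul, mul_smul] at h4
    have h5 := congrArg (fun y : E →L[ℂ] E => c⁻¹ • y) h4
    simpa only [inv_smul_smul₀ h0] using h5

/-- main step: a unitary conjugating `Alg CE A0` onto `Alg CE D1` permutes the summands -/
theorem exists_block [Nontrivial E] {CE A0 D1 : StarSubalgebra ℂ (E →L[ℂ] E)}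
    (hcen : ∀ x ∈ CE, (∀ y ∈ CE, x * y = y * x) → ∃ c : ℂ, x = c • 1)
    {u : HH E →L[ℂ] HH E} (hu : u ∈ unitary (HH E →L[ℂ] HH E))
    (huAB : ∀ y : HH E →L[ℂ] HH E, y ∈ Alg CE D1 ↔ ∃ x ∈ Alg CE A0, y = u * x * star u) (k : ℕ) :
    ∃ l, u * el k 1 = el l 1 * u := by
  have hu1 : star u * u = 1 := Unitary.star_mul_self_of_mem hu
  have hu2 : u * star u = 1 := Unitary.mul_star_self_of_mem hu
  set z := u * el k 1 * star u with hz
  have hzB : z ∈ Alg CE D1 := (huAB z).mpr ⟨el k 1, el_mem k (one_mem _), hz⟩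
  have hkc : ∀ x ∈ Alg CE A0, el k 1 * x = x * el k 1 := by
    intro x hx
    rw [el_mul_left hx.1, el_mul_right hx.1, one_mul, mul_one]
  have hzc : ∀ y ∈ Alg CE D1, z * y = y * z := by
    intro y hy
    obtain ⟨x, hx, rfl⟩ := (huAB y).mp hy
    calc u * el k 1 * star u * (u * x * star u) = u * el k 1 * (star u * u) * x * star u := by
          simp only [mul_assoc]
      _ = u * (el k 1 * x) * star u := by rw [hu1]; simp only [mul_assoc, one_mul]
      _ = u * (x * el k 1) * star u := by rw [hkc x hx]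
      _ = u * x * (star u * u) * el k 1 * star u := by rw [hu1]; simp only [mul_assoc, one_mul]
      _ = u * x * star u * (u * el k 1 * star u) := by simp only [mul_assoc]
  have hzz : z * z = z := by
    calc u * el k 1 * star u * (u * el k 1 * star u)
        = u * el k 1 * (star u * u) * el k 1 * star u := by simp only [mul_assoc]
      _ = u * (el k 1 * el k 1) * star u := by rw [hu1]; simp only [mul_assoc, one_mul]
      _ = u * el k 1 * star u := by rw [el_mul_el, one_mul]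
  have hblk := central_blk hcen hzB hzc hzz
  have hz0 : z ≠ 0 := by
    intro h
    refine el_one_ne_zero (E := E) k ?_
    calc el k 1 = (star u * u) * el k 1 * (star u * u) := by rw [hu1, one_mul, mul_one]
      _ = star u * (u * el k 1 * star u) * u := by simp only [mul_assoc]
      _ = 0 := by rw [← hz, h, mul_zero, zero_mul]
  have hex : ∃ l, blk l z = 1 := by
    by_contra hcon
    push Not at hcon
    refine hz0 (isDiag_ext hzB.1 (Alg CE D1).zero_mem.1 fun l => ?_)
    rcases hblk l with h | h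
    · rw [h]
      exact ((blkₗ l).map_zero).symm
    · exact absurd h (hcon l)
  obtain ⟨l, hl⟩ := hex
  refine ⟨l, ?_⟩
  -- `z * el l 1 = el l 1`
  have hzl : z * el l 1 = el l 1 := by
    rw [el_mul_right hzB.1, hl, one_mul]
  set x := star u * el l 1 * u with hx
  have hxu : el l 1 = u * x * star u := by
    rw [hx]
    calc el l 1 = (u * star u) * el l 1 * (u * star u) := by rw [hu2, one_mul, mul_one]
      _ = u * (star u * el l 1 * u) * star u := by simp only [mul_assoc]
  have hxA : x ∈ Alg CE A0 := by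
    obtain ⟨x', hx', h⟩ := (huAB (el l 1)).mp (el_mem l (one_mem _))
    have : x = x' := by
      rw [hx, h]
      calc star u * (u * x' * star u) * u = (star u * u) * x' * (star u * u) := by
            simp only [mul_assoc]
        _ = x' := by rw [hu1, one_mul, mul_one]
    rw [this]
    exact hx'
  have hlc : ∀ y ∈ Alg CE D1, el l 1 * y = y * el l 1 := by
    intro y hy
    rw [el_mul_left hy.1, el_mul_right hy.1, one_mul, mul_one]
  have hxc : ∀ y ∈ Alg CE A0, x * y = y * x := by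
    intro y hy
    have h1 := hlc (u * y * star u) ((huAB _).mpr ⟨y, hy, rfl⟩)
    calc star u * el l 1 * u * y = star u * (el l 1 * (u * y * star u)) * u := by
          rw [show star u * (el l 1 * (u * y * star u)) * u
            = star u * el l 1 * u * y * (star u * u) by simp only [mul_assoc], hu1, mul_one]
      _ = star u * (u * y * star u * el l 1) * u := by rw [h1]
      _ = (star u * u) * y * (star u * el l 1 * u) := by simp only [mul_assoc]
      _ = y * (star u * el l 1 * u) := by rw [hu1, one_mul]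
  have hxx : x * x = x := by
    calc star u * el l 1 * u * (star u * el l 1 * u)
        = star u * el l 1 * (u * star u) * el l 1 * u := by simp only [mul_assoc]
      _ = star u * (el l 1 * el l 1) * u := by rw [hu2]; simp only [mul_assoc, one_mul]
      _ = star u * el l 1 * u := by rw [el_mul_el, one_mul]
  have hxk : x * el k 1 = x := by
    calc star u * el l 1 * u * el k 1 = star u * (el l 1 * (u * el k 1 * star u)) * u := by
          rw [show star u * (el l 1 * (u * el k 1 * star u)) * u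
            = star u * el l 1 * u * el k 1 * (star u * u) by simp only [mul_assoc], hu1, mul_one]
      _ = star u * (z * el l 1) * u := by rw [← hz, hzc _ (el_mem l (one_mem _))]
      _ = star u * el l 1 * u := by rw [hzl]
  have hx0 : x ≠ 0 := by
    intro h
    refine el_one_ne_zero (E := E) l ?_
    rw [hxu, h, mul_zero, zero_mul]
  have hxblk := central_blk hcen hxA hxc hxx
  have hxeq : x = el k (blk k x) := by
    rw [← hxk, el_mul_right hxA.1, mul_one, blk_el_self]
  have hxk1 : blk k x = 1 := by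
    rcases hxblk k with h | h
    · exfalso
      apply hx0
      rw [hxeq, h]
      ext f : 1
      rw [el_apply]
      simp
    · exact h
  rw [hxk1] at hxeq
  calc u * el k 1 = u * x := by rw [hxeq]
    _ = (u * star u) * el l 1 * u := by rw [hx]; simp only [mul_assoc]
    _ = el l 1 * u := by rw [hu2, one_mul]

theorem not_conj [Nontrivial E] {CE A0 D1 : StarSubalgebra ℂ (E →L[ℂ] E)}
    (hcen : ∀ x ∈ CE, (∀ y ∈ CE, x * y = y * x) → ∃ c : ℂ, x = c • 1)
    {W : E →L[ℂ] E} (hW : ∀ z ∈ A0, W * z * star W ∈ CE ∧ W * z * star W ∈ D1)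
    (hno : ¬ ∃ u : ℕ → (E →L[ℂ] E), (∀ k, u k ∈ unitary (E →L[ℂ] E)) ∧
      (∀ k, ∀ e ∈ CE, u k * e * star (u k) ∈ CE) ∧
      (∀ z ∈ A0, ∃ x ∈ A0, Tendsto (fun k => star (u k) * (W * z * star W) * u k) atTop (𝓝 x))) :
    ¬ ∃ u : HH E →L[ℂ] HH E, u ∈ unitary (HH E →L[ℂ] HH E) ∧
      ∀ y : HH E →L[ℂ] HH E, y ∈ Alg CE D1 ↔ ∃ x ∈ Alg CE A0, y = u * x * star u := by
  rintro ⟨u, hu, huAB⟩
  apply hno
  have hu1 : star u * u = 1 := Unitary.star_mul_self_of_mem hu
  have hu2 : u * star u = 1 := Unitary.mul_star_self_of_mem hu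
  choose σ hσ using fun k => exists_block hcen hu huAB k
  -- pointwise forms
  have hσ1 : ∀ k f, u (V k (P k f)) = V (σ k) (P (σ k) (u f)) := fun k f =>
    congrArg (fun R : HH E →L[ℂ] HH E => R f) (hσ k)
  have hσ2' : ∀ k, star u * el (σ k) 1 = el k 1 * star u := by
    intro k
    calc star u * el (σ k) 1 = star u * (el (σ k) 1 * u) * star u := by
          rw [mul_assoc, mul_assoc, hu2, mul_one]
      _ = (star u * u) * el k 1 * star u := by rw [← hσ k]; simp only [mul_assoc]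
      _ = el k 1 * star u := by rw [hu1, one_mul]
  have hσ2 : ∀ k f, star u (V (σ k) (P (σ k) f)) = V k (P k (star u f)) := fun k f =>
    congrArg (fun R : HH E →L[ℂ] HH E => R f) (hσ2' k)
  have hu1' : ∀ f, star u (u f) = f := fun f =>
    congrArg (fun R : HH E →L[ℂ] HH E => R f) hu1
  have hu2' : ∀ f, u (star u f) = f := fun f =>
    congrArg (fun R : HH E →L[ℂ] HH E => R f) hu2
  let w : ℕ → (E →L[ℂ] E) := fun k => P (σ k) ∘L u ∘L V k
  have hw : ∀ k a, w k a = P (σ k) (u (V k a)) := fun k a => rfl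
  have hws : ∀ k, star (w k) = P k ∘L star u ∘L V (σ k) := by
    intro k
    change star (P (σ k) ∘L u ∘L V k) = _
    rw [ContinuousLinearMap.star_eq_adjoint, ContinuousLinearMap.adjoint_comp,
      ContinuousLinearMap.adjoint_comp, adjoint_V, adjoint_P, ContinuousLinearMap.comp_assoc,
      ContinuousLinearMap.star_eq_adjoint]
  have hws' : ∀ k a, star (w k) a = P k (star u (V (σ k) a)) := fun k a => by
    rw [hws]
    rfl
  have hVw : ∀ k a, V (σ k) (w k a) = u (V k a) := by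
    intro k a
    rw [hw, ← hσ1, P_V_self_apply]
  have hVws : ∀ k a, V k (star (w k) a) = star u (V (σ k) a) := by
    intro k a
    rw [hws', ← hσ2, P_V_self_apply]
  refine ⟨w, fun k => ?_, fun k e he => ?_, fun z hz => ?_⟩
  · rw [Unitary.mem_iff]
    constructor
    · ext a : 1
      change star (w k) (w k a) = a
      rw [hws', hVw, hu1', P_V_self_apply]
    · ext a : 1
      change w k (star (w k) a) = a
      rw [hw, hVws, hu2', P_V_self_apply]
  · have h1 : u * el k e * star u ∈ Alg CE D1 := (huAB _).mpr ⟨el k e, el_mem k he, rfl⟩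
    have h2 : blk (σ k) (u * el k e * star u) = w k * e * star (w k) := by
      ext a : 1
      change P (σ k) (u (V k (e (P k (star u (V (σ k) a)))))) = w k (e (star (w k) a))
      rw [hws', hw]
    rw [← h2]
    exact h1.2.1 _
  · have h1 : ampl (W * z * star W) ∈ Alg CE D1 := ampl_mem (hW z hz).1 (hW z hz).2
    obtain ⟨x', hx', h2⟩ := (huAB _).mp h1
    have h3 : x' = star u * ampl (W * z * star W) * u := by
      rw [h2]
      calc x' = (star u * u) * x' * (star u * u) := by rw [hu1, one_mul, mul_one]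
        _ = star u * (u * x' * star u) * u := by simp only [mul_assoc]
    obtain ⟨-, -, x, hx, hlim⟩ := hx'
    refine ⟨x, hx, hlim.congr fun k => ?_⟩
    ext a : 1
    rw [h3]
    change P k (star u (ampl (W * z * star W) (u (V k a)))) =
      star (w k) ((W * z * star W) (w k a))
    rw [hws', ← hVw, (isDiag_ampl _).apply_V, blk_ampl]

/-! ### final statement -/

/-- `W D W*` as the preimage of `D` under conjugation by `W*`. -/
def conjAlg (W : unitary (E →L[ℂ] E)) (D : StarSubalgebra ℂ (E →L[ℂ] E)) :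
    StarSubalgebra ℂ (E →L[ℂ] E) :=
  D.comap ((Unitary.conjStarAlgAut ℂ (E →L[ℂ] E) (star W)) : (E →L[ℂ] E) →⋆ₐ[ℂ] (E →L[ℂ] E))

theorem mem_conjAlg {W : unitary (E →L[ℂ] E)} {D : StarSubalgebra ℂ (E →L[ℂ] E)}
    {y : E →L[ℂ] E} : y ∈ conjAlg W D ↔ star (W : E →L[ℂ] E) * y * W ∈ D := by
  rw [conjAlg, StarSubalgebra.mem_comap]
  simp

theorem isClosed_conjAlg {W : unitary (E →L[ℂ] E)} {D : StarSubalgebra ℂ (E →L[ℂ] E)}
    (hD : IsClosed (D : Set (E →L[ℂ] E))) : IsClosed (conjAlg W D : Set (E →L[ℂ] E)) := by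
  have h : (conjAlg W D : Set (E →L[ℂ] E)) =
      (fun y : E →L[ℂ] E => star (W : E →L[ℂ] E) * y * W) ⁻¹' (D : Set (E →L[ℂ] E)) := by
    ext y
    exact mem_conjAlg
  rw [h]
  exact hD.preimage ((continuous_const.mul continuous_id).mul continuous_const)

theorem exists_counterexample [TopologicalSpace.SeparableSpace E] [Nontrivial E]
    (CE A0 : StarSubalgebra ℂ (E →L[ℂ] E)) (hCE : IsClosed (CE : Set (E →L[ℂ] E)))
    (hCEs : TopologicalSpace.IsSeparable (CE : Set (E →L[ℂ] E)))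
    (hcen : ∀ x ∈ CE, (∀ y ∈ CE, x * y = y * x) → ∃ c : ℂ, x = c • 1)
    (hA0 : IsClosed (A0 : Set (E →L[ℂ] E))) (hA0CE : A0 ≤ CE)
    (W : E →L[ℂ] E) (hW : W ∈ unitary (E →L[ℂ] E)) (hWCE : ∀ z ∈ A0, W * z * star W ∈ CE)
    (η ε : ℝ) (hη : ‖W - 1‖ ≤ η) (hε : 4 * η < ε)
    (hno : ¬ ∃ u : ℕ → (E →L[ℂ] E), (∀ k, u k ∈ unitary (E →L[ℂ] E)) ∧
      (∀ k, ∀ e ∈ CE, u k * e * star (u k) ∈ CE) ∧
      (∀ z ∈ A0, ∃ x ∈ A0,
        Filter.Tendsto (fun k => star (u k) * (W * z * star W) * u k) Filter.atTop (nhds x))) :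
    ∃ (H : Type) (_ : NormedAddCommGroup H) (_ : InnerProductSpace ℂ H) (_ : CompleteSpace H)
      (_ : TopologicalSpace.SeparableSpace H) (A B : StarSubalgebra ℂ (H →L[ℂ] H)),
      IsClosed (A : Set (H →L[ℂ] H)) ∧ IsClosed (B : Set (H →L[ℂ] H)) ∧
      TopologicalSpace.IsSeparable (A : Set (H →L[ℂ] H)) ∧
      TopologicalSpace.IsSeparable (B : Set (H →L[ℂ] H)) ∧
      (∀ a ∈ A, ‖a‖ ≤ 1 → ∃ b ∈ B, ‖b‖ ≤ 1 ∧ ‖a - b‖ < ε) ∧
      (∀ b ∈ B, ‖b‖ ≤ 1 → ∃ a ∈ A, ‖a‖ ≤ 1 ∧ ‖b - a‖ < ε) ∧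
      Set.centralizer (Set.centralizer (A : Set (H →L[ℂ] H))) =
        Set.centralizer (Set.centralizer (B : Set (H →L[ℂ] H))) ∧
      ¬ ∃ u : H →L[ℂ] H, u ∈ unitary (H →L[ℂ] H) ∧
          ∀ y : H →L[ℂ] H, y ∈ B ↔ ∃ x ∈ A, y = u * x * star u := by
  have hW1 : star W * W = 1 := Unitary.star_mul_self_of_mem hW
  have hW2 : W * star W = 1 := Unitary.mul_star_self_of_mem hW
  have hη0 : 0 ≤ η := (norm_nonneg _).trans hη
  have hsW : ‖star W‖ ≤ 1 := CStarRing.norm_of_mem_unitary (Unitary.star_mem hW) |>.le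
  set D1 := conjAlg ⟨W, hW⟩ A0 with hD1
  have hmem : ∀ y, y ∈ D1 ↔ star W * y * W ∈ A0 := fun y => mem_conjAlg
  have hcancel : ∀ z, star W * (W * z * star W) * W = z := by
    intro z
    calc star W * (W * z * star W) * W = (star W * W) * z * (star W * W) := by
          simp only [mul_assoc]
      _ = z := by rw [hW1, one_mul, mul_one]
  have hcancel' : ∀ z, W * (star W * z * W) * star W = z := by
    intro z
    calc W * (star W * z * W) * star W = (W * star W) * z * (W * star W) := by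
          simp only [mul_assoc]
      _ = z := by rw [hW2, one_mul, mul_one]
  have hmem' : ∀ z ∈ A0, W * z * star W ∈ D1 := by
    intro z hz
    rw [hmem, hcancel]
    exact hz
  have hD1CE : D1 ≤ CE := by
    intro y hy
    rw [hmem] at hy
    have := hWCE _ hy
    rwa [hcancel'] at this
  have hdist : ∀ x, ‖x - W * x * star W‖ ≤ 2 * η * ‖x‖ := by
    intro x
    have h1 : x - W * x * star W = (x * (W - 1) - (W - 1) * x) * star W := by
      have : x = x * W * star W := by rw [mul_assoc, hW2, mul_one]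
      calc x - W * x * star W = x * W * star W - W * x * star W := by rw [← this]
        _ = (x * (W - 1) - (W - 1) * x) * star W := by noncomm_ring
    rw [h1]
    calc ‖(x * (W - 1) - (W - 1) * x) * star W‖
        ≤ ‖x * (W - 1) - (W - 1) * x‖ * ‖star W‖ := norm_mul_le _ _
      _ ≤ ‖x * (W - 1) - (W - 1) * x‖ * 1 := by gcongr
      _ ≤ ‖x‖ * ‖W - 1‖ + ‖W - 1‖ * ‖x‖ := by
          rw [mul_one]
          exact (norm_sub_le _ _).trans (add_le_add (norm_mul_le _ _) (norm_mul_le _ _))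
      _ ≤ ‖x‖ * η + η * ‖x‖ := by gcongr
      _ = 2 * η * ‖x‖ := by ring
  refine ⟨HH E, inferInstance, inferInstance, inferInstance, separableSpace_HH,
    Alg CE A0, Alg CE D1, isClosed_Alg hCE hA0, isClosed_Alg hCE (isClosed_conjAlg hA0),
    isSeparable_Alg hCEs hA0CE, isSeparable_Alg hCEs hD1CE,
    close hA0CE hD1CE (δ := 2 * η) (by positivity) (by linarith) ?_,
    close hD1CE hA0CE (δ := 2 * η) (by positivity) (by linarith) ?_, ?_, ?_⟩
  · intro x hx
    exact ⟨W * x * star W, hmem' x hx, hdist x⟩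
  · intro y hy
    refine ⟨star W * y * W, (hmem y).mp hy, ?_⟩
    have h1 := hdist (star W * y * W)
    rw [hcancel', norm_sub_rev] at h1
    refine h1.trans ?_
    have h2 : ‖star W * y * W‖ ≤ ‖y‖ := by
      calc ‖star W * y * W‖ ≤ ‖star W‖ * ‖y‖ * ‖W‖ := norm_mul₃_le
        _ ≤ 1 * ‖y‖ * 1 := by
          gcongr
          exact (CStarRing.norm_of_mem_unitary hW).le
        _ = ‖y‖ := by ring
    gcongr
  · rw [centralizer_Alg, centralizer_Alg]
  · exact not_conj hcen (fun z hz => ⟨hWCE z hz, hmem' z hz⟩) hno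

end Crest.Agent.R078.PartA
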