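import Crest.Agent.R078.Model
import Crest.Agent.R078.PartA
import Mathlib
import Crest.Agent.R078.ModelDefs

-- ▼ part R078/Assemble
section

set_option autoImplicit false
set_option linter.unusedSectionVars false

/-!
# R78, S0105: assembly
-/

noncomputable section

namespace Crest.Agent.R078.Assemble

open scoped ENNReal InnerProductSpace
open Crest.Agent.R078.Basic Crest.Agent.R078.Ops Crest.Agent.R078.NearRep Crest.Agent.R078.Model

theorem exists_params (ε : ℝ) (hε : 0 < ε) :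
    ∃ (s : ℝ) (n : ℕ), 0 < s ∧ s ^ 2 ≤ 1 / 10 ∧ 4 * (5 * s) < ε ∧ 2 ≤ n ∧
      2 * Real.sqrt n + 1 < n * s := by
  set s : ℝ := min (1 / 10) (ε / 40) with hs
  have hs0 : 0 < s := lt_min (by norm_num) (by positivity)
  have hs1 : s ≤ 1 / 10 := min_le_left _ _
  have hs2 : s ≤ ε / 40 := min_le_right _ _
  obtain ⟨n, hn⟩ := exists_nat_ge (max 2 (9 / s ^ 2))
  have hn2 : (2 : ℝ) ≤ n := (le_max_left _ _).trans hn
  have hn9 : 9 / s ^ 2 ≤ n := (le_max_right _ _).trans hn
  refine ⟨s, n, hs0, by nlinarith, by linarith, by exact_mod_cast hn2, ?_⟩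
  have h1 : 9 ≤ n * s ^ 2 := by
    rw [div_le_iff₀ (by positivity)] at hn9
    linarith
  have h2 : 3 ≤ Real.sqrt n * s := by
    have h3 : (Real.sqrt n * s) ^ 2 = n * s ^ 2 := by
      rw [mul_pow, Real.sq_sqrt (by linarith)]
    have h4 : (3 : ℝ) ^ 2 ≤ (Real.sqrt n * s) ^ 2 := by
      rw [h3]
      linarith
    exact le_of_sq_le_sq h4 (by positivity)
  have h5 : 1 < Real.sqrt n := by
    rw [Real.lt_sqrt (by norm_num)]
    linarith
  have h6 : (n : ℝ) * s = Real.sqrt n * (Real.sqrt n * s) := by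
    rw [← mul_assoc, Real.mul_self_sqrt (by linarith)]
  rw [h6]
  nlinarith

instance countable_freeGroup (n : ℕ) : Countable (FreeGroup (Fin n)) :=
  FreeGroup.toWord_injective.countable

theorem eps_ne_zero {G : Type} [Group G] [DecidableEq G] : (eps 1 1 : E G) ≠ 0 := by
  intro h
  have h1 : (eps 1 1 : E G) 1 1 = 1 := by
    rw [eps_apply_self, lp.single_apply_self]
  rw [h] at h1
  simp at h1

instance nontrivial_E {G : Type} [Group G] [DecidableEq G] : Nontrivial (E G) :=
  ⟨⟨eps 1 1, 0, eps_ne_zero⟩⟩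

/-- the statement of F5 -/
def HNo : Prop :=
  ∀ (n : ℕ) (s : ℝ), 0 < s → 2 * Real.sqrt n + 1 < n * s →
    ∀ π : FreeGroup (Fin n) →* (K (FreeGroup (Fin n)) ≃ₗᵢ[ℂ] K (FreeGroup (Fin n))),
    (∀ i, π (FreeGroup.of i) (lp.single 2 (1 : FreeGroup (Fin n)) (1 : ℂ)) 1 = s) →
    ¬ ∃ u : ℕ → (E (FreeGroup (Fin n)) →L[ℂ] E (FreeGroup (Fin n))),
      (∀ k, u k ∈ unitary (E (FreeGroup (Fin n)) →L[ℂ] E (FreeGroup (Fin n)))) ∧
      (∀ k, ∀ e ∈ CE π, u k * e * star (u k) ∈ CE π) ∧
      ∀ z ∈ A0 (FreeGroup (Fin n)), ∃ x ∈ A0 (FreeGroup (Fin n)),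
        Filter.Tendsto (fun k => star (u k) * (op (W π) * z * star (op (W π))) * u k)
          Filter.atTop (nhds x)

theorem result_of (hno : HNo) (ε : ℝ) (hε : 0 < ε) :
    ∃ (H : Type) (_ : NormedAddCommGroup H) (_ : InnerProductSpace ℂ H) (_ : CompleteSpace H)
      (_ : TopologicalSpace.SeparableSpace H) (A B : StarSubalgebra ℂ (H →L[ℂ] H)),
      IsClosed (A : Set (H →L[ℂ] H)) ∧ IsClosed (B : Set (H →L[ℂ] H)) ∧
      TopologicalSpace.IsSeparable (A : Set (H →L[ℂ] H)) ∧
      TopologicalSpace.IsSeparable (B : Set (H →L[ℂ] H)) ∧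
      (∀ a ∈ A, ‖a‖ ≤ 1 → ∃ b ∈ B, ‖b‖ ≤ 1 ∧ ‖a - b‖ < ε) ∧
      (∀ b ∈ B, ‖b‖ ≤ 1 → ∃ a ∈ A, ‖a‖ ≤ 1 ∧ ‖b - a‖ < ε) ∧
      Set.centralizer (Set.centralizer (A : Set (H →L[ℂ] H))) =
        Set.centralizer (Set.centralizer (B : Set (H →L[ℂ] H))) ∧
      ¬ ∃ u : H →L[ℂ] H, u ∈ unitary (H →L[ℂ] H) ∧
          ∀ y : H →L[ℂ] H, y ∈ B ↔ ∃ x ∈ A, y = u * x * star u := by
  obtain ⟨s, n, hs, hs2, hs4, hn, hns⟩ := exists_params ε hε
  obtain ⟨π, hπ1, hπ2⟩ := exists_nearRep (α := Fin n) s hs hs2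
  exact PartA.exists_counterexample (E := E (FreeGroup (Fin n))) (CE π) (A0 (FreeGroup (Fin n)))
    (isClosed_CE π) (isSeparable_CE π) (fun x hx hc => centre_trivial hn π x hx hc)
    isClosed_A0 (A0_le_CE π) (op (W π)) (op_mem_unitary _) (fun z hz => conj_W_mem π z hz)
    (5 * s) ε (norm_W_sub_one_le π (5 * s) (by positivity) hπ1) hs4
    (hno n s hs hns π hπ2)

end Crest.Agent.R078.Assemble
end
end

-- ▼ part R078/TensorBound
section

set_option autoImplicit false
set_option linter.unusedSectionVars false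

/-!
# R78, S0105-F5 (part 1): row/column bounds on algebraic tensor products
-/

noncomputable section

namespace Crest.Agent.R078.TensorBound

open scoped InnerProductSpace TensorProduct
open TensorProduct

variable {E F : Type} [NormedAddCommGroup E] [InnerProductSpace ℂ E]
  [NormedAddCommGroup F] [InnerProductSpace ℂ F]

theorem inner_map_eq_zero (A B : E →ₗ[ℂ] E) (C D : F →ₗ[ℂ] F)
    (h : ∀ x y, ⟪A x, B y⟫_ℂ = 0) (u v : E ⊗[ℂ] F) :
    ⟪TensorProduct.map A C u, TensorProduct.map B D v⟫_ℂ = 0 := by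
  induction u using TensorProduct.induction_on with
  | zero => simp
  | add a b ha hb => rw [map_add, inner_add_left, ha, hb, add_zero]
  | tmul a b =>
    induction v using TensorProduct.induction_on with
    | zero => simp
    | add c d hc hd => rw [map_add, inner_add_right, hc, hd, add_zero]
    | tmul c d => rw [map_tmul, map_tmul, inner_tmul, h, zero_mul]

variable {ι : Type} [Fintype ι]

/-- norm of a sum of pairwise orthogonal vectors -/
theorem norm_sum_sq_of_ortho {V : Type} [NormedAddCommGroup V] [InnerProductSpace ℂ V]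
    (w : ι → V) (h : ∀ i j, i ≠ j → ⟪w i, w j⟫_ℂ = 0) :
    ‖∑ i, w i‖ ^ 2 = ∑ i, ‖w i‖ ^ 2 := by
  classical
  have h1 : ((‖∑ i, w i‖ ^ 2 : ℝ) : ℂ) = ((∑ i, ‖w i‖ ^ 2 : ℝ) : ℂ) := by
    have h2 : ((‖∑ i, w i‖ ^ 2 : ℝ) : ℂ) = ⟪∑ i, w i, ∑ i, w i⟫_ℂ := by
      rw [inner_self_eq_norm_sq_to_K]
      push_cast
      rfl
    rw [h2, sum_inner]
    push_cast
    refine Finset.sum_congr rfl fun i _ => ?_
    rw [inner_sum, Finset.sum_eq_single i]
    · rw [inner_self_eq_norm_sq_to_K]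
      rfl
    · intro j _ hj
      exact h i j hj.symm
    · simp
  exact_mod_cast h1

/-- Bessel type inequality: if the `P i` have pairwise orthogonal ranges and
`P i x ⟂ y - ∑ P j y`, then the same holds after tensoring. -/
theorem sum_norm_sq_map_le (P : ι → E →ₗ[ℂ] E)
    (hP : ∀ i j, i ≠ j → ∀ x y, ⟪P i x, P j y⟫_ℂ = 0)
    (hP' : ∀ i x y, ⟪P i x, y - ∑ j, P j y⟫_ℂ = 0) (v : E ⊗[ℂ] F) :
    ∑ i, ‖TensorProduct.map (P i) LinearMap.id v‖ ^ 2 ≤ ‖v‖ ^ 2 := by
  classical
  have hdec : v = (∑ i, TensorProduct.map (P i) LinearMap.id v)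
      + TensorProduct.map (LinearMap.id - ∑ j, P j) LinearMap.id v := by
    have h1 : TensorProduct.map (LinearMap.id - ∑ j, P j) (LinearMap.id : F →ₗ[ℂ] F)
        = TensorProduct.map LinearMap.id LinearMap.id
          - ∑ j, TensorProduct.map (P j) (LinearMap.id : F →ₗ[ℂ] F) := by
      ext x y
      simp [TensorProduct.sub_tmul, TensorProduct.sum_tmul]
    rw [h1, LinearMap.sub_apply, LinearMap.sum_apply, TensorProduct.map_id, LinearMap.id_apply]
    abel
  have horth : ⟪∑ i, TensorProduct.map (P i) (LinearMap.id : F →ₗ[ℂ] F) v,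
      TensorProduct.map (LinearMap.id - ∑ j, P j) LinearMap.id v⟫_ℂ = 0 := by
    rw [sum_inner]
    refine Finset.sum_eq_zero fun i _ => inner_map_eq_zero _ _ _ _ (fun x y => ?_) _ _
    have := hP' i x y
    simpa using this
  have h2 := norm_sum_sq_of_ortho (fun i => TensorProduct.map (P i) (LinearMap.id : F →ₗ[ℂ] F) v)
    (fun i j hij => inner_map_eq_zero _ _ _ _ (hP i j hij) _ _)
  have h3 := norm_add_sq (𝕜 := ℂ) (∑ i, TensorProduct.map (P i) (LinearMap.id : F →ₗ[ℂ] F) v)
    (TensorProduct.map (LinearMap.id - ∑ j, P j) LinearMap.id v)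
  rw [← hdec, horth] at h3
  simp only [map_zero, mul_zero, add_zero] at h3
  rw [← h2]
  nlinarith [h3, sq_nonneg ‖TensorProduct.map (LinearMap.id - ∑ j, P j) (LinearMap.id : F →ₗ[ℂ] F) v‖]

/-- single projection version -/
theorem norm_map_le (Q : E →ₗ[ℂ] E)
    (hQ' : ∀ x y, ⟪Q x, y - Q y⟫_ℂ = 0) (v : E ⊗[ℂ] F) :
    ‖TensorProduct.map Q LinearMap.id v‖ ≤ ‖v‖ := by
  have := sum_norm_sq_map_le (ι := Unit) (F := F) (fun _ => Q)
    (fun i j hij => absurd (Subsingleton.elim i j) hij)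
    (by intro i x y; simpa using hQ' x y) v
  simp only [Finset.univ_unique, Finset.sum_const, Finset.card_singleton, one_smul] at this
  exact (sq_le_sq₀ (norm_nonneg _) (norm_nonneg _)).mp this

/-- the `2 √n` bound for sums `∑ z_i ⊗ R_i` of isometries with `z_i = Q_i z_i + z_i P_i`. -/
theorem norm_sum_map_le (z : ι → E →ₗᵢ[ℂ] E) (R : ι → F →ₗᵢ[ℂ] F) (Q P : ι → E →ₗ[ℂ] E)
    (hQ : ∀ i j, i ≠ j → ∀ x y, ⟪Q i x, Q j y⟫_ℂ = 0)
    (hQ' : ∀ i x y, ⟪Q i x, y - Q i y⟫_ℂ = 0)
    (hP : ∀ i j, i ≠ j → ∀ x y, ⟪P i x, P j y⟫_ℂ = 0)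
    (hP' : ∀ i x y, ⟪P i x, y - ∑ j, P j y⟫_ℂ = 0)
    (hz : ∀ i x, z i x = Q i (z i x) + z i (P i x)) (v : E ⊗[ℂ] F) :
    ‖∑ i, TensorProduct.map (z i).toLinearMap (R i).toLinearMap v‖
      ≤ 2 * Real.sqrt (Fintype.card ι) * ‖v‖ := by
  have hdec : ∀ i, TensorProduct.map (z i).toLinearMap (R i).toLinearMap v
      = TensorProduct.map (Q i) LinearMap.id
          (TensorProduct.map (z i).toLinearMap (R i).toLinearMap v)
        + TensorProduct.map (z i).toLinearMap (R i).toLinearMap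
          (TensorProduct.map (P i) LinearMap.id v) := by
    intro i
    have h1 : TensorProduct.map (z i).toLinearMap (R i).toLinearMap
        = (TensorProduct.map (Q i) LinearMap.id) ∘ₗ
            (TensorProduct.map (z i).toLinearMap (R i).toLinearMap)
          + (TensorProduct.map (z i).toLinearMap (R i).toLinearMap) ∘ₗ
            (TensorProduct.map (P i) LinearMap.id) := by
      ext x y
      have h2 := hz i x
      simp only [TensorProduct.AlgebraTensorModule.curry_apply, TensorProduct.curry_apply,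
        LinearMap.coe_restrictScalars, TensorProduct.map_tmul, LinearMap.add_apply,
        LinearMap.comp_apply, LinearMap.id_apply, LinearIsometry.coe_toLinearMap]
      rw [← TensorProduct.add_tmul, ← h2]
    conv_lhs => rw [h1]
    rfl
  have hn : 0 ≤ Real.sqrt (Fintype.card ι) := Real.sqrt_nonneg _
  -- first part
  have hA : ‖∑ i, TensorProduct.map (Q i) LinearMap.id
      (TensorProduct.map (z i).toLinearMap (R i).toLinearMap v)‖
      ≤ Real.sqrt (Fintype.card ι) * ‖v‖ := by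
    have h1 := norm_sum_sq_of_ortho (fun i => TensorProduct.map (Q i) (LinearMap.id : F →ₗ[ℂ] F)
      (TensorProduct.map (z i).toLinearMap (R i).toLinearMap v))
      (fun i j hij => inner_map_eq_zero _ _ _ _ (hQ i j hij) _ _)
    have h2 : ∀ i, ‖TensorProduct.map (Q i) (LinearMap.id : F →ₗ[ℂ] F)
      (TensorProduct.map (z i).toLinearMap (R i).toLinearMap v)‖ ^ 2 ≤ ‖v‖ ^ 2 := by
      intro i
      have h3 := norm_map_le (F := F) (Q i) (hQ' i)
        (TensorProduct.map (z i).toLinearMap (R i).toLinearMap v)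
      rw [TensorProduct.norm_map] at h3
      exact pow_le_pow_left₀ (norm_nonneg _) h3 2
    have h4 : ‖∑ i, TensorProduct.map (Q i) (LinearMap.id : F →ₗ[ℂ] F)
      (TensorProduct.map (z i).toLinearMap (R i).toLinearMap v)‖ ^ 2
        ≤ (Real.sqrt (Fintype.card ι) * ‖v‖) ^ 2 := by
      rw [h1, mul_pow, Real.sq_sqrt (by positivity)]
      calc _ ≤ ∑ _i : ι, ‖v‖ ^ 2 := Finset.sum_le_sum fun i _ => h2 i
        _ = _ := by simp
    exact (sq_le_sq₀ (norm_nonneg _) (by positivity)).mp h4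
  have hB : ‖∑ i, TensorProduct.map (z i).toLinearMap (R i).toLinearMap
      (TensorProduct.map (P i) LinearMap.id v)‖ ≤ Real.sqrt (Fintype.card ι) * ‖v‖ := by
    have h1 := sum_norm_sq_map_le (F := F) P hP hP' v
    have h2 : ‖∑ i, TensorProduct.map (z i).toLinearMap (R i).toLinearMap
      (TensorProduct.map (P i) LinearMap.id v)‖
        ≤ ∑ i, ‖TensorProduct.map (P i) (LinearMap.id : F →ₗ[ℂ] F) v‖ := by
      refine (norm_sum_le _ _).trans (Finset.sum_le_sum fun i _ => ?_)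
      rw [TensorProduct.norm_map]
    refine h2.trans ?_
    have h4 : (∑ i, ‖TensorProduct.map (P i) (LinearMap.id : F →ₗ[ℂ] F) v‖) ^ 2
        ≤ (Fintype.card ι : ℝ) * ∑ i, ‖TensorProduct.map (P i) (LinearMap.id : F →ₗ[ℂ] F) v‖ ^ 2 := by
      have := sq_sum_le_card_mul_sum_sq (s := (Finset.univ : Finset ι))
        (f := fun i => ‖TensorProduct.map (P i) (LinearMap.id : F →ₗ[ℂ] F) v‖)
      simpa using this
    have h5 : (∑ i, ‖TensorProduct.map (P i) (LinearMap.id : F →ₗ[ℂ] F) v‖) ^ 2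
        ≤ (Real.sqrt (Fintype.card ι) * ‖v‖) ^ 2 := by
      rw [mul_pow, Real.sq_sqrt (by positivity)]
      exact h4.trans (mul_le_mul_of_nonneg_left h1 (by positivity))
    exact (sq_le_sq₀ (Finset.sum_nonneg fun i _ => norm_nonneg _) (by positivity)).mp h5
  calc ‖∑ i, TensorProduct.map (z i).toLinearMap (R i).toLinearMap v‖
      = ‖∑ i, (TensorProduct.map (Q i) LinearMap.id
          (TensorProduct.map (z i).toLinearMap (R i).toLinearMap v)
        + TensorProduct.map (z i).toLinearMap (R i).toLinearMap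
          (TensorProduct.map (P i) LinearMap.id v))‖ := by
        congr 1
        exact Finset.sum_congr rfl fun i _ => hdec i
    _ ≤ _ := by
        rw [Finset.sum_add_distrib]
        refine (norm_add_le _ _).trans ?_
        linarith

/-- the same with `z_i` replaced by limits `x_i` of unitary conjugates `T_k z_i T_k⁻¹`,
on finite sums `∑_h e_h ⊗ b_h`. -/
theorem norm_sum_tmul_le_of_tendsto (z : ι → E →ₗᵢ[ℂ] E) (R : ι → F →ₗᵢ[ℂ] F)
    (Q P : ι → E →ₗ[ℂ] E)
    (hQ : ∀ i j, i ≠ j → ∀ x y, ⟪Q i x, Q j y⟫_ℂ = 0)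
    (hQ' : ∀ i x y, ⟪Q i x, y - Q i y⟫_ℂ = 0)
    (hP : ∀ i j, i ≠ j → ∀ x y, ⟪P i x, P j y⟫_ℂ = 0)
    (hP' : ∀ i x y, ⟪P i x, y - ∑ j, P j y⟫_ℂ = 0)
    (hz : ∀ i x, z i x = Q i (z i x) + z i (P i x))
    (T : ℕ → E ≃ₗᵢ[ℂ] E) (x : ι → E → E)
    (hx : ∀ i e, Filter.Tendsto (fun k => T k (z i ((T k).symm e))) Filter.atTop (nhds (x i e)))
    {κ : Type} (s : Finset κ) (e : κ → E) (b : κ → F) :
    ‖∑ i, ∑ h ∈ s, (x i (e h)) ⊗ₜ[ℂ] (R i (b h))‖
      ≤ 2 * Real.sqrt (Fintype.card ι) * ‖∑ h ∈ s, (e h) ⊗ₜ[ℂ] (b h)‖ := by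
  have hlim : Filter.Tendsto
      (fun k => ‖∑ i, ∑ h ∈ s, (T k (z i ((T k).symm (e h)))) ⊗ₜ[ℂ] (R i (b h))‖) Filter.atTop
      (nhds ‖∑ i, ∑ h ∈ s, (x i (e h)) ⊗ₜ[ℂ] (R i (b h))‖) := by
    refine Filter.Tendsto.norm ?_
    refine tendsto_finsetSum _ fun i _ => tendsto_finsetSum _ fun h _ => ?_
    exact (TensorProduct.continuous_tmul (𝕜 := ℂ)).continuousAt.tendsto.comp
      ((hx i (e h)).prodMk_nhds tendsto_const_nhds)
  refine le_of_tendsto hlim (Filter.Eventually.of_forall fun k => ?_)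
  set v : E ⊗[ℂ] F := ∑ h ∈ s, (e h) ⊗ₜ[ℂ] (b h) with hv
  have h1 : (∑ i, ∑ h ∈ s, (T k (z i ((T k).symm (e h)))) ⊗ₜ[ℂ] (R i (b h)))
      = TensorProduct.map (T k).toLinearIsometry.toLinearMap
          (LinearIsometry.id : F →ₗᵢ[ℂ] F).toLinearMap
          (∑ i, TensorProduct.map (z i).toLinearMap (R i).toLinearMap
            (TensorProduct.map (T k).symm.toLinearIsometry.toLinearMap
              (LinearIsometry.id : F →ₗᵢ[ℂ] F).toLinearMap v)) := by
    rw [hv]
    simp only [map_sum, TensorProduct.map_tmul, LinearIsometry.coe_toLinearMap,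
      LinearIsometryEquiv.coe_toLinearIsometry, LinearIsometry.id_apply]
  rw [h1, TensorProduct.norm_map]
  refine (norm_sum_map_le z R Q P hQ hQ' hP hP' hz _).trans ?_
  rw [TensorProduct.norm_map]

end Crest.Agent.R078.TensorBound
end
end

-- ▼ part R078/Absorb
section

set_option autoImplicit false
set_option linter.unusedSectionVars false

/-!
# R78, S0105-F5 (part 2): Fell absorption in Gram matrix form, and the resulting upper bound
-/

noncomputable section

namespace Crest.Agent.R078.Absorb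

open scoped InnerProductSpace TensorProduct
open TensorProduct Filter Topology

variable {E : Type} [NormedAddCommGroup E] [InnerProductSpace ℂ E]
variable {G : Type} [Group G]

/-- The data of an absorbing system: a unitary representation `U` of `G` on `E`, vectors `ε h`
permuted by `U`, and mutually orthogonal projections `p h` permuted by `U`. -/
structure System (E G : Type) [NormedAddCommGroup E] [InnerProductSpace ℂ E] [Group G] where
  U : G →* (E ≃ₗᵢ[ℂ] E)
  ε : G → E
  p : G → (E →L[ℂ] E)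
  U_ε : ∀ g h, U g (ε h) = ε (g * h)
  norm_ε : ∀ h, ‖ε h‖ = 1
  inner_ε : ∀ g h, g ≠ h → ⟪ε g, ε h⟫_ℂ = 0
  inner_p : ∀ g h, g ≠ h → ∀ x y, ⟪p g x, p h y⟫_ℂ = 0
  U_p : ∀ g h x, U g (p h x) = p (g * h) (U g x)
  hasSum_p : ∀ x, HasSum (fun h => p h x) x

/-- the operators commuting with the system -/
structure Comm (S : System E G) (R : E →ₗᵢ[ℂ] E) : Prop where
  p : ∀ h x, R (S.p h x) = S.p h (R x)
  U : ∀ g x, R (S.U g x) = S.U g (R x)

/-- `U g` as a bounded operator -/
def System.op (S : System E G) (g : G) : E →L[ℂ] E := (S.U g).toContinuousLinearEquiv.toContinuousLinearMap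

@[simp] theorem System.op_apply (S : System E G) (g : G) (x : E) : S.op g x = S.U g x := rfl

variable (S : System E G)

theorem System.U_symm_mul (g : G) (x : E) : S.U g ((S.U g).symm x) = x :=
  (S.U g).apply_symm_apply x

theorem System.U_mul (g h : G) (x : E) : S.U (g * h) x = S.U g (S.U h x) := by
  rw [map_mul]
  rfl

/-- first leg / second leg vector -/
def phi (R : E →ₗᵢ[ℂ] E) (F : Finset G) (f : E) : (E →L[ℂ] E) →ₗ[ℂ] E ⊗[ℂ] E where
  toFun y := ∑ h ∈ F, (y (S.ε h)) ⊗ₜ[ℂ] (R ((S.U h).symm (S.p h f)))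
  map_add' y y' := by
    simp [TensorProduct.add_tmul, Finset.sum_add_distrib]
  map_smul' c y := by
    simp [TensorProduct.smul_tmul', Finset.smul_sum]

def psi (R : E →ₗᵢ[ℂ] E) (F : Finset G) (f : E) : (E →L[ℂ] E) →ₗ[ℂ] E where
  toFun y := y (R (∑ h ∈ F, S.p h f))
  map_add' _ _ := rfl
  map_smul' _ _ := rfl

theorem phi_apply (R : E →ₗᵢ[ℂ] E) (F : Finset G) (f : E) (y : E →L[ℂ] E) :
    phi S R F f y = ∑ h ∈ F, (y (S.ε h)) ⊗ₜ[ℂ] (R ((S.U h).symm (S.p h f))) := rfl

theorem psi_apply (R : E →ₗᵢ[ℂ] E) (F : Finset G) (f : E) (y : E →L[ℂ] E) :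
    psi S R F f y = y (R (∑ h ∈ F, S.p h f)) := rfl

theorem gram_gen (R R' : E →ₗᵢ[ℂ] E) (hR : Comm S R) (hR' : Comm S R') (F : Finset G) (f : E)
    (g g' : G) :
    ⟪phi S R F f (S.op g), phi S R' F f (S.op g')⟫_ℂ
      = ⟪psi S R F f (S.op g), psi S R' F f (S.op g')⟫_ℂ := by
  classical
  simp only [phi_apply, psi_apply, System.op_apply, map_sum, sum_inner, inner_sum]
  refine Finset.sum_congr rfl fun h' _ => Finset.sum_congr rfl fun h _ => ?_
  rw [TensorProduct.inner_tmul, S.U_ε, S.U_ε]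
  by_cases hh : g * h = g' * h'
  · rw [hh]
    have h1 : ⟪S.ε (g' * h'), S.ε (g' * h')⟫_ℂ = 1 := by
      rw [inner_self_eq_norm_sq_to_K, S.norm_ε]
      simp
    rw [h1, one_mul]
    have h2 : S.U g (R (S.p h f)) = S.U (g * h) (R ((S.U h).symm (S.p h f))) := by
      conv_lhs => rw [← S.U_symm_mul h (S.p h f)]
      rw [hR.U, S.U_mul]
    have h3 : S.U g' (R' (S.p h' f)) = S.U (g * h) (R' ((S.U h').symm (S.p h' f))) := by
      conv_lhs => rw [← S.U_symm_mul h' (S.p h' f)]
      rw [hR'.U, hh, S.U_mul]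
    rw [h2, h3, LinearIsometryEquiv.inner_map_map]
  · rw [S.inner_ε _ _ hh, zero_mul, hR.p, hR'.p, S.U_p, S.U_p, S.inner_p _ _ hh]

/-- the span of the `U g` -/
def System.span : Submodule ℂ (E →L[ℂ] E) := Submodule.span ℂ (Set.range S.op)

theorem inner_smul_right_t (u v : E ⊗[ℂ] E) (c : ℂ) : ⟪u, c • v⟫_ℂ = c * ⟪u, v⟫_ℂ :=
  inner_smul_right u v c

theorem inner_smul_left_t (u v : E ⊗[ℂ] E) (c : ℂ) :
    ⟪c • u, v⟫_ℂ = (starRingEnd ℂ) c * ⟪u, v⟫_ℂ :=
  inner_smul_left u v c

theorem gram_span (R R' : E →ₗᵢ[ℂ] E) (hR : Comm S R) (hR' : Comm S R') (F : Finset G) (f : E)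
    {y y' : E →L[ℂ] E} (hy : y ∈ S.span) (hy' : y' ∈ S.span) :
    ⟪phi S R F f y, phi S R' F f y'⟫_ℂ = ⟪psi S R F f y, psi S R' F f y'⟫_ℂ := by
  induction hy using Submodule.span_induction with
  | mem y hy =>
    obtain ⟨g, rfl⟩ := hy
    induction hy' using Submodule.span_induction with
    | mem y' hy' =>
      obtain ⟨g', rfl⟩ := hy'
      exact gram_gen S R R' hR hR' F f g g'
    | zero => simp
    | add a b _ _ ha hb => rw [map_add, map_add, inner_add_right, inner_add_right, ha, hb]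
    | smul c a _ ha =>
      rw [map_smul, map_smul, inner_smul_right, inner_smul_right_t, ha]
  | zero => simp
  | add a b _ _ ha hb => rw [map_add, map_add, inner_add_left, inner_add_left, ha, hb]
  | smul c a _ ha =>
    rw [map_smul, map_smul, inner_smul_left, inner_smul_left_t, ha]

variable {ι : Type} [Fintype ι]

theorem norm_sum_eq_of_gram {V V' : Type} [NormedAddCommGroup V] [InnerProductSpace ℂ V]
    [NormedAddCommGroup V'] [InnerProductSpace ℂ V'] (w : ι → V) (w' : ι → V')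
    (h : ∀ i j, ⟪w i, w j⟫_ℂ = ⟪w' i, w' j⟫_ℂ) : ‖∑ i, w i‖ = ‖∑ i, w' i‖ := by
  have h1 : ⟪∑ i, w i, ∑ i, w i⟫_ℂ = ⟪∑ i, w' i, ∑ i, w' i⟫_ℂ := by
    simp only [sum_inner, inner_sum, h]
  rw [inner_self_eq_norm_sq_to_K, inner_self_eq_norm_sq_to_K] at h1
  have h2 : ‖∑ i, w i‖ ^ 2 = ‖∑ i, w' i‖ ^ 2 := by exact_mod_cast h1
  exact (sq_eq_sq₀ (norm_nonneg _) (norm_nonneg _)).mp h2

theorem norm_phi_eq_norm_psi (R : ι → E →ₗᵢ[ℂ] E) (hR : ∀ i, Comm S (R i)) (F : Finset G) (f : E)
    (y : ι → E →L[ℂ] E) (hy : ∀ i, y i ∈ closure (S.span : Set (E →L[ℂ] E))) :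
    ‖∑ i, phi S (R i) F f (y i)‖ = ‖∑ i, psi S (R i) F f (y i)‖ := by
  choose a ha hlim using fun i => mem_closure_iff_seq_limit.mp (hy i)
  have h1 : ∀ k, ‖∑ i, phi S (R i) F f (a i k)‖ = ‖∑ i, psi S (R i) F f (a i k)‖ := fun k =>
    norm_sum_eq_of_gram _ _ fun i j => gram_span S _ _ (hR i) (hR j) F f (ha i k) (ha j k)
  have h2 : Tendsto (fun k => ‖∑ i, phi S (R i) F f (a i k)‖) atTop
      (𝓝 ‖∑ i, phi S (R i) F f (y i)‖) := by
    refine Tendsto.norm (tendsto_finsetSum _ fun i _ => ?_)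
    simp only [phi_apply]
    refine tendsto_finsetSum _ fun h _ => ?_
    have h3 : Tendsto (fun k => a i k (S.ε h)) atTop (𝓝 (y i (S.ε h))) :=
      ((ContinuousLinearMap.apply ℂ E (S.ε h)).continuous.tendsto (y i)).comp (hlim i)
    exact (TensorProduct.continuous_tmul (𝕜 := ℂ)).continuousAt.tendsto.comp
      (h3.prodMk_nhds tendsto_const_nhds)
  have h3 : Tendsto (fun k => ‖∑ i, psi S (R i) F f (a i k)‖) atTop
      (𝓝 ‖∑ i, psi S (R i) F f (y i)‖) := by
    refine Tendsto.norm (tendsto_finsetSum _ fun i _ => ?_)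
    simp only [psi_apply]
    exact ((ContinuousLinearMap.apply ℂ E _).continuous.tendsto (y i)).comp (hlim i)
  simp only [h1] at h2
  exact tendsto_nhds_unique h2 h3

theorem comm_id : Comm S LinearIsometry.id where
  p _ _ := rfl
  U _ _ := rfl

/-- **The upper bound**: if `x i` is a norm limit of unitary conjugates of `z i = U (γ i)`, belongs to
the closed span of the `U g`, and the `R i` are isometries commuting with the system, then
`‖∑ x_i R_i‖ ≤ 2 √n`. -/
theorem norm_sum_le (γ : ι → G) (Q P : ι → E →ₗ[ℂ] E)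
    (hQ : ∀ i j, i ≠ j → ∀ x y, ⟪Q i x, Q j y⟫_ℂ = 0)
    (hQ' : ∀ i x y, ⟪Q i x, y - Q i y⟫_ℂ = 0)
    (hP : ∀ i j, i ≠ j → ∀ x y, ⟪P i x, P j y⟫_ℂ = 0)
    (hP' : ∀ i x y, ⟪P i x, y - ∑ j, P j y⟫_ℂ = 0)
    (hz : ∀ i x, S.U (γ i) x = Q i (S.U (γ i) x) + S.U (γ i) (P i x))
    (T : ℕ → E ≃ₗᵢ[ℂ] E) (x : ι → E →L[ℂ] E)
    (hx : ∀ i e, Tendsto (fun k => T k (S.U (γ i) ((T k).symm e))) atTop (𝓝 (x i e)))
    (hxA : ∀ i, x i ∈ closure (S.span : Set (E →L[ℂ] E)))
    (R : ι → E →ₗᵢ[ℂ] E) (hR : ∀ i, Comm S (R i)) (f : E) :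
    ‖∑ i, x i (R i f)‖ ≤ 2 * Real.sqrt (Fintype.card ι) * ‖f‖ := by
  classical
  have hfin : ∀ F : Finset G, ‖∑ i, x i (R i (∑ h ∈ F, S.p h f))‖
      ≤ 2 * Real.sqrt (Fintype.card ι) * ‖∑ h ∈ F, S.p h f‖ := by
    intro F
    have h1 := norm_phi_eq_norm_psi S R hR F f x hxA
    simp only [phi_apply, psi_apply] at h1
    rw [← h1]
    have h2 := TensorBound.norm_sum_tmul_le_of_tendsto (F := E)
      (fun i => (S.U (γ i)).toLinearIsometry) R Q P hQ hQ' hP hP' hz T (fun i e => x i e) hx F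
      S.ε (fun h => (S.U h).symm (S.p h f))
    refine h2.trans (le_of_eq ?_)
    congr 1
    have h3 := norm_phi_eq_norm_psi (ι := Unit) S (fun _ => LinearIsometry.id)
      (fun _ => comm_id S) F f (fun _ => S.op 1)
      (fun _ => subset_closure (Submodule.subset_span ⟨1, rfl⟩))
    simp only [phi_apply, psi_apply, System.op_apply, Finset.univ_unique, Finset.sum_singleton,
      LinearIsometry.id_apply, map_one, LinearIsometryEquiv.coe_one, id] at h3
    exact h3
  have hs := S.hasSum_p f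
  have h1 : Tendsto (fun F : Finset G => ‖∑ i, x i (R i (∑ h ∈ F, S.p h f))‖) atTop
      (𝓝 ‖∑ i, x i (R i f)‖) := by
    refine Tendsto.norm (tendsto_finsetSum _ fun i _ => ?_)
    exact ((x i).continuous.tendsto _).comp (((R i).continuous.tendsto _).comp hs)
  have h2 : Tendsto (fun F : Finset G => 2 * Real.sqrt (Fintype.card ι) * ‖∑ h ∈ F, S.p h f‖) atTop
      (𝓝 (2 * Real.sqrt (Fintype.card ι) * ‖f‖)) :=
    (Tendsto.norm hs).const_mul _
  exact le_of_tendsto_of_tendsto' h1 h2 hfin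

end Crest.Agent.R078.Absorb
end
end

-- ▼ part R078/Final

set_option autoImplicit false
set_option linter.unusedSectionVars false

/-!
# R78, S0105-F5 (part 3): the contradiction
-/

noncomputable section

namespace Crest.Agent.R078.Final

open scoped ENNReal InnerProductSpace
open Filter Topology
open Crest.Agent.R078.Basic Crest.Agent.R078.Ops Crest.Agent.R078.NearRep
open Crest.Agent.R078.Model Crest.Agent.R078.Absorb

section mask

variable {ι : Type} {F : Type} [NormedAddCommGroup F] [InnerProductSpace ℂ F]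

open Classical in
theorem memℓp_mask (S : ι → Prop) (f : L2 ι F) :
    Memℓp (fun i => if S i then f i else 0) 2 := by
  refine memℓp_two_of_summable ?_
  refine Summable.of_nonneg_of_le (fun i => by positivity) (fun i => ?_) (hasSum_norm_sq f).summable
  split_ifs
  · exact le_rfl
  · simp

open Classical in
/-- multiplication by the indicator of `S` -/
def mask (S : ι → Prop) : L2 ι F →ₗ[ℂ] L2 ι F where
  toFun f := ⟨fun i => if S i then f i else 0, memℓp_mask S f⟩
  map_add' f g := by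
    ext i
    change (if S i then (f + g) i else 0) = (if S i then f i else 0) + (if S i then g i else 0)
    split_ifs
    · rfl
    · simp
  map_smul' c f := by
    ext i
    change (if S i then (c • f) i else 0) = c • (if S i then f i else 0)
    split_ifs
    · rfl
    · simp

theorem mask_of (S : ι → Prop) (f : L2 ι F) {i : ι} (h : S i) : mask S f i = f i := by
  classical
  change (if S i then f i else 0) = f i
  rw [if_pos h]

theorem mask_not (S : ι → Prop) (f : L2 ι F) {i : ι} (h : ¬ S i) : mask S f i = 0 := by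
  classical
  change (if S i then f i else 0) = 0
  rw [if_neg h]

theorem inner_eq_zero_of_forall (f g : L2 ι F) (h : ∀ i, ⟪f i, g i⟫_ℂ = 0) : ⟪f, g⟫_ℂ = 0 := by
  rw [lp.inner_eq_tsum]
  simp [h]

theorem inner_mask_mask (S S' : ι → Prop) (hd : ∀ i, S i → ¬ S' i) (f g : L2 ι F) :
    ⟪mask S f, mask S' g⟫_ℂ = 0 := by
  refine inner_eq_zero_of_forall _ _ fun i => ?_
  by_cases h : S i
  · rw [mask_not S' g (hd i h), inner_zero_right]
  · rw [mask_not S f h, inner_zero_left]

theorem inner_mask_sub (S : ι → Prop) (f g : L2 ι F) :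
    ⟪mask S f, g - mask S g⟫_ℂ = 0 := by
  refine inner_eq_zero_of_forall _ _ fun i => ?_
  by_cases h : S i
  · have : (g - mask S g) i = 0 := by
      rw [lp.coeFn_sub, Pi.sub_apply, mask_of S g h, sub_self]
    rw [this, inner_zero_right]
  · rw [mask_not S f h, inner_zero_left]

theorem inner_mask_sub_sum {κ : Type} [Fintype κ] (S : κ → ι → Prop)
    (hd : ∀ a b, a ≠ b → ∀ i, S a i → ¬ S b i) (a : κ) (f g : L2 ι F) :
    ⟪mask (S a) f, g - ∑ b, mask (S b) g⟫_ℂ = 0 := by
  classical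
  refine inner_eq_zero_of_forall _ _ fun i => ?_
  by_cases h : S a i
  · have : (g - ∑ b, mask (S b) g) i = 0 := by
      rw [lp.coeFn_sub, Pi.sub_apply, lp.coeFn_sum, Finset.sum_apply, Finset.sum_eq_single a]
      · rw [mask_of (S a) g h, sub_self]
      · intro b _ hb
        exact mask_not _ _ (hd a b hb.symm i h)
      · simp
    rw [this, inner_zero_right]
  · rw [mask_not _ f h, inner_zero_left]

end mask

section words

variable {n : ℕ}

/-- the reduced word starts with the letter `g_i` -/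
def starts (i : Fin n) (g : FreeGroup (Fin n)) : Prop := g.toWord.head? = some (i, true)

theorem starts_disj {i j : Fin n} (hij : i ≠ j) (g : FreeGroup (Fin n)) (h : starts i g) :
    ¬ starts j g := by
  intro h'
  unfold starts at h h'
  rw [h] at h'
  simp at h'
  exact hij h'

theorem not_starts_mul {i : Fin n} {h : FreeGroup (Fin n)}
    (hh : ¬ starts i (FreeGroup.of i * h)) : h.toWord.head? = some (i, false) := by
  unfold starts at hh
  rw [FreeGroup.toWord_mul, FreeGroup.toWord_of, List.singleton_append, FreeGroup.reduce.cons,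
    FreeGroup.reduce_toWord] at hh
  cases hw : h.toWord with
  | nil =>
    rw [hw] at hh
    simp at hh
  | cons a L =>
    rw [hw] at hh
    simp only [List.head?_cons, Option.some.injEq]
    by_cases hc : i = a.1 ∧ true = !a.2
    · obtain ⟨h1, h2⟩ := hc
      ext
      · simp [h1]
      · cases ha : a.2
        · rfl
        · rw [ha] at h2
          simp at h2
    · simp only [hc, if_false] at hh
      simp at hh

theorem not_starts_disj {i j : Fin n} (hij : i ≠ j) (g : FreeGroup (Fin n))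
    (h : ¬ starts i (FreeGroup.of i * g)) : ¬ ¬ starts j (FreeGroup.of j * g) := by
  intro h'
  have h1 := not_starts_mul h
  have h2 := not_starts_mul h'
  rw [h1] at h2
  simp at h2
  exact hij h2

end words

section system

variable {G : Type} [Group G] [DecidableEq G]

theorem eps_self_apply_ne (h k g : G) (hg : g ≠ h) : eps h k g = 0 :=
  lp.single_apply_ne _ _ _ hg

theorem U_lam_eps (g h k : G) : U lam g (eps h k) = eps (g * h) (g * k) := by
  have := wp_single (E := K G) (Equiv.mulLeft g⁻¹) (fun _ : G => lam g) h (lp.single 2 k (1 : ℂ))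
  have h2 : U lam g (eps h k) = wp (Equiv.mulLeft g⁻¹) (fun _ : G => lam g) (eps h k) := rfl
  rw [h2]
  unfold eps
  rw [this, lam_single]
  simp

theorem norm_eps (h k : G) : ‖eps h k‖ = 1 := by
  unfold eps
  rw [lp.norm_single (E := fun _ : G => K G) (p := 2) (by norm_num),
    lp.norm_single (E := fun _ : G => ℂ) (p := 2) (by norm_num), norm_one]

theorem p_apply_apply (h : G) (x : E G) (k : G) : p h x k = lp.single 2 h (x k h) := rfl

theorem sum_single_apply (F : Finset G) (y : K G) (i : G) :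
    (∑ h ∈ F, (lp.single 2 h (y h) : K G)) i = if i ∈ F then y i else 0 := by
  rw [lp.coeFn_sum, Finset.sum_apply]
  split_ifs with hi
  · rw [Finset.sum_eq_single i]
    · rw [lp.single_apply_self]
    · intro b _ hb
      exact lp.single_apply_ne _ _ _ hb.symm
    · intro h; exact absurd hi h
  · refine Finset.sum_eq_zero fun b hb => lp.single_apply_ne _ _ _ ?_
    rintro rfl
    exact hi hb

theorem norm_sub_sum_single_le (F : Finset G) (y : K G) :
    ‖y - ∑ h ∈ F, (lp.single 2 h (y h) : K G)‖ ^ 2 ≤ ‖y‖ ^ 2 := by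
  rw [norm_sq_eq, norm_sq_eq y]
  refine Summable.tsum_le_tsum (fun i => ?_) (hasSum_norm_sq _).summable
    (hasSum_norm_sq y).summable
  rw [lp.coeFn_sub, Pi.sub_apply, sum_single_apply]
  split_ifs
  · simp
  · simp

theorem hasSum_p (x : E G) : HasSum (fun h => p h x) x := by
  rw [HasSum, SummationFilter.unconditional_filter, tendsto_iff_norm_sub_tendsto_zero]
  have key : Tendsto (fun F : Finset G => ‖x - ∑ h ∈ F, p h x‖ ^ 2) atTop (𝓝 0) := by
    have h1 : ∀ F : Finset G, ‖x - ∑ h ∈ F, p h x‖ ^ 2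
        = ∑' k, ‖x k - ∑ h ∈ F, (lp.single 2 h (x k h) : K G)‖ ^ 2 := by
      intro F
      rw [norm_sq_eq]
      refine tsum_congr fun k => ?_
      rw [lp.coeFn_sub, Pi.sub_apply, lp.coeFn_sum, Finset.sum_apply]
      rfl
    simp only [h1]
    have h2 : (0 : ℝ) = ∑' _k : G, (0 : ℝ) := tsum_zero.symm
    rw [h2]
    refine tendsto_tsum_of_dominated_convergence (bound := fun k => ‖x k‖ ^ 2)
      (hasSum_norm_sq x).summable (fun k => ?_) (Eventually.of_forall fun F k => ?_)
    · have h3 := (hasSum_single (x k))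
      rw [HasSum, SummationFilter.unconditional_filter] at h3
      have h4 : Tendsto (fun F : Finset G => x k - ∑ h ∈ F, (lp.single 2 h (x k h) : K G)) atTop
          (𝓝 (x k - x k)) := tendsto_const_nhds.sub h3
      rw [sub_self] at h4
      have h5 := (h4.norm).pow 2
      simpa using h5
    · rw [Real.norm_eq_abs, abs_of_nonneg (by positivity)]
      exact norm_sub_sum_single_le F (x k)
  have h6 := key.sqrt
  simp only [Real.sqrt_sq (norm_nonneg _), Real.sqrt_zero] at h6
  simpa only [norm_sub_rev] using h6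

/-- the absorbing system of the model -/
def sys (G : Type) [Group G] [DecidableEq G] : System (E G) G where
  U := U lam
  ε h := eps h h
  p := p
  U_ε g h := U_lam_eps g h h
  norm_ε h := norm_eps h h
  inner_ε g h hgh := by
    unfold eps
    rw [lp.inner_single_left, lp.single_apply_ne _ _ _ hgh, inner_zero_right]
  inner_p g h hgh x y := by
    refine inner_eq_zero_of_forall _ _ fun k => ?_
    rw [p_apply_apply, p_apply_apply, lp.inner_single_left, lp.single_apply_ne _ _ _ hgh,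
      inner_zero_right]
  U_p g h x := by
    refine lp.ext ?_
    funext k
    rw [U_apply, p_apply_apply, p_apply_apply, lam_single, U_apply, lam_apply]
    simp
  hasSum_p := hasSum_p

end system

section comm

variable {G : Type} [Group G] [DecidableEq G]


theorem U_comm_R (σ : G →* (K G ≃ₗᵢ[ℂ] K G)) (g h : G) :
    op (R h) * op (U σ g) = op (U σ g) * op (R h) := by
  ext f x
  change (R h (U σ g f)) x _ = (U σ g (R h f)) x _
  rw [Model.R_apply, U_apply, U_apply, Model.R_apply, mul_assoc]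

theorem diag_comm_R (a : K G →L[ℂ] K G) (h : G) :
    op (R h) * diag a = diag a * op (R h) := rfl

theorem gens_comm_R (π : G →* (K G ≃ₗᵢ[ℂ] K G)) {c : E G →L[ℂ] E G} (hc : c ∈ gens π) (h : G) :
    op (R h) * c = c * op (R h) := by
  rcases hc with (⟨g, rfl⟩ | ⟨g, rfl⟩) | ⟨q, rfl⟩
  · exact U_comm_R _ _ _
  · exact U_comm_R _ _ _
  · exact diag_comm_R _ _

theorem adjoin_comm_R (π : G →* (K G ≃ₗᵢ[ℂ] K G)) {c : E G →L[ℂ] E G}
    (hc : c ∈ StarAlgebra.adjoin ℂ (gens π)) : ∀ h : G, op (R h) * c = c * op (R h) := by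
  induction hc using StarAlgebra.adjoin_induction with
  | mem x hx => exact gens_comm_R π hx
  | algebraMap r => intro h; exact (Algebra.commutes r _).symm
  | add x y _ _ hx hy => intro h; rw [mul_add, add_mul, hx, hy]
  | mul x y _ _ hx hy => intro h; rw [← mul_assoc, hx, mul_assoc, hy, mul_assoc]
  | star x _ hx =>
    intro h
    have h1 := congrArg star (hx h⁻¹)
    rw [star_mul, star_mul, star_op] at h1
    have h2 : (R h⁻¹ : E G ≃ₗᵢ[ℂ] E G)⁻¹ = R h := by rw [map_inv, inv_inv]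
    rw [h2] at h1
    exact h1.symm

theorem CE_comm_R (π : G →* (K G ≃ₗᵢ[ℂ] K G)) {c : E G →L[ℂ] E G} (hc : c ∈ CE π) (h : G) :
    op (R h) * c = c * op (R h) := by
  have hcl : IsClosed {c : E G →L[ℂ] E G | op (R h) * c = c * op (R h)} :=
    isClosed_eq (continuous_const.mul continuous_id) (continuous_id.mul continuous_const)
  have h1 : c ∈ closure ((StarAlgebra.adjoin ℂ (gens π) : StarSubalgebra ℂ (E G →L[ℂ] E G)) :
      Set (E G →L[ℂ] E G)) := hc
  have h2 : closure ((StarAlgebra.adjoin ℂ (gens π) : StarSubalgebra ℂ (E G →L[ℂ] E G)) :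
      Set (E G →L[ℂ] E G)) ⊆ {c : E G →L[ℂ] E G | op (R h) * c = c * op (R h)} :=
    closure_minimal (fun x hx => adjoin_comm_R π hx h) hcl
  exact h2 h1

theorem gens_mem_CE (π : G →* (K G ≃ₗᵢ[ℂ] K G)) {c : E G →L[ℂ] E G} (hc : c ∈ gens π) :
    c ∈ CE π :=
  StarSubalgebra.le_topologicalClosure _ (StarAlgebra.subset_adjoin ℂ _ hc)

theorem U_lam_mem_CE (π : G →* (K G ≃ₗᵢ[ℂ] K G)) (g : G) : op (U lam g) ∈ CE π :=
  gens_mem_CE π (Or.inl (Or.inl ⟨g, rfl⟩))

theorem p_mem_CE (π : G →* (K G ≃ₗᵢ[ℂ] K G)) (g : G) : p g ∈ CE π :=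
  gens_mem_CE π (Or.inr ⟨(g, g), rfl⟩)

theorem U_lam_mem_A0 (g : G) : op (U lam g) ∈ A0 G :=
  StarSubalgebra.le_topologicalClosure _ (StarAlgebra.subset_adjoin ℂ _ ⟨g, rfl⟩)

theorem A0_subset (x : E G →L[ℂ] E G) (hx : x ∈ A0 G) :
    x ∈ closure ((sys G).span : Set (E G →L[ℂ] E G)) := by
  have h1 : x ∈ closure ((StarAlgebra.adjoin ℂ (Set.range (fun g : G => op (U lam g))) :
      StarSubalgebra ℂ (E G →L[ℂ] E G)) : Set (E G →L[ℂ] E G)) := hx
  refine closure_mono ?_ h1
  intro y hy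
  have h2 : y ∈ Subalgebra.toSubmodule
      (StarAlgebra.adjoin ℂ (Set.range (fun g : G => op (U lam g)))).toSubalgebra := hy
  rw [StarAlgebra.adjoin_eq_span] at h2
  refine Submodule.span_mono ?_ h2
  let φ : G →* (E G →L[ℂ] E G) :=
    { toFun := fun g => op (U lam g)
      map_one' := by rw [map_one, op_one]
      map_mul' := fun a b => by rw [map_mul, op_mul] }
  have h3 : Submonoid.closure (Set.range (fun g : G => op (U lam g)) ∪
      star (Set.range (fun g : G => op (U lam g)))) ≤ MonoidHom.mrange φ := by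
    rw [Submonoid.closure_le]
    rintro z (⟨g, rfl⟩ | hz)
    · exact ⟨g, rfl⟩
    · obtain ⟨g, hg⟩ := hz
      refine ⟨g⁻¹, ?_⟩
      have h4 : z = star (op (U lam g)) := by
        have := congrArg star hg
        simpa using this.symm
      rw [h4, star_op, ← map_inv]
      rfl
  intro z hz
  obtain ⟨g, hg⟩ := h3 hz
  exact ⟨g, hg⟩

/-- an isometry commuting with `CE` commutes with the system -/
theorem comm_of_CE (π : G →* (K G ≃ₗᵢ[ℂ] K G)) (T : E G →ₗᵢ[ℂ] E G)
    (hT : ∀ c ∈ CE π, ∀ x, T (c x) = c (T x)) : Comm (sys G) T where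
  p h x := hT _ (p_mem_CE π h) x
  U g x := hT _ (U_lam_mem_CE π g) x

theorem W_mul_U_lam (π : G →* (K G ≃ₗᵢ[ℂ] K G)) (g : G) : W π * U lam g = U π g * W π := by
  ext f h x
  change (W π (U lam g f)) h x = (U π g (W π f)) h x
  rw [W_apply, U_apply, U_apply, W_apply]
  have h1 : (lam h)⁻¹ (lam g (f (g⁻¹ * h))) = (lam (g⁻¹ * h))⁻¹ (f (g⁻¹ * h)) := by
    rw [map_mul, mul_inv_rev, map_inv, inv_inv]
    rfl
  rw [h1]
  have h2 : π g (π (g⁻¹ * h) ((lam (g⁻¹ * h))⁻¹ (f (g⁻¹ * h))))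
      = π h ((lam (g⁻¹ * h))⁻¹ (f (g⁻¹ * h))) := by
    have h3 : π g * π (g⁻¹ * h) = π h := by rw [← map_mul, mul_inv_cancel_left]
    rw [← h3]
    rfl
  rw [h2]

theorem op_W_conj (π : G →* (K G ≃ₗᵢ[ℂ] K G)) (g : G) :
    op (W π) * op (U lam g) * star (op (W π)) = op (U π g) := by
  rw [← op_mul, W_mul_U_lam, op_mul, mul_assoc, star_op, op_mul_op_inv, mul_one]

theorem U_R_eps (σ : G →* (K G ≃ₗᵢ[ℂ] K G)) (g : G) :
    U σ g (R g (eps 1 1)) = lp.single 2 1 (σ g (lp.single 2 1 1)) := by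
  refine lp.ext ?_
  funext h
  rw [U_apply, Model.R_apply]
  by_cases hh : h = 1
  · subst hh
    rw [lp.single_apply_self]
    have : g⁻¹ * 1 * g = 1 := by group
    rw [this]
    unfold eps
    rw [lp.single_apply_self]
  · rw [lp.single_apply_ne _ _ _ hh]
    have : g⁻¹ * h * g ≠ 1 := by
      intro h1
      apply hh
      have h2 : h = g * (g⁻¹ * h * g) * g⁻¹ := by group
      rw [h2, h1]
      group
    rw [eps_self_apply_ne _ _ _ this, map_zero]

end comm

section final

variable {n : ℕ}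

theorem lower (s : ℝ) (hs : 0 ≤ s)
    (π : FreeGroup (Fin n) →* (K (FreeGroup (Fin n)) ≃ₗᵢ[ℂ] K (FreeGroup (Fin n))))
    (hπ : ∀ i : Fin n, π (FreeGroup.of i) (lp.single 2 1 1) 1 = s) :
    n * s ≤ ‖∑ i : Fin n, U π (FreeGroup.of i) (R (FreeGroup.of i) (eps 1 1))‖ := by
  have h1 : ⟪(eps 1 1 : E (FreeGroup (Fin n))),
      ∑ i : Fin n, U π (FreeGroup.of i) (R (FreeGroup.of i) (eps 1 1))⟫_ℂ = (n * s : ℝ) := by
    rw [inner_sum]
    have h2 : ∀ i : Fin n, ⟪(eps 1 1 : E (FreeGroup (Fin n))),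
        U π (FreeGroup.of i) (R (FreeGroup.of i) (eps 1 1))⟫_ℂ = (s : ℂ) := by
      intro i
      rw [U_R_eps]
      unfold eps
      rw [lp.inner_single_left, lp.single_apply_self, lp.inner_single_left, hπ]
      simp
    simp only [h2]
    simp
  have h3 := norm_inner_le_norm (𝕜 := ℂ) (eps 1 1 : E (FreeGroup (Fin n)))
    (∑ i : Fin n, U π (FreeGroup.of i) (R (FreeGroup.of i) (eps 1 1)))
  rw [h1, norm_eps, one_mul, Complex.norm_real, Real.norm_eq_abs, abs_of_nonneg (by positivity)]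
    at h3
  exact h3

/-- **F5**: there is no asymptotically conjugating sequence. -/
theorem no_conj (s : ℝ) (hs : 0 ≤ s) (hns : 2 * Real.sqrt n < n * s)
    (π : FreeGroup (Fin n) →* (K (FreeGroup (Fin n)) ≃ₗᵢ[ℂ] K (FreeGroup (Fin n))))
    (hπ : ∀ i : Fin n, π (FreeGroup.of i) (lp.single 2 1 1) 1 = s) :
    ¬ ∃ u : ℕ → (E (FreeGroup (Fin n)) →L[ℂ] E (FreeGroup (Fin n))),
      (∀ k, u k ∈ unitary (E (FreeGroup (Fin n)) →L[ℂ] E (FreeGroup (Fin n)))) ∧
      (∀ k, ∀ e ∈ CE π, u k * e * star (u k) ∈ CE π) ∧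
      (∀ z ∈ A0 (FreeGroup (Fin n)), ∃ x ∈ A0 (FreeGroup (Fin n)),
        Tendsto (fun k => star (u k) * (op (W π) * z * star (op (W π))) * u k) atTop (𝓝 x)) := by
  rintro ⟨u, hu, hconj, hlim⟩
  choose e he using fun k => exists_op_of_unitary (u k) (hu k)
  set γ : Fin n → FreeGroup (Fin n) := fun i => FreeGroup.of i with hγ
  choose x hxA hx using fun i : Fin n => hlim _ (U_lam_mem_A0 (γ i))
  simp only [op_W_conj] at hx
  -- the isometries
  let T : ℕ → (E (FreeGroup (Fin n)) ≃ₗᵢ[ℂ] E (FreeGroup (Fin n))) := fun k => (e k)⁻¹ * W π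
  let R' : ℕ → Fin n → (E (FreeGroup (Fin n)) ≃ₗᵢ[ℂ] E (FreeGroup (Fin n))) := fun k i =>
    (e k)⁻¹ * R (γ i) * e k
  have hTz : ∀ k i v, T k (U lam (γ i) ((T k).symm v))
      = (star (u k) * op (U π (γ i)) * u k) v := by
    intro k i v
    rw [← he k, star_op]
    have h1 : T k * U lam (γ i) * (T k)⁻¹ = (e k)⁻¹ * U π (γ i) * e k := by
      change (e k)⁻¹ * W π * U lam (γ i) * ((e k)⁻¹ * W π)⁻¹ = (e k)⁻¹ * U π (γ i) * e k
      rw [mul_inv_rev, inv_inv, mul_assoc (e k)⁻¹ (W π), W_mul_U_lam]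
      group
    have h2 := congrArg (fun w : (E (FreeGroup (Fin n)) ≃ₗᵢ[ℂ] E (FreeGroup (Fin n))) => w v) h1
    exact h2
  have hcommR : ∀ k i, Comm (sys (FreeGroup (Fin n))) (R' k i).toLinearIsometry := by
    intro k i
    refine comm_of_CE π _ fun c hc v => ?_
    have h1 := CE_comm_R π (hconj k c hc) (γ i)
    -- u* R u c = c u* R u
    have h2 : op (R' k i) * c = c * op (R' k i) := by
      change op ((e k)⁻¹ * R (γ i) * e k) * c = c * op ((e k)⁻¹ * R (γ i) * e k)
      rw [op_mul, op_mul]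
      have h3 : op (e k) * c = (u k * c * star (u k)) * op (e k) := by
        rw [← he k, star_op, mul_assoc, op_inv_mul_op, mul_one]
      have h4 : op (e k)⁻¹ * (u k * c * star (u k)) = c * op (e k)⁻¹ := by
        rw [← he k, star_op, ← mul_assoc, ← mul_assoc, op_inv_mul_op, one_mul]
      calc op (e k)⁻¹ * op (R (γ i)) * op (e k) * c
          = op (e k)⁻¹ * op (R (γ i)) * (op (e k) * c) := by rw [mul_assoc]
        _ = op (e k)⁻¹ * (op (R (γ i)) * (u k * c * star (u k))) * op (e k) := by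
            rw [h3]; simp only [mul_assoc]
        _ = (op (e k)⁻¹ * (u k * c * star (u k))) * op (R (γ i)) * op (e k) := by
            rw [h1]; simp only [mul_assoc]
        _ = c * (op (e k)⁻¹ * op (R (γ i)) * op (e k)) := by
            rw [h4]; simp only [mul_assoc]
    exact congrArg (fun w : (E (FreeGroup (Fin n)) →L[ℂ] E (FreeGroup (Fin n))) => w v) h2
  have hupper : ∀ k f, ‖∑ i, x i (R' k i f)‖ ≤ 2 * Real.sqrt n * ‖f‖ := by
    intro k f
    have h1 := norm_sum_le (sys (FreeGroup (Fin n))) γ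
      (fun i => mask (starts i)) (fun i => mask (fun h => ¬ starts i (γ i * h)))
      (fun i j hij x y => inner_mask_mask _ _ (fun g => starts_disj hij g) x y)
      (fun i x y => inner_mask_sub _ x y)
      (fun i j hij x y => inner_mask_mask _ _ (fun g => not_starts_disj hij g) x y)
      (fun i x y => inner_mask_sub_sum _ (fun a b hab g => not_starts_disj hab g) i x y)
      (fun i x => by
        refine lp.ext ?_
        funext h
        change (U lam (γ i) x) h = (mask (starts i) (U lam (γ i) x)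
          + U lam (γ i) (mask (fun h => ¬ starts i (γ i * h)) x)) h
        rw [lp.coeFn_add, Pi.add_apply, U_apply]
        by_cases hh : starts i h
        · have h2 : ¬ ¬ starts i (γ i * ((γ i)⁻¹ * h)) := by
            rw [mul_inv_cancel_left]
            exact not_not.mpr hh
          rw [mask_of _ _ hh, U_apply, U_apply,
            mask_not (fun h => ¬ starts i (γ i * h)) x h2, map_zero, add_zero]
        · have h2 : ¬ starts i (γ i * ((γ i)⁻¹ * h)) := by
            rw [mul_inv_cancel_left]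
            exact hh
          rw [mask_not _ _ hh, zero_add, U_apply,
            mask_of (fun h => ¬ starts i (γ i * h)) x h2])
      T x
      (fun i v => by
        have h2 : Tendsto (fun k => (star (u k) * op (U π (γ i)) * u k) v) atTop (𝓝 (x i v)) :=
          ((ContinuousLinearMap.apply ℂ (E (FreeGroup (Fin n))) v).continuous.tendsto (x i)).comp
            (hx i)
        refine h2.congr fun k => ?_
        exact (hTz k i v).symm)
      (fun i => A0_subset _ (hxA i))
      (fun i => (R' k i).toLinearIsometry) (hcommR k) f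
    rw [Fintype.card_fin] at h1
    exact h1
  -- the error
  have herr : Tendsto (fun k => ∑ i, ‖star (u k) * op (U π (γ i)) * u k - x i‖) atTop (𝓝 0) := by
    have h1 : ∀ i : Fin n, Tendsto (fun k => ‖star (u k) * op (U π (γ i)) * u k - x i‖) atTop
        (𝓝 0) := fun i => tendsto_iff_norm_sub_tendsto_zero.mp (hx i)
    have h2 := tendsto_finsetSum (Finset.univ : Finset (Fin n)) fun i _ => h1 i
    simpa using h2
  have hbound : ∀ k, n * s ≤ 2 * Real.sqrt n
      + ∑ i, ‖star (u k) * op (U π (γ i)) * u k - x i‖ := by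
    intro k
    set f := (e k).symm (eps 1 1) with hf
    have hfn : ‖f‖ = 1 := by rw [hf, LinearIsometryEquiv.norm_map, norm_eps]
    have h1 : ∀ i, (star (u k) * op (U π (γ i)) * u k) (R' k i f)
        = (e k).symm (U π (γ i) (R (γ i) (eps 1 1))) := by
      intro i
      rw [← he k, star_op]
      have h2 : ((e k)⁻¹ * U π (γ i) * e k) * ((e k)⁻¹ * R (γ i) * e k) * (e k)⁻¹
          = (e k)⁻¹ * (U π (γ i) * R (γ i)) := by group
      have h3 := congrArg
        (fun w : (E (FreeGroup (Fin n)) ≃ₗᵢ[ℂ] E (FreeGroup (Fin n))) => w (eps 1 1)) h2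
      exact h3
    have h4 : ‖∑ i, (star (u k) * op (U π (γ i)) * u k) (R' k i f)‖
        = ‖∑ i : Fin n, U π (FreeGroup.of i) (R (FreeGroup.of i) (eps 1 1))‖ := by
      simp only [h1]
      rw [← map_sum, LinearIsometryEquiv.norm_map]
    have h5 := lower s hs π hπ
    rw [← h4] at h5
    have h6 : ∑ i, (star (u k) * op (U π (γ i)) * u k) (R' k i f)
        = ∑ i, x i (R' k i f) + ∑ i, (star (u k) * op (U π (γ i)) * u k - x i) (R' k i f) := by
      rw [← Finset.sum_add_distrib]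
      refine Finset.sum_congr rfl fun i _ => ?_
      rw [sub_apply]
      abel
    rw [h6] at h5
    have h7 : ‖∑ i, (star (u k) * op (U π (γ i)) * u k - x i) (R' k i f)‖
        ≤ ∑ i, ‖star (u k) * op (U π (γ i)) * u k - x i‖ := by
      refine (_root_.norm_sum_le _ _).trans (Finset.sum_le_sum fun i _ => ?_)
      refine (ContinuousLinearMap.le_opNorm _ _).trans ?_
      rw [LinearIsometryEquiv.norm_map, hfn, mul_one]
    have h8 := hupper k f
    rw [hfn, mul_one] at h8
    exact h5.trans ((norm_add_le _ _).trans (add_le_add h8 h7))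
  have hlim2 : Tendsto (fun k => 2 * Real.sqrt n
      + ∑ i, ‖star (u k) * op (U π (γ i)) * u k - x i‖) atTop (𝓝 (2 * Real.sqrt n + 0)) :=
    tendsto_const_nhds.add herr
  have hfinal : (n : ℝ) * s ≤ 2 * Real.sqrt n + 0 := ge_of_tendsto' hlim2 hbound
  rw [add_zero] at hfinal
  exact absurd hfinal (not_le.mpr hns)

end final

end Crest.Agent.R078.Final
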