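import Mathlib
import Crest.Agent.R078.S103LSys938

-- ▼ part R078/S103Halmos938
section

/-!
# R78 / S0103, block N2-HALMOS (helper938)

From linear letters `a` (in `M ⊗ B(K)`) and `b` (in the commutant) to the unitary letters
`T = [[(1-aa*)^{1/2}, c a], [-c̄ a*, (1-a*a)^{1/2}]]`, `S = [[(1-b*b)^{1/2}, c̄ b*], [-c b, (1-bb*)^{1/2}]]`.
-/

set_option autoImplicit false

open scoped ComplexConjugate

namespace Crest.Agent.R078.S103.Halmos

section Algebra

variable {B : Type*} [CStarAlgebra B]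

/-- `sq x = (1 - x)^{1/2}`. -/
noncomputable def sq (x : B) : B := cfc (fun t : ℝ => Real.sqrt (1 - t)) x

theorem continuous_sqrt_one_sub : Continuous (fun t : ℝ => Real.sqrt (1 - t)) := by fun_prop

theorem spectrum_star_mul_self_le {a : B} {t : ℝ} (ht : t ∈ spectrum ℝ (star a * a)) :
    0 ≤ t ∧ t ≤ ‖a‖ ^ 2 := by
  refine ⟨spectrum_star_mul_self_nonneg t ht, ?_⟩
  have h1 := IsometricContinuousFunctionalCalculus.norm_spectrum_le (𝕜 := ℝ) (star a * a) ht
    (IsSelfAdjoint.star_mul_self a)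
  rw [CStarRing.norm_star_mul_self] at h1
  have := le_abs_self t
  rw [Real.norm_eq_abs] at h1
  nlinarith

theorem spectrum_mul_star_self_le {a : B} {t : ℝ} (ht : t ∈ spectrum ℝ (a * star a)) :
    0 ≤ t ∧ t ≤ ‖a‖ ^ 2 := by
  have := spectrum_star_mul_self_le (a := star a) (t := t) (by rwa [star_star])
  rwa [norm_star] at this

/-- uniform polynomial approximation of a continuous function on `[0,1]`, evaluated by the
continuous functional calculus. -/
theorem exists_poly_approx (f : ℝ → ℝ) (hf : Continuous f) {ε : ℝ} (hε : 0 < ε) :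
    ∃ p : Polynomial ℝ, ∀ (x : B), IsSelfAdjoint x → (∀ t ∈ spectrum ℝ x, 0 ≤ t ∧ t ≤ 1) →
      ‖cfc f x - Polynomial.aeval x p‖ ≤ ε := by
  obtain ⟨p, hp⟩ := exists_polynomial_near_of_continuousOn 0 1 f hf.continuousOn ε hε
  refine ⟨p, fun x hx hs => ?_⟩
  rw [← cfc_polynomial p x, ← cfc_sub f _ x]
  refine norm_cfc_le hε.le fun t ht => ?_
  have h := hp t ⟨(hs t ht).1, (hs t ht).2⟩
  rw [Real.norm_eq_abs, abs_sub_comm]
  exact h.le

theorem semiconj_aeval (a x y : B) (h : a * x = y * a) (p : Polynomial ℝ) :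
    a * Polynomial.aeval x p = Polynomial.aeval y p * a := by
  have hpow : ∀ n : ℕ, a * x ^ n = y ^ n * a := by
    intro n
    induction n with
    | zero => simp
    | succ n ih => rw [pow_succ, ← mul_assoc, ih, mul_assoc, h, ← mul_assoc, ← pow_succ]
  induction p using Polynomial.induction_on' with
  | add p q hp hq => rw [map_add, map_add, mul_add, add_mul, hp, hq]
  | monomial n c =>
    rw [Polynomial.aeval_monomial, Polynomial.aeval_monomial, ← mul_assoc,
      ← Algebra.commutes c a, mul_assoc, hpow, ← mul_assoc]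

/-- the intertwining relation `a f(a*a) = f(aa*) a`. -/
theorem semiconj_cfc (a : B) (ha : ‖a‖ ≤ 1) (f : ℝ → ℝ) (hf : Continuous f) :
    a * cfc f (star a * a) = cfc f (a * star a) * a := by
  have key : ∀ ε : ℝ, 0 < ε → ‖a * cfc f (star a * a) - cfc f (a * star a) * a‖ ≤ 2 * ε := by
    intro ε hε
    obtain ⟨p, hp⟩ := exists_poly_approx (B := B) f hf hε
    have h1 := hp (star a * a) (IsSelfAdjoint.star_mul_self a) (fun t ht => by
      have := spectrum_star_mul_self_le ht
      have hn := norm_nonneg a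
      exact ⟨this.1, this.2.trans (by nlinarith)⟩)
    have h2 := hp (a * star a) (IsSelfAdjoint.mul_star_self a) (fun t ht => by
      have := spectrum_mul_star_self_le ht
      have hn := norm_nonneg a
      exact ⟨this.1, this.2.trans (by nlinarith)⟩)
    have h3 := semiconj_aeval a (star a * a) (a * star a) (by rw [mul_assoc]) p
    have h4 : a * cfc f (star a * a) - cfc f (a * star a) * a
        = a * (cfc f (star a * a) - Polynomial.aeval (star a * a) p)
          - (cfc f (a * star a) - Polynomial.aeval (a * star a) p) * a := by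
      rw [mul_sub, sub_mul, h3]; abel
    rw [h4]
    calc _ ≤ ‖a * (cfc f (star a * a) - Polynomial.aeval (star a * a) p)‖
          + ‖(cfc f (a * star a) - Polynomial.aeval (a * star a) p) * a‖ := norm_sub_le _ _
      _ ≤ ‖a‖ * ‖cfc f (star a * a) - Polynomial.aeval (star a * a) p‖
          + ‖cfc f (a * star a) - Polynomial.aeval (a * star a) p‖ * ‖a‖ :=
          add_le_add (norm_mul_le _ _) (norm_mul_le _ _)
      _ ≤ 1 * ε + ε * 1 := by gcongr
      _ = 2 * ε := by ring
  have h0 : ‖a * cfc f (star a * a) - cfc f (a * star a) * a‖ ≤ 0 := by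
    refine le_of_forall_pos_le_add fun ε hε => ?_
    have := key (ε / 2) (by positivity)
    linarith
  exact sub_eq_zero.mp (norm_le_zero_iff.mp h0)

theorem isSelfAdjoint_sq (x : B) : IsSelfAdjoint (sq x) := by
  unfold sq
  exact cfc_predicate _ x

theorem star_sq (x : B) : star (sq x) = sq x := (isSelfAdjoint_sq x).star_eq

theorem sq_mul_sq {x : B} (hx : IsSelfAdjoint x) (hs : ∀ t ∈ spectrum ℝ x, t ≤ 1) :
    sq x * sq x = 1 - x := by
  unfold sq
  rw [← cfc_mul _ _ x]
  have : cfc (fun t : ℝ => Real.sqrt (1 - t) * Real.sqrt (1 - t)) x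
      = cfc (fun t : ℝ => 1 - t) x := by
    refine cfc_congr fun t ht => ?_
    have := hs t ht
    rw [Real.mul_self_sqrt (by linarith)]
  rw [this, cfc_sub (fun _ => (1 : ℝ)) (fun t => t) x, cfc_const_one ℝ x, cfc_id' ℝ x]

theorem commute_sq {x b : B} (h : Commute x b) : Commute (sq x) b := by
  unfold sq
  exact h.cfc_real _

theorem mul_sq (a : B) (ha : ‖a‖ ≤ 1) : a * sq (star a * a) = sq (a * star a) * a :=
  semiconj_cfc a ha _ continuous_sqrt_one_sub

/-- the Halmos dilation with phase `c`. -/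
noncomputable def hal (a : B) (c : ℂ) : Matrix (Fin 2) (Fin 2) B :=
  !![sq (a * star a), c • a; -(conj c • star a), sq (star a * a)]

theorem star_hal (a : B) (c : ℂ) : star (hal a c) = hal a (-c) := by
  rw [Matrix.star_eq_conjTranspose]
  ext i j
  fin_cases i <;> fin_cases j <;>
    simp [hal, star_sq, star_smul]

theorem hal_mul_star (a : B) (ha : ‖a‖ ≤ 1) (c : ℂ) (hc : ‖c‖ = 1) :
    hal a c * star (hal a c) = 1 := by
  have hs1 : ∀ t ∈ spectrum ℝ (a * star a), t ≤ 1 := fun t ht => by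
    have := spectrum_mul_star_self_le ht
    have hn := norm_nonneg a
    exact this.2.trans (by nlinarith)
  have hs2 : ∀ t ∈ spectrum ℝ (star a * a), t ≤ 1 := fun t ht => by
    have := spectrum_star_mul_self_le ht
    have hn := norm_nonneg a
    exact this.2.trans (by nlinarith)
  have hcc : c * conj c = 1 := by
    rw [Complex.mul_conj, Complex.normSq_eq_norm_sq, hc]; simp
  have hcc' : conj c * c = 1 := by rw [mul_comm]; exact hcc
  have e1 := sq_mul_sq (IsSelfAdjoint.mul_star_self a) hs1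
  have e2 := sq_mul_sq (IsSelfAdjoint.star_mul_self a) hs2
  have e3 := mul_sq a ha
  have e4 : star a * sq (a * star a) = sq (star a * a) * star a := by
    have := congrArg star e3
    rw [star_mul, star_mul, star_sq, star_sq] at this
    exact this.symm
  rw [star_hal]
  ext i j
  fin_cases i <;> fin_cases j <;>
    simp [hal, Matrix.mul_apply, Fin.sum_univ_two, e1, e2, smul_smul, hcc, hcc', e3, e4]

theorem star_hal_mul (a : B) (ha : ‖a‖ ≤ 1) (c : ℂ) (hc : ‖c‖ = 1) :
    star (hal a c) * hal a c = 1 := by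
  have h := hal_mul_star a ha (-c) (by rwa [norm_neg])
  rw [star_hal, neg_neg] at h
  rw [star_hal]
  exact h

theorem hal_mem_unitary (a : B) (ha : ‖a‖ ≤ 1) (c : ℂ) (hc : ‖c‖ = 1) :
    hal a c ∈ unitary (Matrix (Fin 2) (Fin 2) B) :=
  ⟨star_hal_mul a ha c hc, hal_mul_star a ha c hc⟩

/-- the `M'`-side letter. -/
noncomputable def halS (b : B) (c : ℂ) : Matrix (Fin 2) (Fin 2) B := hal (star b) (conj c)

theorem star_halS (b : B) (c : ℂ) : star (halS b c) = halS b (-c) := by
  unfold halS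
  rw [star_hal, map_neg]

theorem halS_mem_unitary (b : B) (hb : ‖b‖ ≤ 1) (c : ℂ) (hc : ‖c‖ = 1) :
    halS b c ∈ unitary (Matrix (Fin 2) (Fin 2) B) :=
  hal_mem_unitary (star b) (by rwa [norm_star]) (conj c) (by rwa [Complex.norm_conj])

theorem hal_apply_00 (a : B) (c : ℂ) : hal a c 0 0 = sq (a * star a) := rfl
theorem hal_apply_01 (a : B) (c : ℂ) : hal a c 0 1 = c • a := rfl
theorem hal_apply_10 (a : B) (c : ℂ) : hal a c 1 0 = -(conj c • star a) := rfl
theorem hal_apply_11 (a : B) (c : ℂ) : hal a c 1 1 = sq (star a * a) := rfl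

theorem halS_apply_00 (b : B) (c : ℂ) : halS b c 0 0 = sq (star b * b) := by
  unfold halS
  rw [hal_apply_00, star_star]
theorem halS_apply_01 (b : B) (c : ℂ) : halS b c 0 1 = conj c • star b := rfl
theorem halS_apply_10 (b : B) (c : ℂ) : halS b c 1 0 = -(c • b) := by
  unfold halS
  rw [hal_apply_10, star_star, Complex.conj_conj]
theorem halS_apply_11 (b : B) (c : ℂ) : halS b c 1 1 = sq (b * star b) := by
  unfold halS
  rw [hal_apply_11, star_star]

/-- the four phases. -/
noncomputable def ph (k : Fin 4) : ℂ := ![1, Complex.I, -1, -Complex.I] k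

theorem norm_ph (k : Fin 4) : ‖ph k‖ = 1 := by
  fin_cases k <;> simp [ph]

theorem ph_add_two (k : Fin 4) : ph (k + 2) = -ph k := by
  fin_cases k <;> simp [ph]

theorem sum_ph : ∑ k : Fin 4, ph k = 0 := by
  simp [Fin.sum_univ_four, ph]

theorem sum_conj_ph : ∑ k : Fin 4, conj (ph k) = 0 := by
  simp [Fin.sum_univ_four, ph]

theorem conj_mul_ph (k : Fin 4) : conj (ph k) * ph k = 1 := by
  rw [mul_comm, Complex.mul_conj, Complex.normSq_eq_norm_sq, norm_ph]; simp

theorem ph_mul_conj (k : Fin 4) : ph k * conj (ph k) = 1 := by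
  rw [mul_comm, conj_mul_ph]

theorem sum_ph_mul_ph : ∑ k : Fin 4, ph k * ph k = 0 := by
  simp [Fin.sum_univ_four, ph]

theorem sum_conj_ph_mul : ∑ k : Fin 4, conj (ph k) * conj (ph k) = 0 := by
  simp [Fin.sum_univ_four, ph]

/-- exact averaging over the phases, `M`-side: only the corner `(0,1)` survives. -/
theorem sum_conj_ph_smul_hal (a : B) (i j : Fin 2) :
    ∑ k : Fin 4, conj (ph k) • hal a (ph k) i j = if i = 0 ∧ j = 1 then (4 : ℂ) • a else 0 := by
  fin_cases i <;> fin_cases j
  · simp only [Fin.zero_eta, Fin.isValue, hal_apply_00, ← Finset.sum_smul, sum_conj_ph]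
    simp
  · simp only [Fin.zero_eta, Fin.isValue, Fin.mk_one, hal_apply_01, smul_smul, conj_mul_ph]
    simp only [one_smul, Finset.sum_const, Finset.card_univ, Fintype.card_fin, and_self, if_true]
    rw [← Nat.cast_smul_eq_nsmul ℂ]
    norm_num
  · simp only [Fin.zero_eta, Fin.isValue, Fin.mk_one, hal_apply_10, smul_neg, smul_smul]
    rw [Finset.sum_neg_distrib, ← Finset.sum_smul, sum_conj_ph_mul]
    simp
  · simp only [Fin.isValue, Fin.mk_one, hal_apply_11, ← Finset.sum_smul, sum_conj_ph]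
    simp

/-- exact averaging over the phases, `M'`-side: only the corner `(0,1)` survives. -/
theorem sum_ph_smul_halS (b : B) (i j : Fin 2) :
    ∑ k : Fin 4, ph k • halS b (ph k) i j = if i = 0 ∧ j = 1 then (4 : ℂ) • star b else 0 := by
  fin_cases i <;> fin_cases j
  · simp only [Fin.zero_eta, Fin.isValue, halS_apply_00, ← Finset.sum_smul, sum_ph]
    simp
  · simp only [Fin.zero_eta, Fin.isValue, Fin.mk_one, halS_apply_01, smul_smul, ph_mul_conj]
    simp only [one_smul, Finset.sum_const, Finset.card_univ, Fintype.card_fin, and_self, if_true]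
    rw [← Nat.cast_smul_eq_nsmul ℂ]
    norm_num
  · simp only [Fin.zero_eta, Fin.isValue, Fin.mk_one, halS_apply_10, smul_neg, smul_smul]
    rw [Finset.sum_neg_distrib, ← Finset.sum_smul, sum_ph_mul_ph]
    simp
  · simp only [Fin.isValue, Fin.mk_one, halS_apply_11, ← Finset.sum_smul, sum_ph]
    simp

/-- the entries of `hal a c` commute with everything commuting with `a` and `a*`. -/
theorem commute_hal {a b : B} (h1 : Commute a b) (h2 : Commute (star a) b) (c : ℂ) (i j : Fin 2) :
    Commute (hal a c i j) b := by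
  fin_cases i <;> fin_cases j
  · exact commute_sq (h1.mul_left h2)
  · exact h1.smul_left c
  · exact (h2.smul_left _).neg_left
  · exact commute_sq (h2.mul_left h1)

theorem commute_halS {a b : B} (h1 : Commute b a) (h2 : Commute (star b) a) (c : ℂ) (i j : Fin 2) :
    Commute (halS b c i j) a := by
  unfold halS
  exact commute_hal h2 (by rwa [star_star]) _ i j

end Algebra

section Vector

variable {G : Type*} [NormedAddCommGroup G] [InnerProductSpace ℂ G]

/-- If `P ≥ m` then `‖P v‖ ≥ m ‖v‖`. -/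
theorem norm_le_of_le_real_inner (P : G →L[ℂ] G) (m : ℝ)
    (h : ∀ v : G, m * ‖v‖ ^ 2 ≤ (inner ℂ v (P v) : ℂ).re) (v : G) : m * ‖v‖ ≤ ‖P v‖ := by
  rcases eq_or_ne v 0 with rfl | hv
  · simp
  have hv' : 0 < ‖v‖ := norm_pos_iff.mpr hv
  have h1 := h v
  have h2 : (inner ℂ v (P v) : ℂ).re ≤ ‖v‖ * ‖P v‖ :=
    (Complex.re_le_norm _).trans (norm_inner_le_norm _ _)
  have h3 : m * ‖v‖ * ‖v‖ ≤ ‖P v‖ * ‖v‖ := by nlinarith
  exact le_of_mul_le_mul_right h3 hv'

variable [CompleteSpace G]

/-- `sq x ≥ 1/2` for a self-adjoint operator `x` with spectrum in `(-∞,1/4]`. -/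
theorem sq_ge (x : G →L[ℂ] G) (hx : IsSelfAdjoint x) (hs : ∀ t ∈ spectrum ℝ x, t ≤ 1 / 4) (v : G) :
    (1 / 2 : ℝ) * ‖v‖ ^ 2 ≤ (inner ℂ v (sq x v) : ℂ).re := by
  have h1 : (algebraMap ℝ (G →L[ℂ] G) (1 / 2)) ≤ sq x := by
    unfold sq
    rw [algebraMap_le_cfc_iff (fun t : ℝ => Real.sqrt (1 - t)) (1 / 2) x]
    intro t ht
    have := hs t ht
    apply Real.le_sqrt_of_sq_le
    norm_num
    linarith
  have h2 : (0 : G →L[ℂ] G) ≤ sq x - algebraMap ℝ (G →L[ℂ] G) (1 / 2) := sub_nonneg.mpr h1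
  rw [ContinuousLinearMap.nonneg_iff_isPositive] at h2
  have h3 := h2.re_inner_nonneg_right v
  have h4 : (sq x - algebraMap ℝ (G →L[ℂ] G) (1 / 2)) v = sq x v - ((1 / 2 : ℝ) : ℂ) • v := by
    rw [Algebra.algebraMap_eq_smul_one]
    change sq x v - (1 / 2 : ℝ) • v = _
    rw [Complex.coe_smul]
  rw [h4, inner_sub_right, inner_smul_right, inner_self_eq_norm_sq_to_K] at h3
  simp only [RCLike.re_to_complex, Complex.sub_re] at h3
  have h6 : (((1 / 2 : ℝ) : ℂ) * (((‖v‖ : ℝ) : ℂ)) ^ 2).re = (1 / 2) * ‖v‖ ^ 2 := by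
    norm_cast
  erw [h6] at h3
  linarith

/-- Lipschitz bound for `sq` on commuting operators. -/
theorem norm_sq_sub_sq_apply_le (x y : G →L[ℂ] G) (hx : IsSelfAdjoint x) (hy : IsSelfAdjoint y)
    (hxy : Commute x y) (hsx : ∀ t ∈ spectrum ℝ x, t ≤ 1 / 4)
    (hsy : ∀ t ∈ spectrum ℝ y, t ≤ 1 / 4) (v : G) :
    ‖sq x v - sq y v‖ ≤ ‖x v - y v‖ := by
  have c1 : Commute (sq x) y := commute_sq hxy
  have c2 : Commute (sq x) (sq y) := (commute_sq c1.symm).symm
  have e1 : sq x * sq x = 1 - x := sq_mul_sq hx (fun t ht => (hsx t ht).trans (by norm_num))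
  have e2 : sq y * sq y = 1 - y := sq_mul_sq hy (fun t ht => (hsy t ht).trans (by norm_num))
  have e3 : (sq x + sq y) * (sq x - sq y) = y - x := by
    rw [add_mul, mul_sub, mul_sub, e1, e2, c2.eq]; abel
  have e4 : (sq x + sq y) (sq x v - sq y v) = y v - x v := by
    have := congrArg (fun A : G →L[ℂ] G => A v) e3
    exact this
  have h5 := norm_le_of_le_real_inner (sq x + sq y) 1 (fun w => by
    have h1 := sq_ge x hx hsx w
    have h2 := sq_ge y hy hsy w
    have h3 : (inner ℂ w ((sq x + sq y) w) : ℂ) = inner ℂ w (sq x w) + inner ℂ w (sq y w) := by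
      rw [← inner_add_right]; rfl
    rw [h3, Complex.add_re]
    linarith) (sq x v - sq y v)
  rw [e4, one_mul] at h5
  rwa [← norm_sub_rev (y v) (x v)]

/-- **partner property of the Halmos letters** (entrywise): `T_ij ζ = (S_ij)^* ζ + O(ε)`. -/
theorem norm_hal_sub_star_halS_le (a b : G →L[ℂ] G) (ha : ‖a‖ ≤ 1 / 2) (hb : ‖b‖ ≤ 1 / 2)
    (hab : Commute a b) (hab' : Commute a (star b)) (ζ : G) (ε : ℝ)
    (h1 : ‖a ζ - b ζ‖ ≤ ε) (h2 : ‖star a ζ - star b ζ‖ ≤ ε) (c : ℂ) (hc : ‖c‖ = 1) (i j : Fin 2) :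
    ‖hal a c i j ζ - star (halS b c i j) ζ‖ ≤ ε := by
  have hε : 0 ≤ ε := (norm_nonneg _).trans h1
  have hsa : ‖star a‖ ≤ 1 / 2 := by rwa [norm_star]
  have hsb : ‖star b‖ ≤ 1 / 2 := by rwa [norm_star]
  have hab1 : Commute (star a) b := by
    have := congrArg star hab'.eq
    rw [star_mul, star_mul, star_star] at this
    exact this.symm
  have hab2 : Commute (star a) (star b) := by
    have := congrArg star hab.eq
    rw [star_mul, star_mul] at this
    exact this.symm
  have spec1 : ∀ z : G →L[ℂ] G, ‖z‖ ≤ 1 / 2 → ∀ t ∈ spectrum ℝ (star z * z), t ≤ 1 / 4 := by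
    intro z hz t ht
    have := (spectrum_star_mul_self_le ht).2
    have hn := norm_nonneg z
    nlinarith
  have spec2 : ∀ z : G →L[ℂ] G, ‖z‖ ≤ 1 / 2 → ∀ t ∈ spectrum ℝ (z * star z), t ≤ 1 / 4 := by
    intro z hz t ht
    have := (spectrum_mul_star_self_le ht).2
    have hn := norm_nonneg z
    nlinarith
  fin_cases i <;> fin_cases j
  · change ‖hal a c 0 0 ζ - star (halS b c 0 0) ζ‖ ≤ ε
    rw [hal_apply_00, halS_apply_00, star_sq]
    refine (norm_sq_sub_sq_apply_le (a * star a) (star b * b) (IsSelfAdjoint.mul_star_self a)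
      (IsSelfAdjoint.star_mul_self b) ?_ (spec2 a ha) (spec1 b hb) ζ).trans ?_
    · exact (hab'.mul_right hab).mul_left (hab2.mul_right hab1)
    · have e : (a * star a) ζ - (star b * b) ζ
          = a (star a ζ - star b ζ) + star b (a ζ - b ζ) := by
        have e1 : a (star b ζ) = star b (a ζ) := by
          have := congrArg (fun A : G →L[ℂ] G => A ζ) hab'.eq
          exact this
        rw [map_sub, map_sub, e1]
        change a (star a ζ) - star b (b ζ) = _
        abel
      rw [e]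
      calc _ ≤ ‖a (star a ζ - star b ζ)‖ + ‖star b (a ζ - b ζ)‖ := norm_add_le _ _
        _ ≤ ‖a‖ * ‖star a ζ - star b ζ‖ + ‖star b‖ * ‖a ζ - b ζ‖ :=
          add_le_add (a.le_opNorm _) ((star b).le_opNorm _)
        _ ≤ 1 / 2 * ε + 1 / 2 * ε := by gcongr
        _ = ε := by ring
  · change ‖hal a c 0 1 ζ - star (halS b c 0 1) ζ‖ ≤ ε
    rw [hal_apply_01, halS_apply_01, star_smul, star_star]
    have e : (c • a) ζ - (star (conj c) • b) ζ = c • (a ζ - b ζ) := by
      simp [smul_sub]
    rw [e, norm_smul, hc, one_mul]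
    exact h1
  · change ‖hal a c 1 0 ζ - star (halS b c 1 0) ζ‖ ≤ ε
    rw [hal_apply_10, halS_apply_10, star_neg, star_smul]
    have e : (-(conj c • star a)) ζ - (-(star c • star b)) ζ = -(conj c • (star a ζ - star b ζ)) := by
      simp [smul_sub]
      abel
    rw [e, norm_neg, norm_smul, Complex.norm_conj, hc, one_mul]
    exact h2
  · change ‖hal a c 1 1 ζ - star (halS b c 1 1) ζ‖ ≤ ε
    rw [hal_apply_11, halS_apply_11, star_sq]
    refine (norm_sq_sub_sq_apply_le (star a * a) (b * star b) (IsSelfAdjoint.star_mul_self a)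
      (IsSelfAdjoint.mul_star_self b) ?_ (spec1 a ha) (spec2 b hb) ζ).trans ?_
    · exact (hab1.mul_right hab2).mul_left (hab.mul_right hab')
    · have e : (star a * a) ζ - (b * star b) ζ
          = star a (a ζ - b ζ) + b (star a ζ - star b ζ) := by
        have e1 : star a (b ζ) = b (star a ζ) := by
          have := congrArg (fun A : G →L[ℂ] G => A ζ) hab1.eq
          exact this
        rw [map_sub, map_sub, e1]
        change star a (a ζ) - b (star b ζ) = _
        abel
      rw [e]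
      calc _ ≤ ‖star a (a ζ - b ζ)‖ + ‖b (star a ζ - star b ζ)‖ := norm_add_le _ _
        _ ≤ ‖star a‖ * ‖a ζ - b ζ‖ + ‖b‖ * ‖star a ζ - star b ζ‖ :=
          add_le_add ((star a).le_opNorm _) (b.le_opNorm _)
        _ ≤ 1 / 2 * ε + 1 / 2 * ε := by gcongr
        _ = ε := by ring

end Vector

end Crest.Agent.R078.S103.Halmos
end

-- ▼ part R078/S103Hal2_938

/-!
# R78 / S0103, HAL-2 (helper938): `LetterOut → LetterSystem`.
-/

set_option autoImplicit false

open scoped ComplexConjugate

noncomputable section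

namespace Crest.Agent.R078.S103.Hal2

open Crest.Agent.R078.S103.Halmos (hal halS star_hal hal_mul_star star_hal_mul star_halS
  commute_hal commute_halS norm_hal_sub_star_halS_le)
open Crest.Agent.R078.S103.Halmos (continuous_sqrt_one_sub)
open Crest.Agent.R078.S103.LSys

universe u

section OpM

variable {H : Type u} [NormedAddCommGroup H] [InnerProductSpace ℂ H]
variable {J : Type*} [Fintype J]

theorem opM_ext {X Y : PiLp 2 (fun _ : J => H) →L[ℂ] PiLp 2 (fun _ : J => H)}
    (h : ∀ v i, X v i = Y v i) : X = Y := by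
  ext v i
  exact h v i

theorem opM_mul (x y : Matrix J J (H →L[ℂ] H)) : opM (x * y) = opM x * opM y := by
  refine opM_ext fun v i => ?_
  change opM (x * y) v i = opM x (opM y v) i
  rw [opM_apply, opM_apply]
  simp only [Matrix.mul_apply, opM_apply, map_sum]
  have h1 : ∀ j, (∑ k, x i k * y k j) (v j) = ∑ k, x i k (y k j (v j)) := by
    intro j
    rw [_root_.sum_apply]
    rfl
  simp only [h1]
  rw [Finset.sum_comm]

theorem opM_add (x y : Matrix J J (H →L[ℂ] H)) : opM (x + y) = opM x + opM y := by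
  refine opM_ext fun v i => ?_
  change opM (x + y) v i = opM x v i + opM y v i
  rw [opM_apply, opM_apply, opM_apply, ← Finset.sum_add_distrib]
  rfl

theorem opM_smul (c : ℂ) (x : Matrix J J (H →L[ℂ] H)) : opM (c • x) = c • opM x := by
  refine opM_ext fun v i => ?_
  change opM (c • x) v i = c • opM x v i
  rw [opM_apply, opM_apply, Finset.smul_sum]
  rfl

theorem opM_zero : opM (0 : Matrix J J (H →L[ℂ] H)) = 0 := by
  refine opM_ext fun v i => ?_
  rw [opM_apply]
  simp

theorem opM_one [DecidableEq J] : opM (1 : Matrix J J (H →L[ℂ] H)) = 1 := by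
  refine opM_ext fun v i => ?_
  rw [opM_apply, Finset.sum_eq_single i]
  · simp
  · intro j _ hj
    rw [Matrix.one_apply_ne (Ne.symm hj)]
    simp
  · simp

theorem opM_star [CompleteSpace H] (x : Matrix J J (H →L[ℂ] H)) :
    opM (star x) = star (opM x) := by
  rw [ContinuousLinearMap.star_eq_adjoint, ContinuousLinearMap.eq_adjoint_iff]
  intro v w
  rw [PiLp.inner_apply, PiLp.inner_apply]
  simp only [opM_apply, sum_inner, inner_sum, Matrix.star_apply,
    ContinuousLinearMap.star_eq_adjoint, ContinuousLinearMap.adjoint_inner_left]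
  exact Finset.sum_comm

variable [DecidableEq J]

/-- coordinate injection `H → H^J`. -/
def inj (j : J) : H →L[ℂ] PiLp 2 (fun _ : J => H) :=
  (PiLp.continuousLinearEquiv 2 ℂ (fun _ : J => H)).symm.toContinuousLinearMap ∘L
    ContinuousLinearMap.single ℂ (fun _ : J => H) j

omit [Fintype J] in
theorem inj_apply [Fintype J] (j : J) (x : H) (i : J) : inj j x i = if i = j then x else 0 := by
  simp [inj, Pi.single_apply]

theorem sum_inj (v : PiLp 2 (fun _ : J => H)) : ∑ j, inj j (v j) = v := by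
  ext i
  rw [WithLp.ofLp_sum, Finset.sum_apply]
  simp only [inj_apply]
  simp

/-- matrix of an operator on `H^J`. -/
def mat (X : PiLp 2 (fun _ : J => H) →L[ℂ] PiLp 2 (fun _ : J => H)) : Matrix J J (H →L[ℂ] H) :=
  fun i j => (PiLp.proj 2 (fun _ : J => H) i) ∘L X ∘L inj j

theorem mat_apply (X : PiLp 2 (fun _ : J => H) →L[ℂ] PiLp 2 (fun _ : J => H)) (i j : J) (x : H) :
    mat X i j x = X (inj j x) i := by
  simp [mat]

theorem opM_mat (X : PiLp 2 (fun _ : J => H) →L[ℂ] PiLp 2 (fun _ : J => H)) :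
    opM (mat X) = X := by
  refine opM_ext fun v i => ?_
  rw [opM_apply]
  simp only [mat_apply]
  conv_rhs => rw [← sum_inj v, map_sum, WithLp.ofLp_sum, Finset.sum_apply]

theorem mat_opM (x : Matrix J J (H →L[ℂ] H)) : mat (opM x) = x := by
  ext i j w
  rw [mat_apply, opM_apply]
  simp only [inj_apply]
  rw [Finset.sum_eq_single j]
  · simp
  · intro k _ hk
    simp [hk]
  · simp

theorem opM_injective : Function.Injective
    (opM : Matrix J J (H →L[ℂ] H) → _) := fun x y h => by
  rw [← mat_opM x, h, mat_opM]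

theorem mat_injective : Function.Injective
    (mat : (PiLp 2 (fun _ : J => H) →L[ℂ] PiLp 2 (fun _ : J => H)) → _) := fun x y h => by
  rw [← opM_mat x, h, opM_mat]

theorem mat_mul (X Y : PiLp 2 (fun _ : J => H) →L[ℂ] PiLp 2 (fun _ : J => H)) :
    mat (X * Y) = mat X * mat Y := by
  apply opM_injective
  rw [opM_mat, opM_mul, opM_mat, opM_mat]

theorem mat_add (X Y : PiLp 2 (fun _ : J => H) →L[ℂ] PiLp 2 (fun _ : J => H)) :
    mat (X + Y) = mat X + mat Y := by
  apply opM_injective
  rw [opM_mat, opM_add, opM_mat, opM_mat]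

theorem mat_smul (c : ℂ) (X : PiLp 2 (fun _ : J => H) →L[ℂ] PiLp 2 (fun _ : J => H)) :
    mat (c • X) = c • mat X := by
  apply opM_injective
  rw [opM_mat, opM_smul, opM_mat]

theorem mat_zero : mat (0 : PiLp 2 (fun _ : J => H) →L[ℂ] PiLp 2 (fun _ : J => H)) = 0 := by
  apply opM_injective
  rw [opM_mat, opM_zero]

theorem mat_one : mat (1 : PiLp 2 (fun _ : J => H) →L[ℂ] PiLp 2 (fun _ : J => H)) = 1 := by
  apply opM_injective
  rw [opM_mat, opM_one]

theorem mat_star [CompleteSpace H] (X : PiLp 2 (fun _ : J => H) →L[ℂ] PiLp 2 (fun _ : J => H)) :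
    mat (star X) = star (mat X) := by
  apply opM_injective
  rw [opM_mat, opM_star, opM_mat]

theorem mat_sum {ι : Type*} (s : Finset ι)
    (X : ι → PiLp 2 (fun _ : J => H) →L[ℂ] PiLp 2 (fun _ : J => H)) :
    mat (∑ i ∈ s, X i) = ∑ i ∈ s, mat (X i) := by
  classical
  induction s using Finset.induction_on with
  | empty => simp [mat_zero]
  | insert a s ha ih => rw [Finset.sum_insert ha, Finset.sum_insert ha, mat_add, ih]

/-- diagonal operator. -/
def diagM (y : H →L[ℂ] H) : PiLp 2 (fun _ : J => H) →L[ℂ] PiLp 2 (fun _ : J => H) :=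
  opM (Matrix.diagonal fun _ => y)

theorem commute_diagM_iff (X : PiLp 2 (fun _ : J => H) →L[ℂ] PiLp 2 (fun _ : J => H))
    (y : H →L[ℂ] H) : Commute X (diagM y) ↔ ∀ i j, Commute (mat X i j) y := by
  constructor
  · intro h i j
    have h1 := congrArg mat h.eq
    rw [mat_mul, mat_mul, diagM, mat_opM] at h1
    have h2 := congrFun (congrFun h1 i) j
    rw [Matrix.mul_diagonal, Matrix.diagonal_mul] at h2
    exact h2
  · intro h
    apply mat_injective
    rw [mat_mul, mat_mul, diagM, mat_opM]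
    refine Matrix.ext fun i j => ?_
    rw [Matrix.mul_diagonal, Matrix.diagonal_mul]
    exact (h i j).eq

end OpM

section Legs

variable {H : Type u} [NormedAddCommGroup H] [InnerProductSpace ℂ H]
variable {I : Type*} [Fintype I] [DecidableEq I]

theorem leg1_mul (x y : Matrix I I (H →L[ℂ] H)) : leg1 (x * y) = leg1 x * leg1 y := by
  ext p q : 2
  simp only [leg1, Matrix.mul_apply]
  rw [Fintype.sum_prod_type_right]
  simp only [ite_mul, zero_mul, mul_ite, mul_zero]
  by_cases h : p.2 = q.2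
  · simp [h]
  · simp [h]

theorem leg2_mul (x y : Matrix I I (H →L[ℂ] H)) : leg2 (x * y) = leg2 x * leg2 y := by
  ext p q : 2
  simp only [leg2, Matrix.mul_apply]
  rw [Fintype.sum_prod_type]
  simp only [ite_mul, zero_mul, mul_ite, mul_zero]
  by_cases h : p.1 = q.1
  · simp [h]
  · simp [h]

omit [Fintype I] in
theorem leg1_one : leg1 (1 : Matrix I I (H →L[ℂ] H)) = 1 := by
  ext p q : 2
  simp only [leg1, Matrix.one_apply, Prod.ext_iff]
  by_cases h : p.2 = q.2 <;> simp [h]

omit [Fintype I] in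
theorem leg2_one : leg2 (1 : Matrix I I (H →L[ℂ] H)) = 1 := by
  ext p q : 2
  simp only [leg2, Matrix.one_apply, Prod.ext_iff]
  by_cases h : p.1 = q.1 <;> simp [h]

omit [Fintype I] in
theorem leg1_add (x y : Matrix I I (H →L[ℂ] H)) : leg1 (x + y) = leg1 x + leg1 y := by
  ext p q : 2
  simp only [leg1, Matrix.add_apply]
  by_cases h : p.2 = q.2 <;> simp [h]

omit [Fintype I] in
theorem leg2_add (x y : Matrix I I (H →L[ℂ] H)) : leg2 (x + y) = leg2 x + leg2 y := by
  ext p q : 2
  simp only [leg2, Matrix.add_apply]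
  by_cases h : p.1 = q.1 <;> simp [h]

omit [Fintype I] in
theorem leg1_smul (c : ℂ) (x : Matrix I I (H →L[ℂ] H)) : leg1 (c • x) = c • leg1 x := by
  ext p q : 2
  simp only [leg1, Matrix.smul_apply]
  by_cases h : p.2 = q.2 <;> simp [h]

omit [Fintype I] in
theorem leg2_smul (c : ℂ) (x : Matrix I I (H →L[ℂ] H)) : leg2 (c • x) = c • leg2 x := by
  ext p q : 2
  simp only [leg2, Matrix.smul_apply]
  by_cases h : p.1 = q.1 <;> simp [h]

omit [Fintype I] in
theorem leg1_star [CompleteSpace H] (x : Matrix I I (H →L[ℂ] H)) :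
    leg1 (star x) = star (leg1 x) := by
  ext p q : 2
  simp only [leg1, Matrix.star_apply]
  by_cases h : p.2 = q.2
  · simp [h]
  · simp [h, Ne.symm h]

omit [Fintype I] in
theorem leg2_star [CompleteSpace H] (x : Matrix I I (H →L[ℂ] H)) :
    leg2 (star x) = star (leg2 x) := by
  ext p q : 2
  simp only [leg2, Matrix.star_apply]
  by_cases h : p.1 = q.1
  · simp [h]
  · simp [h, Ne.symm h]

theorem leg1_leg2_comm (x y : Matrix I I (H →L[ℂ] H))
    (h : ∀ i j k l, Commute (x i j) (y k l)) : leg1 x * leg2 y = leg2 y * leg1 x := by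
  ext p q : 2
  rw [Matrix.mul_apply, Matrix.mul_apply]
  rw [Finset.sum_eq_single (q.1, p.2), Finset.sum_eq_single (p.1, q.2)]
  · simp [leg1, leg2, (h _ _ _ _).eq]
  · rintro ⟨a, b⟩ _ hab
    by_cases h1 : b = q.2
    · by_cases h2 : p.1 = a
      · subst h1 h2; exact absurd rfl hab
      · simp [leg1, leg2, h2]
    · simp [leg1, leg2, h1]
  · simp
  · rintro ⟨a, b⟩ _ hab
    by_cases h1 : a = q.1
    · by_cases h2 : p.2 = b
      · subst h1 h2; exact absurd rfl hab
      · simp [leg1, leg2, h2]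
    · simp [leg1, leg2, h1]
  · simp

variable [CompleteSpace H]

/-- the ampliation to leg 1, as a *-homomorphism. -/
def L1 : (PiLp 2 (fun _ : I => H) →L[ℂ] PiLp 2 (fun _ : I => H)) →⋆ₐ[ℂ]
    (PiLp 2 (fun _ : I × I => H) →L[ℂ] PiLp 2 (fun _ : I × I => H)) where
  toFun X := opM (leg1 (mat X))
  map_one' := by rw [mat_one, leg1_one, opM_one]
  map_mul' X Y := by rw [mat_mul, leg1_mul, opM_mul]
  map_zero' := by
    rw [mat_zero]
    have : leg1 (0 : Matrix I I (H →L[ℂ] H)) = 0 := by
      have := leg1_smul (0 : ℂ) (0 : Matrix I I (H →L[ℂ] H))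
      rwa [zero_smul, zero_smul] at this
    rw [this, opM_zero]
  map_add' X Y := by rw [mat_add, leg1_add, opM_add]
  commutes' c := by
    rw [Algebra.algebraMap_eq_smul_one, mat_smul, mat_one, leg1_smul, leg1_one, opM_smul, opM_one,
      Algebra.algebraMap_eq_smul_one]
  map_star' X := by rw [mat_star, leg1_star, opM_star]

/-- the ampliation to leg 2, as a *-homomorphism. -/
def L2 : (PiLp 2 (fun _ : I => H) →L[ℂ] PiLp 2 (fun _ : I => H)) →⋆ₐ[ℂ]
    (PiLp 2 (fun _ : I × I => H) →L[ℂ] PiLp 2 (fun _ : I × I => H)) where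
  toFun X := opM (leg2 (mat X))
  map_one' := by rw [mat_one, leg2_one, opM_one]
  map_mul' X Y := by rw [mat_mul, leg2_mul, opM_mul]
  map_zero' := by
    rw [mat_zero]
    have : leg2 (0 : Matrix I I (H →L[ℂ] H)) = 0 := by
      have := leg2_smul (0 : ℂ) (0 : Matrix I I (H →L[ℂ] H))
      rwa [zero_smul, zero_smul] at this
    rw [this, opM_zero]
  map_add' X Y := by rw [mat_add, leg2_add, opM_add]
  commutes' c := by
    rw [Algebra.algebraMap_eq_smul_one, mat_smul, mat_one, leg2_smul, leg2_one, opM_smul, opM_one,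
      Algebra.algebraMap_eq_smul_one]
  map_star' X := by rw [mat_star, leg2_star, opM_star]

theorem L1_apply (X : PiLp 2 (fun _ : I => H) →L[ℂ] PiLp 2 (fun _ : I => H)) :
    L1 (H := H) (I := I) X = opM (leg1 (mat X)) := rfl

theorem L2_apply (X : PiLp 2 (fun _ : I => H) →L[ℂ] PiLp 2 (fun _ : I => H)) :
    L2 (H := H) (I := I) X = opM (leg2 (mat X)) := rfl

/-- *-homomorphisms between C*-algebras commute with `hal`. -/
theorem map_hal {B C : Type*} [CStarAlgebra B] [CStarAlgebra C] (φ : B →⋆ₐ[ℂ] C) (a : B) (c : ℂ)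
    (i j : Fin 2) : φ (hal a c i j) = hal (φ a) c i j := by
  have hφ : Continuous φ :=
    AddMonoidHomClass.continuous_of_bound φ 1
      (by simpa only [one_mul] using NonUnitalStarAlgHom.norm_apply_le φ)
  have key : ∀ x : B, IsSelfAdjoint x → φ (Halmos.sq x) = Halmos.sq (φ x) := by
    intro x hx
    unfold Halmos.sq
    exact StarAlgHomClass.map_cfc φ (fun t : ℝ => Real.sqrt (1 - t)) x
      continuous_sqrt_one_sub.continuousOn hφ hx (hx.map φ)
  fin_cases i <;> fin_cases j
  · change φ (Halmos.sq (a * star a)) = Halmos.sq (φ a * star (φ a))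
    rw [key _ (IsSelfAdjoint.mul_star_self a), map_mul, map_star]
  · change φ (c • a) = c • φ a
    rw [map_smul]
  · change φ (-(conj c • star a)) = -(conj c • star (φ a))
    rw [map_neg, map_smul, map_star]
  · change φ (Halmos.sq (star a * a)) = Halmos.sq (star (φ a) * φ a)
    rw [key _ (IsSelfAdjoint.star_mul_self a), map_mul, map_star]

end Legs

section FromHal

variable {H : Type u} [NormedAddCommGroup H] [InnerProductSpace ℂ H] [CompleteSpace H]
variable {n : ℕ}

/-- a `2 × 2` matrix over `B(H^n)` as a matrix over `B(H)` indexed by `Fin n × Fin 2`. -/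
def fH (h : Matrix (Fin 2) (Fin 2)
    (PiLp 2 (fun _ : Fin n => H) →L[ℂ] PiLp 2 (fun _ : Fin n => H))) :
    Matrix (Fin n × Fin 2) (Fin n × Fin 2) (H →L[ℂ] H) :=
  fun p q => mat (h p.2 q.2) p.1 q.1

theorem fH_mul (h g : Matrix (Fin 2) (Fin 2)
    (PiLp 2 (fun _ : Fin n => H) →L[ℂ] PiLp 2 (fun _ : Fin n => H))) :
    fH (h * g) = fH h * fH g := by
  refine Matrix.ext fun p q => ?_
  change mat ((h * g) p.2 q.2) p.1 q.1 = _
  rw [Matrix.mul_apply, Matrix.mul_apply, mat_sum, Fintype.sum_prod_type_right, Matrix.sum_apply]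
  refine Finset.sum_congr rfl fun s _ => ?_
  rw [mat_mul, Matrix.mul_apply]
  rfl

theorem fH_one : fH (1 : Matrix (Fin 2) (Fin 2)
    (PiLp 2 (fun _ : Fin n => H) →L[ℂ] PiLp 2 (fun _ : Fin n => H))) = 1 := by
  refine Matrix.ext fun p q => ?_
  change mat ((1 : Matrix (Fin 2) (Fin 2) _) p.2 q.2) p.1 q.1 = _
  obtain ⟨i, s⟩ := p
  obtain ⟨j, t⟩ := q
  rw [Matrix.one_apply, Matrix.one_apply]
  by_cases h : s = t
  · subst h
    simp [mat_one, Matrix.one_apply]
  · simp [h, mat_zero]

theorem fH_star (h : Matrix (Fin 2) (Fin 2)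
    (PiLp 2 (fun _ : Fin n => H) →L[ℂ] PiLp 2 (fun _ : Fin n => H))) :
    fH (star h) = star (fH h) := by
  refine Matrix.ext fun p q => ?_
  change mat (star (h q.2 p.2)) p.1 q.1 = star (mat (h q.2 p.2) q.1 p.1)
  rw [mat_star, Matrix.star_apply]

end FromHal

section Vec

variable {H : Type u} [NormedAddCommGroup H] [InnerProductSpace ℂ H]
variable {I : Type*} [Fintype I] [DecidableEq I]

/-- diagonal coefficient vector. -/
def zd (f : I → ℂ) : I × I → ℂ := fun p => if p.1 = p.2 then f p.1 else 0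

theorem leg1_zd (x : Matrix I I (H →L[ℂ] H)) (ξ : H) (f : I → ℂ) (p : I × I) :
    opM (leg1 x) (tv ξ (zd f)) p = f p.2 • x p.1 p.2 ξ := by
  rw [opM_apply, Finset.sum_eq_single (p.2, p.2)]
  · simp [leg1, zd]
  · rintro ⟨a, b⟩ _ hab
    by_cases h1 : p.2 = b
    · by_cases h2 : a = b
      · subst h1 h2; exact absurd rfl hab
      · simp [zd, h2]
    · simp [leg1, h1]
  · simp

theorem leg2_zd (x : Matrix I I (H →L[ℂ] H)) (ξ : H) (f : I → ℂ) (p : I × I) :
    opM (leg2 x) (tv ξ (zd f)) p = f p.1 • x p.2 p.1 ξ := by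
  rw [opM_apply, Finset.sum_eq_single (p.1, p.1)]
  · simp [leg2, zd]
  · rintro ⟨a, b⟩ _ hab
    by_cases h1 : p.1 = a
    · by_cases h2 : a = b
      · subst h1 h2; exact absurd rfl hab
      · simp [zd, h2]
    · simp [leg2, h1]
  · simp

end Vec

section Mem

variable {H : Type u} [NormedAddCommGroup H] [InnerProductSpace ℂ H] [CompleteSpace H]

theorem mem_of_commute (M : VonNeumannAlgebra H) (x : H →L[ℂ] H)
    (h : ∀ y ∈ M.commutant, Commute x y) : x ∈ M := by
  rw [← M.commutant_commutant, VonNeumannAlgebra.mem_commutant_iff]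
  intro g hg
  exact (h g hg).eq.symm

theorem mem_commutant_of_commute (M : VonNeumannAlgebra H) (x : H →L[ℂ] H)
    (h : ∀ y ∈ M, Commute x y) : x ∈ M.commutant := by
  rw [VonNeumannAlgebra.mem_commutant_iff]
  intro g hg
  exact (h g hg).eq.symm

theorem commute_of_mem (M : VonNeumannAlgebra H) {x y : H →L[ℂ] H} (hx : x ∈ M)
    (hy : y ∈ M.commutant) : Commute x y := by
  rw [VonNeumannAlgebra.mem_commutant_iff] at hy
  exact hy x hx

end Mem

end Crest.Agent.R078.S103.Hal2
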