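import Mathlib

/-!
Row 78, S0103, tensor bookkeeping: frames `V : J → (H →L[ℂ] G)` (so `G = H ⊗ ℓ²(J)`), the amplified
von Neumann algebra `alg V M = M ⊗ B(ℓ² J₁) ⊗ 1_{J₂}` for a frame over `J₁ × J₂`, its commutant, and
the notion of stable closeness `SC`.
-/

set_option autoImplicit false
set_option linter.unusedSectionVars false
set_option linter.deprecated false
set_option linter.unusedSimpArgs false

namespace Crest.Agent.R078.Z.TB

open ContinuousLinearMap

universe u

section Frame

variable {H G : Type*} [NormedAddCommGroup H] [InnerProductSpace ℂ H] [CompleteSpace H]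
  [NormedAddCommGroup G] [InnerProductSpace ℂ G] [CompleteSpace G]

/-- a frame: `G = H ⊗ ℓ²(J)` via `V j = · ⊗ e_j` -/
structure IsFrame {J : Type*} [Fintype J] [DecidableEq J] (V : J → H →L[ℂ] G) : Prop where
  orth : ∀ i j, (adjoint (V i)) ∘L V j = if i = j then ContinuousLinearMap.id ℂ H else 0
  compl : ∑ i, V i ∘L adjoint (V i) = ContinuousLinearMap.id ℂ G

variable {J : Type*} [Fintype J] [DecidableEq J] {V : J → H →L[ℂ] G}

theorem IsFrame.orth_apply (hV : IsFrame V) (i j : J) (x : H) :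
    adjoint (V i) (V j x) = if i = j then x else 0 := by
  have h := congrArg (fun T : H →L[ℂ] H => T x) (hV.orth i j)
  simp only [ContinuousLinearMap.comp_apply] at h
  rw [h]
  split_ifs <;> simp

theorem IsFrame.orth_self (hV : IsFrame V) (i : J) (x : H) : adjoint (V i) (V i x) = x := by
  rw [hV.orth_apply, if_pos rfl]

theorem IsFrame.orth_ne (hV : IsFrame V) {i j : J} (h : i ≠ j) (x : H) :
    adjoint (V i) (V j x) = 0 := by
  rw [hV.orth_apply, if_neg h]

theorem IsFrame.sum_apply (hV : IsFrame V) (x : G) : ∑ i, V i (adjoint (V i) x) = x := by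
  have h := congrArg (fun T : G →L[ℂ] G => T x) hV.compl
  simpa [ContinuousLinearMap.sum_apply] using h

/-- the entries of an operator -/
noncomputable def ent (V : J → H →L[ℂ] G) (X : G →L[ℂ] G) (i j : J) : H →L[ℂ] H :=
  adjoint (V i) ∘L X ∘L V j

theorem ent_apply (X : G →L[ℂ] G) (i j : J) (x : H) :
    ent V X i j x = adjoint (V i) (X (V j x)) := rfl

/-- the operator with given matrix -/
noncomputable def opM (V : J → H →L[ℂ] G) (t : J → J → H →L[ℂ] H) : G →L[ℂ] G :=
  ∑ i, ∑ j, V i ∘L t i j ∘L adjoint (V j)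

theorem opM_apply (t : J → J → H →L[ℂ] H) (x : G) :
    opM V t x = ∑ i, ∑ j, V i (t i j (adjoint (V j) x)) := by
  simp [opM, ContinuousLinearMap.sum_apply]

theorem adj_opM_apply (hV : IsFrame V) (t : J → J → H →L[ℂ] H) (i : J) (x : G) :
    adjoint (V i) (opM V t x) = ∑ j, t i j (adjoint (V j) x) := by
  rw [opM_apply, map_sum, Finset.sum_eq_single i]
  · rw [map_sum]
    exact Finset.sum_congr rfl fun j _ => hV.orth_self _ _
  · intro k _ hk
    rw [map_sum]
    exact Finset.sum_eq_zero fun j _ => hV.orth_ne hk.symm _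
  · simp

theorem opM_V_apply (hV : IsFrame V) (t : J → J → H →L[ℂ] H) (j : J) (x : H) :
    opM V t (V j x) = ∑ i, V i (t i j x) := by
  rw [opM_apply]
  refine Finset.sum_congr rfl fun i _ => ?_
  rw [Finset.sum_eq_single j]
  · rw [hV.orth_self]
  · intro k _ hk
    rw [hV.orth_ne hk, map_zero, map_zero]
  · simp

theorem ent_opM (hV : IsFrame V) (t : J → J → H →L[ℂ] H) : ent V (opM V t) = t := by
  funext i j
  ext x
  rw [ent_apply, adj_opM_apply hV, Finset.sum_eq_single j]
  · rw [hV.orth_self]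
  · intro k _ hk
    rw [hV.orth_ne hk, map_zero]
  · simp

theorem opM_ent (hV : IsFrame V) (X : G →L[ℂ] G) : opM V (ent V X) = X := by
  ext x
  rw [opM_apply]
  simp only [ent_apply]
  conv_rhs => rw [← hV.sum_apply x, map_sum]
  rw [Finset.sum_comm]
  refine Finset.sum_congr rfl fun j _ => ?_
  exact hV.sum_apply _

theorem ext_ent (hV : IsFrame V) {X Y : G →L[ℂ] G} (h : ∀ i j, ent V X i j = ent V Y i j) :
    X = Y := by
  rw [← opM_ent hV X, ← opM_ent hV Y]
  congr 1
  funext i j
  exact h i j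

theorem ent_mul (hV : IsFrame V) (X Y : G →L[ℂ] G) (i j : J) :
    ent V (X * Y) i j = ∑ k, ent V X i k * ent V Y k j := by
  ext x
  simp only [ent_apply, ContinuousLinearMap.sum_apply, ContinuousLinearMap.mul_apply]
  conv_lhs => rw [← hV.sum_apply (Y (V j x)), map_sum, map_sum]

theorem ent_star (X : G →L[ℂ] G) (i j : J) : ent V (star X) i j = star (ent V X j i) := by
  rw [star_eq_adjoint, star_eq_adjoint, ent, ent, adjoint_comp, adjoint_comp, adjoint_adjoint]
  rfl


theorem ent_sub (X Y : G →L[ℂ] G) (i j : J) : ent V (X - Y) i j = ent V X i j - ent V Y i j := by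
  ext x
  simp [ent_apply]


theorem ent_zero (i j : J) : ent V (0 : G →L[ℂ] G) i j = 0 := by
  ext x
  simp [ent_apply]

theorem ent_one (hV : IsFrame V) (i j : J) : ent V (1 : G →L[ℂ] G) i j = if i = j then 1 else 0 := by
  ext x
  rw [ent_apply, ContinuousLinearMap.one_apply, hV.orth_apply]
  split_ifs <;> simp

end Frame

section Alg

variable {H G : Type*} [NormedAddCommGroup H] [InnerProductSpace ℂ H] [CompleteSpace H]
  [NormedAddCommGroup G] [InnerProductSpace ℂ G] [CompleteSpace G]
  {J₁ J₂ : Type*} [Fintype J₁] [DecidableEq J₁] [Fintype J₂] [DecidableEq J₂]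
  {V : J₁ × J₂ → H →L[ℂ] G}

/-- the operator `x ⊗ 1` for a matrix `x` over `J₁` with operator entries -/
noncomputable def lft (V : J₁ × J₂ → H →L[ℂ] G) (x : J₁ → J₁ → H →L[ℂ] H) : G →L[ℂ] G :=
  opM V (fun p q => if p.2 = q.2 then x p.1 q.1 else 0)

theorem ent_lft (hV : IsFrame V) (x : J₁ → J₁ → H →L[ℂ] H) (p q : J₁ × J₂) :
    ent V (lft V x) p q = if p.2 = q.2 then x p.1 q.1 else 0 := by
  rw [lft, ent_opM hV]

theorem lft_V (hV : IsFrame V) (x : J₁ → J₁ → H →L[ℂ] H) (a : J₁) (b : J₂) (h : H) :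
    lft V x (V (a, b) h) = ∑ a', V (a', b) (x a' a h) := by
  rw [lft, opM_V_apply hV, Fintype.sum_prod_type]
  refine Finset.sum_congr rfl fun a' _ => ?_
  rw [Finset.sum_eq_single b]
  · simp
  · intro c _ hc
    simp [hc]
  · simp

theorem adj_lft (hV : IsFrame V) (x : J₁ → J₁ → H →L[ℂ] H) (a : J₁) (b : J₂) (g : G) :
    adjoint (V (a, b)) (lft V x g) = ∑ a', x a a' (adjoint (V (a', b)) g) := by
  rw [lft, adj_opM_apply hV, Fintype.sum_prod_type]
  refine Finset.sum_congr rfl fun a' _ => ?_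
  rw [Finset.sum_eq_single b]
  · simp
  · intro c _ hc
    simp [Ne.symm hc]
  · simp

/-- membership in `M ⊗ B(ℓ² J₁) ⊗ 1` -/
def MemAlg (V : J₁ × J₂ → H →L[ℂ] G) (M : VonNeumannAlgebra H) (X : G →L[ℂ] G) : Prop :=
  ∃ x : J₁ → J₁ → H →L[ℂ] H, (∀ a a', x a a' ∈ M) ∧ X = lft V x

theorem lft_mul (hV : IsFrame V) (x y : J₁ → J₁ → H →L[ℂ] H) :
    lft V x * lft V y = lft V (fun a b => ∑ c, x a c * y c b) := by
  refine ext_ent hV fun p q => ?_
  rw [ent_mul hV]
  simp only [ent_lft hV]
  rw [Fintype.sum_prod_type]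
  split_ifs with h
  · refine Finset.sum_congr rfl fun a _ => ?_
    rw [Finset.sum_eq_single p.2]
    · simp [h]
    · intro c _ hc
      simp [Ne.symm hc]
    · simp
  · refine Finset.sum_eq_zero fun a _ => Finset.sum_eq_zero fun c _ => ?_
    by_cases h1 : p.2 = c
    · have h2 : c ≠ q.2 := fun e => h (h1.trans e)
      simp [h2]
    · simp [h1]

theorem lft_star (hV : IsFrame V) (x : J₁ → J₁ → H →L[ℂ] H) :
    star (lft V x) = lft V (fun a b => star (x b a)) := by
  refine ext_ent hV fun p q => ?_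
  rw [ent_star, ent_lft hV, ent_lft hV]
  by_cases h : p.2 = q.2
  · rw [if_pos h, if_pos h.symm]
  · rw [if_neg h, if_neg (Ne.symm h), star_zero]


theorem lft_sub (hV : IsFrame V) (x y : J₁ → J₁ → H →L[ℂ] H) :
    lft V x - lft V y = lft V (fun a b => x a b - y a b) := by
  refine ext_ent hV fun p q => ?_
  rw [ent_sub, ent_lft hV, ent_lft hV, ent_lft hV]
  split_ifs <;> simp


theorem lft_one (hV : IsFrame V) :
    lft V (fun a b => if a = b then (1 : H →L[ℂ] H) else 0) = 1 := by
  refine ext_ent hV fun p q => ?_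
  rw [ent_one hV, ent_lft hV]
  by_cases h : p = q
  · subst h; simp
  · rw [if_neg h]
    by_cases h2 : p.2 = q.2
    · have h1 : p.1 ≠ q.1 := fun e => h (Prod.ext e h2)
      simp [h1]
    · simp [h2]

/-- the frame with the two indices exchanged -/
def swapF (V : J₁ × J₂ → H →L[ℂ] G) : J₂ × J₁ → H →L[ℂ] G := fun p => V (p.2, p.1)

theorem swapF_isFrame (hV : IsFrame V) : IsFrame (swapF V) where
  orth := by
    intro p q
    rw [swapF, swapF, hV.orth]
    by_cases h : p = q
    · subst h; simp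
    · have : (p.2, p.1) ≠ (q.2, q.1) := by
        intro e
        simp only [Prod.mk.injEq] at e
        exact h (Prod.ext e.2 e.1)
      rw [if_neg h, if_neg this]
  compl := by
    rw [← hV.compl]
    exact Fintype.sum_equiv (Equiv.prodComm J₂ J₁) _ _ (fun p => rfl)

theorem swapF_swapF : swapF (swapF V) = V := rfl

theorem lft_comm_lft_swap (hV : IsFrame V) (x : J₁ → J₁ → H →L[ℂ] H) (y : J₂ → J₂ → H →L[ℂ] H)
    (h : ∀ a a' b b', x a a' * y b b' = y b b' * x a a') :
    lft V x * lft (swapF V) y = lft (swapF V) y * lft V x := by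
  have hS := swapF_isFrame hV
  ext g
  refine (ContinuousLinearMap.ext_iff.1 (?_ : lft V x * lft (swapF V) y = _) g)
  refine ext_ent hV fun p q => ?_
  obtain ⟨a, b⟩ := p
  obtain ⟨a', b'⟩ := q
  ext v
  rw [ent_apply, ent_apply, ContinuousLinearMap.mul_apply, ContinuousLinearMap.mul_apply,
    adj_lft hV]
  have e1 : ∀ c, adjoint (V (c, b)) (lft (swapF V) y (V (a', b') v))
      = if c = a' then y b b' v else 0 := by
    intro c
    have := adj_lft hS y b c (V (a', b') v)
    change adjoint (V (c, b)) (lft (swapF V) y (V (a', b') v)) = _ at this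
    rw [this, Finset.sum_eq_single b']
    · change y b b' (adjoint (V (c, b')) (V (a', b') v)) = _
      rw [hV.orth_apply]
      by_cases hc : c = a'
      · subst hc; simp
      · simp [hc]
    · intro c' _ hc'
      change y b c' (adjoint (V (c, c')) (V (a', b') v)) = _
      rw [hV.orth_ne (by simp [hc']), map_zero]
    · simp
  have e2 : ∀ c, adjoint (V (a, c)) (lft V x (V (a', b') v))
      = if c = b' then x a a' v else 0 := by
    intro c
    rw [adj_lft hV, Finset.sum_eq_single a']
    · rw [hV.orth_apply]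
      by_cases hc : c = b'
      · subst hc; simp
      · simp [hc]
    · intro c' _ hc'
      rw [hV.orth_ne (by simp [hc']), map_zero]
    · simp
  have e3 := adj_lft hS y b a (lft V x (V (a', b') v))
  change adjoint (V (a, b)) (lft (swapF V) y (lft V x (V (a', b') v))) = _ at e3
  rw [e3]
  change _ = ∑ c, y b c (adjoint (V (a, c)) (lft V x (V (a', b') v)))
  simp only [e1, e2]
  rw [Finset.sum_eq_single a', Finset.sum_eq_single b']
  · simp only [if_true]
    have := congrArg (fun T : H →L[ℂ] H => T v) (h a a' b b')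
    simpa using this
  · intro c _ hc
    simp [hc]
  · simp
  · intro c _ hc
    simp [hc]
  · simp

/-- key computation: commuting with `M' ⊗ B(ℓ² J₂)` forces the form `x ⊗ 1` -/
theorem memAlg_of_comm (hV : IsFrame V) (M : VonNeumannAlgebra H) (X : G →L[ℂ] G)
    (hX : ∀ Y, MemAlg (swapF V) M.commutant Y → Y * X = X * Y) : MemAlg V M X := by
  have hS := swapF_isFrame hV
  have entS : ∀ (y : J₂ → J₂ → H →L[ℂ] H) (a a' : J₁) (c c' : J₂),
      ent V (lft (swapF V) y) (a, c) (a', c') = if a = a' then y c c' else 0 := by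
    intro y a a' c c'
    exact ent_lft hS y (c, a) (c', a')
  have key : ∀ (m : H →L[ℂ] H), m ∈ M.commutant → ∀ (a a' : J₁) (c c' b b' : J₂),
      (if c' = b' then ent V X (a, c) (a', b) * m else 0) =
        if c = b then m * ent V X (a, b') (a', c') else 0 := by
    intro m hm a a' c c' b b'
    set y : J₂ → J₂ → H →L[ℂ] H := fun e e' => if e = b ∧ e' = b' then m else 0 with hy
    have hmem : MemAlg (swapF V) M.commutant (lft (swapF V) y) := by
      refine ⟨y, fun e e' => ?_, rfl⟩
      simp only [hy]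
      split_ifs
      · exact hm
      · exact zero_mem _
    have hc := hX _ hmem
    have h1 := congrArg (fun T => ent V T (a, c) (a', c')) hc
    simp only [ent_mul hV] at h1
    rw [Fintype.sum_prod_type, Fintype.sum_prod_type] at h1
    simp only [entS] at h1
    have hl : ∑ x : J₁, ∑ x_1 : J₂, (if a = x then y c x_1 else 0) * ent V X (x, x_1) (a', c')
        = if c = b then m * ent V X (a, b') (a', c') else 0 := by
      rw [Finset.sum_eq_single a]
      · rw [Finset.sum_eq_single b']
        · by_cases hcb : c = b <;> simp [hy, hcb]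
        · intro e _ he
          simp [hy, he]
        · simp
      · intro e _ he
        simp [Ne.symm he]
      · simp
    have hr : ∑ x : J₁, ∑ x_1 : J₂, ent V X (a, c) (x, x_1) * (if x = a' then y x_1 c' else 0)
        = if c' = b' then ent V X (a, c) (a', b) * m else 0 := by
      rw [Finset.sum_eq_single a']
      · rw [Finset.sum_eq_single b]
        · by_cases hcb : c' = b' <;> simp [hy, hcb]
        · intro e _ he
          simp [hy, he]
        · simp
      · intro e _ he
        simp [he]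
      · simp
    rw [hl, hr] at h1
    exact h1.symm
  rcases isEmpty_or_nonempty J₂ with hE | ⟨⟨b0⟩⟩
  · refine ⟨fun _ _ => 0, fun _ _ => zero_mem _, ?_⟩
    refine ext_ent hV fun p _ => ?_
    exact (hE.false p.2).elim
  · refine ⟨fun a a' => ent V X (a, b0) (a', b0), fun a a' => ?_, ?_⟩
    · rw [← VonNeumannAlgebra.commutant_commutant M, VonNeumannAlgebra.mem_commutant_iff]
      intro m hm
      have := key m hm a a' b0 b0 b0 b0
      simp only [if_true] at this
      exact this.symm
    · refine ext_ent hV fun p q => ?_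
      obtain ⟨a, c⟩ := p
      obtain ⟨a', c'⟩ := q
      rw [ent_lft hV]
      by_cases hcc : c = c'
      · subst hcc
        have := key 1 (one_mem _) a a' c b0 c b0
        simp only [if_true, mul_one, one_mul] at this
        simp [this]
      · have := key 1 (one_mem _) a a' c c' c' c'
        simp only [if_true, mul_one, if_neg hcc] at this
        simp [hcc, this]

theorem comm_of_memAlg (hV : IsFrame V) (M : VonNeumannAlgebra H) (X Y : G →L[ℂ] G)
    (hX : MemAlg V M X) (hY : MemAlg (swapF V) M.commutant Y) : Y * X = X * Y := by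
  obtain ⟨x, hx, rfl⟩ := hX
  obtain ⟨y, hy, rfl⟩ := hY
  refine (lft_comm_lft_swap hV x y fun a a' b b' => ?_).symm
  exact (VonNeumannAlgebra.mem_commutant_iff.1 (hy b b')) _ (hx a a')

/-- `M ⊗ B(ℓ² J₁) ⊗ 1_{J₂}` as a von Neumann algebra on `G` -/
noncomputable def alg (V : J₁ × J₂ → H →L[ℂ] G) (M : VonNeumannAlgebra H) :
    VonNeumannAlgebra G where
  toStarSubalgebra := StarSubalgebra.centralizer ℂ {Y | MemAlg (swapF V) M.commutant Y}
  centralizer_centralizer' := by simp

theorem memAlg_star (hV : IsFrame V) {M : VonNeumannAlgebra H} {X : G →L[ℂ] G}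
    (hX : MemAlg V M X) : MemAlg V M (star X) := by
  obtain ⟨x, hx, rfl⟩ := hX
  rw [lft_star hV]
  exact ⟨_, fun a a' => star_mem (hx a' a), rfl⟩

theorem mem_alg_iff (hV : IsFrame V) {M : VonNeumannAlgebra H} {X : G →L[ℂ] G} :
    X ∈ alg V M ↔ MemAlg V M X := by
  have h0 : X ∈ alg V M ↔ X ∈ Set.centralizer
      ({Y | MemAlg (swapF V) M.commutant Y} ∪ star {Y | MemAlg (swapF V) M.commutant Y}) :=
    Iff.rfl
  rw [h0]
  constructor
  · intro h
    refine memAlg_of_comm hV M X fun Y hY => ?_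
    exact h Y (Or.inl hY)
  · intro h Y hY
    rcases hY with hY | hY
    · exact comm_of_memAlg hV M X Y h hY
    · have hY' : MemAlg (swapF V) M.commutant (star Y) := hY
      have := memAlg_star (swapF_isFrame hV) hY'
      rw [star_star] at this
      exact comm_of_memAlg hV M X Y h this

theorem lft_mem_alg (hV : IsFrame V) {M : VonNeumannAlgebra H} {x : J₁ → J₁ → H →L[ℂ] H}
    (hx : ∀ a a', x a a' ∈ M) : lft V x ∈ alg V M := (mem_alg_iff hV).2 ⟨x, hx, rfl⟩

/-- the commutant of `M ⊗ B(ℓ² J₁) ⊗ 1` is `M' ⊗ 1 ⊗ B(ℓ² J₂)` -/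
theorem commutant_alg (hV : IsFrame V) (M : VonNeumannAlgebra H) :
    (alg V M).commutant = alg (swapF V) M.commutant := by
  refine VonNeumannAlgebra.ext fun X => ?_
  rw [mem_alg_iff (swapF_isFrame hV), VonNeumannAlgebra.mem_commutant_iff]
  constructor
  · intro h
    refine memAlg_of_comm (swapF_isFrame hV) M.commutant X fun Y hY => ?_
    rw [swapF_swapF, VonNeumannAlgebra.commutant_commutant] at hY
    exact h Y ((mem_alg_iff hV).2 hY)
  · intro h Y hY
    rw [mem_alg_iff hV] at hY
    exact (comm_of_memAlg hV M Y X hY h).symm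

end Alg

section SCdef

/-- the unit balls are `δ`-close (both directions, attained with elements of norm `≤ 1`) -/
def BallClose {G : Type*} [NormedAddCommGroup G] [InnerProductSpace ℂ G] [CompleteSpace G]
    (δ : ℝ) (M N : VonNeumannAlgebra G) : Prop :=
  (∀ x ∈ M, ‖x‖ ≤ 1 → ∃ y ∈ N, ‖y‖ ≤ 1 ∧ ‖x - y‖ ≤ δ) ∧
  (∀ y ∈ N, ‖y‖ ≤ 1 → ∃ x ∈ M, ‖x‖ ≤ 1 ∧ ‖y - x‖ ≤ δ)

/-- STABLE CLOSENESS: all amplifications of `M, N` and of `M', N'` are `δ`-close -/
def SC {H : Type u} [NormedAddCommGroup H] [InnerProductSpace ℂ H] [CompleteSpace H]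
    (δ : ℝ) (M N : VonNeumannAlgebra H) : Prop :=
  ∀ (G : Type u) [NormedAddCommGroup G] [InnerProductSpace ℂ G] [CompleteSpace G]
    (J₁ J₂ : Type) [Fintype J₁] [DecidableEq J₁] [Fintype J₂] [DecidableEq J₂]
    (V : J₁ × J₂ → H →L[ℂ] G), IsFrame V →
      BallClose δ (alg V M) (alg V N) ∧ BallClose δ (alg V M.commutant) (alg V N.commutant)

end SCdef

section Comp

variable {H G K : Type*} [NormedAddCommGroup H] [InnerProductSpace ℂ H] [CompleteSpace H]
  [NormedAddCommGroup G] [InnerProductSpace ℂ G] [CompleteSpace G]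
  [NormedAddCommGroup K] [InnerProductSpace ℂ K] [CompleteSpace K]
  {J₁ J₂ : Type*} [Fintype J₁] [DecidableEq J₁] [Fintype J₂] [DecidableEq J₂]
  {K₁ K₂ : Type*} [Fintype K₁] [DecidableEq K₁] [Fintype K₂] [DecidableEq K₂]
  {V : J₁ × J₂ → H →L[ℂ] G} {W : K₁ × K₂ → G →L[ℂ] K}

/-- composition of frames -/
noncomputable def compF (W : K₁ × K₂ → G →L[ℂ] K) (V : J₁ × J₂ → H →L[ℂ] G) :
    (K₁ × J₁) × (K₂ × J₂) → H →L[ℂ] K :=
  fun p => W (p.1.1, p.2.1) ∘L V (p.1.2, p.2.2)

theorem compF_isFrame (hW : IsFrame W) (hV : IsFrame V) : IsFrame (compF W V) where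
  orth := by
    rintro ⟨⟨k, a⟩, ⟨l, b⟩⟩ ⟨⟨k', a'⟩, ⟨l', b'⟩⟩
    ext x
    simp only [compF, adjoint_comp, ContinuousLinearMap.comp_apply]
    rw [hW.orth_apply]
    by_cases h : (k, l) = (k', l')
    · rw [if_pos h, hV.orth_apply]
      simp only [Prod.mk.injEq] at h
      obtain ⟨rfl, rfl⟩ := h
      by_cases h2 : (a, b) = (a', b')
      · simp only [Prod.mk.injEq] at h2
        obtain ⟨rfl, rfl⟩ := h2
        simp
      · rw [if_neg h2]
        have : ¬ ((k, a), l, b) = ((k, a'), l, b') := by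
          intro e
          simp only [Prod.mk.injEq, true_and] at e
          exact h2 (Prod.ext e.1 e.2)
        rw [if_neg this]
        rfl
    · rw [if_neg h, map_zero]
      have : ¬ ((k, a), l, b) = ((k', a'), l', b') := by
        intro e
        simp only [Prod.mk.injEq] at e
        exact h (Prod.ext e.1.1 e.2.1)
      rw [if_neg this]
      rfl
  compl := by
    ext x
    simp only [compF, adjoint_comp, sum_apply, ContinuousLinearMap.comp_apply,
      ContinuousLinearMap.id_apply]
    have h1 : ∀ (k : K₁) (l : K₂), ∑ a : J₁, ∑ b : J₂,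
        W (k, l) (V (a, b) (adjoint (V (a, b)) (adjoint (W (k, l)) x)))
        = W (k, l) (adjoint (W (k, l)) x) := by
      intro k l
      conv_rhs => rw [← hV.sum_apply (adjoint (W (k, l)) x), Fintype.sum_prod_type, map_sum]
      exact Finset.sum_congr rfl fun a _ => (map_sum _ _ _).symm
    have h2 : ∀ p : (K₁ × J₁) × (K₂ × J₂), W (p.1.1, p.2.1) (V (p.1.2, p.2.2)
        (adjoint (V (p.1.2, p.2.2)) (adjoint (W (p.1.1, p.2.1)) x))) =
        W (p.1.1, p.2.1) (V (p.1.2, p.2.2)
        (adjoint (V (p.1.2, p.2.2)) (adjoint (W (p.1.1, p.2.1)) x))) := fun _ => rfl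
    rw [Fintype.sum_prod_type, Fintype.sum_prod_type]
    simp only [Fintype.sum_prod_type]
    conv_rhs => rw [← hW.sum_apply x, Fintype.sum_prod_type]
    refine Finset.sum_congr rfl fun k _ => ?_
    rw [Finset.sum_comm]
    refine Finset.sum_congr rfl fun l _ => ?_
    exact h1 k l

theorem ent_compF (X : K →L[ℂ] K) (p q : (K₁ × J₁) × (K₂ × J₂)) :
    ent (compF W V) X p q = ent V (ent W X (p.1.1, p.2.1) (q.1.1, q.2.1))
      (p.1.2, p.2.2) (q.1.2, q.2.2) := by
  ext x
  simp only [ent_apply, compF, adjoint_comp, ContinuousLinearMap.comp_apply]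

theorem lft_lft (hW : IsFrame W) (hV : IsFrame V)
    (x : K₁ → K₁ → J₁ → J₁ → H →L[ℂ] H) :
    lft W (fun k k' => lft V (x k k')) =
      lft (compF W V) (fun p q : K₁ × J₁ => x p.1 q.1 p.2 q.2) := by
  refine ext_ent (compF_isFrame hW hV) fun p q => ?_
  rw [ent_compF, ent_lft (compF_isFrame hW hV), ent_lft hW]
  by_cases h : p.2.1 = q.2.1
  · simp only [h, if_true]
    rw [ent_lft hV]
    by_cases h2 : p.2.2 = q.2.2
    · have : p.2 = q.2 := Prod.ext h h2
      simp [h2, this]
    · have : p.2 ≠ q.2 := fun e => h2 (by rw [e])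
      simp [h2, this]
  · have : p.2 ≠ q.2 := fun e => h (by rw [e])
    simp only [h, if_false, this]
    rw [ent_zero]

theorem alg_alg (hW : IsFrame W) (hV : IsFrame V) (M : VonNeumannAlgebra H) :
    alg W (alg V M) = alg (compF W V) M := by
  refine VonNeumannAlgebra.ext fun X => ?_
  rw [mem_alg_iff hW, mem_alg_iff (compF_isFrame hW hV)]
  constructor
  · rintro ⟨z, hz, rfl⟩
    have hz' : ∀ k k', ∃ x : J₁ → J₁ → H →L[ℂ] H, (∀ a a', x a a' ∈ M) ∧ z k k' = lft V x :=
      fun k k' => (mem_alg_iff hV).1 (hz k k')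
    choose x hx hzx using hz'
    refine ⟨fun p q => x p.1 q.1 p.2 q.2, fun p q => hx _ _ _ _, ?_⟩
    rw [← lft_lft hW hV]
    congr 1
    funext k k'
    exact hzx k k'
  · rintro ⟨x, hx, rfl⟩
    refine ⟨fun k k' => lft V (fun a a' => x (k, a) (k', a')), fun k k' =>
      lft_mem_alg hV fun a a' => hx _ _, ?_⟩
    rw [lft_lft hW hV]

end Comp

section SCamp

variable {H : Type u} [NormedAddCommGroup H] [InnerProductSpace ℂ H] [CompleteSpace H]
  {δ : ℝ} {M N : VonNeumannAlgebra H}

theorem BallClose.symm {G : Type*} [NormedAddCommGroup G] [InnerProductSpace ℂ G]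
    [CompleteSpace G] {δ : ℝ} {M N : VonNeumannAlgebra G} (h : BallClose δ M N) :
    BallClose δ N M := ⟨h.2, h.1⟩

theorem SC.symm (h : SC δ M N) : SC δ N M := by
  intro G _ _ _ J₁ J₂ _ _ _ _ V hV
  exact ⟨(h G J₁ J₂ V hV).1.symm, (h G J₁ J₂ V hV).2.symm⟩

theorem SC.commutant (h : SC δ M N) : SC δ M.commutant N.commutant := by
  intro G _ _ _ J₁ J₂ _ _ _ _ V hV
  refine ⟨(h G J₁ J₂ V hV).2, ?_⟩
  rw [VonNeumannAlgebra.commutant_commutant, VonNeumannAlgebra.commutant_commutant]
  exact (h G J₁ J₂ V hV).1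

/-- stable closeness passes to amplifications -/
theorem SC.amp (h : SC δ M N) {G : Type u} [NormedAddCommGroup G] [InnerProductSpace ℂ G]
    [CompleteSpace G] {J₁ J₂ : Type} [Fintype J₁] [DecidableEq J₁] [Fintype J₂] [DecidableEq J₂]
    {V : J₁ × J₂ → H →L[ℂ] G} (hV : IsFrame V) : SC δ (alg V M) (alg V N) := by
  intro K _ _ _ K₁ K₂ _ _ _ _ W hW
  refine ⟨?_, ?_⟩
  · rw [alg_alg hW hV, alg_alg hW hV]
    exact (h K (K₁ × J₁) (K₂ × J₂) _ (compF_isFrame hW hV)).1
  · rw [commutant_alg hV, commutant_alg hV, alg_alg hW (swapF_isFrame hV),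
      alg_alg hW (swapF_isFrame hV)]
    exact (h K (K₁ × J₂) (K₂ × J₁) _ (compF_isFrame hW (swapF_isFrame hV))).2

/-- the trivial frame -/
noncomputable def triv (H : Type*) [NormedAddCommGroup H] [InnerProductSpace ℂ H] :
    Unit × Unit → H →L[ℂ] H := fun _ => ContinuousLinearMap.id ℂ H

theorem triv_isFrame {H : Type*} [NormedAddCommGroup H] [InnerProductSpace ℂ H]
    [CompleteSpace H] : IsFrame (triv H) where
  orth := by
    intro i j
    have : i = j := Subsingleton.elim _ _
    rw [if_pos this]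
    ext x
    simp only [triv, ContinuousLinearMap.comp_apply, ContinuousLinearMap.id_apply]
    have : adjoint (ContinuousLinearMap.id ℂ H) = ContinuousLinearMap.id ℂ H := by
      rw [← star_eq_adjoint]
      exact star_one _
    rw [this]
    rfl
  compl := by
    have : adjoint (ContinuousLinearMap.id ℂ H) = ContinuousLinearMap.id ℂ H := by
      rw [← star_eq_adjoint]
      exact star_one _
    simp [triv, this]

theorem lft_triv {H : Type*} [NormedAddCommGroup H] [InnerProductSpace ℂ H]
    [CompleteSpace H] (x : Unit → Unit → H →L[ℂ] H) : lft (triv H) x = x () () := by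
  refine ext_ent (triv_isFrame (H := H)) fun p q => ?_
  rw [ent_lft triv_isFrame, if_pos (Subsingleton.elim _ _)]
  have : adjoint (ContinuousLinearMap.id ℂ H) = ContinuousLinearMap.id ℂ H := by
    rw [← star_eq_adjoint]
    exact star_one _
  ext v
  simp [ent_apply, triv, this]

theorem alg_triv {H : Type*} [NormedAddCommGroup H] [InnerProductSpace ℂ H]
    [CompleteSpace H] (M : VonNeumannAlgebra H) : alg (triv H) M = M := by
  refine VonNeumannAlgebra.ext fun X => ?_
  rw [mem_alg_iff triv_isFrame]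
  constructor
  · rintro ⟨x, hx, rfl⟩
    rw [lft_triv]
    exact hx _ _
  · intro h
    exact ⟨fun _ _ => X, fun _ _ => h, by rw [lft_triv]⟩

theorem SC.ball (h : SC δ M N) : BallClose δ M N := by
  have := (h H Unit Unit (triv H) triv_isFrame).1
  rwa [alg_triv, alg_triv] at this


end SCamp

end Crest.Agent.R078.Z.TB
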