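import Crest.Agent.R078.S103Slot199
import Crest.Agent.R078.S103TBFrame

-- ▼ part R078/S103Dbl445
section

set_option autoImplicit false
set_option linter.unusedSectionVars false
open scoped InnerProductSpace
open Crest.Agent.R078.Z.Slot

namespace Crest.Agent.R078.Z.Dbl

universe u

section tensor

variable {K : Type*} [NormedAddCommGroup K] [InnerProductSpace ℂ K] [CompleteSpace K]
  {E : Type*} [NormedAddCommGroup E] [NormedSpace ℂ E] {ι : Type*} [Fintype ι]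



end tensor

section F

variable {G : Type u} [NormedAddCommGroup G] [InnerProductSpace ℂ G] [CompleteSpace G]
  {M N : VonNeumannAlgebra G}









theorem RelBd.mono {R R' Λ Λ' : ℝ} (h : RelBd M N R Λ) (hR' : 0 ≤ R') (hR : R' ≤ R)
    (hΛ : Λ ≤ Λ') : RelBd M N R' Λ' := by
  intro κ ι _ _ μ Y ξ α β η hμ hμ1 hYm hY1 hξ hα hβ hη hw hr
  refine (h κ ι μ Y ξ α β η hμ hμ1 hYm hY1 hξ hα hβ (fun a => (hη a).trans ?_) hw hr).trans hΛ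
  gcongr

end F

/-- `Λ_R ≤ Λ` for all stably `δ`-close pairs (in the universe `u`). -/
def RelAll (δ R Λ : ℝ) : Prop :=
  ∀ (H : Type u) [NormedAddCommGroup H] [InnerProductSpace ℂ H] [CompleteSpace H]
    (M N : VonNeumannAlgebra H), TB.SC δ M N → RelBd M N R Λ




theorem RelAll.mono {δ R R' Λ Λ' : ℝ} (h : RelAll.{u} δ R Λ) (hR' : 0 ≤ R') (hR : R' ≤ R)
    (hΛ : Λ ≤ Λ') : RelAll.{u} δ R' Λ' := by
  intro H _ _ _ M N hs
  exact RelBd.mono (h H M N hs) hR' hR hΛ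

/-- the right-hand side of the key inequality -/
noncomputable def keyRHS (δ Λ : ℝ) : ℝ :=
  2 * (3 * δ + 2 * Real.sqrt 3 * δ
    + (Λ + δ) * (Λ + (4 + 2 * Real.sqrt 3 + 2 * Real.sqrt 2) * δ))

/-- KEY INEQUALITY -/
def KeyIneq : Prop :=
  ∀ δ R Λ : ℝ, 0 ≤ δ → 1 ≤ R → 0 ≤ Λ → RelAll.{u} δ (Real.sqrt 3 * R) Λ →
    RelAll.{u} δ R (keyRHS δ Λ)

theorem sqrt3_lt : Real.sqrt 3 < 1.7321 := by
  rw [Real.sqrt_lt' (by norm_num)]; norm_num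

theorem sqrt2_lt : Real.sqrt 2 < 1.4143 := by
  rw [Real.sqrt_lt' (by norm_num)]; norm_num







/-! ### choice of `d` -/

/-- (NUM) -/
theorem exists_d {K η : ℝ} (hK : 0 ≤ K) (hη : 0 < η) : ∃ τ > 0, ∀ Kθ ε₁ : ℝ, 1 ≤ Kθ → 0 ≤ ε₁ →
    ε₁ * Kθ ≤ τ → ∃ d : ℕ, 0 < d ∧ Real.sqrt d * ε₁ ≤ η ∧
      2 * (K * Kθ * ε₁ + K * (1 + K * Kθ * ε₁) * (Real.sqrt d * ε₁))
        + K * Kθ * (1 + K * Kθ * ε₁) / Real.sqrt d ≤ η ∧
      Real.sqrt 2 * Kθ / Real.sqrt d ≤ η := by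
  set C : ℝ := 2 * K + 4 * K * (1 + K) + K * (1 + K) + 2 with hC
  have hC0 : 0 < C := by positivity
  set ρ : ℝ := min 1 (η / C) with hρ
  have hρ0 : 0 < ρ := lt_min one_pos (by positivity)
  have hρ1 : ρ ≤ 1 := min_le_left _ _
  have hρC : ρ * C ≤ η := by
    calc ρ * C ≤ η / C * C := by gcongr; exact min_le_right _ _
      _ = η := by field_simp
  refine ⟨ρ ^ 2, by positivity, fun Kθ ε₁ hKθ hε hτ => ?_⟩
  have hKθ0 : 0 < Kθ := by linarith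
  set d : ℕ := ⌈(Kθ / ρ) ^ 2⌉₊ with hd
  have hx : 1 ≤ (Kθ / ρ) ^ 2 := by
    have : 1 ≤ Kθ / ρ := by rw [le_div_iff₀ hρ0]; linarith
    nlinarith
  have hd0 : 0 < d := by
    rw [hd]; exact Nat.ceil_pos.2 (by linarith)
  have hd1 : (Kθ / ρ) ^ 2 ≤ d := Nat.le_ceil _
  have hd2 : (d : ℝ) ≤ (2 * (Kθ / ρ)) ^ 2 := by
    have := (Nat.ceil_lt_add_one (by linarith : 0 ≤ (Kθ / ρ) ^ 2)).le
    calc (d : ℝ) ≤ (Kθ / ρ) ^ 2 + 1 := this
      _ ≤ (2 * (Kθ / ρ)) ^ 2 := by nlinarith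
  have hs1 : Kθ / ρ ≤ Real.sqrt d := Real.le_sqrt_of_sq_le hd1
  have hs2 : Real.sqrt d ≤ 2 * (Kθ / ρ) := by
    rw [Real.sqrt_le_left (by positivity)]; exact hd2
  have hs0 : 0 < Real.sqrt d := by positivity
  have hq : Kθ / Real.sqrt d ≤ ρ := by
    rw [div_le_iff₀ hs0]
    calc Kθ = ρ * (Kθ / ρ) := by field_simp
      _ ≤ ρ * Real.sqrt d := by gcongr
  have hD : Real.sqrt d * ε₁ ≤ 2 * ρ := by
    calc Real.sqrt d * ε₁ ≤ 2 * (Kθ / ρ) * ε₁ := by gcongr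
      _ = 2 * (ε₁ * Kθ) / ρ := by ring
      _ ≤ 2 * ρ ^ 2 / ρ := by gcongr
      _ = 2 * ρ := by field_simp
  have hD0 : 0 ≤ Real.sqrt d * ε₁ := by positivity
  have hKe : K * Kθ * ε₁ ≤ K * ρ := by
    calc K * Kθ * ε₁ = K * (ε₁ * Kθ) := by ring
      _ ≤ K * ρ ^ 2 := by gcongr
      _ ≤ K * ρ := by
        gcongr
        nlinarith
  have hKe' : K * Kθ * ε₁ ≤ K := hKe.trans (by nlinarith)
  have hKe0 : 0 ≤ K * Kθ * ε₁ := by positivity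
  refine ⟨d, hd0, ?_, ?_, ?_⟩
  · refine hD.trans (le_trans ?_ hρC)
    rw [mul_comm]
    gcongr
    rw [hC]
    have : 0 ≤ 2 * K + 4 * K * (1 + K) + K * (1 + K) := by positivity
    linarith
  · have h1 : K * (1 + K * Kθ * ε₁) * (Real.sqrt d * ε₁) ≤ K * (1 + K) * (2 * ρ) := by gcongr
    have h2 : K * Kθ * (1 + K * Kθ * ε₁) / Real.sqrt d ≤ K * (1 + K) * ρ := by
      calc K * Kθ * (1 + K * Kθ * ε₁) / Real.sqrt d
          = K * (1 + K * Kθ * ε₁) * (Kθ / Real.sqrt d) := by ring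
        _ ≤ K * (1 + K) * ρ := by gcongr
    calc _ ≤ 2 * (K * ρ + K * (1 + K) * (2 * ρ)) + K * (1 + K) * ρ := by gcongr
      _ ≤ ρ * C := by rw [hC]; nlinarith
      _ ≤ η := hρC
  · calc Real.sqrt 2 * Kθ / Real.sqrt d = Real.sqrt 2 * (Kθ / Real.sqrt d) := by ring
      _ ≤ 2 * ρ := by
        gcongr
        linarith [sqrt2_lt]
      _ ≤ ρ * C := by
        rw [mul_comm]
        gcongr
        rw [hC]
        have : 0 ≤ 2 * K + 4 * K * (1 + K) + K * (1 + K) := by positivity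
        linarith
      _ ≤ η := hρC

end Crest.Agent.R078.Z.Dbl
end

-- ▼ part R078/S103Key445

set_option autoImplicit false
set_option linter.unusedSectionVars false
open scoped InnerProductSpace
open Crest.Agent.R078.Z.Slot

namespace Crest.Agent.R078.Z.Dbl

universe u

/-- for every `κ, τ > 0` there are slot systems of every length `d`, with value `≥ v - κ` and
`ε₁ Kθ ≤ τ` (`K` fixed). -/
def SlotsExist (δ R K Λ v : ℝ) : Prop :=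
  ∀ κ > 0, ∀ τ > 0, ∃ Kθ ε₁ : ℝ, 1 ≤ Kθ ∧ 0 ≤ ε₁ ∧ ε₁ * Kθ ≤ τ ∧ ∀ d : ℕ, 0 < d →
    ∃ (G : Type u) (_ : NormedAddCommGroup G) (_ : InnerProductSpace ℂ G) (_ : CompleteSpace G)
      (M N : VonNeumannAlgebra G) (L : Type) (_ : Fintype L) (_ : DecidableEq L)
      (s : SlotSys M N d L δ R K Kθ ε₁),
      BallIn M N δ ∧ BallIn N M δ ∧ RelBd M N R Λ ∧ ∀ j, v - κ ≤ (s.value j).re

theorem value_le_of_slots (hW : WalkTarget.{u}) {δ R K Λ v : ℝ} (hδ : 0 ≤ δ) (hR : 1 ≤ R)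
    (hK : 0 ≤ K) (hΛ : 0 ≤ Λ) (hS : SlotsExist.{u} δ R K Λ v) :
    v ≤ 3 * δ + 2 * Real.sqrt 3 * δ
      + (Λ + δ) * (Λ + (4 + 2 * Real.sqrt 3 + 2 * Real.sqrt 2) * δ) := by
  refine le_of_forall_pos_le_add fun e he => ?_
  set η : ℝ := e / (2 * (2 + 4 * (Λ + δ))) with hη
  have hη0 : 0 < η := by positivity
  obtain ⟨τ, hτ, hd⟩ := exists_d hK hη0
  obtain ⟨Kθ, ε₁, hKθ, hε, hτ', hS'⟩ := hS (e / 2) (by positivity) τ hτ
  obtain ⟨d, hd0, hD, hE, hL⟩ := hd Kθ ε₁ hKθ hε hτ'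
  obtain ⟨G, _, _, _, M, N, L, _, _, s, hMN, hNM, hrel, hv⟩ := hS' d hd0
  have key := hW G M N d L δ R K Kθ ε₁ Λ (v - e / 2) s hd0 hδ hR hK hKθ hε hΛ hMN hNM hrel hv
  have hD' : s.D ≤ η := hD
  have hE' : s.Efl ≤ η := hE
  have h3 := sqrt3_lt
  have h3n : 0 ≤ Real.sqrt 3 := Real.sqrt_nonneg 3
  have h1 : Real.sqrt 3 * (2 * δ + s.D) ≤ 2 * Real.sqrt 3 * δ + 2 * η := by
    have : Real.sqrt 3 * s.D ≤ 2 * η := by
      calc Real.sqrt 3 * s.D ≤ Real.sqrt 3 * η := by gcongr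
        _ ≤ 2 * η := by gcongr; linarith
    linarith
  have hΛδ : 0 ≤ Λ + δ := by positivity
  have h2 : (Λ + δ) * (Λ + 4 * δ + Real.sqrt 3 * (2 * δ + s.D) + s.Efl
        + (2 * Real.sqrt 2 * δ + Real.sqrt 2 * Kθ / Real.sqrt d))
      ≤ (Λ + δ) * (Λ + (4 + 2 * Real.sqrt 3 + 2 * Real.sqrt 2) * δ + 4 * η) := by
    refine mul_le_mul_of_nonneg_left ?_ hΛδ
    linarith
  have h4 : 2 * η + (Λ + δ) * (4 * η) = e / 2 := by
    rw [hη]; field_simp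
  have h5 : (Λ + δ) * (Λ + (4 + 2 * Real.sqrt 3 + 2 * Real.sqrt 2) * δ + 4 * η)
      = (Λ + δ) * (Λ + (4 + 2 * Real.sqrt 3 + 2 * Real.sqrt 2) * δ) + (Λ + δ) * (4 * η) := by ring
  rw [h5] at h2
  linarith

/-- a version with the factor `r = 1/2` of the letters: value `= v / 2` -/
theorem value_le_keyRHS (hW : WalkTarget.{u}) {δ R K Λ v : ℝ} (hδ : 0 ≤ δ) (hR : 1 ≤ R)
    (hK : 0 ≤ K) (hΛ : 0 ≤ Λ) (hS : SlotsExist.{u} δ R K Λ (v / 2)) : v ≤ keyRHS δ Λ := by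
  have := value_le_of_slots hW hδ hR hK hΛ hS
  unfold keyRHS
  linarith

end Crest.Agent.R078.Z.Dbl
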