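import Crest.Agent.R078.S103Slot199
import Crest.Agent.R078.S103Prob
import Crest.Agent.R078.S103HB50
import Crest.Agent.R078.S103SlotTargets199

-- ▼ part R078/S103Rec445
section

set_option autoImplicit false
set_option linter.unusedSectionVars false
open scoped InnerProductSpace
open Crest.Agent.R078.Z.Slot

namespace Crest.Agent.R078.Z.Rec

universe u

variable {G : Type u} [NormedAddCommGroup G] [InnerProductSpace ℂ G] [CompleteSpace G]

/-- (EXT): a vector functional of norm `≤ c` on `N` has an extension of norm `≤ c + ε` to `B(G)`,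
again a finite sum of vector functionals. -/
def ExtProp (N : VonNeumannAlgebra G) : Prop :=
  ∀ (κ : Type) [Fintype κ] (ξ η : κ → G) (c : ℝ), 0 ≤ c →
    (∀ y ∈ N, ‖y‖ ≤ 1 → ‖∑ k, ⟪η k, y (ξ k)⟫_ℂ‖ ≤ c) → ∀ ε > 0,
    ∃ (m : ℕ) (α β : Fin m → G),
      (∀ n ∈ N, ∑ i, ⟪β i, n (α i)⟫_ℂ = ∑ k, ⟪η k, n (ξ k)⟫_ℂ) ∧
      ∑ i, ‖α i‖ ^ 2 ≤ c + ε ∧ ∑ i, ‖β i‖ ^ 2 ≤ c + ε

theorem norm_sum_inner_le {κ : Type} [Fintype κ] (x : G →L[ℂ] G) (α β : κ → G) {c : ℝ}
    (hα : ∑ k, ‖α k‖ ^ 2 ≤ c) (hβ : ∑ k, ‖β k‖ ^ 2 ≤ c) :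
    ‖∑ k, ⟪β k, x (α k)⟫_ℂ‖ ≤ ‖x‖ * c := by
  have hc : 0 ≤ c := (Finset.sum_nonneg fun k _ => by positivity).trans hα
  have h1 : ‖∑ k, ⟪β k, x (α k)⟫_ℂ‖ ≤ ∑ k, ‖x‖ * (‖β k‖ * ‖α k‖) := by
    refine (norm_sum_le _ _).trans (Finset.sum_le_sum fun k _ => ?_)
    refine (norm_inner_le_norm _ _).trans ?_
    calc ‖β k‖ * ‖x (α k)‖ ≤ ‖β k‖ * (‖x‖ * ‖α k‖) := by
          gcongr; exact x.le_opNorm _
      _ = ‖x‖ * (‖β k‖ * ‖α k‖) := by ring
  refine h1.trans ?_
  rw [← Finset.mul_sum]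
  gcongr
  have h2 : ∑ k, ‖β k‖ * ‖α k‖ ≤ ∑ k, (‖β k‖ ^ 2 + ‖α k‖ ^ 2) / 2 :=
    Finset.sum_le_sum fun k _ => by nlinarith [sq_nonneg (‖β k‖ - ‖α k‖)]
  refine h2.trans ?_
  rw [← Finset.sum_div, Finset.sum_add_distrib]
  linarith

theorem sum_sigma_ite {W : Type} [Fintype W] [DecidableEq W] {m : W → ℕ} {E : Type*}
    [AddCommMonoid E] (f : (Σ w, Fin (m w)) → E) (w : W) :
    ∑ p : Σ w, Fin (m w), (if p.1 = w then f p else 0) = ∑ i, f ⟨w, i⟩ := by
  rw [Fintype.sum_sigma]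
  rw [Finset.sum_eq_single w]
  · simp
  · intro b _ hb
    simp [hb]
  · simp

/-- the recursion for one `ε` -/
theorem rec_general_eps (M N : VonNeumannAlgebra G) {R Λ δ : ℝ} (hext : ExtProp N)
    (hrel : RelBd M N R Λ) {W κ : Type} [Fintype W] [Fintype κ] (ν c : W → ℝ)
    (X X' : W → G →L[ℂ] G) (ξ : κ → G) (η : W → κ → G)
    (hν : ∀ w, 0 ≤ ν w) (hc : ∀ w, 0 ≤ c w)
    (hXm : ∀ w, X w ∈ M) (hX1 : ∀ w, ‖X w‖ ≤ 1)
    (hXm' : ∀ w, X' w ∈ N) (hXX : ∀ w, ‖X w - X' w‖ ≤ δ)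
    (hξ : ∑ k, ‖ξ k‖ ^ 2 ≤ 1) (hη : ∀ w, ∑ k, ‖η w k‖ ^ 2 ≤ (R * c w) ^ 2)
    (hb : ∀ w, ∀ y ∈ N, ‖y‖ ≤ 1 → ‖∑ k, ⟪η w k, y (ξ k)⟫_ℂ‖ ≤ c w)
    (hr : ∀ n ∈ N, ∑ w, ((ν w : ℂ) * ∑ k, ⟪η w k, n (ξ k)⟫_ℂ) • X w = 0)
    {ε : ℝ} (hε : 0 < ε) :
    ‖∑ w, (ν w : ℂ) * ∑ k, ⟪η w k, X' w (ξ k)⟫_ℂ‖ ≤ (Λ + δ) * ∑ w, ν w * (c w + ε) := by
  classical
  choose m α β hαβ hα hβ using fun w => hext κ ξ (η w) (c w) (hc w) (hb w) ε hε
  set c' : W → ℝ := fun w => c w + ε with hc'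
  have hc'0 : ∀ w, 0 < c' w := fun w => by have := hc w; simp only [hc']; linarith
  set S : ℝ := ∑ w, ν w * c' w with hS
  have hS0 : 0 ≤ S := Finset.sum_nonneg fun w _ => mul_nonneg (hν w) (hc'0 w).le
  rcases hS0.eq_or_lt with h0 | hSp
  · -- all weights vanish
    have hz : ∀ w, ν w = 0 := by
      intro w
      have := (Finset.sum_eq_zero_iff_of_nonneg (fun w _ => mul_nonneg (hν w) (hc'0 w).le)).1
        (hS ▸ h0.symm) w (Finset.mem_univ _)
      rcases mul_eq_zero.1 this with h | h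
      · exact h
      · exact absurd h (hc'0 w).ne'
    rw [← h0]
    simp [hz]
  -- the functional on X
  have key : ‖∑ w, (ν w : ℂ) * ∑ i, ⟪β w i, X w (α w i)⟫_ℂ‖ ≤ Λ * S := by
    have := hrel (κ ⊕ (Σ w, Fin (m w))) W (fun w => ν w * c' w / S) X (Sum.elim ξ 0)
      (fun w => Sum.elim 0 (fun p => if p.1 = w then (((Real.sqrt (c' p.1))⁻¹ : ℝ) : ℂ) • α p.1 p.2
        else 0))
      (fun w => Sum.elim 0 (fun p => if p.1 = w then (((Real.sqrt (c' p.1))⁻¹ : ℝ) : ℂ) • β p.1 p.2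
        else 0))
      (fun w => Sum.elim (fun k => (((c' w)⁻¹ : ℝ) : ℂ) • η w k) 0)
      (fun w => div_nonneg (mul_nonneg (hν w) (hc'0 w).le) hS0)
      (by rw [← Finset.sum_div, ← hS, div_self hSp.ne'])
      hXm hX1
      (by rw [Fintype.sum_sum_type]; simpa using hξ)
      ?_ ?_ ?_ ?_ ?_
    · have e1 : ∀ w, ∑ k : κ ⊕ (Σ w, Fin (m w)),
          ⟪(Sum.elim 0 (fun p => if p.1 = w then (((Real.sqrt (c' p.1))⁻¹ : ℝ) : ℂ) • β p.1 p.2
            else 0) : κ ⊕ (Σ w, Fin (m w)) → G) k,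
            X w ((Sum.elim 0 (fun p => if p.1 = w then (((Real.sqrt (c' p.1))⁻¹ : ℝ) : ℂ) • α p.1 p.2
            else 0) : κ ⊕ (Σ w, Fin (m w)) → G) k)⟫_ℂ
          = (((c' w)⁻¹ : ℝ) : ℂ) * ∑ i, ⟪β w i, X w (α w i)⟫_ℂ := by
        intro w
        rw [Fintype.sum_sum_type]
        simp only [Sum.elim_inl, Pi.zero_apply, map_zero, inner_zero_right, Finset.sum_const_zero,
          Sum.elim_inr, zero_add]
        have : ∀ p : Σ w, Fin (m w),
            ⟪(if p.1 = w then (((Real.sqrt (c' p.1))⁻¹ : ℝ) : ℂ) • β p.1 p.2 else 0 : G),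
              X w (if p.1 = w then (((Real.sqrt (c' p.1))⁻¹ : ℝ) : ℂ) • α p.1 p.2 else 0)⟫_ℂ
            = if p.1 = w then (((c' p.1)⁻¹ : ℝ) : ℂ) * ⟪β p.1 p.2, X w (α p.1 p.2)⟫_ℂ else 0 := by
          intro p
          split_ifs with h
          · rw [map_smul, inner_smul_left, inner_smul_right, Complex.conj_ofReal, ← mul_assoc,
              ← Complex.ofReal_mul]
            congr 2
            rw [← mul_inv, Real.mul_self_sqrt (hc'0 _).le]
          · simp
        rw [Finset.sum_congr rfl fun p _ => this p, sum_sigma_ite, Finset.mul_sum]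
      rw [Finset.sum_congr rfl fun w _ => by rw [e1 w]] at this
      have e2 : ∑ w, ((ν w * c' w / S : ℝ) : ℂ) * ((((c' w)⁻¹ : ℝ) : ℂ) *
          ∑ i, ⟪β w i, X w (α w i)⟫_ℂ) = ((S⁻¹ : ℝ) : ℂ) *
          ∑ w, (ν w : ℂ) * ∑ i, ⟪β w i, X w (α w i)⟫_ℂ := by
        rw [Finset.mul_sum]
        refine Finset.sum_congr rfl fun w _ => ?_
        rw [← mul_assoc, ← Complex.ofReal_mul, ← mul_assoc, ← Complex.ofReal_mul]
        congr 2
        field_simp [(hc'0 w).ne']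
      rw [e2, norm_mul, Complex.norm_real, Real.norm_of_nonneg (inv_nonneg.2 hS0)] at this
      rwa [inv_mul_le_iff₀ hSp, mul_comm] at this
    · intro w
      rw [Fintype.sum_sum_type]
      simp only [Sum.elim_inl, Pi.zero_apply, norm_zero, ne_eq, OfNat.ofNat_ne_zero,
        not_false_eq_true, zero_pow, Finset.sum_const_zero, Sum.elim_inr, zero_add]
      have : ∀ p : Σ w, Fin (m w),
          ‖(if p.1 = w then (((Real.sqrt (c' p.1))⁻¹ : ℝ) : ℂ) • α p.1 p.2 else 0 : G)‖ ^ 2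
          = if p.1 = w then (c' p.1)⁻¹ * ‖α p.1 p.2‖ ^ 2 else 0 := by
        intro p
        split_ifs with h
        · rw [norm_smul, mul_pow, Complex.norm_real, Real.norm_of_nonneg (by positivity), inv_pow,
            Real.sq_sqrt (hc'0 _).le]
        · simp
      rw [Finset.sum_congr rfl fun p _ => this p, sum_sigma_ite]
      dsimp only
      rw [← Finset.mul_sum, inv_mul_le_iff₀ (hc'0 w), mul_one]
      exact hα w
    · intro w
      rw [Fintype.sum_sum_type]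
      simp only [Sum.elim_inl, Pi.zero_apply, norm_zero, ne_eq, OfNat.ofNat_ne_zero,
        not_false_eq_true, zero_pow, Finset.sum_const_zero, Sum.elim_inr, zero_add]
      have : ∀ p : Σ w, Fin (m w),
          ‖(if p.1 = w then (((Real.sqrt (c' p.1))⁻¹ : ℝ) : ℂ) • β p.1 p.2 else 0 : G)‖ ^ 2
          = if p.1 = w then (c' p.1)⁻¹ * ‖β p.1 p.2‖ ^ 2 else 0 := by
        intro p
        split_ifs with h
        · rw [norm_smul, mul_pow, Complex.norm_real, Real.norm_of_nonneg (by positivity), inv_pow,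
            Real.sq_sqrt (hc'0 _).le]
        · simp
      rw [Finset.sum_congr rfl fun p _ => this p, sum_sigma_ite]
      dsimp only
      rw [← Finset.mul_sum, inv_mul_le_iff₀ (hc'0 w), mul_one]
      exact hβ w
    · intro w
      rw [Fintype.sum_sum_type]
      simp only [Sum.elim_inl, Sum.elim_inr, Pi.zero_apply, norm_zero, ne_eq, OfNat.ofNat_ne_zero,
        not_false_eq_true, zero_pow, Finset.sum_const_zero, add_zero]
      have : ∀ k, ‖(((c' w)⁻¹ : ℝ) : ℂ) • η w k‖ ^ 2 = ((c' w) ^ 2)⁻¹ * ‖η w k‖ ^ 2 := by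
        intro k
        rw [norm_smul, mul_pow, Complex.norm_real,
          Real.norm_of_nonneg (inv_nonneg.2 (hc'0 w).le), inv_pow]
      rw [Finset.sum_congr rfl fun k _ => this k, ← Finset.mul_sum,
        inv_mul_le_iff₀ (by have := hc'0 w; positivity)]
      refine (hη w).trans ?_
      rw [mul_pow, mul_comm]
      have h1 := hc w
      have h2 : c w ≤ c' w := by simp only [hc']; linarith
      have h3 : c w ^ 2 ≤ c' w ^ 2 := by gcongr
      exact mul_le_mul_of_nonneg_right h3 (sq_nonneg R)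
    · intro w n hn
      rw [Fintype.sum_sum_type, Fintype.sum_sum_type]
      simp only [Sum.elim_inl, Pi.zero_apply, map_zero, inner_zero_right, Finset.sum_const_zero,
        Sum.elim_inr, zero_add, add_zero]
      have : ∀ p : Σ w, Fin (m w),
          ⟪(if p.1 = w then (((Real.sqrt (c' p.1))⁻¹ : ℝ) : ℂ) • β p.1 p.2 else 0 : G),
            n (if p.1 = w then (((Real.sqrt (c' p.1))⁻¹ : ℝ) : ℂ) • α p.1 p.2 else 0)⟫_ℂ
          = if p.1 = w then (((c' p.1)⁻¹ : ℝ) : ℂ) * ⟪β p.1 p.2, n (α p.1 p.2)⟫_ℂ else 0 := by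
        intro p
        split_ifs with h
        · rw [map_smul, inner_smul_left, inner_smul_right, Complex.conj_ofReal, ← mul_assoc,
            ← Complex.ofReal_mul]
          congr 2
          rw [← mul_inv, Real.mul_self_sqrt (hc'0 _).le]
        · simp
      rw [Finset.sum_congr rfl fun p _ => this p, sum_sigma_ite]
      dsimp only
      rw [← Finset.mul_sum, hαβ w n hn, Finset.mul_sum]
      refine Finset.sum_congr rfl fun k _ => ?_
      rw [inner_smul_left, Complex.conj_ofReal]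
    · intro n hn
      have h := hr n hn
      have e : ∀ w, (((ν w * c' w / S : ℝ) : ℂ) * ∑ k : κ ⊕ (Σ w, Fin (m w)),
          ⟪(Sum.elim (fun k => (((c' w)⁻¹ : ℝ) : ℂ) • η w k) 0 : κ ⊕ (Σ w, Fin (m w)) → G) k,
            n ((Sum.elim ξ 0 : κ ⊕ (Σ w, Fin (m w)) → G) k)⟫_ℂ) • X w
          = ((S⁻¹ : ℝ) : ℂ) • (((ν w : ℂ) * ∑ k, ⟪η w k, n (ξ k)⟫_ℂ) • X w) := by
        intro w
        rw [Fintype.sum_sum_type]
        simp only [Sum.elim_inl, Sum.elim_inr, Pi.zero_apply, map_zero, inner_zero_right,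
          Finset.sum_const_zero, add_zero, inner_smul_left, Complex.conj_ofReal]
        rw [← Finset.mul_sum, smul_smul, ← mul_assoc, ← Complex.ofReal_mul, ← mul_assoc,
          ← Complex.ofReal_mul]
        congr 3
        field_simp [(hc'0 w).ne']
      rw [Finset.sum_congr rfl fun w _ => e w, ← Finset.smul_sum, h, smul_zero]
  -- transfer to X'
  have e3 : ∑ w, (ν w : ℂ) * ∑ k, ⟪η w k, X' w (ξ k)⟫_ℂ
      = ∑ w, (ν w : ℂ) * ∑ i, ⟪β w i, X w (α w i)⟫_ℂ
        - ∑ w, (ν w : ℂ) * ∑ i, ⟪β w i, (X w - X' w) (α w i)⟫_ℂ := by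
    rw [← Finset.sum_sub_distrib]
    refine Finset.sum_congr rfl fun w _ => ?_
    rw [← mul_sub, ← hαβ w (X' w) (hXm' w), ← Finset.sum_sub_distrib]
    congr 1
    refine Finset.sum_congr rfl fun i _ => ?_
    rw [sub_apply, inner_sub_right]
    ring
  rw [e3]
  refine (norm_sub_le _ _).trans ?_
  have h5 : ‖∑ w, (ν w : ℂ) * ∑ i, ⟪β w i, (X w - X' w) (α w i)⟫_ℂ‖ ≤ δ * S := by
    refine (norm_sum_le _ _).trans ?_
    rw [hS, Finset.mul_sum]
    refine Finset.sum_le_sum fun w _ => ?_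
    rw [norm_mul, Complex.norm_real, Real.norm_of_nonneg (hν w)]
    have h6 := norm_sum_inner_le (X w - X' w) (α w) (β w) (hα w) (hβ w)
    have h7 : ‖X w - X' w‖ * (c w + ε) ≤ δ * c' w :=
      mul_le_mul_of_nonneg_right (hXX w) (hc'0 w).le
    calc ν w * ‖∑ i, ⟪β w i, (X w - X' w) (α w i)⟫_ℂ‖ ≤ ν w * (δ * c' w) :=
          mul_le_mul_of_nonneg_left (h6.trans h7) (hν w)
      _ = δ * (ν w * c' w) := by ring
  calc _ ≤ Λ * S + δ * S := add_le_add key h5
    _ = (Λ + δ) * S := by ring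

/-- (REC-A) the recursion lemma for a general pair. -/
theorem rec_general (M N : VonNeumannAlgebra G) {R Λ δ : ℝ} (hext : ExtProp N)
    (hrel : RelBd M N R Λ) {W κ : Type} [Fintype W] [Fintype κ] (ν c : W → ℝ)
    (X X' : W → G →L[ℂ] G) (ξ : κ → G) (η : W → κ → G)
    (hν : ∀ w, 0 ≤ ν w) (hc : ∀ w, 0 ≤ c w)
    (hXm : ∀ w, X w ∈ M) (hX1 : ∀ w, ‖X w‖ ≤ 1)
    (hXm' : ∀ w, X' w ∈ N) (hXX : ∀ w, ‖X w - X' w‖ ≤ δ)
    (hξ : ∑ k, ‖ξ k‖ ^ 2 ≤ 1) (hη : ∀ w, ∑ k, ‖η w k‖ ^ 2 ≤ (R * c w) ^ 2)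
    (hb : ∀ w, ∀ y ∈ N, ‖y‖ ≤ 1 → ‖∑ k, ⟪η w k, y (ξ k)⟫_ℂ‖ ≤ c w)
    (hr : ∀ n ∈ N, ∑ w, ((ν w : ℂ) * ∑ k, ⟪η w k, n (ξ k)⟫_ℂ) • X w = 0) :
    ‖∑ w, (ν w : ℂ) * ∑ k, ⟪η w k, X' w (ξ k)⟫_ℂ‖ ≤ (Λ + δ) * ∑ w, ν w * c w := by
  refine le_of_forall_pos_le_add fun e he => ?_
  set B : ℝ := |Λ + δ| * ∑ w, ν w with hB
  have hB0 : 0 ≤ B := mul_nonneg (abs_nonneg _) (Finset.sum_nonneg fun w _ => hν w)
  have hε : 0 < e / (B + 1) := by positivity
  refine (rec_general_eps M N hext hrel ν c X X' ξ η hν hc hXm hX1 hXm' hXX hξ hη hb hr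
    hε).trans ?_
  have : ∑ w, ν w * (c w + e / (B + 1)) = ∑ w, ν w * c w + (∑ w, ν w) * (e / (B + 1)) := by
    rw [Finset.sum_mul, ← Finset.sum_add_distrib]
    exact Finset.sum_congr rfl fun w _ => by ring
  rw [this, mul_add]
  gcongr
  calc (Λ + δ) * ((∑ w, ν w) * (e / (B + 1))) ≤ |Λ + δ| * ((∑ w, ν w) * (e / (B + 1))) := by
        gcongr
        · exact mul_nonneg (Finset.sum_nonneg fun w _ => hν w) hε.le
        · exact le_abs_self _
    _ = B / (B + 1) * e := by rw [hB]; ring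
    _ ≤ 1 * e := by
        gcongr
        rw [div_le_one (by positivity)]
        linarith
    _ = e := one_mul e

end Crest.Agent.R078.Z.Rec
end

-- ▼ part R078/S103HB50Ext
section

/-!
R078 / S0103, block HB (helper50), part 2: the extension lemma.
A finite sum of vector functionals which is bounded by `c` on the unit ball of a von Neumann
algebra `N` coincides on `N` with a finite sum of vector functionals of projective norm `≤ c + ε`.
-/

set_option autoImplicit false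

open scoped ComplexConjugate InnerProductSpace

namespace Crest.Agent.R078.Z.HB

section Quot

variable {E : Type*} [AddCommGroup E] [Module ℂ E]

/-- the quotient seminorm `v ↦ inf_{w ∈ W} p (v - w)` on `E`. -/
noncomputable def quotSem (p : Seminorm ℂ E) (W : Submodule ℂ E) : Seminorm ℂ E :=
  Seminorm.ofSMulLE (fun v => ⨅ w : W, p (v - w))
    (le_antisymm (by
        refine (ciInf_le ⟨0, ?_⟩ (0 : W)).trans ?_
        · rintro _ ⟨w, rfl⟩
          exact apply_nonneg p _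
        · simp)
      (Real.iInf_nonneg fun w => apply_nonneg p _))
    (fun v v' => by
      refine le_ciInf_add_ciInf fun w w' => ?_
      refine (ciInf_le ⟨0, ?_⟩ (w + w')).trans ?_
      · rintro _ ⟨w, rfl⟩
        exact apply_nonneg p _
      · have : v + v' - ((w + w' : W) : E) = (v - w) + (v' - w') := by
          rw [Submodule.coe_add]; abel
        rw [this]
        exact map_add_le_add p _ _)
    (fun c v => by
      rw [Real.mul_iInf_of_nonneg (norm_nonneg c)]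
      refine le_ciInf fun w => ?_
      refine (ciInf_le ⟨0, ?_⟩ (c • w)).trans ?_
      · rintro _ ⟨w, rfl⟩
        exact apply_nonneg p _
      · have : c • v - ((c • w : W) : E) = c • (v - w) := by
          rw [Submodule.coe_smul, smul_sub]
        rw [this, map_smul_eq_mul])

theorem quotSem_apply (p : Seminorm ℂ E) (W : Submodule ℂ E) (v : E) :
    quotSem p W v = ⨅ w : W, p (v - w) := rfl

theorem quotSem_le (p : Seminorm ℂ E) (W : Submodule ℂ E) (v : E) (w : W) :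
    quotSem p W v ≤ p (v - w) :=
  ciInf_le ⟨0, by rintro _ ⟨w, rfl⟩; exact apply_nonneg p _⟩ w

theorem quotSem_le' (p : Seminorm ℂ E) (W : Submodule ℂ E) (v : E) : quotSem p W v ≤ p v := by
  simpa using quotSem_le p W v 0

theorem quotSem_eq_zero (p : Seminorm ℂ E) (W : Submodule ℂ E) (w : W) : quotSem p W w = 0 :=
  le_antisymm (by simpa using quotSem_le p W w w) (apply_nonneg _ _)

/-- norming functional of a seminorm -/
theorem exists_dual_seminorm (p : Seminorm ℂ E) (x : E) :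
    ∃ g : Module.Dual ℂ E, g x = p x ∧ ∀ y, ‖g y‖ ≤ p y := by
  classical
  by_cases hx : x = 0
  · exact ⟨0, by simp [hx], fun y => by simp⟩
  let f : Module.Dual ℂ (Submodule.span ℂ {x}) :=
    ((p x : ℝ) : ℂ) • (LinearEquiv.coord ℂ E x hx).toLinearMap
  obtain ⟨g, hg, hle⟩ := Module.Dual.exists_extension_of_le_seminorm (Submodule.span ℂ {x}) f
    (p := p) (fun y => by
      obtain ⟨c, hc⟩ := Submodule.mem_span_singleton.1 y.2
      have hy : y = c • (⟨x, Submodule.mem_span_singleton_self x⟩ : Submodule.span ℂ {x}) :=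
        Subtype.ext (by simp [hc])
      rw [hy, map_smul]
      have h1 : f ⟨x, Submodule.mem_span_singleton_self x⟩ = ((p x : ℝ) : ℂ) := by
        simp only [f, LinearMap.smul_apply, LinearEquiv.coe_coe]
        rw [LinearEquiv.coord_self]
        simp
      rw [h1, Submodule.coe_smul, map_smul_eq_mul, smul_eq_mul, norm_mul]
      simp [abs_of_nonneg (apply_nonneg p x)])
  refine ⟨g, ?_, hle⟩
  rw [hg ⟨x, Submodule.mem_span_singleton_self x⟩]
  simp only [f, LinearMap.smul_apply, LinearEquiv.coe_coe]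
  rw [LinearEquiv.coord_self]
  simp

end Quot

section Ext

variable {H : Type*} [NormedAddCommGroup H] [InnerProductSpace ℂ H] [CompleteSpace H]

/-- **Extension lemma**, free module form. -/
theorem exists_ext_finsupp (N : VonNeumannAlgebra H) (v₀ : (H × H) →₀ ℂ) (c : ℝ)
    (hc : ∀ n ∈ N, ‖n‖ ≤ 1 → ‖v₀.sum fun i z => z * ⟪i.2, n i.1⟫_ℂ‖ ≤ c) (ε : ℝ) (hε : 0 < ε) :
    ∃ v : (H × H) →₀ ℂ,
      (∀ n ∈ N, (v.sum fun i z => z * ⟪i.2, n i.1⟫_ℂ) = v₀.sum fun i z => z * ⟪i.2, n i.1⟫_ℂ) ∧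
      (v.sum fun i z => ‖z‖ * (‖i.1‖ * ‖i.2‖)) ≤ c + ε := by
  classical
  let wt : H × H → ℝ := fun i => ‖i.1‖ * ‖i.2‖
  have hwt : ∀ i, 0 ≤ wt i := fun i => by positivity
  let p := wSem wt hwt
  let W : Submodule ℂ ((H × H) →₀ ℂ) :=
    ⨅ n : {n : H →L[ℂ] H // n ∈ N}, LinearMap.ker (lf fun i => ⟪i.2, n.1 i.1⟫_ℂ)
  have hWmem : ∀ v, v ∈ W ↔ ∀ n ∈ N, lf (fun i => ⟪i.2, n i.1⟫_ℂ) v = 0 := fun v => by
    simp [W, Submodule.mem_iInf]
  obtain ⟨g, hg0, hg⟩ := exists_dual_seminorm (quotSem p W) v₀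
  let G : H → H → ℂ := fun α β => g (Finsupp.single (α, β) 1)
  have gW : ∀ w ∈ W, g w = 0 := fun w hw => by
    have := hg w
    rw [quotSem_eq_zero p W ⟨w, hw⟩] at this
    simpa using this
  have hgs : ∀ α β (z : ℂ), g (Finsupp.single (α, β) z) = z * G α β := fun α β z => by
    have : Finsupp.single ((α, β) : H × H) z = z • Finsupp.single ((α, β) : H × H) 1 := by simp
    rw [this, map_smul, smul_eq_mul]
  have hadd1 : ∀ α α' β, G (α + α') β = G α β + G α' β := fun α α' β => by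
    have h := gW (Finsupp.single ((α + α', β) : H × H) 1 - Finsupp.single ((α, β) : H × H) 1
      - Finsupp.single ((α', β) : H × H) 1) ((hWmem _).2 fun n _ => by
        simp only [map_sub, lf_single, map_add, inner_add_right]; ring)
    simp only [map_sub, hgs, one_mul] at h
    linear_combination h
  have hsmul1 : ∀ (z : ℂ) α β, G (z • α) β = z * G α β := fun z α β => by
    have h := gW (Finsupp.single ((z • α, β) : H × H) 1 - Finsupp.single ((α, β) : H × H) z)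
      ((hWmem _).2 fun n _ => by
        simp only [map_sub, lf_single, map_smul, inner_smul_right]; ring)
    simp only [map_sub, hgs, one_mul] at h
    linear_combination h
  have hadd2 : ∀ α β β', G α (β + β') = G α β + G α β' := fun α β β' => by
    have h := gW (Finsupp.single ((α, β + β') : H × H) 1 - Finsupp.single ((α, β) : H × H) 1
      - Finsupp.single ((α, β') : H × H) 1) ((hWmem _).2 fun n _ => by
        simp only [map_sub, lf_single, inner_add_left]; ring)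
    simp only [map_sub, hgs, one_mul] at h
    linear_combination h
  have hsmul2 : ∀ (z : ℂ) α β, G α (z • β) = conj z * G α β := fun z α β => by
    have h := gW (Finsupp.single ((α, z • β) : H × H) 1 - Finsupp.single ((α, β) : H × H) (conj z))
      ((hWmem _).2 fun n _ => by
        simp only [map_sub, lf_single, inner_smul_left]; ring)
    simp only [map_sub, hgs, one_mul] at h
    linear_combination h
  have hGb : ∀ α β, ‖G α β‖ ≤ 1 * ‖α‖ * ‖β‖ := fun α β => by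
    refine ((hg _).trans (quotSem_le' p W _)).trans ?_
    simp [p, wSem_apply, wt]
  have hcomm : ∀ n' ∈ N.commutant, ∀ α β, G (n' α) β = G α (star n' β) := fun n' hn' α β => by
    have h := gW (Finsupp.single ((n' α, β) : H × H) 1 - Finsupp.single ((α, star n' β) : H × H) 1)
      ((hWmem _).2 fun n hn => by
        have hcc : n (n' α) = n' (n α) :=
          congrArg (fun T : H →L[ℂ] H => T α) ((VonNeumannAlgebra.mem_commutant_iff.1 hn') n hn)
        simp only [map_sub, lf_single, hcc]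
        rw [ContinuousLinearMap.star_eq_adjoint, ContinuousLinearMap.adjoint_inner_left, sub_self])
    simp only [map_sub, hgs, one_mul] at h
    linear_combination h
  obtain ⟨y, hy⟩ := exists_op_of_form G 1 hadd1 hsmul1 hadd2 hsmul2 hGb
  have hyN : y ∈ N := by
    rw [← VonNeumannAlgebra.commutant_commutant N]
    refine VonNeumannAlgebra.mem_commutant_iff.2 fun n' hn' => ?_
    ext α
    refine ext_inner_left ℂ fun β => ?_
    change ⟪β, n' (y α)⟫_ℂ = ⟪β, y (n' α)⟫_ℂ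
    rw [hy, hcomm n' hn', ← hy, ContinuousLinearMap.star_eq_adjoint,
      ContinuousLinearMap.adjoint_inner_left]
  have hy1 : ‖y‖ ≤ 1 := by
    refine ContinuousLinearMap.opNorm_le_bound _ zero_le_one fun α => ?_
    have h1 : ‖y α‖ * ‖y α‖ ≤ ‖α‖ * ‖y α‖ := by
      have h2 := hGb α (y α)
      rw [← hy, inner_self_eq_norm_sq_to_K] at h2
      simpa [sq] using h2
    rw [one_mul]
    by_cases h0 : ‖y α‖ = 0
    · rw [h0]; positivity
    · exact le_of_mul_le_mul_right h1 (lt_of_le_of_ne (norm_nonneg _) (Ne.symm h0))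
  have hgy : ∀ v, g v = v.sum fun i z => z * ⟪i.2, y i.1⟫_ℂ := fun v => by
    have h1 : g = lf (fun i : H × H => ⟪i.2, y i.1⟫_ℂ) := by
      refine Finsupp.lhom_ext fun i z => ?_
      rw [lf_single]
      have := hgs i.1 i.2 z
      rw [Prod.mk.eta] at this
      rw [this, hy]
    rw [h1, lf_apply]
  have hq : quotSem p W v₀ ≤ c := by
    have h1 := hc y hyN hy1
    rw [← hgy, hg0] at h1
    refine le_trans (le_abs_self _) ?_
    simpa using h1
  obtain ⟨w, hw⟩ : ∃ w : W, p (v₀ - w) < c + ε := by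
    refine exists_lt_of_ciInf_lt ?_
    rw [← quotSem_apply]
    linarith
  refine ⟨v₀ - w, fun n hn => ?_, ?_⟩
  · have h1 := (hWmem _).1 w.2 n hn
    have h2 : lf (fun i : H × H => ⟪i.2, n i.1⟫_ℂ) (v₀ - w)
        = lf (fun i : H × H => ⟪i.2, n i.1⟫_ℂ) v₀ := by
      rw [map_sub, h1, sub_zero]
    rwa [lf_apply, lf_apply] at h2
  · exact hw.le

/-- **Extension lemma**: every functional `n ↦ ∑ k, ⟨n (a₀ k), b₀ k⟩` on `N` of norm `≤ c` can be
written with vectors satisfying `∑ ‖a k‖² ≤ c + ε` and `∑ ‖b k‖² ≤ c + ε`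
(moreover `‖a k‖ = ‖b k‖` for all `k`). -/
theorem exists_ext (N : VonNeumannAlgebra H) {κ : Type*} [Fintype κ] (a₀ b₀ : κ → H) (c : ℝ)
    (hc : ∀ n ∈ N, ‖n‖ ≤ 1 → ‖∑ k, ⟪b₀ k, n (a₀ k)⟫_ℂ‖ ≤ c) (ε : ℝ) (hε : 0 < ε) :
    ∃ (m : ℕ) (a b : Fin m → H),
      (∀ n ∈ N, (∑ k, ⟪b k, n (a k)⟫_ℂ) = ∑ k, ⟪b₀ k, n (a₀ k)⟫_ℂ) ∧
      (∀ k, ‖a k‖ = ‖b k‖) ∧
      (∑ k, ‖a k‖ ^ 2) ≤ c + ε ∧ (∑ k, ‖b k‖ ^ 2) ≤ c + ε := by
  classical
  let v₀ : (H × H) →₀ ℂ := ∑ k, Finsupp.single (a₀ k, b₀ k) 1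
  have hv₀ : ∀ n : H →L[ℂ] H, (v₀.sum fun i z => z * ⟪i.2, n i.1⟫_ℂ)
      = ∑ k, ⟪b₀ k, n (a₀ k)⟫_ℂ := fun n => by
    rw [← lf_apply (fun i : H × H => ⟪i.2, n i.1⟫_ℂ)]
    simp [v₀, lf_single]
  obtain ⟨v, hv, hvle⟩ := exists_ext_finsupp N v₀ c (fun n hn hn1 => by
    rw [hv₀]; exact hc n hn hn1) ε hε
  let e := v.support.equivFin.symm
  -- balanced vectors
  let r : H × H → ℝ := fun i => Real.sqrt (‖v i‖ * (‖i.1‖ * ‖i.2‖))
  have hbal : ∀ i : H × H, ∃ a b : H, ‖a‖ = ‖b‖ ∧ ‖a‖ ^ 2 = ‖v i‖ * (‖i.1‖ * ‖i.2‖) ∧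
      ∀ n : H →L[ℂ] H, ⟪b, n a⟫_ℂ = v i * ⟪i.2, n i.1⟫_ℂ := fun i => by
    by_cases h0 : ‖v i‖ * (‖i.1‖ * ‖i.2‖) = 0
    · refine ⟨0, 0, rfl, by simp [h0], fun n => ?_⟩
      rcases mul_eq_zero.1 h0 with h | h
      · rw [norm_eq_zero] at h; simp [h]
      · rcases mul_eq_zero.1 h with h | h <;> rw [norm_eq_zero] at h <;> simp [h]
    · have hr : 0 < r i := Real.sqrt_pos.2 (lt_of_le_of_ne (by positivity) (Ne.symm h0))
      have hrr : r i ^ 2 = ‖v i‖ * (‖i.1‖ * ‖i.2‖) := Real.sq_sqrt (by positivity)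
      have h1 : ‖i.1‖ ≠ 0 := fun h => h0 (by rw [h]; ring)
      have h2 : ‖i.2‖ ≠ 0 := fun h => h0 (by rw [h]; ring)
      have hv : ‖v i‖ ≠ 0 := fun h => h0 (by rw [h]; ring)
      refine ⟨((r i / ‖i.1‖ : ℝ) : ℂ) • i.1, (((r i / ‖i.2‖ : ℝ) : ℂ) *
        (conj (v i) / (‖v i‖ : ℂ))) • i.2, ?_, ?_, fun n => ?_⟩
      · rw [norm_smul, norm_smul, norm_mul, norm_div, Complex.norm_real, Complex.norm_real,
          Complex.norm_real, RCLike.norm_conj]
        simp only [norm_div, Real.norm_eq_abs, abs_of_pos hr, abs_norm]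
        field_simp
      · rw [norm_smul, Complex.norm_real, ← hrr]
        simp only [norm_div, Real.norm_eq_abs, abs_of_pos hr, abs_norm]
        field_simp
      · rw [map_smul, inner_smul_left, inner_smul_right]
        simp only [map_mul, map_div₀, Complex.conj_ofReal, Complex.conj_conj]
        have hrr' : ((r i : ℝ) : ℂ) ^ 2 = (‖v i‖ : ℂ) * ((‖i.1‖ : ℂ) * (‖i.2‖ : ℂ)) := by
          exact_mod_cast hrr
        have h1' : (‖i.1‖ : ℂ) ≠ 0 := by exact_mod_cast h1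
        have h2' : (‖i.2‖ : ℂ) ≠ 0 := by exact_mod_cast h2
        have hv' : (‖v i‖ : ℂ) ≠ 0 := by exact_mod_cast hv
        push_cast
        field_simp
        linear_combination (v i * ⟪i.2, n i.1⟫_ℂ) * hrr'
  choose a b hab ha2 hval using hbal
  have hsum : ∀ (V : Type) [AddCommMonoid V] (f : H × H → V),
      ∑ k, f (e k).1 = ∑ i ∈ v.support, f i := fun V _ f => by
    rw [← Finset.sum_coe_sort v.support, ← Equiv.sum_comp e]
  refine ⟨v.support.card, fun k => a (e k).1, fun k => b (e k).1, fun n hn => ?_,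
    fun k => hab _, ?_, ?_⟩
  · rw [← hv₀, ← hv n hn, Finsupp.sum, ← hsum ℂ fun i => v i * ⟪i.2, n i.1⟫_ℂ]
    exact Finset.sum_congr rfl fun k _ => hval _ n
  · rw [hsum ℝ fun i => ‖a i‖ ^ 2]
    refine le_trans (le_of_eq (Finset.sum_congr rfl fun i _ => ha2 i)) hvle
  · rw [hsum ℝ fun i => ‖b i‖ ^ 2]
    refine le_trans (le_of_eq (Finset.sum_congr rfl fun i _ => ?_)) hvle
    rw [← hab, ha2]

end Ext

end Crest.Agent.R078.Z.HB
end

-- ▼ part R078/S103Rec445B

set_option autoImplicit false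
set_option linter.unusedSectionVars false
open scoped InnerProductSpace
open Crest.Agent.R078.Z.Slot

namespace Crest.Agent.R078.Z.Rec

universe u

section upd

variable {A : Type*} [Monoid A] {L : Type*}

theorem lt_of_mem_take {d : ℕ} {j : ℕ} {i : Fin d} (h : i ∈ (List.finRange d).take j) :
    (i : ℕ) < j := by
  rw [List.mem_take_iff_getElem] at h
  obtain ⟨n, hn, hi⟩ := h
  rw [List.getElem_finRange] at hi
  have : (i : ℕ) = n := by rw [← hi]; rfl
  omega

theorem le_of_mem_drop {d : ℕ} {j : ℕ} {i : Fin d} (h : i ∈ (List.finRange d).drop j) :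
    j ≤ (i : ℕ) := by
  rw [List.mem_drop_iff_getElem] at h
  obtain ⟨n, hn, hi⟩ := h
  rw [List.getElem_finRange] at hi
  have : (i : ℕ) = j + n := by rw [← hi]; rfl
  omega

theorem pre_congr {d : ℕ} (T : Fin d → L → A) {w w' : Fin d → L} {j : ℕ}
    (h : ∀ i : Fin d, (i : ℕ) < j → w i = w' i) : pre T w j = pre T w' j := by
  unfold pre
  congr 1
  exact List.map_congr_left fun i hi => by rw [h i (lt_of_mem_take hi)]

theorem suf_congr {d : ℕ} (T : Fin d → L → A) {w w' : Fin d → L} {j : ℕ}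
    (h : ∀ i : Fin d, j ≤ (i : ℕ) → w i = w' i) : suf T w j = suf T w' j := by
  unfold suf
  congr 1
  exact List.map_congr_left fun i hi => by rw [h i (le_of_mem_drop hi)]

theorem pre_update {d : ℕ} [DecidableEq L] (T : Fin d → L → A) (w : Fin d → L) (j : Fin d) (l : L) :
    pre T (Function.update w j l) j = pre T w j :=
  pre_congr T fun i hi => by
    rw [Function.update_of_ne]
    rintro rfl
    exact lt_irrefl _ hi

theorem suf_update {d : ℕ} [DecidableEq L] (T : Fin d → L → A) (w : Fin d → L) (j : Fin d) (l : L) :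
    suf T (Function.update w j l) (j + 1) = suf T w (j + 1) :=
  suf_congr T fun i hi => by
    rw [Function.update_of_ne]
    rintro rfl
    omega

/-- `X` with letter `j` replaced. -/
theorem word_update {d : ℕ} [DecidableEq L] (T : Fin d → L → A) (w : Fin d → L) (j : Fin d)
    (l : L) : suf T (Function.update w j l) 0 = pre T w j * T j l * suf T w (j + 1) := by
  rw [word_eq T _ j, pre_update, suf_update, Function.update_self]

end upd

/-- second half of step (5) -/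
theorem recTarget : RecTarget.{u} := by
  intro G _ _ _ M N δ R Λ _ _ _ hrel κ W _ _ ν X Xh ξ η c hν hc hXm hX1 hXhm _ hXX hξ hη hb hr
  refine rec_general M N ?_ hrel ν c X Xh ξ η hν hc hXm hX1 hXhm hXX hξ hη hb hr
  intro κ _ ξ η c _ hb ε hε
  obtain ⟨m, a, b, h1, _, h3, h4⟩ := HB.exists_ext N ξ η c hb ε hε
  exact ⟨m, a, b, h1, h3, h4⟩

/-- first half of step (5): `(X, q_2)` is a relation. -/
theorem relTarget : RelTarget.{u} := by
  intro G _ _ _ M N d L _ _ δ R K Kθ ε₁ s n hn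
  have e1 : ∀ w, ((s.wt w : ℂ) * s.q2 w n) • s.X w
      = ∑ j, Pb.wt s.μ w • (((d : ℂ)⁻¹ * ⟪s.lft j w (s.η j (w j)), n (s.k j (s.sig w j))⟫_ℂ) •
        s.X w) := by
    intro w
    rw [← Finset.smul_sum, ← Finset.sum_smul, ← Finset.mul_sum]
    change ((s.wt w : ℂ) * s.q2 w n) • s.X w = s.wt w • (s.q2 w n • s.X w)
    rw [mul_smul]
    exact Complex.coe_smul _ _
  rw [Finset.sum_congr rfl fun w _ => e1 w, Finset.sum_comm]
  refine Finset.sum_eq_zero fun j _ => ?_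
  change Pb.Ex s.μ (fun w => ((d : ℂ)⁻¹ * ⟪s.lft j w (s.η j (w j)), n (s.k j (s.sig w j))⟫_ℂ) •
        s.X w) = 0
  refine Pb.Ex_eq_zero s.μ s.μ_sum j _ fun w => ?_
  -- the average over letter `j`
  have e2 : ∀ l, s.μ l • (((d : ℂ)⁻¹ * ⟪s.lft j (Function.update w j l)
        (s.η j (Function.update w j l j)), n (s.k j (s.sig (Function.update w j l) j))⟫_ℂ) •
        s.X (Function.update w j l))
      = (d : ℂ)⁻¹ • (pre s.T w j * (((s.μ l : ℂ) *
          ⟪s.η j l, star (s.lft j w) (n (s.k j (s.sig w j)))⟫_ℂ) • s.T j l)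
          * suf s.T w (j + 1)) := by
    intro l
    have h1 : s.sig (Function.update w j l) j = s.sig w j := by
      unfold SlotSys.sig
      rw [s.tp_upd]
    have h2 : s.X (Function.update w j l) = pre s.T w j * s.T j l * suf s.T w (j + 1) :=
      word_update s.T w j l
    rw [h1, h2, s.lft_upd, Function.update_self]
    have h3 : ⟪s.lft j w (s.η j l), n (s.k j (s.sig w j))⟫_ℂ
        = ⟪s.η j l, star (s.lft j w) (n (s.k j (s.sig w j)))⟫_ℂ := by
      rw [ContinuousLinearMap.star_eq_adjoint, ContinuousLinearMap.adjoint_inner_right]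
    rw [h3, mul_smul_comm, smul_mul_assoc, smul_smul, ← Complex.coe_smul, smul_smul]
    congr 1
    ring
  rw [Finset.sum_congr rfl fun l _ => e2 l, ← Finset.smul_sum, ← Finset.sum_mul,
    ← Finset.mul_sum, s.exact_T j]
  simp

end Crest.Agent.R078.Z.Rec
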