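import Crest.Agent.R078.S103SlotTargets199
import Crest.Agent.R078.S103Prob

-- ▼ part R078/S103SlotQ1199
section

set_option autoImplicit false
open scoped InnerProductSpace

namespace Crest.Agent.R078.Z.Slot

universe u

section products

variable {A : Type*} [Monoid A] {L : Type*} {d : ℕ}

theorem pre_mem {σ : Type*} [SetLike σ A] [SubmonoidClass σ A] (B : σ) {T : Fin d → L → A}
    (h : ∀ j l, T j l ∈ B) (w : Fin d → L) (j : ℕ) : pre T w j ∈ B := by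
  unfold pre
  refine list_prod_mem fun x hx => ?_
  obtain ⟨i, _, rfl⟩ := List.mem_map.1 hx
  exact h _ _

theorem suf_mem {σ : Type*} [SetLike σ A] [SubmonoidClass σ A] (B : σ) {T : Fin d → L → A}
    (h : ∀ j l, T j l ∈ B) (w : Fin d → L) (j : ℕ) : suf T w j ∈ B := by
  unfold suf
  refine list_prod_mem fun x hx => ?_
  obtain ⟨i, _, rfl⟩ := List.mem_map.1 hx
  exact h _ _

end products

variable {G : Type u} [NormedAddCommGroup G] [InnerProductSpace ℂ G] [CompleteSpace G]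

theorem comm_of_commutant {M : VonNeumannAlgebra G} {x z : G →L[ℂ] G} (hx : x ∈ M)
    (hz : z ∈ M.commutant) : x * z = z * x :=
  VonNeumannAlgebra.mem_commutant_iff.1 hz x hx

theorem norm_unitary_apply {u : G →L[ℂ] G} (hu : u ∈ unitary (G →L[ℂ] G)) (x : G) :
    ‖u x‖ = ‖x‖ := by
  have h1 : star u * u = 1 := hu.1
  have h2 : ‖u x‖ ^ 2 = ‖x‖ ^ 2 := by
    have : ⟪u x, u x⟫_ℂ = ⟪x, x⟫_ℂ := by
      rw [← ContinuousLinearMap.adjoint_inner_right]
      have : (ContinuousLinearMap.adjoint u) (u x) = (star u * u) x := rfl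
      rw [this, h1]; rfl
    rw [inner_self_eq_norm_sq_to_K, inner_self_eq_norm_sq_to_K] at this
    exact_mod_cast this
  have := (sq_eq_sq₀ (norm_nonneg _) (norm_nonneg _)).1 h2
  exact this

theorem norm_le_one_of_unitary {u : G →L[ℂ] G} (hu : u ∈ unitary (G →L[ℂ] G)) : ‖u‖ ≤ 1 :=
  ContinuousLinearMap.opNorm_le_bound _ zero_le_one fun x => by
    rw [norm_unitary_apply hu, one_mul]

/-- a self-adjoint idempotent is a contraction -/
theorem norm_proj_apply_le {p : G →L[ℂ] G} (hsa : star p = p) (hid : p * p = p) (x : G) :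
    ‖p x‖ ≤ ‖x‖ := by
  have h1 : ⟪p x, p x⟫_ℂ = ⟪x, p x⟫_ℂ := by
    have h2 : ⟪p x, p x⟫_ℂ = ⟪x, (star p) (p x)⟫_ℂ := by
      rw [ContinuousLinearMap.star_eq_adjoint, ContinuousLinearMap.adjoint_inner_right]
    rw [h2, hsa]
    have : p (p x) = (p * p) x := rfl
    rw [this, hid]
  have h3 : ‖p x‖ ^ 2 ≤ ‖x‖ * ‖p x‖ := by
    have h4 : (‖p x‖ ^ 2 : ℝ) = ‖⟪p x, p x⟫_ℂ‖ := by
      rw [inner_self_eq_norm_sq_to_K]
      simp
    rw [h4, h1]
    exact norm_inner_le_norm _ _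
  by_cases h0 : ‖p x‖ = 0
  · rw [h0]; exact norm_nonneg _
  · have : 0 < ‖p x‖ := lt_of_le_of_ne (norm_nonneg _) (Ne.symm h0)
    nlinarith

theorem inner_star_left (x : G →L[ℂ] G) (a b : G) : ⟪x a, b⟫_ℂ = ⟪a, star x b⟫_ℂ := by
  rw [ContinuousLinearMap.star_eq_adjoint, ContinuousLinearMap.adjoint_inner_right]


namespace SlotSys

variable {M N : VonNeumannAlgebra G} {d : ℕ} {L : Type} [Fintype L] [DecidableEq L]
  {δ R K Kθ ε₁ : ℝ} (s : SlotSys M N d L δ R K Kθ ε₁)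

theorem Ex_eq {E : Type*} [AddCommGroup E] [Module ℝ E] (F : (Fin d → L) → E) :
    s.Ex F = Pb.Ex s.μ F := rfl

theorem p'_sig (w : Fin d → L) (j : Fin d) : s.p' (s.sig w j) = s.sig w j := by
  unfold sig
  have : s.p' (s.p' (s.tp j w s.ζ)) = (s.p' * s.p') (s.tp j w s.ζ) := rfl
  rw [this, s.p'_idem]

theorem q_split (w : Fin d → L) (y : G →L[ℂ] G) (hy : y ∈ N) :
    s.q w y = s.q1 w y + s.q2 w y := by
  unfold q q1 q2
  rw [← mul_add, ← Finset.sum_add_distrib]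
  congr 1
  refine Finset.sum_congr rfl fun j _ => ?_
  have h1 : star (s.rho j w) s.ζ = s.e w j + s.sig w j := by unfold e; abel
  rw [h1, map_add, map_add, inner_add_right]
  congr 1
  rw [inner_star_left, inner_star_left]
  have hmem : star (s.lft j w) * y ∈ N := mul_mem (star_mem (s.lft_mem j w)) hy
  exact s.star_id j (w j) _ hmem _ (s.p'_sig w j)

/-- the norm function of `q₁` -/
noncomputable def n1 (w : Fin d → L) : ℝ := (d : ℝ)⁻¹ * ∑ j, ‖s.kap j (w j) (s.e w j)‖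

theorem n1_nonneg (w : Fin d → L) : 0 ≤ s.n1 w := by unfold n1; positivity

theorem norm_q1_le (w : Fin d → L) (y : G →L[ℂ] G) (hy : ‖y‖ ≤ 1) : ‖s.q1 w y‖ ≤ s.n1 w := by
  unfold q1 n1
  rw [norm_mul]
  have h0 : ‖(d : ℂ)⁻¹‖ = (d : ℝ)⁻¹ := by simp
  rw [h0]
  refine mul_le_mul_of_nonneg_left ?_ (by positivity)
  refine (norm_sum_le _ _).trans (Finset.sum_le_sum fun j _ => ?_)
  refine (norm_inner_le_norm _ _).trans ?_
  have h1 : ‖s.lft j w (s.bet w j)‖ ≤ 1 := by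
    calc _ ≤ ‖s.lft j w‖ * ‖s.bet w j‖ := (s.lft j w).le_opNorm _
      _ ≤ 1 * 1 := mul_le_mul (s.norm_lft j w) (s.norm_bζ j (w j)) (norm_nonneg _) zero_le_one
      _ = 1 := one_mul 1
  have h2 : ‖y (s.kap j (w j) (s.e w j))‖ ≤ ‖s.kap j (w j) (s.e w j)‖ := by
    calc _ ≤ ‖y‖ * ‖s.kap j (w j) (s.e w j)‖ := y.le_opNorm _
      _ ≤ 1 * _ := mul_le_mul_of_nonneg_right hy (norm_nonneg _)
      _ = _ := one_mul _
  calc _ ≤ 1 * ‖s.kap j (w j) (s.e w j)‖ := mul_le_mul h1 h2 (norm_nonneg _) zero_le_one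
    _ = _ := one_mul _

theorem star_rho_P (j : Fin d) (w : Fin d → L) :
    s.P j * star (s.rho j w) = star (s.rho j w) * s.P j := by
  have h := congrArg star (s.rho_P j w)
  rw [star_mul, star_mul, s.P_sa] at h
  exact h

theorem e_eq (w : Fin d → L) (j : Fin d) :
    s.e w j = s.p' (star (s.rho j w) s.ζ - s.tp j w s.ζ) := by
  unfold e sig
  rw [map_sub]
  congr 1
  have h := comm_of_commutant (star_mem (s.rho_mem j w)) s.p'_mem
  have h2 : s.p' (star (s.rho j w) s.ζ) = (s.p' * star (s.rho j w)) s.ζ := rfl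
  rw [h2, ← h]
  change _ = star (s.rho j w) (s.p' s.ζ)
  rw [s.p'_ζ]

theorem P_e (w : Fin d → L) (j : Fin d) : s.P j (s.e w j) = s.e w j := by
  rw [e_eq]
  have h1 : s.P j (s.p' (star (s.rho j w) s.ζ - s.tp j w s.ζ))
      = (s.P j * s.p') (star (s.rho j w) s.ζ - s.tp j w s.ζ) := rfl
  rw [h1, ← s.p'_P]
  change s.p' (s.P j (star (s.rho j w) s.ζ - s.tp j w s.ζ)) = _
  congr 1
  rw [map_sub]
  have h2 : s.P j (star (s.rho j w) s.ζ) = (s.P j * star (s.rho j w)) s.ζ := rfl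
  have h3 : s.P j (s.tp j w s.ζ) = (s.P j * s.tp j w) s.ζ := rfl
  rw [h2, h3, s.star_rho_P, ← s.tp_P]
  change star (s.rho j w) (s.P j s.ζ) - s.tp j w (s.P j s.ζ) = _
  rw [s.P_ζ]

theorem e_upd (w : Fin d → L) (j : Fin d) (l : L) : s.e (Function.update w j l) j = s.e w j := by
  unfold e sig
  rw [s.rho_upd, s.tp_upd]

theorem norm_e_le (w : Fin d → L) (j : Fin d) :
    ‖s.e w j‖ ≤ 2 * δ + ‖star (suf s.T w (j + 1)) s.ζ - suf s.S w (j + 1) s.ζ‖ := by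
  rw [e_eq]
  refine (norm_proj_apply_le s.p'_sa s.p'_idem _).trans ?_
  have h1 : star (s.rho j w) s.ζ - s.tp j w s.ζ
      = (star (s.rho j w) - star (suf s.T w (j + 1))) s.ζ
        + (suf s.S w (j + 1) - s.tp j w) s.ζ
        + (star (suf s.T w (j + 1)) s.ζ - suf s.S w (j + 1) s.ζ) := by
    simp only [sub_apply]; abel
  rw [h1]
  refine (norm_add_le _ _).trans (add_le_add_left ?_ _)
  refine (norm_add_le _ _).trans ?_
  have h2 : ‖(star (s.rho j w) - star (suf s.T w (j + 1))) s.ζ‖ ≤ δ := by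
    refine (ContinuousLinearMap.le_opNorm _ _).trans ?_
    rw [s.norm_ζ, mul_one, ← star_sub, norm_star, norm_sub_rev]
    exact s.rho_near j w
  have h3 : ‖(suf s.S w (j + 1) - s.tp j w) s.ζ‖ ≤ δ := by
    refine (ContinuousLinearMap.le_opNorm _ _).trans ?_
    rw [s.norm_ζ, mul_one]
    exact s.tp_near j w
  linarith

theorem D_nonneg (hε : 0 ≤ ε₁) : 0 ≤ s.D := by unfold D; positivity

theorem Ex_e_sq_le (hd : DriftTarget.{u}) (hδ : 0 ≤ δ) (hε : 0 ≤ ε₁) (j : Fin d) :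
    Pb.Ex s.μ (fun w => ‖s.e w j‖ ^ 2) ≤ (2 * δ + s.D) ^ 2 := by
  have hD := s.D_nonneg hε
  have h1 := (hd G M N d L δ R K Kθ ε₁ s hε j).2
  rw [Ex_eq] at h1
  set a : (Fin d → L) → ℝ := fun w => ‖star (suf s.T w (j + 1)) s.ζ - suf s.S w (j + 1) s.ζ‖
    with ha
  have h2 : Pb.Ex s.μ a ≤ s.D :=
    Pb.Ex_norm_le_of_sq_le s.μ_nonneg s.μ_sum
      (fun w => star (suf s.T w (j + 1)) s.ζ - suf s.S w (j + 1) s.ζ) hD h1
  calc Pb.Ex s.μ (fun w => ‖s.e w j‖ ^ 2)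
      ≤ Pb.Ex s.μ (fun w => (2 * δ) ^ 2 + (4 * δ * a w + a w ^ 2)) := by
        refine Pb.Ex_mono s.μ_nonneg fun w => ?_
        have h3 := s.norm_e_le w j
        have h4 : ‖s.e w j‖ ^ 2 ≤ (2 * δ + a w) ^ 2 := by
          exact pow_le_pow_left₀ (norm_nonneg _) h3 2
        nlinarith
    _ = (2 * δ) ^ 2 + (4 * δ * Pb.Ex s.μ a + Pb.Ex s.μ (fun w => a w ^ 2)) := by
        rw [Pb.Ex_add, Pb.Ex_const _ s.μ_sum, Pb.Ex_add, Pb.Ex_mul_left]
    _ ≤ (2 * δ) ^ 2 + (4 * δ * s.D + s.D ^ 2) := by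
        have : 4 * δ * Pb.Ex s.μ a ≤ 4 * δ * s.D := mul_le_mul_of_nonneg_left h2 (by positivity)
        linarith
    _ = (2 * δ + s.D) ^ 2 := by ring

theorem Ex_kap_le (hd : DriftTarget.{u}) (hδ : 0 ≤ δ) (hε : 0 ≤ ε₁) (j : Fin d) :
    Pb.Ex s.μ (fun w => ‖s.kap j (w j) (s.e w j)‖) ≤ Real.sqrt 3 * (2 * δ + s.D) := by
  have hD := s.D_nonneg hε
  refine Pb.Ex_norm_le_of_sq_le s.μ_nonneg s.μ_sum (fun w => s.kap j (w j) (s.e w j))
    (by positivity) ?_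
  have h1 : Pb.Ex s.μ (fun w => ‖s.kap j (w j) (s.e w j)‖ ^ 2)
      = Pb.Ex s.μ (fun w => ∑ i, s.μ i • ‖s.kap j i (s.e w j)‖ ^ 2) :=
    Pb.Ex_letter s.μ s.μ_sum j (fun l w => ‖s.kap j l (s.e w j)‖ ^ 2)
      (fun l w i => by rw [s.e_upd])
  rw [h1]
  calc _ ≤ Pb.Ex s.μ (fun w => 3 * ‖s.e w j‖ ^ 2) := by
        refine Pb.Ex_mono s.μ_nonneg fun w => ?_
        simpa [smul_eq_mul] using s.kap_avg j (s.e w j) (s.P_e w j)
    _ = 3 * Pb.Ex s.μ (fun w => ‖s.e w j‖ ^ 2) := Pb.Ex_mul_left _ _ _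
    _ ≤ 3 * (2 * δ + s.D) ^ 2 := by
        have := s.Ex_e_sq_le hd hδ hε j
        linarith
    _ = (Real.sqrt 3 * (2 * δ + s.D)) ^ 2 := by
        rw [mul_pow, Real.sq_sqrt (by norm_num)]

theorem Ex_n1_le (hd : DriftTarget.{u}) (h0 : 0 < d) (hδ : 0 ≤ δ) (hε : 0 ≤ ε₁) :
    s.Ex s.n1 ≤ Real.sqrt 3 * (2 * δ + s.D) := by
  rw [Ex_eq]
  have hd' : (0 : ℝ) < d := by exact_mod_cast h0
  calc Pb.Ex s.μ s.n1
      = (d : ℝ)⁻¹ * ∑ j, Pb.Ex s.μ (fun w => ‖s.kap j (w j) (s.e w j)‖) := by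
        have : s.n1 = fun w => (d : ℝ)⁻¹ * ∑ j, ‖s.kap j (w j) (s.e w j)‖ := rfl
        rw [this, Pb.Ex_mul_left, Pb.Ex_sum]
    _ ≤ (d : ℝ)⁻¹ * ∑ _j : Fin d, Real.sqrt 3 * (2 * δ + s.D) := by
        refine mul_le_mul_of_nonneg_left ?_ (by positivity)
        exact Finset.sum_le_sum fun j _ => s.Ex_kap_le hd hδ hε j
    _ = Real.sqrt 3 * (2 * δ + s.D) := by
        rw [Finset.sum_const, Finset.card_univ, Fintype.card_fin, nsmul_eq_mul]
        field_simp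

end SlotSys

theorem q1Target (hd : DriftTarget.{u}) : Q1Target.{u} := by
  intro G _ _ _ M N d L _ _ δ R K Kθ ε₁ s h0 hδ hε
  exact ⟨fun w y hy => s.q_split w y hy, s.n1, s.n1_nonneg, s.norm_q1_le,
    s.Ex_n1_le hd h0 hδ hε⟩

end Crest.Agent.R078.Z.Slot
end

-- ▼ part R078/S103SlotVal199
section

set_option autoImplicit false
open scoped InnerProductSpace

namespace Crest.Agent.R078.Z.Slot

universe u

variable {G : Type u} [NormedAddCommGroup G] [InnerProductSpace ℂ G] [CompleteSpace G]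

namespace SlotSys

variable {M N : VonNeumannAlgebra G} {d : ℕ} {L : Type} [Fintype L] [DecidableEq L]
  {δ R K Kθ ε₁ : ℝ} (s : SlotSys M N d L δ R K Kθ ε₁)

theorem preT_unitary (w : Fin d → L) (j : ℕ) : pre s.T w j ∈ unitary (G →L[ℂ] G) :=
  pre_mem (unitary (G →L[ℂ] G)) s.T_unitary w j

theorem sufT_unitary (w : Fin d → L) (j : ℕ) : suf s.T w j ∈ unitary (G →L[ℂ] G) :=
  suf_mem (unitary (G →L[ℂ] G)) s.T_unitary w j



theorem sufT_mem (w : Fin d → L) (j : ℕ) : suf s.T w j ∈ M := suf_mem M s.T_mem w j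

theorem X_mem (w : Fin d → L) : s.X w ∈ M := s.sufT_mem w 0
theorem X_unitary (w : Fin d → L) : s.X w ∈ unitary (G →L[ℂ] G) := s.sufT_unitary w 0
theorem norm_X_le (w : Fin d → L) : ‖s.X w‖ ≤ 1 := norm_le_one_of_unitary (s.X_unitary w)

/-- `L_j^* X R_j^* = T_j` -/
theorem star_mul_X_mul_star (w : Fin d → L) (j : Fin d) :
    star (pre s.T w j) * s.X w * star (suf s.T w (j + 1)) = s.T j (w j) := by
  have h1 : star (pre s.T w j) * pre s.T w j = 1 := (s.preT_unitary w j).1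
  have h2 : suf s.T w (j + 1) * star (suf s.T w (j + 1)) = 1 := (s.sufT_unitary w (j + 1)).2
  unfold X
  rw [word_eq s.T w j]
  calc star (pre s.T w j) * (pre s.T w j * s.T j (w j) * suf s.T w (j + 1))
        * star (suf s.T w (j + 1))
      = (star (pre s.T w j) * pre s.T w j) * s.T j (w j)
        * (suf s.T w (j + 1) * star (suf s.T w (j + 1))) := by simp only [mul_assoc]
    _ = s.T j (w j) := by rw [h1, h2, one_mul, mul_one]

theorem norm_lift_sub_le (w : Fin d → L) (j : Fin d) (Xh : G →L[ℂ] G) (hX1 : ‖Xh‖ ≤ 1)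
    (hX : ‖s.X w - Xh‖ ≤ δ) :
    ‖star (s.lft j w) * Xh * star (s.rho j w) - s.T j (w j)‖ ≤ 3 * δ := by
  rw [← s.star_mul_X_mul_star w j]
  have hL : ‖star (pre s.T w j)‖ ≤ 1 := by
    rw [norm_star]; exact norm_le_one_of_unitary (s.preT_unitary w j)
  have hR : ‖star (s.rho j w)‖ ≤ 1 := by rw [norm_star]; exact s.norm_rho j w
  have h1 : ‖star (s.lft j w) - star (pre s.T w j)‖ ≤ δ := by
    rw [← star_sub, norm_star, norm_sub_rev]; exact s.lft_near j w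
  have h2 : ‖star (s.rho j w) - star (suf s.T w (j + 1))‖ ≤ δ := by
    rw [← star_sub, norm_star, norm_sub_rev]; exact s.rho_near j w
  have hδ : 0 ≤ δ := (norm_nonneg _).trans h1
  have e : star (s.lft j w) * Xh * star (s.rho j w)
      - star (pre s.T w j) * s.X w * star (suf s.T w (j + 1))
      = (star (s.lft j w) - star (pre s.T w j)) * Xh * star (s.rho j w)
        + star (pre s.T w j) * (Xh - s.X w) * star (s.rho j w)
        + star (pre s.T w j) * s.X w * (star (s.rho j w) - star (suf s.T w (j + 1))) := by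
    noncomm_ring
  rw [e]
  have b1 : ‖(star (s.lft j w) - star (pre s.T w j)) * Xh * star (s.rho j w)‖ ≤ δ := by
    calc _ ≤ ‖star (s.lft j w) - star (pre s.T w j)‖ * ‖Xh‖ * ‖star (s.rho j w)‖ :=
          (norm_mul_le _ _).trans (mul_le_mul_of_nonneg_right (norm_mul_le _ _) (norm_nonneg _))
      _ ≤ δ * 1 * 1 := by gcongr
      _ = δ := by ring
  have b2 : ‖star (pre s.T w j) * (Xh - s.X w) * star (s.rho j w)‖ ≤ δ := by
    calc _ ≤ ‖star (pre s.T w j)‖ * ‖Xh - s.X w‖ * ‖star (s.rho j w)‖ :=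
          (norm_mul_le _ _).trans (mul_le_mul_of_nonneg_right (norm_mul_le _ _) (norm_nonneg _))
      _ ≤ 1 * δ * 1 := by
          rw [norm_sub_rev Xh]
          gcongr
      _ = δ := by ring
  have b3 : ‖star (pre s.T w j) * s.X w * (star (s.rho j w) - star (suf s.T w (j + 1)))‖ ≤ δ := by
    calc _ ≤ ‖star (pre s.T w j)‖ * ‖s.X w‖ * ‖star (s.rho j w) - star (suf s.T w (j + 1))‖ :=
          (norm_mul_le _ _).trans (mul_le_mul_of_nonneg_right (norm_mul_le _ _) (norm_nonneg _))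
      _ ≤ 1 * 1 * δ := by
          have := s.norm_X_le w
          gcongr
      _ = δ := by ring
  calc _ ≤ δ + δ + δ := (norm_add_le _ _).trans (add_le_add ((norm_add_le _ _).trans
        (add_le_add b1 b2)) b3)
    _ = 3 * δ := by ring

theorem norm_q_sub_le (w : Fin d → L) (h0 : 0 < d) (Xh : G →L[ℂ] G)
    (hX1 : ‖Xh‖ ≤ 1) (hX : ‖s.X w - Xh‖ ≤ δ) :
    ‖s.q w Xh - (d : ℂ)⁻¹ * ∑ j, ⟪s.b j (w j) (s.k1 j s.ζ), s.T j (w j) (s.kap j (w j) s.ζ)⟫_ℂ‖
      ≤ 3 * δ := by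
  have hd' : (0 : ℝ) < d := by exact_mod_cast h0
  unfold q
  rw [← mul_sub, ← Finset.sum_sub_distrib, norm_mul]
  have hc : ‖(d : ℂ)⁻¹‖ = (d : ℝ)⁻¹ := by simp
  rw [hc]
  have hterm : ∀ j : Fin d,
      ‖⟪s.lft j w (s.bet w j), Xh (s.kap j (w j) (star (s.rho j w) s.ζ))⟫_ℂ
        - ⟪s.b j (w j) (s.k1 j s.ζ), s.T j (w j) (s.kap j (w j) s.ζ)⟫_ℂ‖ ≤ 3 * δ := by
    intro j
    rw [inner_star_left]
    have h1 : s.kap j (w j) (star (s.rho j w) s.ζ) = star (s.rho j w) (s.kap j (w j) s.ζ) := by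
      have h2 := comm_of_commutant (star_mem (s.rho_mem j w)) (s.kap_memN j (w j))
      exact (congrArg (fun t : G →L[ℂ] G => t s.ζ) h2).symm
    rw [h1]
    have h3 : star (s.lft j w) (Xh (star (s.rho j w) (s.kap j (w j) s.ζ)))
        = (star (s.lft j w) * Xh * star (s.rho j w)) (s.kap j (w j) s.ζ) := rfl
    rw [h3]
    unfold bet
    rw [← inner_sub_right, ← sub_apply]
    refine (norm_inner_le_norm _ _).trans ?_
    have hnn := s.norm_lift_sub_le w j Xh hX1 hX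
    have hδ : 0 ≤ δ := (norm_nonneg _).trans hX
    calc _ ≤ 1 * (3 * δ * 1) := by
          refine mul_le_mul (s.norm_bζ j (w j)) ?_ (norm_nonneg _) zero_le_one
          refine (ContinuousLinearMap.le_opNorm _ _).trans ?_
          exact mul_le_mul hnn (s.norm_kapζ j (w j)) (norm_nonneg _) (by positivity)
      _ = 3 * δ := by ring
  calc (d : ℝ)⁻¹ * ‖∑ j, (⟪s.lft j w (s.bet w j), Xh (s.kap j (w j) (star (s.rho j w) s.ζ))⟫_ℂ
        - ⟪s.b j (w j) (s.k1 j s.ζ), s.T j (w j) (s.kap j (w j) s.ζ)⟫_ℂ)‖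
      ≤ (d : ℝ)⁻¹ * ∑ _j : Fin d, 3 * δ := by
        refine mul_le_mul_of_nonneg_left ?_ (by positivity)
        exact (norm_sum_le _ _).trans (Finset.sum_le_sum fun j _ => hterm j)
    _ = 3 * δ := by
        rw [Finset.sum_const, Finset.card_univ, Fintype.card_fin, nsmul_eq_mul]
        field_simp

theorem Ex_value :
    s.Ex (fun w => (d : ℂ)⁻¹ * ∑ j, ⟪s.b j (w j) (s.k1 j s.ζ),
      s.T j (w j) (s.kap j (w j) s.ζ)⟫_ℂ) = (d : ℂ)⁻¹ * ∑ j, s.value j := by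
  rw [Ex_eq, Pb.Ex_mul_left', Pb.Ex_sum]
  congr 1
  refine Finset.sum_congr rfl fun j _ => ?_
  rw [Pb.Ex_single s.μ s.μ_sum j
    (fun l => ⟪s.b j l (s.k1 j s.ζ), s.T j l (s.kap j l s.ζ)⟫_ℂ)]
  unfold value
  refine Finset.sum_congr rfl fun l _ => ?_
  rw [Complex.real_smul]

end SlotSys

theorem valTarget : ValTarget.{u} := by
  intro G _ _ _ M N d L _ _ δ R K Kθ ε₁ s h0 hδ Xh hXN hX1 hX
  rw [← s.Ex_value, s.Ex_eq, s.Ex_eq, ← Pb.Ex_sub]
  refine (Pb.norm_Ex_le s.μ_nonneg _).trans ?_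
  exact Pb.Ex_le_const s.μ_nonneg s.μ_sum fun w => s.norm_q_sub_le w h0 (Xh w) (hX1 w) (hX w)

end Crest.Agent.R078.Z.Slot
end

-- ▼ part R078/S103SlotFinal199

set_option autoImplicit false
open scoped InnerProductSpace

namespace Crest.Agent.R078.Z.Slot

universe u

theorem walkTarget (hDr : DriftTarget.{u}) (hL1 : L1Target.{u}) (hL2 : L2Target.{u})
    (hRel : RelTarget.{u}) (hRec : RecTarget.{u}) : WalkTarget.{u} := by
  intro G _ _ _ M N d L _ _ δ R K Kθ ε₁ Λ v s hd hδ hR hK hKθ hε hΛ hMN hNM hrel hv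
  have hR0 : (0 : ℝ) < R := lt_of_lt_of_le zero_lt_one hR
  have hD := s.D_nonneg hε
  -- lifts of the words
  choose Xh hXN hX1 hX using fun w => hMN (s.X w) (s.X_mem w) (s.norm_X_le w)
  obtain ⟨hsplit, n1, hn10, hn1, hEn1⟩ := q1Target hDr G M N d L δ R K Kθ ε₁ s hd hδ hε
  obtain ⟨nq, hnq0, hnq, hEnq⟩ := hL1 G M N d L δ R K Kθ ε₁ Λ s hd hδ hR0.le hK
    (zero_le_one.trans hKθ) hε hΛ hMN hNM hrel
  obtain ⟨ζs, ηq, nη, hζs, hnη0, hηq, hq2, hEnη⟩ := hL2 G M N d L δ R K Kθ ε₁ s hd hδ hR0.le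
    (zero_le_one.trans hKθ)
  have hval := valTarget G M N d L δ R K Kθ ε₁ s hd hδ Xh hXN hX1 hX
  set c : (Fin d → L) → ℝ := fun w => nq w + (n1 w + R⁻¹ * nη w) with hc
  have hc0 : ∀ w, 0 ≤ c w := fun w => by
    have := hnq0 w; have := hn10 w; have := hnη0 w
    simp only [hc]; positivity
  have hwt0 : ∀ w, 0 ≤ s.wt w := fun w => Finset.prod_nonneg fun _ _ => s.μ_nonneg _
  have hrec := hRec G M N δ R Λ hδ hR0 hΛ hrel (Option (Fin d)) (Fin d → L) s.wt s.X Xh ζs ηq c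
    hwt0 hc0 s.X_mem s.norm_X_le hXN hX1 hX hζs
    (fun w => by
      refine (hηq w).trans ?_
      refine pow_le_pow_left₀ (hnη0 w) ?_ 2
      have h1 : nη w = R * (R⁻¹ * nη w) := by field_simp
      rw [h1]
      refine mul_le_mul_of_nonneg_left ?_ hR0.le
      have := hnq0 w; have := hn10 w
      simp only [hc]; linarith)
    (fun w y hy hy1 => by
      rw [← hq2 w y hy]
      have h1 : s.q2 w y = s.q w y - s.q1 w y := by rw [hsplit w y hy]; ring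
      rw [h1]
      refine (norm_sub_le _ _).trans ?_
      have := hnq w y hy hy1
      have := hn1 w y hy1
      have := hnη0 w
      have h2 : 0 ≤ R⁻¹ * nη w := by positivity
      simp only [hc]; linarith)
    (fun n hn => by
      have := hRel G M N d L δ R K Kθ ε₁ s n hn
      rw [← this]
      refine Finset.sum_congr rfl fun w _ => ?_
      rw [hq2 w n hn])
  have hEc : ∑ w, s.wt w * c w ≤ Λ + 4 * δ + Real.sqrt 3 * (2 * δ + s.D) + s.Efl
        + (2 * Real.sqrt 2 * δ + Real.sqrt 2 * Kθ / Real.sqrt d) := by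
    have h1 : ∑ w, s.wt w * c w = s.Ex nq + (s.Ex n1 + R⁻¹ * s.Ex nη) := by
      rw [s.Ex_eq, s.Ex_eq, s.Ex_eq, ← Pb.Ex_mul_left, ← Pb.Ex_add, ← Pb.Ex_add]
      rfl
    rw [h1]
    have h2 : R⁻¹ * s.Ex nη ≤ 2 * Real.sqrt 2 * δ + Real.sqrt 2 * Kθ / Real.sqrt d := by
      calc R⁻¹ * s.Ex nη
          ≤ R⁻¹ * (2 * Real.sqrt 2 * δ * R + Real.sqrt 2 * Kθ * R / Real.sqrt d) :=
            mul_le_mul_of_nonneg_left hEnη (by positivity)
        _ = 2 * Real.sqrt 2 * δ + Real.sqrt 2 * Kθ / Real.sqrt d := by field_simp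
    linarith
  have hq2X : ‖s.Ex (fun w => s.q2 w (Xh w))‖ ≤ (Λ + δ) * ∑ w, s.wt w * c w := by
    refine le_trans (le_of_eq ?_) hrec
    congr 1
    refine Finset.sum_congr rfl fun w _ => ?_
    change s.wt w • s.q2 w (Xh w) = _
    rw [hq2 w _ (hXN w), Complex.real_smul]
  have hq1X : ‖s.Ex (fun w => s.q1 w (Xh w))‖ ≤ Real.sqrt 3 * (2 * δ + s.D) := by
    refine le_trans ?_ hEn1
    rw [s.Ex_eq, s.Ex_eq]
    refine (Pb.norm_Ex_le s.μ_nonneg _).trans ?_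
    exact Pb.Ex_mono s.μ_nonneg fun w => hn1 w _ (hX1 w)
  have hqX : ‖s.Ex (fun w => s.q w (Xh w))‖
      ≤ Real.sqrt 3 * (2 * δ + s.D) + (Λ + δ) * ∑ w, s.wt w * c w := by
    have h1 : s.Ex (fun w => s.q w (Xh w))
        = s.Ex (fun w => s.q1 w (Xh w)) + s.Ex (fun w => s.q2 w (Xh w)) := by
      rw [s.Ex_eq, s.Ex_eq, s.Ex_eq, ← Pb.Ex_add]
      exact Pb.Ex_congr _ fun w => hsplit w _ (hXN w)
    rw [h1]
    exact (norm_add_le _ _).trans (add_le_add hq1X hq2X)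
  have hvv : v ≤ ‖(d : ℂ)⁻¹ * ∑ j, s.value j‖ := by
    have hd' : (0 : ℝ) < d := by exact_mod_cast hd
    have h1 : ((d : ℂ)⁻¹ * ∑ j, s.value j).re = (d : ℝ)⁻¹ * ∑ j, (s.value j).re := by
      have h2 : ((d : ℂ)⁻¹) = (((d : ℝ)⁻¹ : ℝ) : ℂ) := by push_cast; rfl
      rw [h2, Complex.re_ofReal_mul, Complex.re_sum]
    have h3 : v ≤ ((d : ℂ)⁻¹ * ∑ j, s.value j).re := by
      rw [h1]
      calc v = (d : ℝ)⁻¹ * ∑ _j : Fin d, v := by
            rw [Finset.sum_const, Finset.card_univ, Fintype.card_fin, nsmul_eq_mul]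
            field_simp
        _ ≤ (d : ℝ)⁻¹ * ∑ j, (s.value j).re :=
            mul_le_mul_of_nonneg_left (Finset.sum_le_sum fun j _ => hv j) (by positivity)
    exact h3.trans (Complex.re_le_norm _)
  have hvq : ‖(d : ℂ)⁻¹ * ∑ j, s.value j‖ ≤ ‖s.Ex (fun w => s.q w (Xh w))‖ + 3 * δ := by
    have h1 : (d : ℂ)⁻¹ * ∑ j, s.value j = s.Ex (fun w => s.q w (Xh w))
        - (s.Ex (fun w => s.q w (Xh w)) - (d : ℂ)⁻¹ * ∑ j, s.value j) := by ring
    calc ‖(d : ℂ)⁻¹ * ∑ j, s.value j‖ = _ := congrArg _ h1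
      _ ≤ _ := (norm_sub_le _ _).trans (by linarith)
  have hfin : (Λ + δ) * ∑ w, s.wt w * c w ≤ (Λ + δ) * (Λ + 4 * δ
      + Real.sqrt 3 * (2 * δ + s.D) + s.Efl
        + (2 * Real.sqrt 2 * δ + Real.sqrt 2 * Kθ / Real.sqrt d)) :=
    mul_le_mul_of_nonneg_left hEc (by positivity)
  linarith

end Crest.Agent.R078.Z.Slot
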