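import Mathlib
import Crest.Agent.R078.S103SlotTargets199
import Crest.Agent.R078.S103Prob
import Crest.Agent.R078.S103Drift
import Crest.Agent.R078.S103SlotFinal199
import Crest.Agent.R078.S103Rec445B
import Crest.Agent.R078.S103Hal2_938
import Crest.Agent.R078.S103Key445
import Crest.Agent.R078.S103Main45

-- ▼ part R078/S103SlotDrift
section

/-!
# R078 / S0103: drift for the abstract slot system (helper666, block WK-D)
-/

set_option autoImplicit false
open scoped InnerProductSpace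

namespace Crest.Agent.R078.Z.Slot.SlotSys

open Crest.Agent.R078 (Pb.Ex)

universe u

variable {G : Type u} [NormedAddCommGroup G] [InnerProductSpace ℂ G] [CompleteSpace G]
  {M N : VonNeumannAlgebra G} {d : ℕ} {L : Type} [Fintype L] [DecidableEq L]
  {δ R K Kθ ε₁ : ℝ} (s : SlotSys M N d L δ R K Kθ ε₁)

/-- the slot expectation is the one of `S103Prob` -/
theorem Ex_eqD {E : Type*} [AddCommGroup E] [Module ℝ E] (F : (Fin d → L) → E) :
    s.Ex F = Pb.Ex s.μ F := rfl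

theorem T_S_comm (i j : Fin d) (l l' : L) : Commute (s.T i l) (s.S j l') :=
  VonNeumannAlgebra.mem_commutant_iff.1 (s.S_mem j l') (s.T i l) (s.T_mem i l)

theorem norm_T_apply (j : Fin d) (l : L) (x : G) : ‖s.T j l x‖ = ‖x‖ :=
  ContinuousLinearMap.norm_map_of_mem_unitary (s.T_unitary j l) x

theorem norm_S_apply (j : Fin d) (l : L) (x : G) : ‖s.S j l x‖ = ‖x‖ :=
  ContinuousLinearMap.norm_map_of_mem_unitary (s.S_unitary j l) x

/-- `U j l = T j l * S j l` -/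
noncomputable def U (j : Fin d) (l : L) : G →L[ℂ] G := s.T j l * s.S j l


theorem norm_U_apply (j : Fin d) (l : L) (x : G) : ‖s.U j l x‖ = ‖x‖ := by
  rw [U, mul_apply_eq_comp, norm_T_apply, norm_S_apply]

theorem pre_U (w : Fin d → L) (j : ℕ) : pre s.U w j = pre s.T w j * pre s.S w j :=
  Pb.wprod_mul_of_commute ((List.finRange d).take j) w fun i j => s.T_S_comm i j _ _

theorem suf_U (w : Fin d → L) (j : ℕ) : suf s.U w j = suf s.T w j * suf s.S w j :=
  Pb.wprod_mul_of_commute ((List.finRange d).drop j) w fun i j => s.T_S_comm i j _ _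

theorem hmean_U (j : Fin d) (x y : G) :
    ∑ l, (s.μ l : ℂ) * ⟪s.P j x, s.U j l (s.P j y)⟫_ℂ = ⟪x, s.cT (s.P j y)⟫_ℂ := by
  have h := congrArg (fun A : G →L[ℂ] G => ⟪x, A y⟫_ℂ) (s.PTSP j)
  simp only [mul_apply_eq_comp, sum_apply, map_sum, smul_apply,
    map_smul, inner_sum, inner_smul_right] at h
  rw [← h]
  refine Finset.sum_congr rfl fun l _ => ?_
  have hP : ContinuousLinearMap.adjoint (s.P j) = s.P j := by
    rw [← ContinuousLinearMap.star_eq_adjoint]; exact s.P_sa j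
  have hz : ∀ z : G, ⟪s.P j x, z⟫_ℂ = ⟪x, s.P j z⟫_ℂ := by
    intro z
    have := ContinuousLinearMap.adjoint_inner_left (s.P j) z x
    rwa [hP] at this
  rw [hz]
  rfl

theorem sum_norm_U_le (j : Fin d) :
    ∑ l, s.μ l * ‖s.U j l s.ζ - s.ζ‖ ^ 2 ≤ ε₁ ^ 2 := by
  calc ∑ l, s.μ l * ‖s.U j l s.ζ - s.ζ‖ ^ 2 ≤ ∑ l, s.μ l * ε₁ ^ 2 := by
        refine Finset.sum_le_sum fun l _ => mul_le_mul_of_nonneg_left ?_ (s.μ_nonneg l)
        exact pow_le_pow_left₀ (norm_nonneg _) (s.TS_ζ j l) 2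
    _ = ε₁ ^ 2 := by rw [← Finset.sum_mul, s.μ_sum, one_mul]

/-- general drift along a list of different slots -/
theorem drift_list (t : List (Fin d)) (ht : t.Nodup) :
    s.Ex (fun w => ‖Pb.wprod s.U t w s.ζ - s.ζ‖ ^ 2) ≤ t.length * ε₁ ^ 2 := by
  rw [Ex_eqD]
  refine Pb.drift (Q := s.P) (C := s.cT) s.μ_sum s.norm_U_apply s.P_sa s.P_ζ ?_ s.cT_sa s.norm_cT
    (fun j => (s.cT_P j).symm) s.hmean_U s.sum_norm_U_le t ht
  intro i j hij l
  have h1 : Commute (s.P i) (s.T j l) := s.P_T i j l hij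
  have h2 : Commute (s.P i) (s.S j l) := s.P_S i j l hij
  exact h1.mul_right h2

theorem D_sq : s.D ^ 2 = d * ε₁ ^ 2 := by
  rw [D, mul_pow, Real.sq_sqrt (Nat.cast_nonneg d)]


/-- **Drift, left**: `E ‖L_j S_{L_j} ζ - ζ‖² ≤ D²`. -/
theorem drift_pre_sq (j : ℕ) :
    s.Ex (fun w => ‖pre s.T w j (pre s.S w j s.ζ) - s.ζ‖ ^ 2) ≤ s.D ^ 2 := by
  have h := s.drift_list ((List.finRange d).take j)
    ((List.nodup_finRange d).sublist (List.take_sublist _ _))
  have hlen : (((List.finRange d).take j).length : ℝ) ≤ d := by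
    have := List.length_take_le' j (List.finRange d)
    rw [List.length_finRange] at this
    exact_mod_cast this
  rw [D_sq]
  have he : (fun w => ‖pre s.T w j (pre s.S w j s.ζ) - s.ζ‖ ^ 2)
      = fun w => ‖Pb.wprod s.U ((List.finRange d).take j) w s.ζ - s.ζ‖ ^ 2 := by
    funext w
    have hw : Pb.wprod s.U ((List.finRange d).take j) w = pre s.T w j * pre s.S w j := s.pre_U w j
    rw [hw, mul_apply_eq_comp]
  rw [he]
  exact h.trans (mul_le_mul_of_nonneg_right hlen (sq_nonneg _))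

/-- **Drift, right**: `E ‖T_j…T_{d-1} S_j…S_{d-1} ζ - ζ‖² ≤ D²`. -/
theorem drift_suf_sq (j : ℕ) :
    s.Ex (fun w => ‖suf s.T w j (suf s.S w j s.ζ) - s.ζ‖ ^ 2) ≤ s.D ^ 2 := by
  have h := s.drift_list ((List.finRange d).drop j)
    ((List.nodup_finRange d).sublist (List.drop_sublist _ _))
  have hlen : (((List.finRange d).drop j).length : ℝ) ≤ d := by
    rw [List.length_drop, List.length_finRange]
    exact_mod_cast Nat.sub_le d j
  rw [D_sq]
  have he : (fun w => ‖suf s.T w j (suf s.S w j s.ζ) - s.ζ‖ ^ 2)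
      = fun w => ‖Pb.wprod s.U ((List.finRange d).drop j) w s.ζ - s.ζ‖ ^ 2 := by
    funext w
    have hw : Pb.wprod s.U ((List.finRange d).drop j) w = suf s.T w j * suf s.S w j := s.suf_U w j
    rw [hw, mul_apply_eq_comp]
  rw [he]
  exact h.trans (mul_le_mul_of_nonneg_right hlen (sq_nonneg _))

/-! ### unitarity and membership of the ordered products -/


theorem suf_T_mem_unitary (w : Fin d → L) (j : ℕ) : suf s.T w j ∈ unitary (G →L[ℂ] G) := by
  unfold suf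
  refine Submonoid.list_prod_mem _ fun x hx => ?_
  obtain ⟨i, _, rfl⟩ := List.mem_map.1 hx
  exact s.T_unitary i _







/-- moving a unitary to the other side -/
theorem norm_star_sub {A : G →L[ℂ] G} (hu : A ∈ unitary (G →L[ℂ] G)) (x y : G) :
    ‖star A x - y‖ = ‖A y - x‖ := by
  have h1 : ‖star A x - y‖ = ‖A (star A x - y)‖ :=
    (ContinuousLinearMap.norm_map_of_mem_unitary hu _).symm
  have h2 : A (star A x) = x := by
    have := congrArg (fun B : G →L[ℂ] G => B x) (Unitary.mul_star_self_of_mem hu)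
    exact this
  rw [h1, map_sub, h2, norm_sub_rev]

/-- **Drift, adjoint form**: `E ‖R^* ζ - S_R ζ‖² ≤ D²` with `R = T_j…T_{d-1}`. -/
theorem drift_star_suf_sq (j : ℕ) :
    s.Ex (fun w => ‖star (suf s.T w j) s.ζ - suf s.S w j s.ζ‖ ^ 2) ≤ s.D ^ 2 := by
  have he : (fun w => ‖star (suf s.T w j) s.ζ - suf s.S w j s.ζ‖ ^ 2)
      = fun w => ‖suf s.T w j (suf s.S w j s.ζ) - s.ζ‖ ^ 2 := by
    funext w
    rw [norm_star_sub (s.suf_T_mem_unitary w j)]
  rw [he]
  exact s.drift_suf_sq j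


/-! ### first moments -/






/-! ### dependence on letters -/



end Crest.Agent.R078.Z.Slot.SlotSys

namespace Crest.Agent.R078.Z.Slot

universe u

/-- `DriftTarget` of `S103SlotTargets199.lean`. -/
theorem driftTarget : DriftTarget.{u} := by
  intro G _ _ _ M N d L _ _ δ R K Kθ ε₁ s _ j
  refine ⟨?_, s.drift_star_suf_sq (j + 1)⟩
  have he : (fun w => ‖s.V w j s.ζ - s.ζ‖ ^ 2)
      = fun w => ‖pre s.T w j (pre s.S w j s.ζ) - s.ζ‖ ^ 2 := by
    funext w
    rw [SlotSys.V, mul_apply_eq_comp]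
  rw [he]
  exact s.drift_pre_sq j

end Crest.Agent.R078.Z.Slot
end

-- ▼ part R078/S103WalkL1
section

set_option autoImplicit false

/-!
# S0103, walk, step (3): the L1 bound (helper925)

Deterministic core of the fluctuation estimate.
-/

namespace Crest.Agent.R078.Z.WL1

variable {G : Type*} [NormedAddCommGroup G] [InnerProductSpace ℂ G] [CompleteSpace G]

local notation "⟪" x ", " y "⟫" => inner ℂ x y

open ContinuousLinearMap

/-- An isometric operator given by `star U * U = 1` preserves inner products. -/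
theorem inner_unitary (U : G →L[ℂ] G) (hU : star U * U = 1) (u v : G) :
    ⟪U u, U v⟫ = ⟪u, v⟫ := by
  have h1 : (star U) (U v) = v := by
    have := congrArg (fun (Q : G →L[ℂ] G) => Q v) hU
    simpa using this
  rw [← ContinuousLinearMap.adjoint_inner_right, ← ContinuousLinearMap.star_eq_adjoint, h1]

theorem norm_unitary (U : G →L[ℂ] G) (hU : star U * U = 1) (u : G) : ‖U u‖ = ‖u‖ := by
  have h := inner_unitary U hU u u
  rw [inner_self_eq_norm_sq_to_K, inner_self_eq_norm_sq_to_K] at h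
  have h2 : ‖U u‖ ^ 2 = ‖u‖ ^ 2 := by exact_mod_cast h
  exact (pow_left_inj₀ (norm_nonneg _) (norm_nonneg _) two_ne_zero).1 h2

/-- The core estimate: the functional of a letter along a word is, up to a small error, a
vector functional against `ζ` with an adapted increment. -/
theorem core_estimate (x' L SL T S kap b k1 : G →L[ℂ] G) (ζ : G) (K' K ε : ℝ)
    (hx : ‖x'‖ ≤ 1) (hL : star L * L = 1) (hSL : star SL * SL = 1)
    (hT : star T * T = 1) (hS : star S * S = 1) (hS' : S * star S = 1)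
    (c1 : SL * x' = x' * SL) (c2 : SL * L = L * SL)
    (c3 : star b * x' = x' * star b) (c4 : b * L = L * b) (c4' : star b * L = L * star b)
    (c5 : T * kap = kap * T) (c6 : T * S = S * T)
    (c7 : k1 * (L * SL) = (L * SL) * k1)
    (c8 : star k1 * x' = x' * star k1) (c9 : star k1 * (L * SL) = (L * SL) * star k1)
    (hk1 : ‖k1 ((L * SL) ζ - ζ)‖ ≤ ‖(L * SL) ζ - ζ‖)
    (hε : ‖(T * S) ζ - ζ‖ ≤ ε) (hkap : ‖kap‖ ≤ K') (hb : ‖b‖ ≤ K)
    (hkζ : ‖kap ζ‖ ≤ 1) (hbζ : ‖b (k1 ζ)‖ ≤ 1) :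
    ‖⟪b (k1 ζ), (star L) (x' (L (T (kap ζ))))⟫
        - ⟪ζ, x' ((L * SL) ((star k1) ((star b) (kap ((star S) ζ)))))⟫‖
      ≤ K' * ε + K * (1 + K' * ε) * ‖(L * SL) ζ - ζ‖ := by
  have hK' : 0 ≤ K' := (norm_nonneg _).trans hkap
  have hK : 0 ≤ K := (norm_nonneg _).trans hb
  have hε0 : 0 ≤ ε := (norm_nonneg _).trans hε
  have appc : ∀ {A B : G →L[ℂ] G}, A * B = B * A → ∀ v, A (B v) = B (A v) := by
    intro A B h v
    have := congrArg (fun (Q : G →L[ℂ] G) => Q v) h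
    simpa using this
  set V : G →L[ℂ] G := L * SL with hV
  set f : G := (T * S) ζ - ζ with hf
  set u : G := kap ((star S) ζ) with hu
  set g : G := (star k1) ((star b) u) with hg
  have hsS : ∀ v, ‖(star S) v‖ = ‖v‖ := fun v => norm_unitary (star S) (by simpa using hS') v
  -- T (kap ζ) = u + kap (S^* f)
  have h1 : T (kap ζ) = u + kap ((star S) f) := by
    have e1 : T (kap ζ) = kap (T ζ) := appc c5 ζ
    have e2 : T ζ = (star S) ((T * S) ζ) := by
      rw [c6]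
      change T ζ = (star S) (S (T ζ))
      have := congrArg (fun (Q : G →L[ℂ] G) => Q (T ζ)) hS
      simpa using this.symm
    rw [e1, e2, hu, ← map_add, ← map_add, hf]
    congr 2
    abel
  have hu1 : ‖u‖ ≤ 1 + K' * ε := by
    have e : u = T (kap ζ) - kap ((star S) f) := by rw [h1]; abel
    rw [e]
    refine (norm_sub_le _ _).trans ?_
    refine add_le_add ?_ ?_
    · rw [norm_unitary T hT]; exact hkζ
    · refine (kap.le_opNorm _).trans ?_
      rw [hsS]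
      exact mul_le_mul hkap hε (norm_nonneg _) hK'
  -- step a
  have ha : ⟪b (k1 ζ), (star L) (x' (L (T (kap ζ))))⟫
      = ⟪L (b (k1 ζ)), x' (L u)⟫ + ⟪L (b (k1 ζ)), x' (L (kap ((star S) f)))⟫ := by
    rw [h1, map_add, map_add, map_add, inner_add_right, star_eq_adjoint,
      ContinuousLinearMap.adjoint_inner_right, ContinuousLinearMap.adjoint_inner_right]
  -- step c
  have hc : ⟪L (b (k1 ζ)), x' (L u)⟫ = ⟪k1 (V ζ), x' (V ((star b) u))⟫ := by
    have e1 : L (b (k1 ζ)) = b (L (k1 ζ)) := (appc c4 _).symm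
    have e2 : ⟪b (L (k1 ζ)), x' (L u)⟫ = ⟪L (k1 ζ), (star b) (x' (L u))⟫ := by
      rw [star_eq_adjoint, ContinuousLinearMap.adjoint_inner_right]
    have e3 : (star b) (x' (L u)) = x' (L ((star b) u)) := by
      rw [appc c3, appc c4']
    have e4 : ⟪L (k1 ζ), x' (L ((star b) u))⟫
        = ⟪SL (L (k1 ζ)), SL (x' (L ((star b) u)))⟫ := (inner_unitary SL hSL _ _).symm
    have e5 : SL (x' (L ((star b) u))) = x' (V ((star b) u)) := by
      rw [appc c1, appc c2]; rfl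
    have e6 : SL (L (k1 ζ)) = k1 (V ζ) := by
      rw [appc c2, appc c7]; rfl
    rw [e1, e2, e3, e4, e5, e6]
  have hd : ⟪k1 (V ζ), x' (V ((star b) u))⟫
      = ⟪k1 (V ζ - ζ), x' (V ((star b) u))⟫ + ⟪ζ, x' (V g)⟫ := by
    have e1 : k1 (V ζ) = k1 (V ζ - ζ) + k1 ζ := by rw [← map_add]; congr 1; abel
    rw [e1, inner_add_left]
    congr 1
    have e2 : ⟪k1 ζ, x' (V ((star b) u))⟫ = ⟪ζ, (star k1) (x' (V ((star b) u)))⟫ := by
      rw [star_eq_adjoint k1, ContinuousLinearMap.adjoint_inner_right]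
    rw [e2, appc c8, appc c9]
  have hVn : ∀ v, ‖V v‖ = ‖v‖ := by
    intro v
    change ‖L (SL v)‖ = ‖v‖
    rw [norm_unitary L hL, norm_unitary SL hSL]
  have hfin : ⟪b (k1 ζ), (star L) (x' (L (T (kap ζ))))⟫ - ⟪ζ, x' (V g)⟫
      = ⟪L (b (k1 ζ)), x' (L (kap ((star S) f)))⟫ + ⟪k1 (V ζ - ζ), x' (V ((star b) u))⟫ := by
    rw [ha, hc, hd]; ring
  rw [hfin]
  refine (norm_add_le _ _).trans (add_le_add ?_ ?_)
  · refine (norm_inner_le_norm _ _).trans ?_
    rw [norm_unitary L hL]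
    have h2 : ‖x' (L (kap ((star S) f)))‖ ≤ K' * ε := by
      refine (x'.le_opNorm _).trans ?_
      rw [norm_unitary L hL]
      calc ‖x'‖ * ‖kap ((star S) f)‖ ≤ 1 * ‖kap ((star S) f)‖ :=
            mul_le_mul_of_nonneg_right hx (norm_nonneg _)
        _ = ‖kap ((star S) f)‖ := one_mul _
        _ ≤ ‖kap‖ * ‖(star S) f‖ := kap.le_opNorm _
        _ ≤ K' * ε := by rw [hsS]; exact mul_le_mul hkap hε (norm_nonneg _) hK'
    calc ‖b (k1 ζ)‖ * ‖x' (L (kap ((star S) f)))‖ ≤ 1 * (K' * ε) :=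
          mul_le_mul hbζ h2 (norm_nonneg _) zero_le_one
      _ = K' * ε := one_mul _
  · refine (norm_inner_le_norm _ _).trans ?_
    have h3 : ‖x' (V ((star b) u))‖ ≤ K * (1 + K' * ε) := by
      refine (x'.le_opNorm _).trans ?_
      rw [hVn]
      calc ‖x'‖ * ‖(star b) u‖ ≤ 1 * ‖(star b) u‖ :=
            mul_le_mul_of_nonneg_right hx (norm_nonneg _)
        _ = ‖(star b) u‖ := one_mul _
        _ ≤ ‖star b‖ * ‖u‖ := (star b).le_opNorm _
        _ ≤ K * (1 + K' * ε) := by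
            rw [norm_star]; exact mul_le_mul hb hu1 (norm_nonneg _) hK
    calc ‖k1 (V ζ - ζ)‖ * ‖x' (V ((star b) u))‖
        ≤ ‖V ζ - ζ‖ * (K * (1 + K' * ε)) :=
          mul_le_mul hk1 h3 (norm_nonneg _) (norm_nonneg _)
      _ = K * (1 + K' * ε) * ‖V ζ - ζ‖ := by ring

end Crest.Agent.R078.Z.WL1

namespace Crest.Agent.R078.Z.WL1

open ContinuousLinearMap

variable {G : Type*} [NormedAddCommGroup G] [InnerProductSpace ℂ G] [CompleteSpace G]
variable {I : Type*} [Fintype I]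

local notation "⟪" x ", " y "⟫" => inner ℂ x y

/-- Step (3), pathwise.  For one fixed word (letters `w j`), with `L j`, `SL j` the partial
products before `j`, `X` the whole word with `X = L j * T j (w j) * R j`; `rl j`, `ll j` are the
lifts of `R j`, `L j`.  The functional `q` is bounded on the unit ball of `N` by
`Λ + 4δ +` the norm of the martingale vector `+` drift. -/
theorem pathwise {d : ℕ} (hd : 0 < d) (M N : Set (G →L[ℂ] G)) (μ : I → ℝ) (hμ : ∀ l, 0 ≤ μ l)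
    (hμ1 : ∑ l, μ l = 1) (w : Fin d → I)
    (T S kap b : Fin d → I → G →L[ℂ] G) (k1 L SL R ll rl : Fin d → G →L[ℂ] G)
    (X : G →L[ℂ] G) (ζ : G) (δ K' K ε Λ : ℝ) (hζ : ‖ζ‖ ≤ 1)
    (hMstar : ∀ x ∈ M, star x ∈ M) (hMmul : ∀ x ∈ M, ∀ y ∈ M, x * y ∈ M)
    (hNM : ∀ y ∈ N, ‖y‖ ≤ 1 → ∃ x ∈ M, ‖x‖ ≤ 1 ∧ ‖y - x‖ ≤ δ)
    (hMN : ∀ x ∈ M, ‖x‖ ≤ 1 → ∃ y ∈ N, ‖y‖ ≤ 1 ∧ ‖x - y‖ ≤ δ)
    (hX : X ∈ M) (hXu : X * star X = 1) (hXu' : star X * X = 1)
    (hLM : ∀ j, L j ∈ M) (hLu : ∀ j, star (L j) * L j = 1) (hLu' : ∀ j, L j * star (L j) = 1)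
    (hRu : ∀ j, R j * star (R j) = 1)
    (hfac : ∀ j, X = L j * T j (w j) * R j)
    (hSL : ∀ j, star (SL j) * SL j = 1)
    (hT : ∀ j l, star (T j l) * T j l = 1)
    (hS : ∀ j l, star (S j l) * S j l = 1) (hS' : ∀ j l, S j l * star (S j l) = 1)
    (cSL : ∀ j, ∀ x ∈ M, SL j * x = x * SL j)
    (cb : ∀ j l, ∀ x ∈ M, b j l * x = x * b j l)
    (cb' : ∀ j l, ∀ x ∈ M, star (b j l) * x = x * star (b j l))
    (ck1 : ∀ j, ∀ x ∈ M, k1 j * x = x * k1 j)
    (ck1' : ∀ j, ∀ x ∈ M, star (k1 j) * x = x * star (k1 j))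
    (cTkap : ∀ j l, T j l * kap j l = kap j l * T j l)
    (cTS : ∀ j l, T j l * S j l = S j l * T j l)
    (ckS : ∀ j, k1 j * SL j = SL j * k1 j) (ckS' : ∀ j, star (k1 j) * SL j = SL j * star (k1 j))
    (hk1 : ∀ j, ‖k1 j ((L j * SL j) ζ - ζ)‖ ≤ ‖(L j * SL j) ζ - ζ‖)
    (hε : ∀ j l, ‖(T j l * S j l) ζ - ζ‖ ≤ ε) (hkap : ∀ j l, ‖kap j l‖ ≤ K')
    (hb : ∀ j l, ‖b j l‖ ≤ K)
    (hkζ : ∀ j l, ‖kap j l ζ‖ ≤ 1) (hbζ : ∀ j l, ‖b j l (k1 j ζ)‖ ≤ 1)
    (hll : ∀ j, ‖L j - ll j‖ ≤ δ) (hll1 : ∀ j, ‖ll j‖ ≤ 1)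
    (hrl : ∀ j, ‖R j - rl j‖ ≤ δ) 
    (hmean : ∀ j, ∀ y ∈ N, ‖y‖ ≤ 1 →
      ‖∑ l, (μ l : ℂ) * ⟪b j l (k1 j ζ), y (T j l (kap j l ζ))⟫‖ ≤ Λ)
    (y : G →L[ℂ] G) (hy : y ∈ N) (hy1 : ‖y‖ ≤ 1) :
    ‖((1 : ℝ) / d : ℂ) * ∑ j, ⟪ll j (b j (w j) (k1 j ζ)), y ((star (rl j)) (kap j (w j) ζ))⟫‖
      ≤ Λ + 4 * δ
        + ‖((1 : ℝ) / d : ℂ) • ∑ j, (L j * SL j)
            ((star (k1 j)) ((star (b j (w j))) (kap j (w j) ((star (S j (w j))) ζ)))
              - ∑ l, (μ l : ℂ) • (star (k1 j)) ((star (b j l)) (kap j l ((star (S j l)) ζ))))‖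
        + (1 / d) * ∑ j, 2 * (K' * ε + K * (1 + K' * ε) * ‖(L j * SL j) ζ - ζ‖) := by
  have hK' : 0 ≤ K' := by
    obtain ⟨j⟩ : Nonempty (Fin d) := ⟨⟨0, hd⟩⟩
    exact (norm_nonneg _).trans (hkap j (w j))
  have hd' : (0 : ℝ) < d := by exact_mod_cast hd
  have hδ : 0 ≤ δ := by
    obtain ⟨j⟩ : Nonempty (Fin d) := ⟨⟨0, hd⟩⟩
    exact (norm_nonneg _).trans (hll j)
  obtain ⟨x, hxM, hx1, hxy⟩ := hNM y hy hy1
  set x' : G →L[ℂ] G := x * star X with hx'
  have hx'M : x' ∈ M := hMmul _ hxM _ (hMstar _ hX)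
  have hx'1 : ‖x'‖ ≤ 1 := by
    refine ContinuousLinearMap.opNorm_le_bound _ zero_le_one (fun v => ?_)
    rw [one_mul]
    change ‖x ((star X) v)‖ ≤ ‖v‖
    refine (x.le_opNorm _).trans ?_
    rw [norm_unitary (star X) (by simpa using hXu)]
    exact mul_le_of_le_one_left (norm_nonneg _) hx1
  have hxX : x' * X = x := by rw [hx', mul_assoc, hXu', mul_one]
  -- notation
  set β : Fin d → I → G := fun j l => b j l (k1 j ζ) with hβ
  set κ : Fin d → I → G := fun j l => kap j l ζ with hκ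
  set Gf : Fin d → I → ℂ := fun j l =>
    ⟪b j l (k1 j ζ), (star (L j)) (x' (L j (T j l (kap j l ζ))))⟫ with hGf
  set g : Fin d → I → G := fun j l =>
    (star (k1 j)) ((star (b j l)) (kap j l ((star (S j l)) ζ))) with hg
  set Ff : Fin d → I → ℂ := fun j l => ⟪ζ, x' ((L j * SL j) (g j l))⟫ with hFf
  set err : Fin d → ℝ := fun j => K' * ε + K * (1 + K' * ε) * ‖(L j * SL j) ζ - ζ‖ with herr
  have hGF : ∀ j l, ‖Gf j l - Ff j l‖ ≤ err j := by
    intro j l
    have cL : ∀ A : G →L[ℂ] G, A * L j = L j * A → A * SL j = SL j * A →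
        A * (L j * SL j) = (L j * SL j) * A := by
      intro A h1 h2
      rw [← mul_assoc, h1, mul_assoc, h2, mul_assoc]
    exact core_estimate x' (L j) (SL j) (T j l) (S j l) (kap j l) (b j l) (k1 j) ζ K' K ε
      hx'1 (hLu j) (hSL j) (hT j l) (hS j l) (hS' j l) (cSL j _ hx'M) (cSL j _ (hLM j))
      (cb' j l _ hx'M) (cb j l _ (hLM j)) (cb' j l _ (hLM j)) (cTkap j l) (cTS j l)
      (cL _ (ck1 j _ (hLM j)) (ckS j)) (ck1' j _ hx'M) (cL _ (ck1' j _ (hLM j)) (ckS' j))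
      (hk1 j) (hε j l) (hkap j l) (hb j l) (hkζ j l) (hbζ j l)
  have hmean' : ∀ j, ‖∑ l, (μ l : ℂ) * Gf j l‖ ≤ Λ + δ := by
    intro j
    have hz : star (L j) * x' * L j ∈ M := hMmul _ (hMmul _ (hMstar _ (hLM j)) _ hx'M) _ (hLM j)
    have hz1 : ‖star (L j) * x' * L j‖ ≤ 1 := by
      refine ContinuousLinearMap.opNorm_le_bound _ zero_le_one (fun v => ?_)
      rw [one_mul]
      change ‖(star (L j)) (x' (L j v))‖ ≤ ‖v‖
      rw [norm_unitary (star (L j)) (by simpa using hLu' j)]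
      refine (x'.le_opNorm _).trans ?_
      rw [norm_unitary _ (hLu j)]
      exact mul_le_of_le_one_left (norm_nonneg _) hx'1
    obtain ⟨y', hy'N, hy'1, hzy⟩ := hMN _ hz hz1
    have e : ∀ l, Gf j l = ⟪b j l (k1 j ζ), y' (T j l (kap j l ζ))⟫
        + ⟪b j l (k1 j ζ), (star (L j) * x' * L j - y') (T j l (kap j l ζ))⟫ := by
      intro l
      rw [← inner_add_right, sub_apply, add_sub_cancel]
      rfl
    have e2 : ∑ l, (μ l : ℂ) * Gf j l
        = ∑ l, (μ l : ℂ) * ⟪b j l (k1 j ζ), y' (T j l (kap j l ζ))⟫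
          + ∑ l, (μ l : ℂ) *
            ⟪b j l (k1 j ζ), (star (L j) * x' * L j - y') (T j l (kap j l ζ))⟫ := by
      rw [← Finset.sum_add_distrib]
      refine Finset.sum_congr rfl (fun l _ => ?_)
      rw [e l, mul_add]
    rw [e2]
    refine (norm_add_le _ _).trans (add_le_add (hmean j y' hy'N hy'1) ?_)
    refine (norm_sum_le _ _).trans ?_
    calc ∑ l, ‖(μ l : ℂ) * ⟪b j l (k1 j ζ),
            (star (L j) * x' * L j - y') (T j l (kap j l ζ))⟫‖
        ≤ ∑ l, μ l * δ := by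
          refine Finset.sum_le_sum (fun l _ => ?_)
          rw [norm_mul, Complex.norm_real, Real.norm_eq_abs, abs_of_nonneg (hμ l)]
          refine mul_le_mul_of_nonneg_left ?_ (hμ l)
          refine (norm_inner_le_norm _ _).trans ?_
          have h3 : ‖(star (L j) * x' * L j - y') (T j l (kap j l ζ))‖ ≤ δ := by
            refine (ContinuousLinearMap.le_opNorm _ _).trans ?_
            rw [norm_unitary _ (hT j l)]
            calc ‖star (L j) * x' * L j - y'‖ * ‖kap j l ζ‖ ≤ δ * 1 :=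
                  mul_le_mul hzy (hkζ j l) (norm_nonneg _) hδ
              _ = δ := mul_one _
          calc ‖b j l (k1 j ζ)‖ * ‖(star (L j) * x' * L j - y') (T j l (kap j l ζ))‖
              ≤ 1 * δ := mul_le_mul (hbζ j l) h3 (norm_nonneg _) zero_le_one
            _ = δ := one_mul _
      _ = δ := by rw [← Finset.sum_mul, hμ1, one_mul]
  -- term comparison
  have hterm : ∀ j, ‖⟪ll j (b j (w j) (k1 j ζ)), y ((star (rl j)) (kap j (w j) ζ))⟫
      - Gf j (w j)‖ ≤ 3 * δ := by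
    intro j
    set β0 : G := b j (w j) (k1 j ζ) with hβ0
    set κ0 : G := kap j (w j) ζ with hκ0
    have hβ1 : ‖β0‖ ≤ 1 := hbζ j (w j)
    have hκ1 : ‖κ0‖ ≤ 1 := hkζ j (w j)
    have hRs : ‖(star (R j)) κ0‖ ≤ 1 := by
      rw [norm_unitary (star (R j)) (by simpa using hRu j)]; exact hκ1
    have e1 : Gf j (w j) = ⟪L j β0, x ((star (R j)) κ0)⟫ := by
      have h2 : x ((star (R j)) κ0) = x' (L j (T j (w j) κ0)) := by
        have h3 : x * star (R j) = x' * (L j * T j (w j)) := by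
          rw [← hxX, hfac j]
          simp only [mul_assoc]
          rw [hRu j, mul_one]
        exact congrArg (fun (Q : G →L[ℂ] G) => Q κ0) h3
      rw [h2]
      change ⟪β0, (star (L j)) (x' (L j (T j (w j) κ0)))⟫ = _
      rw [star_eq_adjoint, ContinuousLinearMap.adjoint_inner_right]
    have e2 : ⟪ll j β0, y ((star (rl j)) κ0)⟫ - Gf j (w j)
        = ⟪ll j β0, y ((star (rl j) - star (R j)) κ0)⟫
          + ⟪(ll j - L j) β0, y ((star (R j)) κ0)⟫
          + ⟪L j β0, (y - x) ((star (R j)) κ0)⟫ := by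
      rw [e1, sub_apply, sub_apply,
        sub_apply, map_sub, inner_sub_right, inner_sub_left, inner_sub_right]
      ring
    rw [e2]
    have b1 : ‖⟪ll j β0, y ((star (rl j) - star (R j)) κ0)⟫‖ ≤ δ := by
      refine (norm_inner_le_norm _ _).trans ?_
      have h1 : ‖ll j β0‖ ≤ 1 :=
        ((ll j).le_opNorm _).trans (mul_le_one₀ (hll1 j) (norm_nonneg _) hβ1)
      have h2 : ‖y ((star (rl j) - star (R j)) κ0)‖ ≤ δ := by
        refine (y.le_opNorm _).trans ?_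
        have h3 : ‖(star (rl j) - star (R j)) κ0‖ ≤ δ := by
          refine (ContinuousLinearMap.le_opNorm _ _).trans ?_
          rw [← star_sub, norm_star, norm_sub_rev]
          calc ‖R j - rl j‖ * ‖κ0‖ ≤ δ * 1 := mul_le_mul (hrl j) hκ1 (norm_nonneg _) hδ
            _ = δ := mul_one _
        calc ‖y‖ * ‖(star (rl j) - star (R j)) κ0‖ ≤ 1 * δ :=
              mul_le_mul hy1 h3 (norm_nonneg _) zero_le_one
          _ = δ := one_mul _
      calc ‖ll j β0‖ * ‖y ((star (rl j) - star (R j)) κ0)‖ ≤ 1 * δ :=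
            mul_le_mul h1 h2 (norm_nonneg _) zero_le_one
        _ = δ := one_mul _
    have b2 : ‖⟪(ll j - L j) β0, y ((star (R j)) κ0)⟫‖ ≤ δ := by
      refine (norm_inner_le_norm _ _).trans ?_
      have h1 : ‖(ll j - L j) β0‖ ≤ δ := by
        refine (ContinuousLinearMap.le_opNorm _ _).trans ?_
        rw [norm_sub_rev]
        calc ‖L j - ll j‖ * ‖β0‖ ≤ δ * 1 := mul_le_mul (hll j) hβ1 (norm_nonneg _) hδ
          _ = δ := mul_one _
      have h2 : ‖y ((star (R j)) κ0)‖ ≤ 1 :=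
        (y.le_opNorm _).trans (mul_le_one₀ hy1 (norm_nonneg _) hRs)
      calc ‖(ll j - L j) β0‖ * ‖y ((star (R j)) κ0)‖ ≤ δ * 1 :=
            mul_le_mul h1 h2 (norm_nonneg _) hδ
        _ = δ := mul_one _
    have b3 : ‖⟪L j β0, (y - x) ((star (R j)) κ0)⟫‖ ≤ δ := by
      refine (norm_inner_le_norm _ _).trans ?_
      have h1 : ‖L j β0‖ ≤ 1 := by rw [norm_unitary _ (hLu j)]; exact hβ1
      have h2 : ‖(y - x) ((star (R j)) κ0)‖ ≤ δ := by
        refine (ContinuousLinearMap.le_opNorm _ _).trans ?_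
        calc ‖y - x‖ * ‖(star (R j)) κ0‖ ≤ δ * 1 := mul_le_mul hxy hRs (norm_nonneg _) hδ
          _ = δ := mul_one _
      calc ‖L j β0‖ * ‖(y - x) ((star (R j)) κ0)‖ ≤ 1 * δ :=
            mul_le_mul h1 h2 (norm_nonneg _) zero_le_one
        _ = δ := one_mul _
    refine (norm_add_le _ _).trans ?_
    have := (norm_add_le ⟪ll j β0, y ((star (rl j) - star (R j)) κ0)⟫
      ⟪(ll j - L j) β0, y ((star (R j)) κ0)⟫)
    linarith
  -- decomposition of Gf
  set mart : G := ((1 : ℝ) / d : ℂ) • ∑ j, (L j * SL j)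
            ((star (k1 j)) ((star (b j (w j))) (kap j (w j) ((star (S j (w j))) ζ)))
              - ∑ l, (μ l : ℂ) • (star (k1 j)) ((star (b j l)) (kap j l ((star (S j l)) ζ))))
    with hmart
  have hmarti : ⟪ζ, x' mart⟫ = ((1 : ℝ) / d : ℂ) * ∑ j, (Ff j (w j) - ∑ l, (μ l : ℂ) * Ff j l) := by
    rw [hmart, map_smul, inner_smul_right, map_sum, inner_sum]
    congr 1
    refine Finset.sum_congr rfl (fun j _ => ?_)
    rw [map_sub, map_sub, inner_sub_right, map_sum, map_sum, inner_sum]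
    congr 1
    refine Finset.sum_congr rfl (fun l _ => ?_)
    rw [map_smul, map_smul, inner_smul_right]
  have hdec : ∀ j, Gf j (w j) = (∑ l, (μ l : ℂ) * Gf j l) + (Ff j (w j) - ∑ l, (μ l : ℂ) * Ff j l)
      + ((Gf j (w j) - Ff j (w j)) - ∑ l, (μ l : ℂ) * (Gf j l - Ff j l)) := by
    intro j
    have : ∑ l, (μ l : ℂ) * (Gf j l - Ff j l)
        = ∑ l, (μ l : ℂ) * Gf j l - ∑ l, (μ l : ℂ) * Ff j l := by
      rw [← Finset.sum_sub_distrib]
      exact Finset.sum_congr rfl (fun l _ => by ring)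
    rw [this]; ring
  have herr2 : ∀ j, ‖(Gf j (w j) - Ff j (w j)) - ∑ l, (μ l : ℂ) * (Gf j l - Ff j l)‖
      ≤ 2 * err j := by
    intro j
    refine (norm_sub_le _ _).trans ?_
    have h1 : ‖∑ l, (μ l : ℂ) * (Gf j l - Ff j l)‖ ≤ err j := by
      refine (norm_sum_le _ _).trans ?_
      calc ∑ l, ‖(μ l : ℂ) * (Gf j l - Ff j l)‖ ≤ ∑ l, μ l * err j := by
            refine Finset.sum_le_sum (fun l _ => ?_)
            rw [norm_mul, Complex.norm_real, Real.norm_eq_abs, abs_of_nonneg (hμ l)]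
            exact mul_le_mul_of_nonneg_left (hGF j l) (hμ l)
        _ = err j := by rw [← Finset.sum_mul, hμ1, one_mul]
    linarith [hGF j (w j)]
  have hsum : ((1 : ℝ) / d : ℂ) * ∑ j, ⟪ll j (b j (w j) (k1 j ζ)),
        y ((star (rl j)) (kap j (w j) ζ))⟫
      = ((1 : ℝ) / d : ℂ) * ∑ j, (⟪ll j (b j (w j) (k1 j ζ)),
            y ((star (rl j)) (kap j (w j) ζ))⟫ - Gf j (w j))
        + ((1 : ℝ) / d : ℂ) * ∑ j, (∑ l, (μ l : ℂ) * Gf j l)
        + ⟪ζ, x' mart⟫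
        + ((1 : ℝ) / d : ℂ) * ∑ j, ((Gf j (w j) - Ff j (w j))
            - ∑ l, (μ l : ℂ) * (Gf j l - Ff j l)) := by
    rw [hmarti, ← mul_add, ← mul_add, ← mul_add, ← Finset.sum_add_distrib,
      ← Finset.sum_add_distrib, ← Finset.sum_add_distrib]
    congr 1
    refine Finset.sum_congr rfl (fun j _ => ?_)
    have := hdec j
    linear_combination this
  have hnd : ‖((1 : ℝ) / d : ℂ)‖ = 1 / d := by
    rw [norm_div, Complex.norm_real, Complex.norm_natCast]; simp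
  have havg : ∀ (F : Fin d → ℂ) (C : ℝ), (∀ j, ‖F j‖ ≤ C) →
      ‖((1 : ℝ) / d : ℂ) * ∑ j, F j‖ ≤ C := by
    intro F C hF
    rw [norm_mul, hnd]
    have h1 : ‖∑ j, F j‖ ≤ d * C := by
      refine (norm_sum_le _ _).trans ?_
      calc ∑ j, ‖F j‖ ≤ ∑ _j : Fin d, C := Finset.sum_le_sum (fun j _ => hF j)
        _ = d * C := by simp
    calc 1 / (d : ℝ) * ‖∑ j, F j‖ ≤ 1 / d * (d * C) :=
          mul_le_mul_of_nonneg_left h1 (by positivity)
      _ = C := by field_simp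
  rw [hsum]
  have t1 := havg _ _ hterm
  have t2 := havg _ _ hmean'
  have t3 : ‖⟪ζ, x' mart⟫‖ ≤ ‖mart‖ := by
    refine (norm_inner_le_norm _ _).trans ?_
    calc ‖ζ‖ * ‖x' mart‖ ≤ 1 * ‖x' mart‖ := mul_le_mul_of_nonneg_right hζ (norm_nonneg _)
      _ = ‖x' mart‖ := one_mul _
      _ ≤ ‖x'‖ * ‖mart‖ := x'.le_opNorm _
      _ ≤ 1 * ‖mart‖ := mul_le_mul_of_nonneg_right hx'1 (norm_nonneg _)
      _ = ‖mart‖ := one_mul _
  have t4 : ‖((1 : ℝ) / d : ℂ) * ∑ j, ((Gf j (w j) - Ff j (w j))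
            - ∑ l, (μ l : ℂ) * (Gf j l - Ff j l))‖ ≤ (1 / d) * ∑ j, 2 * err j := by
    rw [norm_mul, hnd]
    refine mul_le_mul_of_nonneg_left ?_ (by positivity)
    exact (norm_sum_le _ _).trans (Finset.sum_le_sum (fun j _ => herr2 j))
  refine (norm_add_le _ _).trans (add_le_add ?_ t4)
  refine (norm_add_le _ _).trans ?_
  have := norm_add_le (((1 : ℝ) / d : ℂ) * ∑ j, (⟪ll j (b j (w j) (k1 j ζ)),
            y ((star (rl j)) (kap j (w j) ζ))⟫ - Gf j (w j)))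
        (((1 : ℝ) / d : ℂ) * ∑ j, (∑ l, (μ l : ℂ) * Gf j l))
  linarith

end Crest.Agent.R078.Z.WL1

namespace Crest.Agent.R078.Z.WL1

open Crest.Agent.R078.Z.Slot Crest.Agent.R078

universe u

section prods

variable {A : Type*} {L : Type*} {d : ℕ}

theorem list_prod_induction [Monoid A] (p : A → Prop) (h1 : p 1) (hm : ∀ a b, p a → p b → p (a * b)) :
    ∀ l : List A, (∀ a ∈ l, p a) → p l.prod
  | [], _ => by simpa using h1
  | a :: l, h => by
    rw [List.prod_cons]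
    exact hm _ _ (h a (by simp)) (list_prod_induction p h1 hm l fun b hb => h b (by simp [hb]))

theorem pre_induction [Monoid A] (p : A → Prop) (h1 : p 1) (hm : ∀ a b, p a → p b → p (a * b))
    (T : Fin d → L → A) (w : Fin d → L) (j : ℕ) (h : ∀ i : Fin d, (i : ℕ) < j → p (T i (w i))) :
    p (pre T w j) := by
  refine list_prod_induction p h1 hm _ (fun a ha => ?_)
  obtain ⟨i, hi, rfl⟩ := List.mem_map.1 ha
  refine h i ?_
  obtain ⟨n, hn, hn'⟩ := List.mem_iff_getElem.1 hi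
  have h2 : n < j ∧ n < d := by
    have := hn
    simp at this
    exact this
  rw [List.getElem_take, List.getElem_finRange] at hn'
  rw [← hn']
  exact h2.1

theorem suf_induction [Monoid A] (p : A → Prop) (h1 : p 1) (hm : ∀ a b, p a → p b → p (a * b))
    (T : Fin d → L → A) (w : Fin d → L) (j : ℕ) (h : ∀ i : Fin d, j ≤ (i : ℕ) → p (T i (w i))) :
    p (suf T w j) := by
  refine list_prod_induction p h1 hm _ (fun a ha => ?_)
  obtain ⟨i, hi, rfl⟩ := List.mem_map.1 ha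
  refine h i ?_
  obtain ⟨n, hn, hn'⟩ := List.mem_iff_getElem.1 hi
  rw [List.getElem_drop, List.getElem_finRange] at hn'
  rw [← hn']
  simp

theorem pre_update [Monoid A] [DecidableEq L] (T : Fin d → L → A) (w : Fin d → L) (i : Fin d) (l : L)
    (j : ℕ) (h : j ≤ (i : ℕ)) : pre T (Function.update w i l) j = pre T w j := by
  unfold pre
  congr 1
  refine List.map_congr_left (fun k hk => ?_)
  obtain ⟨n, hn, hn'⟩ := List.mem_iff_getElem.1 hk
  have h2 : n < j ∧ n < d := by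
    have := hn
    simp at this
    exact this
  rw [List.getElem_take, List.getElem_finRange] at hn'
  have hne : k ≠ i := by
    rintro rfl
    have := congrArg Fin.val hn'
    simp at this
    omega
  rw [Function.update_of_ne hne]

end prods

variable {G : Type u} [NormedAddCommGroup G] [InnerProductSpace ℂ G] [CompleteSpace G]
variable {M N : VonNeumannAlgebra G} {d : ℕ} {L : Type} [Fintype L] [DecidableEq L]
  {δ R K Kθ ε₁ Λ : ℝ}

local notation "⟪" x ", " y "⟫" => inner ℂ x y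

theorem comm_of_mem {x y : G →L[ℂ] G} (hx : x ∈ M) (hy : y ∈ M.commutant) : y * x = x * y :=
  (VonNeumannAlgebra.mem_commutant_iff.1 hy x hx).symm

theorem pre_T_mem (s : SlotSys M N d L δ R K Kθ ε₁) (w : Fin d → L) (j : ℕ) :
    pre s.T w j ∈ M :=
  pre_induction (fun a => a ∈ M) (one_mem _) (fun _ _ ha hb => mul_mem ha hb) _ _ _
    (fun i _ => s.T_mem i (w i))

theorem suf_T_mem (s : SlotSys M N d L δ R K Kθ ε₁) (w : Fin d → L) (j : ℕ) :
    suf s.T w j ∈ M :=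
  suf_induction (fun a => a ∈ M) (one_mem _) (fun _ _ ha hb => mul_mem ha hb) _ _ _
    (fun i _ => s.T_mem i (w i))

theorem pre_S_mem (s : SlotSys M N d L δ R K Kθ ε₁) (w : Fin d → L) (j : ℕ) :
    pre s.S w j ∈ M.commutant :=
  pre_induction (fun a => a ∈ M.commutant) (one_mem _) (fun _ _ ha hb => mul_mem ha hb) _ _ _
    (fun i _ => s.S_mem i (w i))

theorem pre_T_unitary (s : SlotSys M N d L δ R K Kθ ε₁) (w : Fin d → L) (j : ℕ) :
    pre s.T w j ∈ unitary (G →L[ℂ] G) :=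
  pre_induction (fun a => a ∈ unitary (G →L[ℂ] G)) (one_mem _) (fun _ _ ha hb => mul_mem ha hb) _ _ _
    (fun i _ => s.T_unitary i (w i))

theorem suf_T_unitary (s : SlotSys M N d L δ R K Kθ ε₁) (w : Fin d → L) (j : ℕ) :
    suf s.T w j ∈ unitary (G →L[ℂ] G) :=
  suf_induction (fun a => a ∈ unitary (G →L[ℂ] G)) (one_mem _) (fun _ _ ha hb => mul_mem ha hb) _ _ _
    (fun i _ => s.T_unitary i (w i))

theorem pre_S_unitary (s : SlotSys M N d L δ R K Kθ ε₁) (w : Fin d → L) (j : ℕ) :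
    pre s.S w j ∈ unitary (G →L[ℂ] G) :=
  pre_induction (fun a => a ∈ unitary (G →L[ℂ] G)) (one_mem _) (fun _ _ ha hb => mul_mem ha hb) _ _ _
    (fun i _ => s.S_unitary i (w i))

theorem k1_pre_S (s : SlotSys M N d L δ R K Kθ ε₁) (w : Fin d → L) (j : Fin d) :
    s.k1 j * pre s.S w j = pre s.S w j * s.k1 j :=
  pre_induction (fun a => s.k1 j * a = a * s.k1 j) (by simp)
    (fun a b ha hb => by rw [← mul_assoc, ha, mul_assoc, hb, mul_assoc]) _ _ _
    (fun i hi => s.k1_S j i (w i) (by rintro rfl; exact lt_irrefl _ hi))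

theorem star_k1_S (s : SlotSys M N d L δ R K Kθ ε₁) (i j : Fin d) (l : L) (h : i ≠ j) :
    star (s.k1 i) * s.S j l = s.S j l * star (s.k1 i) := by
  have h1 := congrArg star (s.k1_S i j (s.inv l) h)
  rw [star_mul, star_mul, s.S_inv, star_star] at h1
  exact h1.symm

theorem star_k1_pre_S (s : SlotSys M N d L δ R K Kθ ε₁) (w : Fin d → L) (j : Fin d) :
    star (s.k1 j) * pre s.S w j = pre s.S w j * star (s.k1 j) :=
  pre_induction (fun a => star (s.k1 j) * a = a * star (s.k1 j)) (by simp)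
    (fun a b ha hb => by rw [← mul_assoc, ha, mul_assoc, hb, mul_assoc]) _ _ _
    (fun i hi => star_k1_S s j i (w i) (by rintro rfl; exact lt_irrefl _ hi))

theorem P_pre_S (s : SlotSys M N d L δ R K Kθ ε₁) (w : Fin d → L) (j : Fin d) :
    s.P j * pre s.S w j = pre s.S w j * s.P j :=
  pre_induction (fun a => s.P j * a = a * s.P j) (by simp)
    (fun a b ha hb => by rw [← mul_assoc, ha, mul_assoc, hb, mul_assoc]) _ _ _
    (fun i hi => s.P_S j i (w i) (by rintro rfl; exact lt_irrefl _ hi))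

theorem P_pre_T (s : SlotSys M N d L δ R K Kθ ε₁) (w : Fin d → L) (j : Fin d) :
    s.P j * pre s.T w j = pre s.T w j * s.P j :=
  pre_induction (fun a => s.P j * a = a * s.P j) (by simp)
    (fun a b ha hb => by rw [← mul_assoc, ha, mul_assoc, hb, mul_assoc]) _ _ _
    (fun i hi => s.P_T j i (w i) (by rintro rfl; exact lt_irrefl _ hi))

/-- `V_j = L_j S_{L_j}` -/
noncomputable def Vj (s : SlotSys M N d L δ R K Kθ ε₁) (w : Fin d → L) (j : Fin d) : G →L[ℂ] G :=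
  pre s.T w j * pre s.S w j

theorem P_Vj (s : SlotSys M N d L δ R K Kθ ε₁) (w : Fin d → L) (j : Fin d) :
    s.P j * Vj s w j = Vj s w j * s.P j := by
  unfold Vj
  rw [← mul_assoc, P_pre_T, mul_assoc, P_pre_S, mul_assoc]

theorem Vj_update (s : SlotSys M N d L δ R K Kθ ε₁) (w : Fin d → L) (i j : Fin d) (l : L)
    (h : j ≤ i) : Vj s (Function.update w i l) j = Vj s w j := by
  unfold Vj
  rw [pre_update _ _ _ _ _ (by exact_mod_cast h), pre_update _ _ _ _ _ (by exact_mod_cast h)]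

theorem norm_Vj (s : SlotSys M N d L δ R K Kθ ε₁) (w : Fin d → L) (j : Fin d) (v : G) :
    ‖Vj s w j v‖ = ‖v‖ := by
  change ‖pre s.T w j (pre s.S w j v)‖ = ‖v‖
  rw [norm_unitary _ (pre_T_unitary s w j).1, norm_unitary _ (pre_S_unitary s w j).1]

theorem P_Vζ (s : SlotSys M N d L δ R K Kθ ε₁) (w : Fin d → L) (j : Fin d) :
    s.P j (Vj s w j s.ζ - s.ζ) = Vj s w j s.ζ - s.ζ := by
  have h := congrArg (fun (Q : G →L[ℂ] G) => Q s.ζ) (P_Vj s w j)
  have h2 : s.P j (Vj s w j s.ζ) = Vj s w j (s.P j s.ζ) := h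
  rw [map_sub, h2, s.P_ζ]

/-- the increment vector of letter `l` in slot `j` -/
noncomputable def gv (s : SlotSys M N d L δ R K Kθ ε₁) (j : Fin d) (l : L) : G :=
  (star (s.k1 j)) ((star (s.b j l)) (s.kap j l ((star (s.S j l)) s.ζ)))

theorem norm_gv (s : SlotSys M N d L δ R K Kθ ε₁) (hK : 0 ≤ K) (j : Fin d) (l : L) :
    ‖gv s j l‖ ≤ K * Kθ * (1 + K * Kθ * ε₁) := by
  have hKθ : 0 ≤ Kθ := (norm_nonneg _).trans (s.norm_k1 j)
  have hKK : 0 ≤ K * Kθ := mul_nonneg hK hKθ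
  -- star S ζ
  have h1 : s.T j l (s.kap j l s.ζ) = s.kap j l (s.T j l s.ζ) :=
    congrArg (fun (Q : G →L[ℂ] G) => Q s.ζ) (comm_of_mem (s.T_mem j l) (s.kap_memM j l)).symm
  have h2 : s.T j l s.ζ = (star (s.S j l)) (s.T j l (s.S j l s.ζ)) := by
    have e : s.T j l * s.S j l = s.S j l * s.T j l :=
      (comm_of_mem (s.T_mem j l) (s.S_mem j l)).symm
    have e2 : s.T j l (s.S j l s.ζ) = s.S j l (s.T j l s.ζ) :=
      congrArg (fun (Q : G →L[ℂ] G) => Q s.ζ) e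
    rw [e2]
    have e3 := congrArg (fun (Q : G →L[ℂ] G) => Q (s.T j l s.ζ)) (s.S_unitary j l).1
    exact e3.symm
  have h3 : s.kap j l ((star (s.S j l)) s.ζ)
      = s.T j l (s.kap j l s.ζ) - s.kap j l ((star (s.S j l)) (s.T j l (s.S j l s.ζ) - s.ζ)) := by
    rw [h1, h2, ← map_sub, ← map_sub]
    congr 2
    abel
  have h4 : ‖s.kap j l ((star (s.S j l)) s.ζ)‖ ≤ 1 + K * Kθ * ε₁ := by
    rw [h3]
    refine (norm_sub_le _ _).trans (add_le_add ?_ ?_)
    · rw [norm_unitary _ (s.T_unitary j l).1]; exact s.norm_kapζ j l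
    · refine (ContinuousLinearMap.le_opNorm _ _).trans ?_
      rw [norm_unitary (star (s.S j l)) (by simpa using (s.S_unitary j l).2)]
      exact mul_le_mul (s.norm_kap j l) (s.TS_ζ j l) (norm_nonneg _) hKK
  unfold gv
  refine (ContinuousLinearMap.le_opNorm _ _).trans ?_
  rw [norm_star]
  have h5 : ‖(star (s.b j l)) (s.kap j l ((star (s.S j l)) s.ζ))‖ ≤ K * (1 + K * Kθ * ε₁) := by
    refine (ContinuousLinearMap.le_opNorm _ _).trans ?_
    rw [norm_star]
    exact mul_le_mul (s.norm_b j l) h4 (norm_nonneg _) hK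
  calc ‖s.k1 j‖ * ‖(star (s.b j l)) (s.kap j l ((star (s.S j l)) s.ζ))‖
      ≤ Kθ * (K * (1 + K * Kθ * ε₁)) := mul_le_mul (s.norm_k1 j) h5 (norm_nonneg _) hKθ
    _ = K * Kθ * (1 + K * Kθ * ε₁) := by ring

/-- the functional `q_w(y) = (1/d) ∑_j Ψ_j(l_j^* y ρ_j^*)` -/
noncomputable def qf (s : SlotSys M N d L δ R K Kθ ε₁) (w : Fin d → L) (y : G →L[ℂ] G) : ℂ :=
  ((1 : ℝ) / d : ℂ) * ∑ j, ⟪s.lft j w (s.b j (w j) (s.k1 j s.ζ)),
    y ((star (s.rho j w)) (s.kap j (w j) s.ζ))⟫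

/-- mean part -/
theorem mean_bound (s : SlotSys M N d L δ R K Kθ ε₁) (hrel : RelBd M N R Λ) (j : Fin d)
    (y : G →L[ℂ] G) (hy : y ∈ N) (hy1 : ‖y‖ ≤ 1) :
    ‖∑ l, (s.μ l : ℂ) * ⟪s.b j l (s.k1 j s.ζ), y (s.T j l (s.kap j l s.ζ))⟫‖ ≤ Λ := by
  have hys : star y ∈ N := star_mem hy
  have hys1 : ‖star y‖ ≤ 1 := by rw [norm_star]; exact hy1
  have hadj : ∀ (u v : G), ⟪(star y) u, v⟫ = ⟪u, y v⟫ := by
    intro u v
    rw [ContinuousLinearMap.star_eq_adjoint, ContinuousLinearMap.adjoint_inner_left]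
  have h := hrel Unit L s.μ (fun l => s.T j l) (fun _ => s.k j s.ζ)
    (fun l _ => s.kap j l s.ζ) (fun l _ => (star y) (s.b j l (s.k1 j s.ζ)))
    (fun l _ => (star y) (s.η j l)) s.μ_nonneg s.μ_sum (s.T_mem j)
    (fun l => by
      refine ContinuousLinearMap.opNorm_le_bound _ zero_le_one (fun v => ?_)
      rw [norm_unitary _ (s.T_unitary j l).1, one_mul])
    (by simp [s.norm_kζ j])
    (fun l => by
      simp only [Finset.univ_unique, Finset.sum_const, Finset.card_singleton, one_smul]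
      exact pow_le_one₀ (norm_nonneg _) (s.norm_kapζ j l))
    (fun l => by
      simp only [Finset.univ_unique, Finset.sum_const, Finset.card_singleton, one_smul]
      refine pow_le_one₀ (norm_nonneg _) ?_
      exact ((star y).le_opNorm _).trans (mul_le_one₀ hys1 (norm_nonneg _) (s.norm_bζ j l)))
    (fun l => by
      simp only [Finset.univ_unique, Finset.sum_const, Finset.card_singleton, one_smul]
      refine pow_le_pow_left₀ (norm_nonneg _) ?_ 2
      refine ((star y).le_opNorm _).trans ?_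
      calc ‖star y‖ * ‖s.η j l‖ ≤ 1 * R :=
            mul_le_mul hys1 (s.norm_η j l) (norm_nonneg _) zero_le_one
        _ = R := one_mul R)
    (fun l n hn => by
      simp only [Finset.univ_unique, Finset.sum_const, Finset.card_singleton, one_smul]
      rw [hadj, hadj]
      exact s.star_id j l (y * n) (mul_mem hy hn) s.ζ s.p'_ζ)
    (fun n hn => by
      simp only [Finset.univ_unique, Finset.sum_const, Finset.card_singleton, one_smul]
      simp only [hadj]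
      exact s.exact_T j (y (n (s.k j s.ζ))))
  simp only [Finset.univ_unique, Finset.sum_const, Finset.card_singleton, one_smul, hadj] at h
  exact h

/-- the martingale vector -/
noncomputable def mv (s : SlotSys M N d L δ R K Kθ ε₁) (w : Fin d → L) : G :=
  ((1 : ℝ) / d : ℂ) • ∑ j, Vj s w j (gv s j (w j) - ∑ l, (s.μ l : ℂ) • gv s j l)

/-- pathwise bound for `‖q_w‖` -/
noncomputable def cbd (s : SlotSys M N d L δ R K Kθ ε₁) (Λ : ℝ) (w : Fin d → L) : ℝ :=
  Λ + 4 * δ + ‖mv s w‖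
    + (1 / d) * ∑ j, 2 * (K * Kθ * ε₁ + K * (1 + K * Kθ * ε₁) * ‖Vj s w j s.ζ - s.ζ‖)

theorem qf_le (s : SlotSys M N d L δ R K Kθ ε₁) (hd : 0 < d)
    (hMN : BallIn M N δ) (hNM : BallIn N M δ) (hrel : RelBd M N R Λ) (w : Fin d → L)
    (y : G →L[ℂ] G) (hy : y ∈ N) (hy1 : ‖y‖ ≤ 1) : ‖qf s w y‖ ≤ cbd s Λ w := by
  have h := pathwise (G := G) (I := L) hd (M : Set (G →L[ℂ] G)) (N : Set (G →L[ℂ] G)) s.μ
    s.μ_nonneg s.μ_sum w s.T s.S s.kap s.b s.k1 (fun j => pre s.T w j) (fun j => pre s.S w j)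
    (fun j => suf s.T w (j + 1)) (fun j => s.lft j w) (fun j => s.rho j w) (suf s.T w 0) s.ζ δ
    (K * Kθ) K ε₁ Λ s.norm_ζ.le
    (fun x hx => star_mem (s := M) hx) (fun x hx y hy => mul_mem (S := VonNeumannAlgebra G) (s := M) hx hy)
    hNM hMN (suf_T_mem s w 0) (suf_T_unitary s w 0).2 (suf_T_unitary s w 0).1
    (fun j => pre_T_mem s w j) (fun j => (pre_T_unitary s w j).1) (fun j => (pre_T_unitary s w j).2)
    (fun j => (suf_T_unitary s w _).2) (fun j => word_eq s.T w j)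
    (fun j => (pre_S_unitary s w j).1) (fun j l => (s.T_unitary j l).1)
    (fun j l => (s.S_unitary j l).1) (fun j l => (s.S_unitary j l).2)
    (fun j x hx => comm_of_mem hx (pre_S_mem s w j))
    (fun j l x hx => comm_of_mem hx (s.b_memM j l))
    (fun j l x hx => comm_of_mem hx (star_mem (s.b_memM j l)))
    (fun j x hx => comm_of_mem hx (s.k1_memM j))
    (fun j x hx => comm_of_mem hx (star_mem (s.k1_memM j)))
    (fun j l => (comm_of_mem (s.T_mem j l) (s.kap_memM j l)).symm)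
    (fun j l => (comm_of_mem (s.T_mem j l) (s.S_mem j l)).symm)
    (fun j => k1_pre_S s w j) (fun j => star_k1_pre_S s w j)
    (fun j => (s.k1_isom j _ (P_Vζ s w j)).le)
    (fun j l => s.TS_ζ j l) s.norm_kap s.norm_b s.norm_kapζ s.norm_bζ
    (fun j => s.lft_near j w) (fun j => s.norm_lft j w) (fun j => s.rho_near j w)
    (fun j y hy hy1 => mean_bound s hrel j y hy hy1) y hy hy1
  simpa [qf, cbd, mv, gv, Vj] using h

/-- Expectation of the martingale vector. -/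
theorem Ex_mv (s : SlotSys M N d L δ R K Kθ ε₁) (hd : 0 < d) (hK : 0 ≤ K) (hε : 0 ≤ ε₁) :
    s.Ex (fun w => ‖mv s w‖) ≤ K * Kθ * (1 + K * Kθ * ε₁) / Real.sqrt d := by
  obtain ⟨j0⟩ : Nonempty (Fin d) := ⟨⟨0, hd⟩⟩
  have hKθ : 0 ≤ Kθ := (norm_nonneg _).trans (s.norm_k1 j0)
  set B : ℝ := K * Kθ * (1 + K * Kθ * ε₁) with hB
  have hB0 : 0 ≤ B := by positivity
  set h : Fin d → (Fin d → L) → G := fun j w =>
    Vj s w j (gv s j (w j) - ∑ l, (s.μ l : ℂ) • gv s j l) with hh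
  have e : ∀ w, mv s w = (d : ℝ)⁻¹ • ∑ j, h j w := by
    intro w
    unfold mv
    rw [← Complex.coe_smul]
    congr 1
    push_cast
    rw [one_div]
  have hpred : ∀ i j, i < j → ∀ w l, h i (Function.update w j l) = h i w := by
    intro i j hij w l
    simp only [hh]
    rw [Vj_update s w j i l hij.le, Function.update_of_ne hij.ne]
  have hmean : ∀ j w, ∑ l, s.μ l • h j (Function.update w j l) = 0 := by
    intro j w
    have e1 : ∀ l, s.μ l • h j (Function.update w j l)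
        = Vj s w j ((s.μ l : ℂ) • (gv s j l - ∑ l, (s.μ l : ℂ) • gv s j l)) := by
      intro l
      simp only [hh]
      rw [Vj_update s w j j l le_rfl, Function.update_self, map_smul, ← Complex.coe_smul]
    rw [Finset.sum_congr rfl (fun l _ => e1 l), ← map_sum]
    simp only [smul_sub, Finset.sum_sub_distrib]
    rw [← Finset.sum_smul]
    have : (∑ l, (s.μ l : ℂ)) = 1 := by exact_mod_cast s.μ_sum
    rw [this, one_smul, sub_self, map_zero]
  have hBj : ∀ j, Pb.Ex s.μ (fun w => ‖h j w‖ ^ 2) ≤ B ^ 2 := by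
    intro j
    have e2 : ∀ w : Fin d → L, ‖h j w‖ ^ 2
        = (fun l => ‖gv s j l - ∑ l, s.μ l • gv s j l‖ ^ 2) (w j) := by
      intro w
      simp only [hh]
      rw [norm_Vj]
      simp only [Complex.coe_smul]
    rw [Pb.Ex_congr s.μ e2, Pb.Ex_single s.μ s.μ_sum j
      (fun l => ‖gv s j l - ∑ l, s.μ l • gv s j l‖ ^ 2)]
    simp only [smul_eq_mul]
    refine (Pb.sum_norm_sub_mean_sq_le s.μ_nonneg s.μ_sum (gv s j)).trans ?_
    calc ∑ i, s.μ i * ‖gv s j i‖ ^ 2 ≤ ∑ i, s.μ i * B ^ 2 := by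
          refine Finset.sum_le_sum (fun i _ => mul_le_mul_of_nonneg_left ?_ (s.μ_nonneg i))
          exact pow_le_pow_left₀ (norm_nonneg _) (norm_gv s hK j i) 2
      _ = B ^ 2 := by rw [← Finset.sum_mul, s.μ_sum, one_mul]
  have hfin := Pb.Ex_norm_avg_le s.μ_nonneg s.μ_sum hd h hpred hmean hB0 hBj
  have e3 : s.Ex (fun w => ‖mv s w‖) = Pb.Ex s.μ (fun w => ‖(d : ℝ)⁻¹ • ∑ j, h j w‖) :=
    Pb.Ex_congr s.μ (fun w => by rw [e w])
  rw [e3]
  exact hfin

/-- STEP (3): the L1 bound. -/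
theorem L1_bound (s : SlotSys M N d L δ R K Kθ ε₁) (hd : 0 < d) (hδ : 0 ≤ δ)
    (hK : 0 ≤ K) (hε : 0 ≤ ε₁) (hΛ : 0 ≤ Λ)
    (hMN : BallIn M N δ) (hNM : BallIn N M δ) (hrel : RelBd M N R Λ)
    (hdrift : ∀ j : Fin d, s.Ex (fun w => ‖pre s.T w j (pre s.S w j s.ζ) - s.ζ‖) ≤ s.D) :
    ∃ c : (Fin d → L) → ℝ, (∀ w, 0 ≤ c w) ∧
      (∀ w, ∀ y ∈ N, ‖y‖ ≤ 1 → ‖((1 : ℝ) / d : ℂ) * ∑ j, ⟪s.lft j w (s.b j (w j) (s.k1 j s.ζ)),
        y ((star (s.rho j w)) (s.kap j (w j) s.ζ))⟫‖ ≤ c w) ∧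
      s.Ex c ≤ Λ + 4 * δ + s.Efl := by
  obtain ⟨j0⟩ : Nonempty (Fin d) := ⟨⟨0, hd⟩⟩
  have hKθ : 0 ≤ Kθ := (norm_nonneg _).trans (s.norm_k1 j0)
  have hd' : (0 : ℝ) < d := by exact_mod_cast hd
  refine ⟨cbd s Λ, fun w => ?_, fun w y hy hy1 => qf_le s hd hMN hNM hrel w y hy hy1, ?_⟩
  · unfold cbd
    have : 0 ≤ ∑ j, 2 * (K * Kθ * ε₁ + K * (1 + K * Kθ * ε₁) * ‖Vj s w j s.ζ - s.ζ‖) :=
      Finset.sum_nonneg (fun j _ => by positivity)
    positivity
  · have e1 : s.Ex (cbd s Λ) = (Λ + 4 * δ) + s.Ex (fun w => ‖mv s w‖)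
        + (1 / d) * ∑ j : Fin d, 2 * (K * Kθ * ε₁ + K * (1 + K * Kθ * ε₁)
          * s.Ex (fun w => ‖Vj s w j s.ζ - s.ζ‖)) := by
      change Pb.Ex s.μ (cbd s Λ) = (Λ + 4 * δ) + Pb.Ex s.μ (fun w => ‖mv s w‖)
        + (1 / d) * ∑ j : Fin d, 2 * (K * Kθ * ε₁ + K * (1 + K * Kθ * ε₁)
          * Pb.Ex s.μ (fun w => ‖Vj s w j s.ζ - s.ζ‖))
      unfold cbd
      rw [Pb.Ex_add, Pb.Ex_add, Pb.Ex_const s.μ s.μ_sum, Pb.Ex_mul_left, Pb.Ex_sum]
      congr 2
      refine Finset.sum_congr rfl (fun j _ => ?_)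
      rw [Pb.Ex_mul_left, Pb.Ex_add, Pb.Ex_const s.μ s.μ_sum, Pb.Ex_mul_left]
    rw [e1]
    have h1 := Ex_mv s hd hK hε
    have h2 : (1 / (d : ℝ)) * ∑ j : Fin d, 2 * (K * Kθ * ε₁ + K * (1 + K * Kθ * ε₁)
          * s.Ex (fun w => ‖Vj s w j s.ζ - s.ζ‖))
        ≤ 2 * (K * Kθ * ε₁ + K * (1 + K * Kθ * ε₁) * s.D) := by
      have h3 : ∑ j : Fin d, 2 * (K * Kθ * ε₁ + K * (1 + K * Kθ * ε₁)
          * s.Ex (fun w => ‖Vj s w j s.ζ - s.ζ‖))
          ≤ ∑ _j : Fin d, 2 * (K * Kθ * ε₁ + K * (1 + K * Kθ * ε₁) * s.D) := by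
        refine Finset.sum_le_sum (fun j _ => ?_)
        have h4 : s.Ex (fun w => ‖Vj s w j s.ζ - s.ζ‖) ≤ s.D := hdrift j
        have h5 : 0 ≤ K * (1 + K * Kθ * ε₁) := by positivity
        have h6 := mul_le_mul_of_nonneg_left h4 h5
        linarith
      rw [Finset.sum_const, Finset.card_univ, Fintype.card_fin, nsmul_eq_mul] at h3
      calc _ ≤ (1 / (d : ℝ)) * (d * (2 * (K * Kθ * ε₁ + K * (1 + K * Kθ * ε₁) * s.D))) :=
            mul_le_mul_of_nonneg_left h3 (by positivity)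
        _ = _ := by field_simp
    unfold SlotSys.Efl
    linarith


/-- `L1Target` of `S103SlotTargets199.lean`, from `DriftTarget`. -/
theorem l1Target (hD : DriftTarget.{u}) : L1Target.{u} := by
  intro G _ _ _ M N d L _ _ δ R K Kθ ε₁ Λ s hd hδ hR hK hKθ hε hΛ hMN hNM hrel
  have hdr : ∀ j : Fin d, s.Ex (fun w => ‖pre s.T w j (pre s.S w j s.ζ) - s.ζ‖) ≤ s.D := by
    intro j
    have hD0 : 0 ≤ s.D := mul_nonneg (Real.sqrt_nonneg _) hε
    exact Pb.Ex_norm_le_of_sq_le s.μ_nonneg s.μ_sum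
      (fun w => pre s.T w j (pre s.S w j s.ζ) - s.ζ) hD0 (hD G M N d L δ R K Kθ ε₁ s hε j).1
  obtain ⟨c, hc0, hc1, hc2⟩ := L1_bound s hd hδ hK hε hΛ hMN hNM hrel hdr
  refine ⟨c, hc0, fun w y hy hy1 => ?_, hc2⟩
  have e : s.q w y = ((1 : ℝ) / d : ℂ) * ∑ j, ⟪s.lft j w (s.b j (w j) (s.k1 j s.ζ)),
      y ((star (s.rho j w)) (s.kap j (w j) s.ζ))⟫ := by
    unfold SlotSys.q
    have e1 : ((1 : ℝ) / d : ℂ) = (d : ℂ)⁻¹ := by push_cast; rw [one_div]
    rw [e1]
    congr 1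
    refine Finset.sum_congr rfl (fun j _ => ?_)
    have e2 : s.kap j (w j) (star (s.rho j w) s.ζ) = star (s.rho j w) (s.kap j (w j) s.ζ) :=
      congrArg (fun (Q : G →L[ℂ] G) => Q s.ζ)
        (comm_of_mem (star_mem (s.rho_mem j w)) (s.kap_memN j (w j)))
    rw [e2]; rfl
  rw [e]
  exact hc1 w y hy hy1

end Crest.Agent.R078.Z.WL1
end

-- ▼ part R078/S103L2_330
section

/-!
# R78 / S0103: the `L2` bound (step (4) of the walk), helper330
-/

set_option autoImplicit false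
set_option linter.unusedSectionVars false
open scoped InnerProductSpace

namespace Crest.Agent.R078.Z.L2

open Crest.Agent.R078.Z.Slot
open Crest.Agent.R078

universe u

section words

variable {A : Type*} [Monoid A] {L : Type*} {d : ℕ}

theorem pre_update_of_lt [DecidableEq L] (T : Fin d → L → A) (w : Fin d → L) (i : ℕ) (j : Fin d)
    (h : i ≤ j) (l : L) : pre T (Function.update w j l) i = pre T w i := by
  unfold pre
  congr 1
  refine List.map_congr_left fun x hx => ?_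
  have hx' : (x : ℕ) < i := by
    rw [List.mem_take_iff_getElem] at hx
    obtain ⟨k, hk, rfl⟩ := hx
    simp only [List.getElem_finRange, Fin.val_cast]
    exact lt_of_lt_of_le hk (min_le_left _ _)
  have : x ≠ j := by
    intro e
    subst e
    exact absurd hx' (not_lt.2 h)
  rw [Function.update_of_ne this]



theorem suf_commute (T : Fin d → L → A) (w : Fin d → L) (i : ℕ) (x : A)
    (h : ∀ j : Fin d, i ≤ (j : ℕ) → Commute (T j (w j)) x) : Commute (suf T w i) x := by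
  unfold suf
  refine Commute.list_prod_left _ _ ?_
  intro y hy
  rw [List.mem_map] at hy
  obtain ⟨j, hj, rfl⟩ := hy
  refine h j ?_
  rw [List.mem_drop_iff_getElem] at hj
  obtain ⟨k, hk, rfl⟩ := hj
  simp

end words

section mem

variable {G : Type u} [NormedAddCommGroup G] [InnerProductSpace ℂ G] [CompleteSpace G]
variable {M : VonNeumannAlgebra G} {d : ℕ} {L : Type}

theorem pre_mem (T : Fin d → L → G →L[ℂ] G) (w : Fin d → L) (h : ∀ j l, T j l ∈ M) (i : ℕ) :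
    pre T w i ∈ M := by
  unfold pre
  refine list_prod_mem ?_
  intro y hy
  rw [List.mem_map] at hy
  obtain ⟨j, _, rfl⟩ := hy
  exact h j _

theorem suf_mem (T : Fin d → L → G →L[ℂ] G) (w : Fin d → L) (h : ∀ j l, T j l ∈ M) (i : ℕ) :
    suf T w i ∈ M := by
  unfold suf
  refine list_prod_mem ?_
  intro y hy
  rw [List.mem_map] at hy
  obtain ⟨j, _, rfl⟩ := hy
  exact h j _

theorem pre_unitary (T : Fin d → L → G →L[ℂ] G) (w : Fin d → L)
    (h : ∀ j l, T j l ∈ unitary (G →L[ℂ] G)) (i : ℕ) : pre T w i ∈ unitary (G →L[ℂ] G) := by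
  unfold pre
  refine list_prod_mem ?_
  intro y hy
  rw [List.mem_map] at hy
  obtain ⟨j, _, rfl⟩ := hy
  exact h j _

theorem suf_unitary (T : Fin d → L → G →L[ℂ] G) (w : Fin d → L)
    (h : ∀ j l, T j l ∈ unitary (G →L[ℂ] G)) (i : ℕ) : suf T w i ∈ unitary (G →L[ℂ] G) := by
  unfold suf
  refine list_prod_mem ?_
  intro y hy
  rw [List.mem_map] at hy
  obtain ⟨j, _, rfl⟩ := hy
  exact h j _

theorem norm_le_one_of_unitary {u : G →L[ℂ] G} (h : u ∈ unitary (G →L[ℂ] G)) : ‖u‖ ≤ 1 := by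
  refine ContinuousLinearMap.opNorm_le_bound _ zero_le_one fun x => ?_
  have h1 : star u * u = 1 := (Unitary.mem_iff.1 h).1
  have h2 : ‖u x‖ ^ 2 = ‖x‖ ^ 2 := by
    rw [← inner_self_eq_norm_sq (𝕜 := ℂ), ← ContinuousLinearMap.adjoint_inner_left,
      ← ContinuousLinearMap.star_eq_adjoint, ← ContinuousLinearMap.mul_apply, h1,
      ContinuousLinearMap.one_apply, inner_self_eq_norm_sq]
  rw [one_mul]
  exact (sq_le_sq₀ (norm_nonneg _) (norm_nonneg _)).1 h2.le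

theorem norm_apply_of_unitary {u : G →L[ℂ] G} (h : u ∈ unitary (G →L[ℂ] G)) (x : G) :
    ‖u x‖ = ‖x‖ := by
  have h1 : star u * u = 1 := (Unitary.mem_iff.1 h).1
  have h2 : ‖u x‖ ^ 2 = ‖x‖ ^ 2 := by
    rw [← inner_self_eq_norm_sq (𝕜 := ℂ), ← ContinuousLinearMap.adjoint_inner_left,
      ← ContinuousLinearMap.star_eq_adjoint, ← ContinuousLinearMap.mul_apply, h1,
      ContinuousLinearMap.one_apply, inner_self_eq_norm_sq]
  exact (sq_eq_sq₀ (norm_nonneg _) (norm_nonneg _)).1 h2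

theorem commute_of_mem_commutant {x y : G →L[ℂ] G} (hx : x ∈ M) (hy : y ∈ M.commutant) :
    Commute x y := VonNeumannAlgebra.mem_commutant_iff.1 hy x hx

end mem

variable {G : Type u} [NormedAddCommGroup G] [InnerProductSpace ℂ G] [CompleteSpace G]
variable {M N : VonNeumannAlgebra G} {d : ℕ} {L : Type} [Fintype L] [DecidableEq L]
  {δ R K Kθ ε₁ : ℝ} (s : SlotSys M N d L δ R K Kθ ε₁)

/-- the word identity `S_X^* L_j S_{L_j} S_j = S_{R_j}^* L_j` -/
theorem word_S (w : Fin d → L) (j : Fin d) :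
    star (suf s.S w 0) * (pre s.T w j * pre s.S w j * s.S j (w j)) =
      star (suf s.S w (j + 1)) * pre s.T w j := by
  have hLM : pre s.T w j ∈ M := pre_mem s.T w s.T_mem j
  have hSX : suf s.S w 0 ∈ M.commutant := suf_mem s.S w s.S_mem 0
  have hSR : suf s.S w (j + 1) ∈ M.commutant := suf_mem s.S w s.S_mem (j + 1)
  have c1 : Commute (pre s.T w j) (star (suf s.S w 0)) :=
    commute_of_mem_commutant hLM (star_mem hSX)
  have c2 : Commute (pre s.T w j) (star (suf s.S w (j + 1))) :=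
    commute_of_mem_commutant hLM (star_mem hSR)
  have u1 : star (pre s.S w j) * pre s.S w j = 1 :=
    (Unitary.mem_iff.1 (pre_unitary s.S w s.S_unitary j)).1
  have u2 : star (s.S j (w j)) * s.S j (w j) = 1 :=
    (Unitary.mem_iff.1 (s.S_unitary j (w j))).1
  have e1 : star (suf s.S w 0) * pre s.S w j * s.S j (w j) = star (suf s.S w (j + 1)) := by
    rw [word_eq s.S w j, star_mul, star_mul]
    calc star (suf s.S w (j + 1)) * (star (s.S j (w j)) * star (pre s.S w j)) * pre s.S w j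
          * s.S j (w j)
        = star (suf s.S w (j + 1)) * (star (s.S j (w j)) * (star (pre s.S w j) * pre s.S w j)
          * s.S j (w j)) := by simp only [mul_assoc]
      _ = star (suf s.S w (j + 1)) := by rw [u1, mul_one, u2, mul_one]
  calc star (suf s.S w 0) * (pre s.T w j * pre s.S w j * s.S j (w j))
      = (star (suf s.S w 0) * pre s.T w j) * pre s.S w j * s.S j (w j) := by
        simp only [mul_assoc]
    _ = pre s.T w j * (star (suf s.S w 0) * pre s.S w j * s.S j (w j)) := by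
        rw [← c1.eq]; simp only [mul_assoc]
    _ = star (suf s.S w (j + 1)) * pre s.T w j := by rw [e1, c2.eq]

/-- `V_j u_j`, `u_j = S_j k_j^* η_j` -/
noncomputable def mart (j : Fin d) (w : Fin d → L) : G :=
  (pre s.T w j * pre s.S w j) (s.S j (w j) (star (s.k j) (s.η j (w j))))

theorem mart_pred (i j : Fin d) (hij : i < j) (w : Fin d → L) (l : L) :
    mart s i (Function.update w j l) = mart s i w := by
  unfold mart
  have hij' : (i : ℕ) ≤ j := hij.le
  rw [pre_update_of_lt _ _ _ _ hij', pre_update_of_lt _ _ _ _ hij',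
    Function.update_of_ne (ne_of_lt hij)]

theorem mart_mean (j : Fin d) (w : Fin d → L) :
    ∑ l, s.μ l • mart s j (Function.update w j l) = 0 := by
  have h := s.exact_S j
  have e : ∀ l, s.μ l • mart s j (Function.update w j l) =
      (pre s.T w j * pre s.S w j) ((s.μ l : ℂ) • s.S j l (star (s.k j) (s.η j l))) := by
    intro l
    unfold mart
    rw [pre_update_of_lt _ _ _ _ le_rfl, pre_update_of_lt _ _ _ _ le_rfl, Function.update_self,
      map_smul, Complex.coe_smul]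
  simp only [e]
  rw [← map_sum, h, map_zero]

theorem norm_mart_le (hK : 0 ≤ Kθ) (j : Fin d) (w : Fin d → L) :
    ‖mart s j w‖ ≤ Kθ * R := by
  unfold mart
  have hu : pre s.T w j * pre s.S w j ∈ unitary (G →L[ℂ] G) :=
    mul_mem (pre_unitary s.T w s.T_unitary j) (pre_unitary s.S w s.S_unitary j)
  rw [norm_apply_of_unitary hu, norm_apply_of_unitary (s.S_unitary j (w j))]
  refine (ContinuousLinearMap.le_opNorm _ _).trans ?_
  rw [norm_star]
  exact mul_le_mul (s.norm_k j) (s.norm_η j _) (norm_nonneg _) hK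

/-- the vector `W = d⁻¹ ∑ V_j S_j k_j^* η_j` -/
noncomputable def Wv (w : Fin d → L) : G := (d : ℝ)⁻¹ • ∑ j, mart s j w

theorem Ex_Wv (hd : 0 < d) (hR : 0 ≤ R) (hK : 0 ≤ Kθ) :
    s.Ex (fun w => ‖Wv s w‖) ≤ Kθ * R / Real.sqrt d := by
  refine Pb.Ex_norm_avg_le s.μ_nonneg s.μ_sum hd (mart s) (mart_pred s) (mart_mean s)
    (mul_nonneg hK hR) fun j => ?_
  refine Pb.Ex_le_const s.μ_nonneg s.μ_sum fun w => ?_
  exact pow_le_pow_left₀ (norm_nonneg _) (norm_mart_le s hK j w) 2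

/-- the mismatch vectors `t'(S_{R_j})^* l_j η_j - S_{R_j}^* L_j η_j` -/
noncomputable def mis (j : Fin d) (w : Fin d → L) : G :=
  star (s.tp j w) (s.lft j w (s.η j (w j))) -
    star (suf s.S w (j + 1)) (pre s.T w j (s.η j (w j)))

theorem norm_mis_le (hδ : 0 ≤ δ) (hR : 0 ≤ R) (j : Fin d) (w : Fin d → L) :
    ‖mis s j w‖ ≤ 2 * δ * R := by
  have e : mis s j w = star (s.tp j w - suf s.S w (j + 1)) (s.lft j w (s.η j (w j))) +
      star (suf s.S w (j + 1)) ((s.lft j w - pre s.T w j) (s.η j (w j))) := by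
    unfold mis
    rw [star_sub, ContinuousLinearMap.sub_apply, ContinuousLinearMap.sub_apply, map_sub]
    abel
  rw [e]
  have h1 : ‖star (s.tp j w - suf s.S w (j + 1)) (s.lft j w (s.η j (w j)))‖ ≤ δ * R := by
    refine (ContinuousLinearMap.le_opNorm _ _).trans ?_
    rw [norm_star, norm_sub_rev]
    refine mul_le_mul (s.tp_near j w) ?_ (norm_nonneg _) hδ
    refine (ContinuousLinearMap.le_opNorm _ _).trans ?_
    calc ‖s.lft j w‖ * ‖s.η j (w j)‖ ≤ 1 * R :=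
          mul_le_mul (s.norm_lft j w) (s.norm_η j _) (norm_nonneg _) zero_le_one
      _ = R := one_mul R
  have h2 : ‖star (suf s.S w (j + 1)) ((s.lft j w - pre s.T w j) (s.η j (w j)))‖ ≤ δ * R := by
    refine (ContinuousLinearMap.le_opNorm _ _).trans ?_
    rw [norm_star]
    calc ‖suf s.S w (j + 1)‖ * ‖(s.lft j w - pre s.T w j) (s.η j (w j))‖
        ≤ 1 * (δ * R) := by
          refine mul_le_mul (norm_le_one_of_unitary (suf_unitary s.S w s.S_unitary _)) ?_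
            (norm_nonneg _) zero_le_one
          refine (ContinuousLinearMap.le_opNorm _ _).trans ?_
          rw [norm_sub_rev]
          exact mul_le_mul (s.lft_near j w) (s.norm_η j _) (norm_nonneg _) hδ
      _ = δ * R := one_mul _
  calc _ ≤ δ * R + δ * R := (norm_add_le _ _).trans (add_le_add h1 h2)
    _ = 2 * δ * R := by ring

/-- the functional `q₂` -/
noncomputable def q2 (w : Fin d → L) (y : G →L[ℂ] G) : ℂ :=
  (d : ℂ)⁻¹ * ∑ j, ⟪s.lft j w (s.η j (w j)), y (s.k j (s.p' (s.tp j w s.ζ)))⟫_ℂ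

/-- the base vector `ζ_*` -/
noncomputable def zs : Option (Fin d) → G
  | none => ((Real.sqrt 2)⁻¹ : ℝ) • s.ζ
  | some j => ((Real.sqrt (2 * d))⁻¹ : ℝ) • s.k j s.ζ

/-- the representing vector of `q₂` -/
noncomputable def etaq (w : Fin d → L) : Option (Fin d) → G
  | none => (Real.sqrt 2 : ℝ) • star (suf s.S w 0) (Wv s w)
  | some j => (Real.sqrt (2 / d) : ℝ) • mis s j w

/-- the norm bound for `etaq` -/
noncomputable def hq (w : Fin d → L) : ℝ := Real.sqrt 2 * ‖Wv s w‖ + 2 * Real.sqrt 2 * δ * R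

theorem zs_norm (hd : 0 < d) : ∑ k, ‖zs s k‖ ^ 2 ≤ 1 := by
  rw [Fintype.sum_option]
  have hd' : (0 : ℝ) < d := by exact_mod_cast hd
  have h1 : ‖zs s none‖ ^ 2 = 1 / 2 := by
    simp only [zs]
    rw [norm_smul, s.norm_ζ, mul_one, Real.norm_of_nonneg (by positivity), inv_pow,
      Real.sq_sqrt (by norm_num)]
    norm_num
  have h2 : ∀ j, ‖zs s (some j)‖ ^ 2 = 1 / (2 * d) := by
    intro j
    simp only [zs]
    rw [norm_smul, s.norm_kζ, mul_one, Real.norm_of_nonneg (by positivity), inv_pow,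
      Real.sq_sqrt (by positivity), one_div]
  rw [h1]
  simp only [h2]
  rw [Finset.sum_const, Finset.card_univ, Fintype.card_fin, nsmul_eq_mul]
  have : (d : ℝ) * (1 / (2 * d)) = 1 / 2 := by field_simp
  rw [this]
  norm_num

theorem hq_nonneg (hδ : 0 ≤ δ) (hR : 0 ≤ R) (w : Fin d → L) : 0 ≤ hq s w := by
  unfold hq; positivity

theorem etaq_norm (hd : 0 < d) (hδ : 0 ≤ δ) (hR : 0 ≤ R) (w : Fin d → L) :
    ∑ k, ‖etaq s w k‖ ^ 2 ≤ (hq s w) ^ 2 := by
  rw [Fintype.sum_option]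
  have hd' : (0 : ℝ) < d := by exact_mod_cast hd
  have h1 : ‖etaq s w none‖ ^ 2 ≤ (Real.sqrt 2 * ‖Wv s w‖) ^ 2 := by
    refine pow_le_pow_left₀ (norm_nonneg _) ?_ 2
    simp only [etaq]
    rw [norm_smul, Real.norm_of_nonneg (Real.sqrt_nonneg 2)]
    refine mul_le_mul_of_nonneg_left ?_ (Real.sqrt_nonneg 2)
    refine (ContinuousLinearMap.le_opNorm _ _).trans ?_
    rw [norm_star]
    calc _ ≤ 1 * ‖Wv s w‖ := mul_le_mul_of_nonneg_right
          (norm_le_one_of_unitary (suf_unitary s.S w s.S_unitary _)) (norm_nonneg _)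
      _ = _ := one_mul _
  have h2 : ∀ j, ‖etaq s w (some j)‖ ^ 2 ≤ (2 / d) * (2 * δ * R) ^ 2 := by
    intro j
    simp only [etaq]
    rw [norm_smul, mul_pow, Real.norm_of_nonneg (Real.sqrt_nonneg _), Real.sq_sqrt (by positivity)]
    refine mul_le_mul_of_nonneg_left ?_ (by positivity)
    exact pow_le_pow_left₀ (norm_nonneg _) (norm_mis_le s hδ hR j w) 2
  have h3 : ∑ j : Fin d, ‖etaq s w (some j)‖ ^ 2 ≤ (2 * Real.sqrt 2 * δ * R) ^ 2 := by
    calc ∑ j : Fin d, ‖etaq s w (some j)‖ ^ 2 ≤ ∑ _j : Fin d, (2 / d) * (2 * δ * R) ^ 2 :=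
          Finset.sum_le_sum fun j _ => h2 j
      _ = (2 * Real.sqrt 2 * δ * R) ^ 2 := by
          rw [Finset.sum_const, Finset.card_univ, Fintype.card_fin, nsmul_eq_mul]
          have h22 : Real.sqrt 2 ^ 2 = 2 := Real.sq_sqrt (by norm_num)
          have : (2 * Real.sqrt 2 * δ * R) ^ 2 = 4 * Real.sqrt 2 ^ 2 * (δ * R) ^ 2 := by ring
          rw [this, h22]
          field_simp
          ring
  have h4 : 0 ≤ Real.sqrt 2 * ‖Wv s w‖ := by positivity
  have h5 : 0 ≤ 2 * Real.sqrt 2 * δ * R := by positivity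
  unfold hq
  nlinarith [mul_nonneg h4 h5]

theorem Ex_hq (hd : 0 < d) (hR : 0 ≤ R) (hK : 0 ≤ Kθ) :
    s.Ex (hq s) ≤ R * (2 * Real.sqrt 2 * δ + Real.sqrt 2 * Kθ / Real.sqrt d) := by
  have e : s.Ex (hq s) = Real.sqrt 2 * s.Ex (fun w => ‖Wv s w‖) + 2 * Real.sqrt 2 * δ * R := by
    have h1 : s.Ex (hq s) = Pb.Ex s.μ (fun w => Real.sqrt 2 * ‖Wv s w‖ + 2 * Real.sqrt 2 * δ * R) :=
      rfl
    rw [h1, Pb.Ex_add, Pb.Ex_mul_left, Pb.Ex_const s.μ s.μ_sum]
    rfl
  rw [e]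
  have h := mul_le_mul_of_nonneg_left (Ex_Wv s hd hR hK) (Real.sqrt_nonneg 2)
  calc _ ≤ Real.sqrt 2 * (Kθ * R / Real.sqrt d) + 2 * Real.sqrt 2 * δ * R := by linarith
    _ = _ := by ring

/-- each summand of `q₂` -/
theorem q2_term (w : Fin d → L) (y : G →L[ℂ] G) (hy : y ∈ N) (j : Fin d) :
    ⟪s.lft j w (s.η j (w j)), y (s.k j (s.p' (s.tp j w s.ζ)))⟫_ℂ =
      ⟪star (s.tp j w) (s.lft j w (s.η j (w j))), y (s.k j s.ζ)⟫_ℂ := by
  have c1 : y * s.p' = s.p' * y := (commute_of_mem_commutant hy s.p'_mem).eq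
  have c2 : y * s.tp j w = s.tp j w * y := (commute_of_mem_commutant hy (s.tp_mem j w)).eq
  have c3 : s.lft j w * s.p' = s.p' * s.lft j w :=
    (commute_of_mem_commutant (s.lft_mem j w) s.p'_mem).eq
  have e1 : y (s.k j (s.p' (s.tp j w s.ζ))) = s.p' (s.tp j w (y (s.k j s.ζ))) := by
    have : y * (s.k j * s.p') * s.tp j w = s.p' * s.tp j w * (y * s.k j) := by
      rw [← s.p'_k j]
      calc y * (s.p' * s.k j) * s.tp j w = (y * s.p') * (s.k j * s.tp j w) := by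
            simp only [mul_assoc]
        _ = s.p' * (y * s.tp j w) * s.k j := by rw [c1, ← s.tp_k j w]; simp only [mul_assoc]
        _ = s.p' * s.tp j w * (y * s.k j) := by rw [c2]; simp only [mul_assoc]
    exact congrArg (fun A : G →L[ℂ] G => A s.ζ) this
  have e2 : s.p' (s.lft j w (s.η j (w j))) = s.lft j w (s.η j (w j)) := by
    have : (s.p' * s.lft j w) (s.η j (w j)) = (s.lft j w * s.p') (s.η j (w j)) := by rw [c3]
    rw [ContinuousLinearMap.mul_apply, ContinuousLinearMap.mul_apply, s.p'_η] at this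
    exact this
  rw [e1, ContinuousLinearMap.star_eq_adjoint, ContinuousLinearMap.adjoint_inner_left]
  conv_rhs => rw [← e2]
  conv_rhs => rw [← s.p'_sa, ContinuousLinearMap.star_eq_adjoint,
    ContinuousLinearMap.adjoint_inner_left]

theorem main_term (w : Fin d → L) (y : G →L[ℂ] G) (hy : y ∈ N) (j : Fin d) :
    ⟪star (suf s.S w (j + 1)) (pre s.T w j (s.η j (w j))), y (s.k j s.ζ)⟫_ℂ =
      ⟪star (suf s.S w 0) (mart s j w), y s.ζ⟫_ℂ := by
  have c1 : y * s.k j = s.k j * y := (commute_of_mem_commutant hy (s.k_memN j)).eq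
  have hLM : pre s.T w j ∈ M := pre_mem s.T w s.T_mem j
  have hk : star (s.k j) ∈ M.commutant := star_mem (s.k_memM j)
  have c2 : Commute (pre s.T w j) (star (s.k j)) := commute_of_mem_commutant hLM hk
  have c3 : Commute (suf s.S w (j + 1)) (s.k j) := by
    refine suf_commute _ _ _ _ fun i hi => ?_
    have hne : j ≠ i := by
      intro e
      subst e
      exact absurd hi (by simp)
    exact (s.k_S j i (w i) hne).symm
  have c4 : Commute (star (suf s.S w (j + 1))) (star (s.k j)) := c3.star_star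
  have e0 : y (s.k j s.ζ) = s.k j (y s.ζ) := congrArg (fun A : G →L[ℂ] G => A s.ζ) c1
  have e1 : star (suf s.S w 0) (mart s j w) =
      star (s.k j) (star (suf s.S w (j + 1)) (pre s.T w j (s.η j (w j)))) := by
    have : star (suf s.S w 0) * (pre s.T w j * pre s.S w j * s.S j (w j)) * star (s.k j) =
        star (s.k j) * star (suf s.S w (j + 1)) * pre s.T w j := by
      rw [word_S, mul_assoc, c2.eq, ← mul_assoc, c4.eq]
    exact congrArg (fun A : G →L[ℂ] G => A (s.η j (w j))) this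
  rw [e0, e1]
  conv_rhs => rw [ContinuousLinearMap.star_eq_adjoint (s.k j),
    ContinuousLinearMap.adjoint_inner_left]

theorem etaq_repr (hd : 0 < d) (w : Fin d → L) (y : G →L[ℂ] G) (hy : y ∈ N) :
    ∑ k, ⟪etaq s w k, y (zs s k)⟫_ℂ = q2 s w y := by
  have hd' : (0 : ℝ) < d := by exact_mod_cast hd
  rw [Fintype.sum_option]
  have h1 : ⟪etaq s w none, y (zs s none)⟫_ℂ = (d : ℂ)⁻¹ *
      ∑ j : Fin d, ⟪star (suf s.S w (j + 1)) (pre s.T w j (s.η j (w j))), y (s.k j s.ζ)⟫_ℂ := by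
    simp only [etaq, zs]
    have hs : Real.sqrt 2 * (Real.sqrt 2)⁻¹ = 1 := mul_inv_cancel₀ (by positivity)
    have : ⟪(Real.sqrt 2 : ℝ) • star (suf s.S w 0) (Wv s w),
        y (((Real.sqrt 2)⁻¹ : ℝ) • s.ζ)⟫_ℂ = ⟪star (suf s.S w 0) (Wv s w), y s.ζ⟫_ℂ := by
      rw [← Complex.coe_smul (Real.sqrt 2), ← Complex.coe_smul ((Real.sqrt 2)⁻¹), map_smul,
        inner_smul_left, inner_smul_right, Complex.conj_ofReal, ← mul_assoc, ← Complex.ofReal_mul,
        hs, Complex.ofReal_one, one_mul]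
    rw [this]
    unfold Wv
    rw [← Complex.coe_smul ((d : ℝ)⁻¹), map_smul, map_sum, inner_smul_left, Complex.conj_ofReal,
      sum_inner, Complex.ofReal_inv, Complex.ofReal_natCast]
    congr 1
    refine Finset.sum_congr rfl fun j _ => ?_
    exact (main_term s w y hy j).symm
  have h2 : ∀ j, ⟪etaq s w (some j), y (zs s (some j))⟫_ℂ =
      (d : ℂ)⁻¹ * ⟪mis s j w, y (s.k j s.ζ)⟫_ℂ := by
    intro j
    simp only [etaq, zs]
    have hs : Real.sqrt (2 / d) * (Real.sqrt (2 * d))⁻¹ = (d : ℝ)⁻¹ := by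
      rw [Real.sqrt_div (by norm_num), Real.sqrt_mul (by norm_num)]
      have h3 : Real.sqrt d * Real.sqrt d = d := Real.mul_self_sqrt hd'.le
      have h4 : Real.sqrt d ≠ 0 := by positivity
      have h5 : Real.sqrt 2 ≠ 0 := by positivity
      field_simp
      linarith
    rw [← Complex.coe_smul (Real.sqrt (2 / d)), ← Complex.coe_smul ((Real.sqrt (2 * d))⁻¹),
      map_smul, inner_smul_left, inner_smul_right, Complex.conj_ofReal, ← mul_assoc,
      ← Complex.ofReal_mul, hs, Complex.ofReal_inv, Complex.ofReal_natCast]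
  rw [h1]
  simp only [h2]
  rw [← Finset.mul_sum, ← mul_add, ← Finset.sum_add_distrib]
  unfold q2
  congr 1
  refine Finset.sum_congr rfl fun j _ => ?_
  rw [q2_term s w y hy j]
  unfold mis
  rw [inner_sub_left]
  ring

theorem q2_eq (w : Fin d → L) (y : G →L[ℂ] G) : s.q2 w y = q2 s w y := rfl

/-- helper199's `L2Target` -/
theorem l2Target : L2Target.{u} := by
  intro G _ _ _ M N d L _ _ δ R K Kθ ε₁ s hd hδ hR hK
  refine ⟨zs s, etaq s, hq s, zs_norm s hd, hq_nonneg s hδ hR, etaq_norm s hd hδ hR, ?_, ?_⟩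
  · intro w y hy
    rw [q2_eq]
    exact (etaq_repr s hd w y hy).symm
  · refine (Ex_hq s hd hR hK).trans (le_of_eq ?_)
    ring

end Crest.Agent.R078.Z.L2
private theorem rz_8884afdadd : type_of% @_root_.Crest.Agent.R078.Z.L2.etaq.eq_1 := @_root_.Crest.Agent.R078.Z.L2.etaq.eq_1 -- L267
private theorem rz_d85e3adcbc : type_of% @_root_.Crest.Agent.R078.Z.L2.zs.eq_1 := @_root_.Crest.Agent.R078.Z.L2.zs.eq_1 -- L262
end

-- ▼ part R078/S103WalkAll199
section

set_option autoImplicit false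

namespace Crest.Agent.R078.Z.Slot

universe u

theorem walk : WalkTarget.{u} :=
  walkTarget driftTarget (WL1.l1Target driftTarget) L2.l2Target Rec.relTarget Rec.recTarget

end Crest.Agent.R078.Z.Slot
end

-- ▼ part R078/S103Hal3_938
section

/-!
# R78 / S0103, HAL-2 (helper938): `LetterOut → LetterSystem`, the theorem.
-/

set_option autoImplicit false

open scoped ComplexConjugate

noncomputable section

namespace Crest.Agent.R078.S103.Hal3

open Crest.Agent.R078.S103.Halmos (hal halS star_hal hal_mul_star star_hal_mul star_halS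
  commute_hal commute_halS norm_hal_sub_star_halS_le norm_ph ph_add_two sum_conj_ph_smul_hal
  sum_ph_smul_halS conj_mul_ph)
open Crest.Agent.R078.S103.LSys
open Crest.Agent.R078.S103.Hal2

universe u

variable {H : Type u} [NormedAddCommGroup H] [InnerProductSpace ℂ H] [CompleteSpace H]

theorem ph_eq : (Halmos.ph : Fin 4 → ℂ) = LSys.ph := rfl

/-- `∑ μ_a X_a^* η_a = 0` for a linear image `X_a` of `Y_a`. -/
theorem sum_star_apply_eq_zero {m : ℕ} (μ : Fin m → ℝ) (X : Fin m → (H →L[ℂ] H)) (η : Fin m → H)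
    (h : ∀ e : H, ∑ a, ((μ a : ℂ) * inner ℂ (η a) e) • X a = 0) :
    ∑ a, (μ a : ℂ) • star (X a) (η a) = 0 := by
  classical
  let V : Submodule ℂ H := Submodule.span ℂ (Set.range η)
  have : FiniteDimensional ℂ V := FiniteDimensional.span_of_finite ℂ (Set.finite_range η)
  let e := stdOrthonormalBasis ℂ V
  have hη : ∀ a, η a = ∑ k, (inner ℂ ((e k : V) : H) (η a) : ℂ) • ((e k : V) : H) := by
    intro a
    have hm : η a ∈ V := Submodule.subset_span ⟨a, rfl⟩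
    have h1 := e.sum_repr' ⟨η a, hm⟩
    have h2 := congrArg (fun v : V => (v : H)) h1
    simp only [Submodule.coe_sum, Submodule.coe_smul, Submodule.coe_inner] at h2
    exact h2.symm
  have h1 : ∀ a, (μ a : ℂ) • star (X a) (η a)
      = ∑ k, ((μ a : ℂ) * inner ℂ ((e k : V) : H) (η a)) • star (X a) ((e k : V) : H) := by
    intro a
    conv_lhs => rw [hη a]
    rw [map_sum, Finset.smul_sum]
    refine Finset.sum_congr rfl fun k _ => ?_
    rw [map_smul, smul_smul]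
  simp only [h1]
  rw [Finset.sum_comm]
  refine Finset.sum_eq_zero fun k _ => ?_
  have h2 := congrArg star (h ((e k : V) : H))
  rw [star_sum, star_zero] at h2
  have h3 := congrArg (fun Z : H →L[ℂ] H => Z ((e k : V) : H)) h2
  simp only [star_smul] at h3
  rw [_root_.sum_apply] at h3
  rw [← h3.trans (by simp : (0 : H →L[ℂ] H) ((e k : V) : H) = 0)]
  refine Finset.sum_congr rfl fun a _ => ?_
  have h4 : star ((μ a : ℂ) * inner ℂ (η a) ((e k : V) : H))
      = (μ a : ℂ) * inner ℂ ((e k : V) : H) (η a) := by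
    rw [star_mul', Complex.star_def, Complex.conj_ofReal, inner_conj_symm]
  rw [h4]
  rfl

section Main

variable (M : VonNeumannAlgebra H) (ξ : H) {m : ℕ} (Y A B : Fin m → (H →L[ℂ] H)) {κ K ε : ℝ}

/-- the `M`-side letter matrix. -/
def TT (o : LetterOut M ξ Y A B κ K ε) (a : Fin m) (θ : Fin 4) :
    Matrix (Fin o.n × Fin 2) (Fin o.n × Fin 2) (H →L[ℂ] H) :=
  fH (hal (opM (o.a (Y a))) (LSys.ph θ))

/-- the `M'`-side letter matrix. -/
def SS (o : LetterOut M ξ Y A B κ K ε) (a : Fin m) (θ : Fin 4) :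
    Matrix (Fin o.n × Fin 2) (Fin o.n × Fin 2) (H →L[ℂ] H) :=
  fH (halS (opM (o.b (Y a))) (LSys.ph θ))

theorem norm_ph' (θ : Fin 4) : ‖LSys.ph θ‖ = 1 := norm_ph θ

theorem ph_add_two' (θ : Fin 4) : LSys.ph (θ + 2) = - LSys.ph θ := ph_add_two θ

variable {M ξ Y A B}

theorem star_TT (o : LetterOut M ξ Y A B κ K ε) (a : Fin m) (θ : Fin 4) :
    star (TT M ξ Y A B o a θ) = TT M ξ Y A B o a (θ + 2) := by
  unfold TT
  rw [← fH_star, star_hal, ph_add_two']

theorem star_SS (o : LetterOut M ξ Y A B κ K ε) (a : Fin m) (θ : Fin 4) :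
    star (SS M ξ Y A B o a θ) = SS M ξ Y A B o a (θ + 2) := by
  unfold SS
  rw [← fH_star, star_halS, ph_add_two']

theorem TT_mul_star (o : LetterOut M ξ Y A B κ K ε) (hY : ∀ a, Y a ∈ M) (hY1 : ∀ a, ‖Y a‖ ≤ 1)
    (a : Fin m) (θ : Fin 4) : TT M ξ Y A B o a θ * star (TT M ξ Y A B o a θ) = 1 := by
  unfold TT
  rw [← fH_star, ← fH_mul, hal_mul_star _ ((o.norm_a _ (hY a) (hY1 a)).trans (by norm_num)) _
    (norm_ph' θ), fH_one]

theorem star_TT_mul (o : LetterOut M ξ Y A B κ K ε) (hY : ∀ a, Y a ∈ M) (hY1 : ∀ a, ‖Y a‖ ≤ 1)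
    (a : Fin m) (θ : Fin 4) : star (TT M ξ Y A B o a θ) * TT M ξ Y A B o a θ = 1 := by
  unfold TT
  rw [← fH_star, ← fH_mul, star_hal_mul _ ((o.norm_a _ (hY a) (hY1 a)).trans (by norm_num)) _
    (norm_ph' θ), fH_one]

theorem SS_mul_star (o : LetterOut M ξ Y A B κ K ε) (hY : ∀ a, Y a ∈ M) (hY1 : ∀ a, ‖Y a‖ ≤ 1)
    (a : Fin m) (θ : Fin 4) : SS M ξ Y A B o a θ * star (SS M ξ Y A B o a θ) = 1 := by
  unfold SS
  rw [← fH_star, ← fH_mul, (Halmos.halS_mem_unitary _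
    ((o.norm_b _ (hY a) (hY1 a)).trans (by norm_num)) _ (norm_ph' θ)).2, fH_one]

theorem star_SS_mul (o : LetterOut M ξ Y A B κ K ε) (hY : ∀ a, Y a ∈ M) (hY1 : ∀ a, ‖Y a‖ ≤ 1)
    (a : Fin m) (θ : Fin 4) : star (SS M ξ Y A B o a θ) * SS M ξ Y A B o a θ = 1 := by
  unfold SS
  rw [← fH_star, ← fH_mul, (Halmos.halS_mem_unitary _
    ((o.norm_b _ (hY a) (hY1 a)).trans (by norm_num)) _ (norm_ph' θ)).1, fH_one]

theorem TT_mem (o : LetterOut M ξ Y A B κ K ε) (hY : ∀ a, Y a ∈ M) (a : Fin m) (θ : Fin 4)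
    (p q : Fin o.n × Fin 2) : TT M ξ Y A B o a θ p q ∈ M := by
  refine mem_of_commute M _ fun y hy => ?_
  have h1 : Commute (opM (o.a (Y a))) (diagM y) := by
    rw [commute_diagM_iff]
    intro i j
    rw [mat_opM]
    exact commute_of_mem M (o.a_mem _ (hY a) i j) hy
  have h2 : Commute (star (opM (o.a (Y a)))) (diagM y) := by
    rw [← opM_star, commute_diagM_iff]
    intro i j
    rw [mat_opM]
    exact commute_of_mem M (star_mem (o.a_mem _ (hY a) j i)) hy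
  have h3 := commute_hal h1 h2 (LSys.ph θ) p.2 q.2
  rw [commute_diagM_iff] at h3
  exact h3 p.1 q.1

theorem SS_mem (o : LetterOut M ξ Y A B κ K ε) (hY : ∀ a, Y a ∈ M) (a : Fin m) (θ : Fin 4)
    (p q : Fin o.n × Fin 2) : SS M ξ Y A B o a θ p q ∈ M.commutant := by
  refine mem_commutant_of_commute M _ fun y hy => ?_
  have h1 : Commute (opM (o.b (Y a))) (diagM y) := by
    rw [commute_diagM_iff]
    intro i j
    rw [mat_opM]
    exact (commute_of_mem M hy (o.b_mem _ (hY a) i j)).symm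
  have h2 : Commute (star (opM (o.b (Y a)))) (diagM y) := by
    rw [← opM_star, commute_diagM_iff]
    intro i j
    rw [mat_opM]
    exact (commute_of_mem M hy (star_mem (o.b_mem _ (hY a) j i))).symm
  have h3 := commute_halS h1 h2 (LSys.ph θ) p.2 q.2
  rw [commute_diagM_iff] at h3
  exact h3 p.1 q.1

/-- the diagonal coefficients of `ζ₀` -/
def fz (o : LetterOut M ξ Y A B κ K ε) (p : Fin o.n × Fin 2) : ℂ :=
  ((Real.sqrt (o.om p.1) / Real.sqrt 2 : ℝ) : ℂ)

/-- the entrywise partner estimate on `H^(n×n)`. -/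
theorem entry_partner (o : LetterOut M ξ Y A B κ K ε) (hε : 0 ≤ ε) (hY : ∀ a, Y a ∈ M)
    (hY1 : ∀ a, ‖Y a‖ ≤ 1) (a : Fin m) (θ : Fin 4) (s t : Fin 2) :
    ∑ i, ∑ j, ‖((Real.sqrt (o.om j) : ℝ) : ℂ) • mat (hal (opM (o.a (Y a))) (LSys.ph θ) s t) i j ξ
      - ((Real.sqrt (o.om i) : ℝ) : ℂ) •
        star (mat (halS (opM (o.b (Y a))) (LSys.ph θ) s t) i j) ξ‖ ^ 2 ≤ ε ^ 2 := by
  set hA := opM (o.a (Y a)) with hAdef
  set hB := opM (o.b (Y a)) with hBdef
  let g : Fin o.n → ℂ := fun i => ((Real.sqrt (o.om i) : ℝ) : ℂ)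
  let ζ : PiLp 2 (fun _ : Fin o.n × Fin o.n => H) := tv ξ (zd g)
  have hA1 : ‖(L1 (H := H) (I := Fin o.n) hA)‖ ≤ 1 / 2 :=
    (NonUnitalStarAlgHom.norm_apply_le _ _).trans (o.norm_a _ (hY a) (hY1 a))
  have hB1 : ‖(L2 (H := H) (I := Fin o.n) hB)‖ ≤ 1 / 2 :=
    (NonUnitalStarAlgHom.norm_apply_le _ _).trans (o.norm_b _ (hY a) (hY1 a))
  have c1 : Commute (L1 (H := H) (I := Fin o.n) hA) (L2 (H := H) (I := Fin o.n) hB) := by
    rw [L1_apply, L2_apply, commute_iff_eq, ← opM_mul, ← opM_mul, leg1_leg2_comm]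
    intro i j k l
    rw [hAdef, hBdef, mat_opM, mat_opM]
    exact commute_of_mem M (o.a_mem _ (hY a) i j) (o.b_mem _ (hY a) k l)
  have c2 : Commute (L1 (H := H) (I := Fin o.n) hA) (star (L2 (H := H) (I := Fin o.n) hB)) := by
    rw [← map_star, L1_apply, L2_apply, commute_iff_eq, ← opM_mul, ← opM_mul, leg1_leg2_comm]
    intro i j k l
    rw [hAdef, hBdef, mat_star, mat_opM, mat_opM]
    exact commute_of_mem M (o.a_mem _ (hY a) i j) (star_mem (o.b_mem _ (hY a) l k))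
  have e1 : ‖L1 (H := H) (I := Fin o.n) hA ζ - L2 (H := H) (I := Fin o.n) hB ζ‖ ≤ ε := by
    refine le_of_sq_le_sq ?_ hε
    rw [PiLp.norm_sq_eq_of_L2, Fintype.sum_prod_type]
    refine le_trans (le_of_eq ?_) (o.partner _ (hY a) (hY1 a))
    refine Finset.sum_congr rfl fun i _ => Finset.sum_congr rfl fun j _ => ?_
    rw [PiLp.sub_apply, L1_apply, L2_apply, leg1_zd, leg2_zd, hAdef, hBdef, mat_opM, mat_opM]
  have e2 : ‖star (L1 (H := H) (I := Fin o.n) hA) ζ - star (L2 (H := H) (I := Fin o.n) hB) ζ‖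
      ≤ ε := by
    refine le_of_sq_le_sq ?_ hε
    rw [PiLp.norm_sq_eq_of_L2, Fintype.sum_prod_type]
    refine le_trans (le_of_eq ?_) (o.partner_star _ (hY a) (hY1 a))
    refine Finset.sum_congr rfl fun i _ => Finset.sum_congr rfl fun j _ => ?_
    rw [PiLp.sub_apply, ← map_star, ← map_star, L1_apply, L2_apply, leg1_zd, leg2_zd, mat_star,
      mat_star, hAdef, hBdef, mat_opM, mat_opM]
    rfl
  have e3 := norm_hal_sub_star_halS_le _ _ hA1 hB1 c1 c2 ζ ε e1 e2 (LSys.ph θ) (norm_ph' θ) s t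
  have e4 : ‖hal (L1 (H := H) (I := Fin o.n) hA) (LSys.ph θ) s t ζ
      - star (halS (L2 (H := H) (I := Fin o.n) hB) (LSys.ph θ) s t) ζ‖ ^ 2 ≤ ε ^ 2 :=
    pow_le_pow_left₀ (norm_nonneg _) e3 2
  refine le_trans (le_of_eq ?_) e4
  rw [PiLp.norm_sq_eq_of_L2, Fintype.sum_prod_type]
  refine Finset.sum_congr rfl fun i _ => Finset.sum_congr rfl fun j _ => ?_
  have e5 : halS (L2 (H := H) (I := Fin o.n) hB) (LSys.ph θ) s t
      = L2 (H := H) (I := Fin o.n) (halS hB (LSys.ph θ) s t) := by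
    unfold Halmos.halS
    rw [map_hal, map_star]
  rw [← map_hal, e5, ← map_star, PiLp.sub_apply, L1_apply, L2_apply, leg1_zd, leg2_zd, mat_star]
  rfl


/-- partner estimate for the letter matrices. -/
theorem TT_SS_partner (o : LetterOut M ξ Y A B κ K ε) (hε : 0 ≤ ε) (hY : ∀ a, Y a ∈ M)
    (hY1 : ∀ a, ‖Y a‖ ≤ 1) (a : Fin m) (θ : Fin 4) :
    ‖opM (leg1 (TT M ξ Y A B o a θ)) (tv ξ (zd (fz o)))
      - opM (leg2 (star (SS M ξ Y A B o a θ))) (tv ξ (zd (fz o)))‖ ≤ 2 * ε := by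
  refine le_of_sq_le_sq ?_ (by positivity)
  rw [PiLp.norm_sq_eq_of_L2, Fintype.sum_prod_type]
  have h1 : ∀ p q : Fin o.n × Fin 2,
      ‖(opM (leg1 (TT M ξ Y A B o a θ)) (tv ξ (zd (fz o)))
        - opM (leg2 (star (SS M ξ Y A B o a θ))) (tv ξ (zd (fz o)))).ofLp (p, q)‖ ^ 2
      = (1 / 2) * ‖((Real.sqrt (o.om q.1) : ℝ) : ℂ) •
          mat (hal (opM (o.a (Y a))) (LSys.ph θ) p.2 q.2) p.1 q.1 ξ
        - ((Real.sqrt (o.om p.1) : ℝ) : ℂ) •
          star (mat (halS (opM (o.b (Y a))) (LSys.ph θ) p.2 q.2) p.1 q.1) ξ‖ ^ 2 := by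
    intro p q
    rw [PiLp.sub_apply, leg1_zd, leg2_zd]
    have e : fz o (p, q).2 • (TT M ξ Y A B o a θ) (p, q).1 (p, q).2 ξ
        - fz o (p, q).1 • (star (SS M ξ Y A B o a θ)) (p, q).2 (p, q).1 ξ
        = (((Real.sqrt 2)⁻¹ : ℝ) : ℂ) • (((Real.sqrt (o.om q.1) : ℝ) : ℂ) •
          mat (hal (opM (o.a (Y a))) (LSys.ph θ) p.2 q.2) p.1 q.1 ξ
        - ((Real.sqrt (o.om p.1) : ℝ) : ℂ) •
          star (mat (halS (opM (o.b (Y a))) (LSys.ph θ) p.2 q.2) p.1 q.1) ξ) := by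
      rw [smul_sub, smul_smul, smul_smul]
      have f1 : ∀ r : Fin o.n × Fin 2, fz o r
          = (((Real.sqrt 2)⁻¹ : ℝ) : ℂ) * ((Real.sqrt (o.om r.1) : ℝ) : ℂ) := by
        intro r
        rw [fz, ← Complex.ofReal_mul]
        congr 1
        rw [div_eq_mul_inv, mul_comm]
      rw [f1, f1]
      rfl
    rw [e, norm_smul, mul_pow, Complex.norm_real, Real.norm_eq_abs, sq_abs, inv_pow,
      Real.sq_sqrt (by norm_num)]
    norm_num
  simp only [h1]
  rw [Fintype.sum_prod_type_right]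
  have h2 : ∀ s : Fin 2, ∑ i : Fin o.n, ∑ q : Fin o.n × Fin 2,
      (1 / 2) * ‖((Real.sqrt (o.om q.1) : ℝ) : ℂ) •
          mat (hal (opM (o.a (Y a))) (LSys.ph θ) s q.2) i q.1 ξ
        - ((Real.sqrt (o.om i) : ℝ) : ℂ) •
          star (mat (halS (opM (o.b (Y a))) (LSys.ph θ) s q.2) i q.1) ξ‖ ^ 2
      ≤ ε ^ 2 := by
    intro s
    have h3 : ∑ i : Fin o.n, ∑ q : Fin o.n × Fin 2,
      (1 / 2) * ‖((Real.sqrt (o.om q.1) : ℝ) : ℂ) •
          mat (hal (opM (o.a (Y a))) (LSys.ph θ) s q.2) i q.1 ξ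
        - ((Real.sqrt (o.om i) : ℝ) : ℂ) •
          star (mat (halS (opM (o.b (Y a))) (LSys.ph θ) s q.2) i q.1) ξ‖ ^ 2
      = (1 / 2) * ∑ t : Fin 2, ∑ i : Fin o.n, ∑ j : Fin o.n,
        ‖((Real.sqrt (o.om j) : ℝ) : ℂ) •
          mat (hal (opM (o.a (Y a))) (LSys.ph θ) s t) i j ξ
        - ((Real.sqrt (o.om i) : ℝ) : ℂ) •
          star (mat (halS (opM (o.b (Y a))) (LSys.ph θ) s t) i j) ξ‖ ^ 2 := by
      rw [Finset.sum_comm' (s' := fun _ => Finset.univ) (t' := Finset.univ) (by simp)]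
      rw [Fintype.sum_prod_type_right, Finset.mul_sum]
      refine Finset.sum_congr rfl fun t _ => ?_
      rw [Finset.sum_comm, Finset.mul_sum]
      refine Finset.sum_congr rfl fun i _ => ?_
      rw [Finset.mul_sum]
    rw [h3]
    have h4 : ∑ t : Fin 2, ∑ i : Fin o.n, ∑ j : Fin o.n,
        ‖((Real.sqrt (o.om j) : ℝ) : ℂ) •
          mat (hal (opM (o.a (Y a))) (LSys.ph θ) s t) i j ξ
        - ((Real.sqrt (o.om i) : ℝ) : ℂ) •
          star (mat (halS (opM (o.b (Y a))) (LSys.ph θ) s t) i j) ξ‖ ^ 2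
        ≤ ∑ _t : Fin 2, ε ^ 2 :=
      Finset.sum_le_sum fun t _ => entry_partner o hε hY hY1 a θ s t
    rw [Finset.sum_const, Finset.card_univ, Fintype.card_fin, nsmul_eq_mul] at h4
    push_cast at h4
    linarith
  calc _ ≤ ∑ _s : Fin 2, ε ^ 2 := Finset.sum_le_sum fun s _ => h2 s
    _ ≤ (2 * ε) ^ 2 := by
      rw [Finset.sum_const, Finset.card_univ, Fintype.card_fin, nsmul_eq_mul]
      push_cast
      nlinarith [sq_nonneg ε]

section unit

variable {I : Type*} [Fintype I] [DecidableEq I]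

/-- a unitary matrix acts isometrically on leg 1. -/
theorem norm_leg1_of_unitary (x : Matrix I I (H →L[ℂ] H)) (h : star x * x = 1)
    (v : PiLp 2 (fun _ : I × I => H)) : ‖opM (leg1 x) v‖ = ‖v‖ := by
  have h1 : star (opM (leg1 x)) * opM (leg1 x) = 1 := by
    rw [← opM_star, ← leg1_star, ← opM_mul, ← leg1_mul, h, leg1_one, opM_one]
  have h2 : ‖opM (leg1 x) v‖ ^ 2 = ‖v‖ ^ 2 := by
    have h3 : (inner ℂ (opM (leg1 x) v) (opM (leg1 x) v) : ℂ) = inner ℂ v v := by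
      rw [← ContinuousLinearMap.adjoint_inner_right, ← ContinuousLinearMap.star_eq_adjoint]
      have := congrArg (fun Z : PiLp 2 (fun _ : I × I => H) →L[ℂ] _ => Z v) h1
      change inner ℂ v ((star (opM (leg1 x)) * opM (leg1 x)) v) = _
      rw [h1]
      rfl
    have h4 := congrArg Complex.re h3
    have h5 : ∀ w : PiLp 2 (fun _ : I × I => H), (inner ℂ w w : ℂ).re = ‖w‖ ^ 2 := by
      intro w
      exact inner_self_eq_norm_sq (𝕜 := ℂ) w
    rwa [h5, h5] at h4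
  exact (pow_left_inj₀ (norm_nonneg _) (norm_nonneg _) two_ne_zero).mp h2

end unit

theorem partner_final (o : LetterOut M ξ Y A B κ K ε) (hε : 0 ≤ ε) (hY : ∀ a, Y a ∈ M)
    (hY1 : ∀ a, ‖Y a‖ ≤ 1) (a : Fin m) (θ : Fin 4) :
    ‖opM (leg1 (TT M ξ Y A B o a θ)) (opM (leg2 (SS M ξ Y A B o a θ)) (tv ξ (zd (fz o))))
      - tv ξ (zd (fz o))‖ ≤ 2 * ε := by
  set T := TT M ξ Y A B o a θ with hT
  set S := SS M ξ Y A B o a θ with hS
  set ζ := tv ξ (zd (fz o)) with hζ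
  have h1 : ζ = opM (leg1 T) (opM (leg1 (star T)) ζ) := by
    have : opM (leg1 T) * opM (leg1 (star T)) = 1 := by
      rw [← opM_mul, ← leg1_mul, hT, TT_mul_star o hY hY1, leg1_one, opM_one]
    change ζ = (opM (leg1 T) * opM (leg1 (star T))) ζ
    rw [this]
    rfl
  have h2 : opM (leg1 T) (opM (leg2 S) ζ) - ζ
      = opM (leg1 T) (opM (leg2 S) ζ - opM (leg1 (star T)) ζ) := by
    rw [map_sub, ← h1]
  rw [h2, norm_leg1_of_unitary T (star_TT_mul o hY hY1 a θ), norm_sub_rev]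
  have h3 := TT_SS_partner o hε hY hY1 a (θ + 2)
  rw [← star_TT, ← star_SS, star_star] at h3
  exact h3

/-- exact relation (b). -/
theorem relT_final (o : LetterOut M ξ Y A B κ K ε) (μ : Fin m → ℝ) (η : Fin m → H)
    (hrel : ∀ h : H, ∑ a, ((μ a : ℂ) * inner ℂ (η a) h) • Y a = 0) (h : H)
    (p q : Fin o.n × Fin 2) :
    ∑ a, ∑ θ, ((μ a : ℂ) * inner ℂ (LSys.ph θ • η a) h) • TT M ξ Y A B o a θ p q = 0 := by
  have h1 : ∀ a, ∑ θ, ((μ a : ℂ) * inner ℂ (LSys.ph θ • η a) h) • TT M ξ Y A B o a θ p q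
      = ((μ a : ℂ) * inner ℂ (η a) h) •
        mat (∑ θ, conj (Halmos.ph θ) • hal (opM (o.a (Y a))) (Halmos.ph θ) p.2 q.2) p.1 q.1 := by
    intro a
    rw [mat_sum, Matrix.sum_apply, Finset.smul_sum]
    refine Finset.sum_congr rfl fun θ _ => ?_
    rw [inner_smul_left, mat_smul, Matrix.smul_apply, smul_smul]
    congr 1
    rw [ph_eq]
    ring
  simp only [h1]
  simp only [sum_conj_ph_smul_hal]
  by_cases hpq : p.2 = 0 ∧ q.2 = 1
  · simp only [hpq, and_self, if_true, mat_smul, mat_opM, Matrix.smul_apply]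
    have h2 : ∑ a, ((μ a : ℂ) * inner ℂ (η a) h) • o.a (Y a) p.1 q.1 = 0 := by
      have h3 := congrArg (fun Z => o.a Z p.1 q.1) (hrel h)
      simp only [map_sum, map_smul, map_zero, Matrix.zero_apply] at h3
      rw [Matrix.sum_apply] at h3
      simpa only [Matrix.smul_apply] using h3
    have h4 : ∀ a, ((μ a : ℂ) * inner ℂ (η a) h) • (4 : ℂ) • o.a (Y a) p.1 q.1
        = (4 : ℂ) • (((μ a : ℂ) * inner ℂ (η a) h) • o.a (Y a) p.1 q.1) := by
      intro a
      rw [smul_comm]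
    simp only [h4]
    rw [← Finset.smul_sum, h2, smul_zero]
  · simp only [hpq, if_false, mat_zero, Matrix.zero_apply, smul_zero, Finset.sum_const_zero]

/-- exact relation (c). -/
theorem relS_final (o : LetterOut M ξ Y A B κ K ε) (μ : Fin m → ℝ) (η : Fin m → H)
    (hrel : ∀ h : H, ∑ a, ((μ a : ℂ) * inner ℂ (η a) h) • Y a = 0)
    (p q : Fin o.n × Fin 2) :
    ∑ a, ∑ θ, ((μ a : ℂ) * LSys.ph θ) • SS M ξ Y A B o a θ p q (η a) = 0 := by
  have h1 : ∀ a, ∑ θ, ((μ a : ℂ) * LSys.ph θ) • SS M ξ Y A B o a θ p q (η a)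
      = (μ a : ℂ) •
        (mat (∑ θ, Halmos.ph θ • halS (opM (o.b (Y a))) (Halmos.ph θ) p.2 q.2) p.1 q.1) (η a) := by
    intro a
    rw [mat_sum, Matrix.sum_apply, _root_.sum_apply, Finset.smul_sum]
    refine Finset.sum_congr rfl fun θ _ => ?_
    rw [mat_smul, Matrix.smul_apply, _root_.smul_apply, smul_smul, ph_eq]
    rfl
  simp only [h1]
  simp only [sum_ph_smul_halS]
  by_cases hpq : p.2 = 0 ∧ q.2 = 1
  · simp only [hpq, and_self, if_true, mat_smul, mat_star, mat_opM, Matrix.smul_apply,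
      Matrix.star_apply]
    have h2 : ∑ a, (μ a : ℂ) • star (o.b (Y a) q.1 p.1) (η a) = 0 := by
      refine sum_star_apply_eq_zero μ (fun a => o.b (Y a) q.1 p.1) η fun e => ?_
      have h3 := congrArg (fun Z => o.b Z q.1 p.1) (hrel e)
      simp only [map_sum, map_smul, map_zero, Matrix.zero_apply] at h3
      rw [Matrix.sum_apply] at h3
      simpa only [Matrix.smul_apply] using h3
    have h4 : ∀ a, (μ a : ℂ) • ((4 : ℂ) • star (o.b (Y a) q.1 p.1)) (η a)
        = (4 : ℂ) • ((μ a : ℂ) • star (o.b (Y a) q.1 p.1) (η a)) := by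
      intro a
      rw [_root_.smul_apply, smul_comm]
    simp only [h4]
    rw [← Finset.smul_sum, h2, smul_zero]
  · simp only [hpq, if_false, mat_zero, Matrix.zero_apply, _root_.zero_apply, smul_zero,
      Finset.sum_const_zero]

theorem n_pos (o : LetterOut M ξ Y A B κ K ε) : 0 < o.n := by
  rcases Nat.eq_zero_or_pos o.n with h | h
  · exfalso
    have h1 := o.sum_om
    have : IsEmpty (Fin o.n) := by rw [h]; infer_instance
    rw [Finset.univ_eq_empty, Finset.sum_empty] at h1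
    exact zero_ne_one h1
  · exact h

/-- the distinguished index `(0, 0)`. -/
def j0 (o : LetterOut M ξ Y A B κ K ε) : Fin o.n × Fin 2 := (⟨0, n_pos o⟩, 0)

/-- `k_s (e_i ⊗ f_t) = √2 δ_{st} (n ω_i)^{-1/2} e_{j0}`. -/
def kk (o : LetterOut M ξ Y A B κ K ε) (s : Fin 2) :
    Matrix (Fin o.n × Fin 2) (Fin o.n × Fin 2) ℂ :=
  fun j p => if j = j0 o ∧ p.2 = s then
    ((Real.sqrt 2 / Real.sqrt ((o.n : ℝ) * o.om p.1) : ℝ) : ℂ) else 0

theorem norm_kk (o : LetterOut M ξ Y A B κ K ε) (s : Fin 2) :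
    ∑ i, ∑ j, ‖kk o s i j‖ ^ 2 ≤ (2 * K) ^ 2 := by
  have hn : (0 : ℝ) < o.n := Nat.cast_pos.mpr (n_pos o)
  have h1 : ∑ i, ∑ j, ‖kk o s i j‖ ^ 2 = 2 * ∑ i, 1 / ((o.n : ℝ) * o.om i) := by
    rw [Finset.sum_eq_single (j0 o)]
    · rw [Fintype.sum_prod_type_right, Finset.sum_eq_single s]
      · rw [Finset.mul_sum]
        refine Finset.sum_congr rfl fun i _ => ?_
        have hp : 0 < (o.n : ℝ) * o.om i := mul_pos hn (o.om_pos i)
        simp only [kk, and_self, if_true]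
        rw [Complex.norm_real, Real.norm_eq_abs, sq_abs, div_pow, Real.sq_sqrt (by norm_num),
          Real.sq_sqrt hp.le]
        ring
      · intro t _ ht
        simp [kk, ht]
      · simp
    · intro j _ hj
      simp [kk, hj]
    · simp
  rw [h1]
  have := o.sum_inv
  nlinarith [sq_nonneg K]

theorem leg2c_kk (o : LetterOut M ξ Y A B κ K ε) (s : Fin 2)
    (p : (Fin o.n × Fin 2) × (Fin o.n × Fin 2)) :
    leg2c (kk o s) (zd (fz o)) p =
      if p.2 = j0 o ∧ p.1.2 = s then (((Real.sqrt o.n)⁻¹ : ℝ) : ℂ) else 0 := by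
  have hn : (0 : ℝ) < o.n := Nat.cast_pos.mpr (n_pos o)
  rw [leg2c, Finset.sum_eq_single p.1]
  · by_cases h : p.2 = j0 o ∧ p.1.2 = s
    · have ho := o.om_pos p.1.1
      simp only [kk, zd, h, and_self, if_true, fz]
      rw [← Complex.ofReal_mul]
      congr 1
      rw [Real.sqrt_mul hn.le]
      have h2 : Real.sqrt 2 ≠ 0 := by positivity
      have h3 : Real.sqrt (o.om p.1.1) ≠ 0 := by positivity
      field_simp
    · simp only [kk, h, if_false, zero_mul]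
  · intro q _ hq
    simp [zd, Ne.symm hq]
  · simp

theorem norm_leg2c_kk (o : LetterOut M ξ Y A B κ K ε) (s : Fin 2) :
    ∑ p, ‖leg2c (kk o s) (zd (fz o)) p‖ ^ 2 = 1 := by
  have hn : (0 : ℝ) < o.n := Nat.cast_pos.mpr (n_pos o)
  simp only [leg2c_kk]
  rw [Fintype.sum_prod_type_right, Finset.sum_eq_single (j0 o)]
  · rw [Fintype.sum_prod_type_right, Finset.sum_eq_single s]
    · simp only [and_self, if_true]
      rw [Finset.sum_const, Finset.card_univ, Fintype.card_fin, nsmul_eq_mul, Complex.norm_real,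
        Real.norm_eq_abs, sq_abs, inv_pow, Real.sq_sqrt hn.le]
      field_simp
    · intro t _ ht
      simp [ht]
    · simp
  · intro q _ hq
    simp [hq]
  · simp

theorem norm_zd (o : LetterOut M ξ Y A B κ K ε) : ∑ p, ‖zd (fz o) p‖ ^ 2 = 1 := by
  have h1 : ∑ p, ‖zd (fz o) p‖ ^ 2 = ∑ p : Fin o.n × Fin 2, o.om p.1 / 2 := by
    rw [Fintype.sum_prod_type]
    refine Finset.sum_congr rfl fun p _ => ?_
    rw [Finset.sum_eq_single p]
    · simp only [zd, if_true, fz]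
      rw [Complex.norm_real, Real.norm_eq_abs, sq_abs, div_pow,
        Real.sq_sqrt (o.om_pos p.1).le, Real.sq_sqrt (by norm_num : (0 : ℝ) ≤ 2)]
    · intro q _ hq
      simp [zd, Ne.symm hq]
    · simp
  rw [h1, Fintype.sum_prod_type_right]
  simp only [← Finset.sum_div, o.sum_om]
  simp

/-- value of one letter. -/
theorem value_letter (o : LetterOut M ξ Y A B κ K ε) (a : Fin m) (θ : Fin 4) :
    inner ℂ (tv (B a ξ) (fun p => LSys.ph θ * leg2c (kk o 0) (zd (fz o)) p))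
      (opM (leg1 (TT M ξ Y A B o a θ)) (tv (A a ξ) (leg2c (kk o 1) (zd (fz o)))))
    = (1 / (o.n : ℂ)) * ∑ i, ∑ j, inner ℂ (B a ξ) (o.a (Y a) i j (A a ξ)) := by
  have hn : (0 : ℝ) < o.n := Nat.cast_pos.mpr (n_pos o)
  rw [PiLp.inner_apply, Fintype.sum_prod_type_right, Finset.sum_eq_single (j0 o)]
  · rw [Fintype.sum_prod_type_right, Finset.sum_eq_single (0 : Fin 2)]
    · rw [Finset.mul_sum]
      refine Finset.sum_congr rfl fun i _ => ?_
      rw [tv_apply, leg2c_kk, opM_apply, Finset.mul_sum]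
      have h1 : ∑ q : (Fin o.n × Fin 2) × (Fin o.n × Fin 2),
          leg1 (TT M ξ Y A B o a θ) ((i, (0 : Fin 2)), j0 o) q
            ((tv (A a ξ) (leg2c (kk o 1) (zd (fz o)))).ofLp q)
          = ∑ j : Fin o.n, (((Real.sqrt o.n)⁻¹ : ℝ) : ℂ) • LSys.ph θ • o.a (Y a) i j (A a ξ) := by
        rw [Fintype.sum_prod_type_right, Finset.sum_eq_single (j0 o)]
        · rw [Fintype.sum_prod_type_right, Finset.sum_eq_single (1 : Fin 2)]
          · refine Finset.sum_congr rfl fun j _ => ?_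
            simp only [leg1, if_true, tv_apply, leg2c_kk, and_self]
            rw [map_smul]
            congr 1
            change mat (LSys.ph θ • opM (o.a (Y a))) i j (A a ξ) = _
            rw [mat_smul, mat_opM]
            rfl
          · intro t _ ht
            refine Finset.sum_eq_zero fun j _ => ?_
            simp [leg2c_kk, ht]
          · simp
        · intro q _ hq
          refine Finset.sum_eq_zero fun j _ => ?_
          simp [leg1, Ne.symm hq]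
        · simp
      rw [h1, inner_sum]
      refine Finset.sum_congr rfl fun j _ => ?_
      simp only [and_self, if_true]
      rw [inner_smul_left, inner_smul_right, inner_smul_right, map_mul, Complex.conj_ofReal]
      have h2 : conj (LSys.ph θ) * LSys.ph θ = 1 := conj_mul_ph θ
      have h3 : (((Real.sqrt o.n)⁻¹ : ℝ) : ℂ) * (((Real.sqrt o.n)⁻¹ : ℝ) : ℂ) = 1 / (o.n : ℂ) := by
        rw [← Complex.ofReal_mul, ← mul_inv, Real.mul_self_sqrt hn.le]
        push_cast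
        rw [one_div]
      calc _ = (conj (LSys.ph θ) * LSys.ph θ) *
            ((((Real.sqrt o.n)⁻¹ : ℝ) : ℂ) * (((Real.sqrt o.n)⁻¹ : ℝ) : ℂ)) *
            inner ℂ (B a ξ) (o.a (Y a) i j (A a ξ)) := by ring
        _ = _ := by rw [h2, h3, one_mul]
    · intro t _ ht
      refine Finset.sum_eq_zero fun i _ => ?_
      rw [tv_apply, leg2c_kk]
      simp [ht]
    · simp
  · intro q _ hq
    refine Finset.sum_eq_zero fun i _ => ?_
    rw [tv_apply, leg2c_kk]
    simp [hq]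
  · simp

theorem value_final (o : LetterOut M ξ Y A B κ K ε) (μ : Fin m → ℝ) (hμ : ∀ a, 0 ≤ μ a)
    (hμ1 : ∑ a, μ a ≤ 1) (hκ : 0 ≤ κ) :
    ‖(∑ a, ∑ θ : Fin 4, ((μ a : ℂ) / 4) *
        inner ℂ (tv (B a ξ) (fun p => LSys.ph θ * leg2c (kk o 0) (zd (fz o)) p))
      (opM (leg1 (TT M ξ Y A B o a θ)) (tv (A a ξ) (leg2c (kk o 1) (zd (fz o))))))
    - (1 / 2 : ℂ) * ∑ a, (μ a : ℂ) * inner ℂ (B a ξ) (Y a (A a ξ))‖ ≤ κ := by
  simp only [value_letter]
  have h1 : (∑ a, ∑ _θ : Fin 4, ((μ a : ℂ) / 4) *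
      ((1 / (o.n : ℂ)) * ∑ i, ∑ j, inner ℂ (B a ξ) (o.a (Y a) i j (A a ξ))))
    - (1 / 2 : ℂ) * ∑ a, (μ a : ℂ) * inner ℂ (B a ξ) (Y a (A a ξ))
    = ∑ a, (μ a : ℂ) * ((1 / (o.n : ℂ)) * ∑ i, ∑ j, inner ℂ (B a ξ) (o.a (Y a) i j (A a ξ))
      - (1 / 2 : ℂ) * inner ℂ (B a ξ) (Y a (A a ξ))) := by
    rw [Finset.mul_sum, ← Finset.sum_sub_distrib]
    refine Finset.sum_congr rfl fun a _ => ?_
    rw [Finset.sum_const, Finset.card_univ, Fintype.card_fin, nsmul_eq_mul]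
    push_cast
    ring
  rw [h1]
  calc _ ≤ ∑ a, ‖(μ a : ℂ) * ((1 / (o.n : ℂ)) * ∑ i, ∑ j, inner ℂ (B a ξ) (o.a (Y a) i j (A a ξ))
      - (1 / 2 : ℂ) * inner ℂ (B a ξ) (Y a (A a ξ)))‖ := norm_sum_le _ _
    _ ≤ ∑ a, μ a * κ := by
      refine Finset.sum_le_sum fun a _ => ?_
      rw [norm_mul, Complex.norm_real, Real.norm_eq_abs, abs_of_nonneg (hμ a)]
      exact mul_le_mul_of_nonneg_left (o.recov a) (hμ a)
    _ = (∑ a, μ a) * κ := by rw [Finset.sum_mul]
    _ ≤ 1 * κ := by gcongr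
    _ = κ := one_mul _

end Main

/-- **HAL-2**: the letter lemma output gives a letter system. -/
def letterSystem_of_letterOut (M : VonNeumannAlgebra H) (ξ : H) {m : ℕ} (μ : Fin m → ℝ)
    (hμ : ∀ a, 0 ≤ μ a) (hμ1 : ∑ a, μ a ≤ 1) (Y A B : Fin m → (H →L[ℂ] H)) (η : Fin m → H)
    (hY : ∀ a, Y a ∈ M) (hY1 : ∀ a, ‖Y a‖ ≤ 1)
    (hrel : ∀ h : H, ∑ a, ((μ a : ℂ) * inner ℂ (η a) h) • Y a = 0)
    {κ K ε : ℝ} (hκ : 0 ≤ κ) (hε : 0 ≤ ε) (o : LetterOut M ξ Y A B κ K ε) :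
    LetterSystem M ξ μ Y A B η κ (2 * K) (2 * ε) where
  I := Fin o.n × Fin 2
  ζ₀ := zd (fz o)
  k := kk o 1
  k1 := kk o 0
  T := TT M ξ Y A B o
  S := SS M ξ Y A B o
  norm_ζ₀ := norm_zd o
  norm_k := norm_kk o 1
  norm_k1 := norm_kk o 0
  norm_kζ₀ := norm_leg2c_kk o 1
  norm_k1ζ₀ := norm_leg2c_kk o 0
  T_mem := TT_mem o hY
  S_mem := SS_mem o hY
  T_mul_star := TT_mul_star o hY hY1
  star_T_mul := star_TT_mul o hY hY1
  S_mul_star := SS_mul_star o hY hY1
  star_S_mul := star_SS_mul o hY hY1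
  star_T := star_TT o
  star_S := star_SS o
  partner := partner_final o hε hY hY1
  relT := relT_final o μ η hrel
  relS := relS_final o μ η hrel
  value := value_final o μ hμ hμ1 hκ

end Crest.Agent.R078.S103.Hal3
end
end

-- ▼ part R078/S103Comp445

set_option autoImplicit false
set_option linter.unusedSectionVars false
open scoped InnerProductSpace
open Crest.Agent.R078.Z.Slot
open Crest.Agent.R078.S103.LSys

namespace Crest.Agent.R078.Z.Comp

universe u

variable {H : Type u} [NormedAddCommGroup H] [InnerProductSpace ℂ H] [CompleteSpace H]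

/-- the value of an adapted relation -/
noncomputable def val {m : ℕ} (μ : Fin m → ℝ) (ξ : H) (Y A B : Fin m → (H →L[ℂ] H)) : ℂ :=
  ∑ a, (μ a : ℂ) * ⟪B a ξ, Y a (A a ξ)⟫_ℂ

/-- TB: the slot instance for one adapted relation. -/
def TBInst (M : VonNeumannAlgebra H) {m : ℕ} (μ : Fin m → ℝ) (ξ : H)
    (Y A B : Fin m → (H →L[ℂ] H)) (η : Fin m → H) (δ R K : ℝ) : Prop :=
  ∀ (κ Kθ ε : ℝ), 1 ≤ Kθ → 0 ≤ ε → LetterSystem M ξ μ Y A B η κ Kθ ε → ∀ d : ℕ, 0 < d →
    ∃ (G : Type u) (_ : NormedAddCommGroup G) (_ : InnerProductSpace ℂ G) (_ : CompleteSpace G)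
      (M₁ N₁ : VonNeumannAlgebra G), TB.SC δ M₁ N₁ ∧
      ∃ s : SlotSys M₁ N₁ d (Fin m × Fin 4) δ R K Kθ ε,
        ∀ j, ‖s.value j - (1 / 2 : ℂ) * val μ ξ Y A B‖ ≤ κ

/-- LL: the letter lemma for one adapted relation. -/
def LLOut (M : VonNeumannAlgebra H) {m : ℕ} (ξ : H) (Y A B : Fin m → (H →L[ℂ] H)) : Prop :=
  ∀ κ > 0, ∀ τ > 0, ∃ K ε : ℝ, 1 ≤ K ∧ 0 ≤ ε ∧ ε * K ≤ τ ∧
    Nonempty (LetterOut M ξ Y A B κ K ε)

theorem value_le (M : VonNeumannAlgebra H) {m : ℕ} (μ : Fin m → ℝ) (ξ : H)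
    (Y A B : Fin m → (H →L[ℂ] H)) (η : Fin m → H) {δ R K Λ : ℝ}
    (hδ : 0 ≤ δ) (hR : 1 ≤ R) (hK : 0 ≤ K) (hΛ : 0 ≤ Λ)
    (hμ : ∀ a, 0 ≤ μ a) (hμ1 : ∑ a, μ a = 1) (hY : ∀ a, Y a ∈ M) (hY1 : ∀ a, ‖Y a‖ ≤ 1)
    (hrel : ∀ h : H, ∑ a, ((μ a : ℂ) * ⟪η a, h⟫_ℂ) • Y a = 0)
    (hLL : LLOut M ξ Y A B) (hTB : TBInst M μ ξ Y A B η δ R K)
    (hall : Key.RelAll.{u} δ R Λ) :
    (val μ ξ Y A B).re ≤ 2 * (3 * δ + 2 * Real.sqrt 3 * δ
      + (Λ + δ) * (Λ + (4 + 2 * Real.sqrt 3 + 2 * Real.sqrt 2) * δ)) := by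
  refine Dbl.value_le_keyRHS (K := K) Slot.walk hδ hR hK hΛ ?_
  intro κ hκ τ hτ
  obtain ⟨K', ε, hK', hε, hτ', ⟨o⟩⟩ := hLL κ hκ (τ / 4) (by positivity)
  have ls := S103.Hal3.letterSystem_of_letterOut M ξ μ hμ hμ1.le Y A B η hY hY1 hrel hκ.le hε o
  refine ⟨2 * K', 2 * ε, by linarith, by linarith, by nlinarith, fun d hd => ?_⟩
  obtain ⟨G, _, _, _, M₁, N₁, hSC, s, hs⟩ :=
    hTB κ (2 * K') (2 * ε) (by linarith) (by linarith) ls d hd
  refine ⟨G, _, _, _, M₁, N₁, Fin m × Fin 4, _, _, s, hSC.ball.1, hSC.ball.2, hall G M₁ N₁ hSC,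
    fun j => ?_⟩
  have h1 := (Complex.abs_re_le_norm _).trans (hs j)
  rw [Complex.sub_re, abs_le] at h1
  have h2 : ((1 / 2 : ℂ) * val μ ξ Y A B).re = (val μ ξ Y A B).re / 2 := by
    rw [show (1 / 2 : ℂ) = ((1 / 2 : ℝ) : ℂ) by push_cast; ring, Complex.re_ofReal_mul]
    ring
  rw [h2] at h1
  linarith [h1.1]

end Crest.Agent.R078.Z.Comp
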