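/-
R78 / S0103.  ABSTRACT SLOT SYSTEM for the quantum walk (helper43 #5918/#5919/#6019 with the
simplifications #6255/#6312).  helper199.

Conventions: `⟪x, y⟫` is Mathlib's inner product (conjugate linear in `x`), so helper43's `<xα,β>` is
`⟪β, x α⟫` here.  Words are `w : Fin d → L`; `pre T w j = T_0 … T_{j-1}`, `suf T w j = T_j … T_{d-1}`.
-/
import Mathlib

set_option autoImplicit false
open scoped InnerProductSpace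

namespace Crest.Agent.R078.Z.Slot

universe u

section basic

variable {A : Type*} [Monoid A] {L : Type*}

/-- `T_0(w_0) … T_{j-1}(w_{j-1})` -/
def pre {d : ℕ} (T : Fin d → L → A) (w : Fin d → L) (j : ℕ) : A :=
  (((List.finRange d).take j).map fun i => T i (w i)).prod

/-- `T_j(w_j) … T_{d-1}(w_{d-1})` -/
def suf {d : ℕ} (T : Fin d → L → A) (w : Fin d → L) (j : ℕ) : A :=
  (((List.finRange d).drop j).map fun i => T i (w i)).prod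




theorem suf_eq {d : ℕ} (T : Fin d → L → A) (w : Fin d → L) (j : Fin d) :
    suf T w j = T j (w j) * suf T w (j + 1) := by
  unfold suf
  rw [List.drop_eq_getElem_cons (by simp), List.map_cons, List.prod_cons]
  simp

theorem pre_mul_suf {d : ℕ} (T : Fin d → L → A) (w : Fin d → L) (j : ℕ) :
    pre T w j * suf T w j = suf T w 0 := by
  unfold pre suf
  rw [← List.prod_append, ← List.map_append, List.take_append_drop, List.drop_zero]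


/-- `X = L_j T_j R_j` -/
theorem word_eq {d : ℕ} (T : Fin d → L → A) (w : Fin d → L) (j : Fin d) :
    suf T w 0 = pre T w j * T j (w j) * suf T w (j + 1) := by
  rw [← pre_mul_suf T w j, suf_eq T w j, mul_assoc]

end basic

variable {G : Type u} [NormedAddCommGroup G] [InnerProductSpace ℂ G] [CompleteSpace G]

/-- RELATION BOUND (class `R`): every relation with vector functionals (finite multiplicity space `κ`)
of class `R` has value `≤ Λ`.  This is the statement `Λ_R ≤ Λ` for the one pair `(M, N)` on `G`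
(with all finite multiplicities). -/
def RelBd (M N : VonNeumannAlgebra G) (R Λ : ℝ) : Prop :=
  ∀ (κ ι : Type) [Fintype κ] [Fintype ι] (μ : ι → ℝ) (Y : ι → G →L[ℂ] G) (ξ : κ → G)
    (α β η : ι → κ → G),
    (∀ a, 0 ≤ μ a) → ∑ a, μ a = 1 → (∀ a, Y a ∈ M) → (∀ a, ‖Y a‖ ≤ 1) →
    ∑ k, ‖ξ k‖ ^ 2 ≤ 1 → (∀ a, ∑ k, ‖α a k‖ ^ 2 ≤ 1) → (∀ a, ∑ k, ‖β a k‖ ^ 2 ≤ 1) →
    (∀ a, ∑ k, ‖η a k‖ ^ 2 ≤ R ^ 2) →
    (∀ a, ∀ n ∈ N, ∑ k, ⟪β a k, n (α a k)⟫_ℂ = ∑ k, ⟪η a k, n (ξ k)⟫_ℂ) →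
    (∀ n ∈ N, ∑ a, ((μ a : ℂ) * ∑ k, ⟪η a k, n (ξ k)⟫_ℂ) • Y a = 0) →
    ‖∑ a, (μ a : ℂ) * ∑ k, ⟪β a k, Y a (α a k)⟫_ℂ‖ ≤ Λ

/-- `x` in the unit ball of `M` is `δ`-close to the unit ball of `N`. -/
def BallIn (M N : VonNeumannAlgebra G) (δ : ℝ) : Prop :=
  ∀ x ∈ M, ‖x‖ ≤ 1 → ∃ y ∈ N, ‖y‖ ≤ 1 ∧ ‖x - y‖ ≤ δ

/-- ABSTRACT SLOT SYSTEM. -/
structure SlotSys (M N : VonNeumannAlgebra G) (d : ℕ) (L : Type) [Fintype L] [DecidableEq L]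
    (δ R K Kθ ε₁ : ℝ) where
  /-- letter law -/
  μ : L → ℝ
  μ_nonneg : ∀ l, 0 ≤ μ l
  μ_sum : ∑ l, μ l = 1
  inv : L → L
  inv_inv : ∀ l, inv (inv l) = l
  μ_inv : ∀ l, μ (inv l) = μ l
  /-- base vector -/
  ζ : G
  norm_ζ : ‖ζ‖ = 1
  /-- unitary letters in `M` and their partners in `M'` -/
  T : Fin d → L → G →L[ℂ] G
  S : Fin d → L → G →L[ℂ] G
  T_mem : ∀ j l, T j l ∈ M
  S_mem : ∀ j l, S j l ∈ M.commutant
  T_unitary : ∀ j l, T j l ∈ unitary (G →L[ℂ] G)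
  S_unitary : ∀ j l, S j l ∈ unitary (G →L[ℂ] G)
  T_inv : ∀ j l, T j (inv l) = star (T j l)
  S_inv : ∀ j l, S j (inv l) = star (S j l)
  /-- (S5) `T_j S_j ζ ≈ ζ` -/
  TS_ζ : ∀ j l, ‖T j l (S j l ζ) - ζ‖ ≤ ε₁
  /-- ancilla operators -/
  k : Fin d → G →L[ℂ] G
  k1 : Fin d → G →L[ℂ] G
  k_memM : ∀ j, k j ∈ M.commutant
  k_memN : ∀ j, k j ∈ N.commutant
  k1_memM : ∀ j, k1 j ∈ M.commutant
  k1_memN : ∀ j, k1 j ∈ N.commutant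
  norm_k : ∀ j, ‖k j‖ ≤ Kθ
  norm_k1 : ∀ j, ‖k1 j‖ ≤ Kθ
  norm_kζ : ∀ j, ‖k j ζ‖ = 1
  /-- the vector functionals: `Ψ_j(x) = ⟪b_j k1_j ζ, x κ_j ζ⟫` (phases are absorbed in `b`) -/
  kap : Fin d → L → G →L[ℂ] G
  b : Fin d → L → G →L[ℂ] G
  kap_memM : ∀ j l, kap j l ∈ M.commutant
  kap_memN : ∀ j l, kap j l ∈ N.commutant
  b_memM : ∀ j l, b j l ∈ M.commutant
  b_memN : ∀ j l, b j l ∈ N.commutant
  norm_kap : ∀ j l, ‖kap j l‖ ≤ K * Kθ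
  norm_b : ∀ j l, ‖b j l‖ ≤ K
  norm_kapζ : ∀ j l, ‖kap j l ζ‖ ≤ 1
  norm_bζ : ∀ j l, ‖b j l (k1 j ζ)‖ ≤ 1
  /-- the `N`-side vectors -/
  η : Fin d → L → G
  norm_η : ∀ j l, ‖η j l‖ ≤ R
  /-- slot projections ("slot `j` is in state `ζ_0`") -/
  P : Fin d → G →L[ℂ] G
  P_sa : ∀ j, star (P j) = P j
  P_idem : ∀ j, P j * P j = P j
  P_ζ : ∀ j, P j ζ = ζ
  /-- (S2) slot commutations -/
  P_P : ∀ i j, P i * P j = P j * P i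
  P_T : ∀ i j l, i ≠ j → P i * T j l = T j l * P i
  P_S : ∀ i j l, i ≠ j → P i * S j l = S j l * P i
  k_S : ∀ i j l, i ≠ j → k i * S j l = S j l * k i
  k1_S : ∀ i j l, i ≠ j → k1 i * S j l = S j l * k1 i
  /-- (S3) -/
  k1_isom : ∀ j (e : G), P j e = e → ‖k1 j e‖ = ‖e‖
  kap_avg : ∀ j (e : G), P j e = e → ∑ l, μ l * ‖kap j l e‖ ^ 2 ≤ 3 * ‖e‖ ^ 2
  /-- (S4) -/
  cT : G →L[ℂ] G
  cT_sa : star cT = cT
  norm_cT : ‖cT‖ ≤ 1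
  cT_P : ∀ j, cT * P j = P j * cT
  PTSP : ∀ j, P j * (∑ l, (μ l : ℂ) • (T j l * S j l)) * P j = cT * P j
  /-- (S6) exactness -/
  exact_T : ∀ j (h : G), ∑ l, ((μ l : ℂ) * ⟪η j l, h⟫_ℂ) • T j l = 0
  exact_S : ∀ j, ∑ l, (μ l : ℂ) • S j l (star (k j) (η j l)) = 0
  /-- projection `p' = [N ξ] ⊗ 1` -/
  p' : G →L[ℂ] G
  p'_mem : p' ∈ N.commutant
  p'_sa : star p' = p'
  p'_idem : p' * p' = p'
  p'_ζ : p' ζ = ζ
  p'_η : ∀ j l, p' (η j l) = η j l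
  p'_P : ∀ j, p' * P j = P j * p'
  p'_k : ∀ j, p' * k j = k j * p'
  /-- (S7) `(*)` -/
  star_id : ∀ j l, ∀ n ∈ N, ∀ h : G, p' h = h →
    ⟪b j l (k1 j ζ), n (kap j l h)⟫_ℂ = ⟪η j l, n (k j h)⟫_ℂ
  /-- (S8) lifts.  `lft j w ∈ N` near `L_j`, `rho j w ∈ N` near `R_j`, `tp j w ∈ N'` near `S_{R_j}`;
  none of them depends on letter `j`. -/
  lft : Fin d → (Fin d → L) → G →L[ℂ] G
  rho : Fin d → (Fin d → L) → G →L[ℂ] G
  tp : Fin d → (Fin d → L) → G →L[ℂ] G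
  lft_mem : ∀ j w, lft j w ∈ N
  rho_mem : ∀ j w, rho j w ∈ N
  tp_mem : ∀ j w, tp j w ∈ N.commutant
  norm_lft : ∀ j w, ‖lft j w‖ ≤ 1
  norm_rho : ∀ j w, ‖rho j w‖ ≤ 1
  norm_tp : ∀ j w, ‖tp j w‖ ≤ 1
  lft_near : ∀ (j : Fin d) w, ‖pre T w j - lft j w‖ ≤ δ
  rho_near : ∀ (j : Fin d) w, ‖suf T w (j + 1) - rho j w‖ ≤ δ
  tp_near : ∀ (j : Fin d) w, ‖suf S w (j + 1) - tp j w‖ ≤ δ
  lft_upd : ∀ j w l, lft j (Function.update w j l) = lft j w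
  rho_upd : ∀ j w l, rho j (Function.update w j l) = rho j w
  tp_upd : ∀ j w l, tp j (Function.update w j l) = tp j w
  rho_P : ∀ j w, rho j w * P j = P j * rho j w
  tp_P : ∀ j w, tp j w * P j = P j * tp j w
  tp_k : ∀ j w, tp j w * k j = k j * tp j w

namespace SlotSys

variable {M N : VonNeumannAlgebra G} {d : ℕ} {L : Type} [Fintype L] [DecidableEq L]
  {δ R K Kθ ε₁ : ℝ}

/-- probability of a word -/
def wt (s : SlotSys M N d L δ R K Kθ ε₁) (w : Fin d → L) : ℝ := ∏ i, s.μ (w i)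

/-- expectation over words -/
noncomputable def Ex (s : SlotSys M N d L δ R K Kθ ε₁) {E : Type*} [AddCommGroup E] [Module ℝ E]
    (F : (Fin d → L) → E) : E := ∑ w, s.wt w • F w

/-- value of letter `j` : `E_l Ψ_j(T_j)` -/
noncomputable def value (s : SlotSys M N d L δ R K Kθ ε₁) (j : Fin d) : ℂ :=
  ∑ l, (s.μ l : ℂ) * ⟪s.b j l (s.k1 j s.ζ), s.T j l (s.kap j l s.ζ)⟫_ℂ

/-- drift `D = √d ε₁` -/
noncomputable def D (_s : SlotSys M N d L δ R K Kθ ε₁) : ℝ := Real.sqrt d * ε₁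

/-- fluctuation error in the `L1` bound -/
noncomputable def Efl (s : SlotSys M N d L δ R K Kθ ε₁) : ℝ :=
  2 * (K * Kθ * ε₁ + K * (1 + K * Kθ * ε₁) * s.D) + K * Kθ * (1 + K * Kθ * ε₁) / Real.sqrt d

end SlotSys

namespace SlotSys

variable {M N : VonNeumannAlgebra G} {d : ℕ} {L : Type} [Fintype L] [DecidableEq L]
  {δ R K Kθ ε₁ : ℝ} (s : SlotSys M N d L δ R K Kθ ε₁)

/-- the word `X = T_0 … T_{d-1}` -/
noncomputable def X (w : Fin d → L) : G →L[ℂ] G := suf s.T w 0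

/-- `V_j = L_j S_{L_j}` -/
noncomputable def V (w : Fin d → L) (j : Fin d) : G →L[ℂ] G := pre s.T w j * pre s.S w j

/-- `β̃_j` -/
noncomputable def bet (w : Fin d → L) (j : Fin d) : G := s.b j (w j) (s.k1 j s.ζ)

/-- `σ_j ζ = p' t'(S_{R_j}) ζ` -/
noncomputable def sig (w : Fin d → L) (j : Fin d) : G := s.p' (s.tp j w s.ζ)

/-- `e_j = ρ_j^* ζ - σ_j ζ` -/
noncomputable def e (w : Fin d → L) (j : Fin d) : G := star (s.rho j w) s.ζ - s.sig w j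

/-- `q(y) = (1/d) Σ_j ⟪l_j β̃_j, y κ_j ρ_j^* ζ⟫` -/
noncomputable def q (w : Fin d → L) (y : G →L[ℂ] G) : ℂ :=
  (d : ℂ)⁻¹ * ∑ j, ⟪s.lft j w (s.bet w j), y (s.kap j (w j) (star (s.rho j w) s.ζ))⟫_ℂ

/-- `q_1(y) = (1/d) Σ_j ⟪l_j β̃_j, y κ_j e_j⟫` -/
noncomputable def q1 (w : Fin d → L) (y : G →L[ℂ] G) : ℂ :=
  (d : ℂ)⁻¹ * ∑ j, ⟪s.lft j w (s.bet w j), y (s.kap j (w j) (s.e w j))⟫_ℂ

/-- `q_2(y) = (1/d) Σ_j ⟪l_j η_j, y k_j σ_j ζ⟫` -/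
noncomputable def q2 (w : Fin d → L) (y : G →L[ℂ] G) : ℂ :=
  (d : ℂ)⁻¹ * ∑ j, ⟪s.lft j w (s.η j (w j)), y (s.k j (s.sig w j))⟫_ℂ

end SlotSys

/-- THE WALK THEOREM (target).  (1)-(6) of #5919. -/
def WalkTarget : Prop :=
  ∀ (G : Type u) [NormedAddCommGroup G] [InnerProductSpace ℂ G] [CompleteSpace G]
    (M N : VonNeumannAlgebra G) (d : ℕ) (L : Type) [Fintype L] [DecidableEq L]
    (δ R K Kθ ε₁ Λ v : ℝ) (s : SlotSys M N d L δ R K Kθ ε₁),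
    0 < d → 0 ≤ δ → 1 ≤ R → 0 ≤ K → 1 ≤ Kθ → 0 ≤ ε₁ → 0 ≤ Λ →
    BallIn M N δ → BallIn N M δ → RelBd M N R Λ →
    (∀ j, v ≤ (s.value j).re) →
    v ≤ 3 * δ + Real.sqrt 3 * (2 * δ + s.D)
      + (Λ + δ) * (Λ + 4 * δ + Real.sqrt 3 * (2 * δ + s.D) + s.Efl
        + (2 * Real.sqrt 2 * δ + Real.sqrt 2 * Kθ / Real.sqrt d))

end Crest.Agent.R078.Z.Slot
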