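import Crest.Agent.R078.S103HB50
import Crest.Agent.R078.S103Slot199
import Crest.Agent.R078.S103LSys938
import Crest.Agent.R078.S103Main45

-- ▼ part R078/S103HB50Cb
section

/-!
R078 / S0103, block HB (helper50), part 3: the completely bounded lift.
-/

set_option autoImplicit false
set_option linter.unusedSectionVars false

open scoped ComplexConjugate InnerProductSpace

namespace Crest.Agent.R078.Z.HB

open Crest.Agent.R078.Z.Slot Crest.Agent.R078.S103.LSys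

universe u

section Plain

variable {G : Type u} [NormedAddCommGroup G] [InnerProductSpace ℂ G] [CompleteSpace G]

/-- (F4): relation bounds for all classes `R` give the bound for all relations, normalised form. -/
theorem relBd_all {M N : VonNeumannAlgebra G} {L : ℝ} (h : ∀ R, RelBd M N R L)
    {ι : Type} [Fintype ι] (μ : ι → ℝ) (Y : ι → G →L[ℂ] G) (a b : ι → G)
    (hμ : ∀ i, 0 ≤ μ i) (hμ1 : ∑ i, μ i = 1) (hY : ∀ i, Y i ∈ M) (hY1 : ∀ i, ‖Y i‖ ≤ 1)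
    (ha : ∀ i, ‖a i‖ ≤ 1) (hb : ∀ i, ‖b i‖ ≤ 1)
    (hrel : ∀ n ∈ N, ∑ i, ((μ i : ℂ) * ⟪b i, n (a i)⟫_ℂ) • Y i = 0) :
    ‖∑ i, (μ i : ℂ) * ⟪b i, Y i (a i)⟫_ℂ‖ ≤ L := by
  classical
  -- the vectors
  let ξ : ι → G := fun k => ((Real.sqrt (μ k) : ℝ) : ℂ) • a k
  let α : ι → ι → G := fun i k => if k = i then (if μ i = 0 then 0 else a i) else 0
  let β : ι → ι → G := fun i k => if k = i then b i else 0
  let η : ι → ι → G := fun i k =>
    if k = i then (((Real.sqrt (μ i))⁻¹ : ℝ) : ℂ) • b i else 0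
  let R : ℝ := Real.sqrt (∑ i, ((Real.sqrt (μ i))⁻¹) ^ 2)
  have hR : R ^ 2 = ∑ i, ((Real.sqrt (μ i))⁻¹) ^ 2 :=
    Real.sq_sqrt (Finset.sum_nonneg fun i _ => sq_nonneg _)
  have e1 : ∀ (n : G →L[ℂ] G) (i : ι), ∑ k, ⟪β i k, n (α i k)⟫_ℂ
      = if μ i = 0 then 0 else ⟪b i, n (a i)⟫_ℂ := fun n i => by
    rw [Finset.sum_eq_single i]
    · simp only [α, β, if_true]
      split_ifs <;> simp
    · intro k _ hk
      simp [β, hk]
    · simp
  have e2 : ∀ (n : G →L[ℂ] G) (i : ι), ∑ k, ⟪η i k, n (ξ k)⟫_ℂ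
      = if μ i = 0 then 0 else ⟪b i, n (a i)⟫_ℂ := fun n i => by
    rw [Finset.sum_eq_single i]
    · simp only [ξ, η, if_true, map_smul, inner_smul_left, inner_smul_right, Complex.conj_ofReal]
      by_cases h0 : μ i = 0
      · simp [h0]
      · have hs : Real.sqrt (μ i) ≠ 0 := by
          rw [Real.sqrt_ne_zero (hμ i)]; exact h0
        rw [if_neg h0]
        have hs' : ((Real.sqrt (μ i) : ℝ) : ℂ) ≠ 0 := by exact_mod_cast hs
        push_cast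
        field_simp
    · intro k _ hk
      simp [η, hk]
    · simp
  have key := h R ι ι μ Y ξ α β η hμ hμ1 hY hY1 ?_ ?_ ?_ ?_ ?_ ?_
  · refine le_trans (le_of_eq ?_) key
    congr 1
    refine Finset.sum_congr rfl fun i _ => ?_
    rw [e1]
    by_cases h0 : μ i = 0 <;> simp [h0]
  · calc ∑ k, ‖ξ k‖ ^ 2 ≤ ∑ k, μ k := by
          refine Finset.sum_le_sum fun k _ => ?_
          simp only [ξ]
          rw [norm_smul, mul_pow, Complex.norm_real, Real.norm_eq_abs, sq_abs, Real.sq_sqrt (hμ k)]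
          have := ha k
          have h2 : ‖a k‖ ^ 2 ≤ 1 := pow_le_one₀ (norm_nonneg _) this
          nlinarith [hμ k]
      _ ≤ 1 := hμ1.le
  · intro i
    rw [Finset.sum_eq_single i]
    · simp only [α, if_true]
      split_ifs
      · simp
      · exact pow_le_one₀ (norm_nonneg _) (ha i)
    · intro k _ hk
      simp [α, hk]
    · simp
  · intro i
    rw [Finset.sum_eq_single i]
    · simp only [β, if_true]
      exact pow_le_one₀ (norm_nonneg _) (hb i)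
    · intro k _ hk
      simp [β, hk]
    · simp
  · intro i
    rw [Finset.sum_eq_single i]
    · simp only [η, if_true]
      rw [norm_smul, mul_pow, Complex.norm_real, Real.norm_eq_abs, sq_abs, hR]
      have h2 : ‖b i‖ ^ 2 ≤ 1 := pow_le_one₀ (norm_nonneg _) (hb i)
      have h3 : ((Real.sqrt (μ i))⁻¹) ^ 2 ≤ ∑ i, ((Real.sqrt (μ i))⁻¹) ^ 2 :=
        Finset.single_le_sum (f := fun i => ((Real.sqrt (μ i))⁻¹) ^ 2)
          (fun i _ => sq_nonneg _) (Finset.mem_univ i)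
      calc ((Real.sqrt (μ i))⁻¹) ^ 2 * ‖b i‖ ^ 2 ≤ ((Real.sqrt (μ i))⁻¹) ^ 2 * 1 := by gcongr
        _ ≤ _ := by rw [mul_one]; exact h3
    · intro k _ hk
      simp [η, hk]
    · simp
  · intro i n _
    rw [e1, e2]
  · intro n hn
    rw [← hrel n hn]
    refine Finset.sum_congr rfl fun i _ => ?_
    rw [e2]
    by_cases h0 : μ i = 0 <;> simp [h0]

/-- (F4): relation bounds for all classes `R` give the bound for all relations. -/
theorem relBd_all' {M N : VonNeumannAlgebra G} {L : ℝ} (h : ∀ R, RelBd M N R L)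
    {ι : Type} [Fintype ι] (Y : ι → G →L[ℂ] G) (a b : ι → G) (hY : ∀ i, Y i ∈ M)
    (hrel : ∀ n ∈ N, ∑ i, ⟪b i, n (a i)⟫_ℂ • Y i = 0) :
    ‖∑ i, ⟪b i, Y i (a i)⟫_ℂ‖ ≤ L * ∑ i, ‖Y i‖ * ‖a i‖ * ‖b i‖ := by
  classical
  let t : ι → ℝ := fun i => ‖Y i‖ * ‖a i‖ * ‖b i‖
  have ht : ∀ i, 0 ≤ t i := fun i => by positivity
  have hzero : ∀ i, t i = 0 → Y i = 0 ∨ a i = 0 ∨ b i = 0 := fun i hi => by
    rcases mul_eq_zero.1 hi with h | h
    · rcases mul_eq_zero.1 h with h | h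
      · exact Or.inl (norm_eq_zero.1 h)
      · exact Or.inr (Or.inl (norm_eq_zero.1 h))
    · exact Or.inr (Or.inr (norm_eq_zero.1 h))
  have hterm : ∀ i, t i = 0 → ⟪b i, Y i (a i)⟫_ℂ = 0 := fun i hi => by
    rcases hzero i hi with h | h | h <;> simp [h]
  have hterm' : ∀ i, t i = 0 → ∀ n : G →L[ℂ] G, ⟪b i, n (a i)⟫_ℂ • Y i = 0 := fun i hi n => by
    rcases hzero i hi with h | h | h <;> simp [h]
  let T : ℝ := ∑ i, t i
  have hT : 0 ≤ T := Finset.sum_nonneg fun i _ => ht i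
  rcases hT.eq_or_lt with hT0 | hT0
  · have h0 : ∀ i, t i = 0 := fun i =>
      (Finset.sum_eq_zero_iff_of_nonneg fun i _ => ht i).1 hT0.symm i (Finset.mem_univ i)
    rw [Finset.sum_eq_zero fun i _ => hterm i (h0 i)]
    have : ∑ i, ‖Y i‖ * ‖a i‖ * ‖b i‖ = 0 := hT0.symm
    rw [this]; simp
  · have hinv : ∀ x : ℝ, 0 ≤ x → x⁻¹ * x ≤ 1 := fun x hx => by
      rcases hx.eq_or_lt with h | h
      · rw [← h]; simp
      · rw [inv_mul_cancel₀ h.ne']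
    have hmain := relBd_all h (fun i => t i / T) (fun i => ((‖Y i‖⁻¹ : ℝ) : ℂ) • Y i)
      (fun i => ((‖a i‖⁻¹ : ℝ) : ℂ) • a i) (fun i => ((‖b i‖⁻¹ : ℝ) : ℂ) • b i)
      (fun i => div_nonneg (ht i) hT) (by rw [← Finset.sum_div, div_self hT0.ne'])
      (fun i => by
        have := (M.toStarSubalgebra.toSubalgebra.toSubmodule).smul_mem ((‖Y i‖⁻¹ : ℝ) : ℂ) (hY i)
        exact this)
      (fun i => by
        rw [norm_smul, Complex.norm_real, Real.norm_eq_abs, abs_inv, abs_norm]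
        exact hinv _ (norm_nonneg _))
      (fun i => by
        rw [norm_smul, Complex.norm_real, Real.norm_eq_abs, abs_inv, abs_norm]
        exact hinv _ (norm_nonneg _))
      (fun i => by
        rw [norm_smul, Complex.norm_real, Real.norm_eq_abs, abs_inv, abs_norm]
        exact hinv _ (norm_nonneg _))
      ?_
    · have e : ∑ i, ((t i / T : ℝ) : ℂ) * ⟪((‖b i‖⁻¹ : ℝ) : ℂ) • b i,
          (((‖Y i‖⁻¹ : ℝ) : ℂ) • Y i) (((‖a i‖⁻¹ : ℝ) : ℂ) • a i)⟫_ℂ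
          = ((T⁻¹ : ℝ) : ℂ) * ∑ i, ⟪b i, Y i (a i)⟫_ℂ := by
        rw [Finset.mul_sum]
        refine Finset.sum_congr rfl fun i _ => ?_
        by_cases hi : t i = 0
        · rw [hterm i hi, hi]; simp
        · have h1 : ‖Y i‖ ≠ 0 := fun h => hi (by simp only [t, h]; ring)
          have h2 : ‖a i‖ ≠ 0 := fun h => hi (by simp only [t, h]; ring)
          have h3 : ‖b i‖ ≠ 0 := fun h => hi (by simp only [t, h]; ring)
          have h1' : (‖Y i‖ : ℂ) ≠ 0 := by exact_mod_cast h1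
          have h2' : (‖a i‖ : ℂ) ≠ 0 := by exact_mod_cast h2
          have h3' : (‖b i‖ : ℂ) ≠ 0 := by exact_mod_cast h3
          have hT' : (T : ℂ) ≠ 0 := by exact_mod_cast hT0.ne'
          rw [smul_apply, map_smul, inner_smul_left, inner_smul_right,
            inner_smul_right]
          simp only [Complex.conj_ofReal]
          have ht' : ((t i : ℝ) : ℂ) = ‖Y i‖ * ‖a i‖ * ‖b i‖ := by
            simp only [t]; push_cast; ring
          push_cast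
          rw [ht']
          field_simp
      rw [e, norm_mul, Complex.norm_real, Real.norm_eq_abs, abs_of_pos (inv_pos.2 hT0)] at hmain
      have h4 : T * (T⁻¹ * ‖∑ i, ⟪b i, Y i (a i)⟫_ℂ‖) ≤ T * L :=
        mul_le_mul_of_nonneg_left hmain hT
      rw [← mul_assoc, mul_inv_cancel₀ hT0.ne', one_mul, mul_comm] at h4
      exact h4
    · intro n hn
      have h5 : ∑ i, (((t i / T : ℝ) : ℂ) * ⟪((‖b i‖⁻¹ : ℝ) : ℂ) • b i,
          n (((‖a i‖⁻¹ : ℝ) : ℂ) • a i)⟫_ℂ) • (((‖Y i‖⁻¹ : ℝ) : ℂ) • Y i)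
          = ((T⁻¹ : ℝ) : ℂ) • ∑ i, ⟪b i, n (a i)⟫_ℂ • Y i := by
        rw [Finset.smul_sum]
        refine Finset.sum_congr rfl fun i _ => ?_
        by_cases hi : t i = 0
        · rw [hterm' i hi, hi]; simp
        · have h1 : ‖Y i‖ ≠ 0 := fun h => hi (by simp only [t, h]; ring)
          have h2 : ‖a i‖ ≠ 0 := fun h => hi (by simp only [t, h]; ring)
          have h3 : ‖b i‖ ≠ 0 := fun h => hi (by simp only [t, h]; ring)
          have h1' : (‖Y i‖ : ℂ) ≠ 0 := by exact_mod_cast h1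
          have h2' : (‖a i‖ : ℂ) ≠ 0 := by exact_mod_cast h2
          have h3' : (‖b i‖ : ℂ) ≠ 0 := by exact_mod_cast h3
          have hT' : (T : ℂ) ≠ 0 := by exact_mod_cast hT0.ne'
          rw [map_smul, inner_smul_left, inner_smul_right, smul_smul, smul_smul]
          simp only [Complex.conj_ofReal]
          have ht' : ((t i : ℝ) : ℂ) = ‖Y i‖ * ‖a i‖ * ‖b i‖ := by
            simp only [t]; push_cast; ring
          congr 1
          push_cast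
          rw [ht']
          field_simp
      rw [h5, hrel n hn, smul_zero]

theorem relBd_nonneg {M N : VonNeumannAlgebra G} {R L : ℝ} (h : RelBd M N R L) : 0 ≤ L := by
  have := h Unit Unit (fun _ => 1) (fun _ => 0) (fun _ => 0) (fun _ _ => 0) (fun _ _ => 0)
    (fun _ _ => 0) (by simp) (by simp) (fun _ => zero_mem M) (by simp) (by simp) (by simp)
    (by simp) (fun _ => by simp; positivity) (by simp) (by simp)
  simpa using this

end Plain

section Amp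

variable {H : Type u} [NormedAddCommGroup H] [InnerProductSpace ℂ H] [CompleteSpace H]



variable {J : Type} [Fintype J]

/-- signed translation of a vector of `H^J`. -/
def tw [AddCommGroup J] (s : J → ℤˣ) (t : J) (v : PiLp 2 (fun _ : J => H)) :
    PiLp 2 (fun _ : J => H) :=
  WithLp.toLp 2 fun p => ((s p : ℤ) : ℂ) • v (p + t)






theorem opM_add (x y : Matrix J J (H →L[ℂ] H)) : opM (x + y) = opM x + opM y := by
  ext v i
  simp [opM_apply, Finset.sum_add_distrib]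

theorem opM_smul (c : ℂ) (x : Matrix J J (H →L[ℂ] H)) : opM (c • x) = c • opM x := by
  ext v i
  simp [opM_apply, Finset.smul_sum]

theorem opM_zero : opM (0 : Matrix J J (H →L[ℂ] H)) = 0 := by
  ext v i
  simp [opM_apply]















end Amp

section Lift

variable {H : Type u} [NormedAddCommGroup H] [InnerProductSpace ℂ H] [CompleteSpace H]

/-- generators for the completely bounded lift. -/
structure Gen (M : Submodule ℂ (H →L[ℂ] H)) where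
  k : ℕ
  x : Matrix (Fin (k + 1)) (Fin (k + 1)) M
  a : PiLp 2 (fun _ : Fin (k + 1) => H)
  b : PiLp 2 (fun _ : Fin (k + 1) => H)

/-- the matrix of operators of a generator -/
def Gen.mat {M : Submodule ℂ (H →L[ℂ] H)} (g : Gen M) :
    Matrix (Fin (g.k + 1)) (Fin (g.k + 1)) (H →L[ℂ] H) := fun p q => g.x p q




end Lift

end Crest.Agent.R078.Z.HB
end

-- ▼ part R078/S103HB50Plain
section

/-!
R078 / S0103, block HB (helper50), part 4: the plain lift.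
-/

set_option autoImplicit false
set_option linter.unusedSectionVars false

open scoped ComplexConjugate InnerProductSpace

namespace Crest.Agent.R078.Z.HB

open Crest.Agent.R078.Z.Slot

universe u

variable {H : Type u} [NormedAddCommGroup H] [InnerProductSpace ℂ H] [CompleteSpace H]

/-- **F5, plain form, from an abstract relation bound.** -/
theorem exists_lift_plain {M N : VonNeumannAlgebra H} {L : ℝ} (hL : 0 ≤ L)
    (hrel : ∀ (m : ℕ) (Y : Fin m → H →L[ℂ] H) (a b : Fin m → H), (∀ i, Y i ∈ M) →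
      (∀ n ∈ N, ∑ i, ⟪b i, n (a i)⟫_ℂ • Y i = 0) →
      ‖∑ i, ⟪b i, Y i (a i)⟫_ℂ‖ ≤ L * ∑ i, ‖Y i‖ * ‖a i‖ * ‖b i‖) :
    ∃ Θ : (H →L[ℂ] H) →ₗ[ℂ] (H →L[ℂ] H), (∀ Y ∈ M, Θ Y ∈ N) ∧
      ∀ Y ∈ M, ‖Θ Y - Y‖ ≤ L * ‖Y‖ := by
  classical
  let Ms : Submodule ℂ (H →L[ℂ] H) := M.toStarSubalgebra.toSubalgebra.toSubmodule
  have hMs : ∀ y : Ms, (y : H →L[ℂ] H) ∈ M := fun y => y.2
  obtain ⟨Θ, hΘN, hΘ⟩ := exists_lift Ms N (ι := Ms × H × H) (fun _ => Unit)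
    (fun i _ => i.1) (fun i _ => i.2.1) (fun i _ => i.2.2)
    (fun i => L * ‖i.1‖ * ‖i.2.1‖ * ‖i.2.2‖) (fun i => by positivity) L
    (fun y α β => (y, α, β)) (fun n y α β => by simp) (fun y α β => by simp)
    (fun y α β => le_rfl)
    (fun v hv => by
      let e := v.support.equivFin.symm
      let g : Fin v.support.card → Ms × H × H := fun j => (e j).1
      have hsum : ∀ {V : Type u} [AddCommMonoid V] (F : Ms × H × H → V),
          ∑ j, F (g j) = ∑ i ∈ v.support, F i := fun F => by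
        rw [← Finset.sum_coe_sort v.support, ← Equiv.sum_comp e]
      have hsum' : ∀ {V : Type} [AddCommMonoid V] (F : Ms × H × H → V),
          ∑ j, F (g j) = ∑ i ∈ v.support, F i := fun F => by
        rw [← Finset.sum_coe_sort v.support, ← Equiv.sum_comp e]
      have key := hrel v.support.card (fun j => ((g j).1 : H →L[ℂ] H)) (fun j => (g j).2.1)
        (fun j => conj (v (g j)) • (g j).2.2) (fun j => hMs _)
        (fun n hn => by
          rw [← hv n hn, Finsupp.sum,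
            ← hsum fun i => v i • ∑ _k : Unit, ⟪i.2.2, n (i.2.1)⟫_ℂ • ((i.1 : Ms) : H →L[ℂ] H)]
          refine Finset.sum_congr rfl fun j _ => ?_
          rw [inner_smul_left, Complex.conj_conj]
          simp [smul_smul])
      have e1 : (v.sum fun i c => c * ∑ _k : Unit, ⟪i.2.2, ((i.1 : Ms) : H →L[ℂ] H) (i.2.1)⟫_ℂ)
          = ∑ j, ⟪conj (v (g j)) • (g j).2.2, ((g j).1 : H →L[ℂ] H) ((g j).2.1)⟫_ℂ := by
        rw [Finsupp.sum, ← hsum' fun i => v i * ∑ _k : Unit,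
          ⟪i.2.2, ((i.1 : Ms) : H →L[ℂ] H) (i.2.1)⟫_ℂ]
        refine Finset.sum_congr rfl fun j _ => ?_
        rw [inner_smul_left, Complex.conj_conj]
        simp
      rw [e1]
      refine key.trans (le_of_eq ?_)
      rw [Finset.mul_sum, Finsupp.sum,
        ← hsum' fun i => ‖v i‖ * (L * ‖i.1‖ * ‖i.2.1‖ * ‖i.2.2‖)]
      refine Finset.sum_congr rfl fun j _ => ?_
      rw [norm_smul, RCLike.norm_conj, Submodule.coe_norm]
      ring)
  obtain ⟨Θ', hΘ'⟩ := LinearMap.exists_extend Θ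
  have hΘ'' : ∀ y (hy : y ∈ M), Θ' y = Θ ⟨y, hy⟩ := fun y hy => by
    rw [← hΘ']; rfl
  refine ⟨Θ', fun y hy => by rw [hΘ'' y hy]; exact hΘN _, fun Y hY => ?_⟩
  refine ContinuousLinearMap.opNorm_le_bound _ (by positivity) fun v => ?_
  set w := (Θ' Y - Y) v with hw
  have h1 := hΘ (⟨Y, hY⟩, v, w)
  have h2 : ∑ _k : Unit, ⟪w, ((Y : H →L[ℂ] H) - Θ ⟨Y, hY⟩) v⟫_ℂ = -⟪w, w⟫_ℂ := by
    rw [← hΘ'' Y hY]
    simp only [Finset.univ_unique, Finset.sum_singleton]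
    rw [← inner_neg_right]
    congr 1
    rw [hw]
    simp only [sub_apply]
    abel
  change ‖∑ _k : Unit, ⟪w, ((Y : H →L[ℂ] H) - Θ ⟨Y, hY⟩) v⟫_ℂ‖ ≤ L * ‖Y‖ * ‖v‖ * ‖w‖ at h1
  rw [h2, norm_neg, inner_self_eq_norm_sq_to_K] at h1
  have h7 : ‖((‖w‖ : ℝ) : ℂ) ^ 2‖ = ‖w‖ * ‖w‖ := by
    rw [norm_pow, Complex.norm_real, norm_norm, sq]
  have h6 : ‖w‖ * ‖w‖ ≤ (L * ‖Y‖ * ‖v‖) * ‖w‖ := (le_of_eq h7.symm).trans h1
  by_cases h0 : ‖w‖ = 0
  · rw [h0]; positivity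
  · exact le_of_mul_le_mul_right h6 (lt_of_le_of_ne (norm_nonneg _) (Ne.symm h0))

/-- **F5, plain form**: relation bounds of all classes `R` give a linear map `Θ : M → N`,
`‖Θ - id‖ ≤ L`. -/
theorem lift_of_relBd {M N : VonNeumannAlgebra H} {L : ℝ} (h : ∀ R, RelBd M N R L) :
    ∃ Θ : (H →L[ℂ] H) →ₗ[ℂ] (H →L[ℂ] H), (∀ Y ∈ M, Θ Y ∈ N) ∧
      ∀ Y ∈ M, ‖Θ Y - Y‖ ≤ L * ‖Y‖ :=
  exists_lift_plain (relBd_nonneg (h 0)) fun _ Y a b hY hr => relBd_all' h Y a b hY hr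

end Crest.Agent.R078.Z.HB
end

-- ▼ part R078/S103End45

set_option autoImplicit false
set_option linter.unusedSectionVars false
open scoped InnerProductSpace

namespace Crest.Agent.R078.Z.Fin45

open Key

universe u

/-- ball-close ⇒ stably close -/
def SCOf : Prop :=
  ∃ C : ℝ, 1 ≤ C ∧ ∀ (H : Type u) [NormedAddCommGroup H] [InnerProductSpace ℂ H] [CompleteSpace H]
    (M N : VonNeumannAlgebra H) (δ : ℝ), 0 ≤ δ → TB.BallClose δ M N → TB.SC (C * δ) M N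

/-- Newton: linear near-identity map ⇒ near-identity *-isomorphism -/
def NewtonT : Prop :=
  ∃ C K₀ : ℝ, 0 ≤ C ∧ 0 < K₀ ∧
    ∀ (H : Type u) [NormedAddCommGroup H] [InnerProductSpace ℂ H] [CompleteSpace H]
      (M N : VonNeumannAlgebra H) (K : ℝ), 0 ≤ K → K ≤ K₀ → TB.BallClose (1 / 8) M N →
      ∀ Θ : (H →L[ℂ] H) →ₗ[ℂ] (H →L[ℂ] H), (∀ Y ∈ M, Θ Y ∈ N) → (∀ Y ∈ M, ‖Θ Y - Y‖ ≤ K * ‖Y‖) →
      ∃ π : M.toStarSubalgebra ≃⋆ₐ[ℂ] N.toStarSubalgebra,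
        ∀ x : M.toStarSubalgebra, ‖((π x : N.toStarSubalgebra) : H →L[ℂ] H) - (x : H →L[ℂ] H)‖
          ≤ C * K * ‖(x : H →L[ℂ] H)‖

/-- near-identity *-isomorphism ⇒ unitary near `1` -/
def UnitT : Prop :=
  ∃ C K₀ : ℝ, 0 ≤ C ∧ 0 < K₀ ∧
    ∀ (H : Type u) [NormedAddCommGroup H] [InnerProductSpace ℂ H] [CompleteSpace H]
      (M N : VonNeumannAlgebra H) (K : ℝ), 0 ≤ K → K ≤ K₀ →
      ∀ π : M.toStarSubalgebra ≃⋆ₐ[ℂ] N.toStarSubalgebra,
        (∀ x : M.toStarSubalgebra, ‖((π x : N.toStarSubalgebra) : H →L[ℂ] H) - (x : H →L[ℂ] H)‖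
          ≤ K * ‖(x : H →L[ℂ] H)‖) →
      ∃ u : H →L[ℂ] H, u ∈ unitary (H →L[ℂ] H) ∧ ‖u - 1‖ ≤ C * K ∧
        ∀ x : M.toStarSubalgebra,
          ((π x : N.toStarSubalgebra) : H →L[ℂ] H) = u * (x : H →L[ℂ] H) * star u

theorem relBd_neg {G : Type u} [NormedAddCommGroup G] [InnerProductSpace ℂ G] [CompleteSpace G]
    {M N : VonNeumannAlgebra G} {R Λ : ℝ} (h : Slot.RelBd M N |R| Λ) : Slot.RelBd M N R Λ := by
  intro κ ι _ _ μ Y ξ α β η h1 h2 h3 h4 h5 h6 h7 h8 h9 h10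
  exact h κ ι μ Y ξ α β η h1 h2 h3 h4 h5 h6 h7 (fun a => by rw [sq_abs]; exact h8 a) h9 h10

/-- the linear lift for all close pairs -/
theorem lift_of_close (hkey : KeyIneq.{u}) (C : ℝ)
    (hC : ∀ (H : Type u) [NormedAddCommGroup H] [InnerProductSpace ℂ H] [CompleteSpace H]
      (M N : VonNeumannAlgebra H) (δ : ℝ), 0 ≤ δ → TB.BallClose δ M N → TB.SC (C * δ) M N)
    {H : Type u} [NormedAddCommGroup H] [InnerProductSpace ℂ H] [CompleteSpace H]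
    (M N : VonNeumannAlgebra H) {δ : ℝ} (hδ0 : 0 ≤ δ) (hCδ0 : 0 ≤ C * δ)
    (hCδ : C * δ ≤ 1 / 10000) (h : TB.BallClose δ M N) :
    ∃ Θ : (H →L[ℂ] H) →ₗ[ℂ] (H →L[ℂ] H), (∀ Y ∈ M, Θ Y ∈ N) ∧
      ∀ Y ∈ M, ‖Θ Y - Y‖ ≤ (14 * (C * δ)) * ‖Y‖ :=
  HB.lift_of_relBd fun R => relBd_neg
    (relAll_of_key hkey hCδ0 hCδ |R| (abs_nonneg R) H M N (hC H M N δ hδ0 h))

/-- the statement of S0103 -/
def S103Stmt : Prop :=
  ∀ ε : ℝ, 0 < ε → ∃ δ : ℝ, 0 < δ ∧
      ∀ (H : Type u) [NormedAddCommGroup H] [InnerProductSpace ℂ H] [CompleteSpace H]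
        (M N : VonNeumannAlgebra H),
        (∀ x ∈ M, ‖x‖ ≤ 1 → ∃ y ∈ N, ‖y‖ ≤ 1 ∧ ‖x - y‖ < δ) →
        (∀ y ∈ N, ‖y‖ ≤ 1 → ∃ x ∈ M, ‖x‖ ≤ 1 ∧ ‖y - x‖ < δ) →
        ∃ u : H →L[ℂ] H, u ∈ unitary (H →L[ℂ] H) ∧ ‖u - 1‖ < ε ∧
          ∀ y : H →L[ℂ] H, y ∈ N ↔ ∃ x ∈ M, y = u * x * star u

theorem s103 (hkey : KeyIneq.{u}) (hSC : SCOf.{u}) (hNewton : NewtonT.{u}) (hUnit : UnitT.{u}) :
    S103Stmt.{u} := by
  intro ε hε
  obtain ⟨C, hC1, hC⟩ := hSC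
  obtain ⟨C₁, K₁, hC₁, hK₁, hN⟩ := hNewton
  obtain ⟨C₂, K₂, hC₂, hK₂, hU⟩ := hUnit
  -- δ with C δ ≤ 1/10000, 14 C δ ≤ K₁, C₁ (14 C δ) ≤ K₂, C₂ C₁ 14 C δ < ε, δ ≤ 1/8
  have hC0 : 0 < C := by linarith
  obtain ⟨δ, hδ, h1, h2, h3, h4, h5⟩ : ∃ δ : ℝ, 0 < δ ∧ C * δ ≤ 1 / 10000 ∧
      14 * (C * δ) ≤ K₁ ∧ C₁ * (14 * (C * δ)) ≤ K₂ ∧ C₂ * (C₁ * (14 * (C * δ))) < ε ∧
      δ ≤ 1 / 8 := by
    have ht : ∀ a b : ℝ, 0 < b → ∀ᶠ δ in nhdsWithin (0 : ℝ) (Set.Ioi 0), a * δ < b := by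
      intro a b hb
      have : Filter.Tendsto (fun δ : ℝ => a * δ) (nhdsWithin (0 : ℝ) (Set.Ioi 0)) (nhds 0) := by
        have : Filter.Tendsto (fun δ : ℝ => a * δ) (nhds (0 : ℝ)) (nhds (a * 0)) :=
          (continuous_const.mul continuous_id).tendsto 0
        rw [mul_zero] at this
        exact this.mono_left nhdsWithin_le_nhds
      exact this.eventually (gt_mem_nhds hb)
    have e1 := ht C (1 / 10000) (by norm_num)
    have e2 := ht (14 * C) K₁ hK₁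
    have e3 := ht (C₁ * (14 * C)) K₂ hK₂
    have e4 := ht (C₂ * (C₁ * (14 * C))) ε hε
    have e5 := ht 1 (1 / 8) (by norm_num)
    have e0 : ∀ᶠ δ in nhdsWithin (0 : ℝ) (Set.Ioi 0), 0 < δ := self_mem_nhdsWithin
    obtain ⟨δ, ⟨⟨⟨⟨⟨a0, a1⟩, a2⟩, a3⟩, a4⟩, a5⟩⟩ :=
      (((((e0.and e1).and e2).and e3).and e4).and e5).exists
    refine ⟨δ, a0, a1.le, ?_, ?_, ?_, ?_⟩
    · linarith
    · linarith
    · linarith
    · linarith
  refine ⟨δ, hδ, fun H _ _ _ M N hMN hNM => ?_⟩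
  have hball : TB.BallClose δ M N := by
    refine ⟨fun x hx hx1 => ?_, fun y hy hy1 => ?_⟩
    · obtain ⟨y, hy, hy1, hxy⟩ := hMN x hx hx1
      exact ⟨y, hy, hy1, hxy.le⟩
    · obtain ⟨x, hx, hx1, hxy⟩ := hNM y hy hy1
      exact ⟨x, hx, hx1, hxy.le⟩
  have hball8 : TB.BallClose (1 / 8) M N := by
    refine ⟨fun x hx hx1 => ?_, fun y hy hy1 => ?_⟩
    · obtain ⟨y, hy, hy1, hxy⟩ := hball.1 x hx hx1
      exact ⟨y, hy, hy1, hxy.trans h5⟩
    · obtain ⟨x, hx, hx1, hxy⟩ := hball.2 y hy hy1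
      exact ⟨x, hx, hx1, hxy.trans h5⟩
  have hCδ0 : 0 ≤ C * δ := by positivity
  obtain ⟨Θ, hΘN, hΘ⟩ := lift_of_close hkey C hC M N hδ.le hCδ0 h1 hball
  have hK0 : 0 ≤ 14 * (C * δ) := by positivity
  obtain ⟨π, hπ⟩ := hN H M N (14 * (C * δ)) hK0 h2 hball8 Θ hΘN hΘ
  have hK0' : 0 ≤ C₁ * (14 * (C * δ)) := by positivity
  obtain ⟨u, huU, hu1, hux⟩ := hU H M N (C₁ * (14 * (C * δ))) hK0' h3 π hπ
  refine ⟨u, huU, hu1.trans_lt h4, fun y => ⟨fun hy => ?_, ?_⟩⟩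
  · refine ⟨((π.symm ⟨y, hy⟩ : M.toStarSubalgebra) : H →L[ℂ] H), (π.symm ⟨y, hy⟩).2, ?_⟩
    rw [← hux]
    simp
  · rintro ⟨x, hx, rfl⟩
    have := hux ⟨x, hx⟩
    simp only at this
    rw [← this]
    exact (π ⟨x, hx⟩).2

end Crest.Agent.R078.Z.Fin45
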