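import Crest.Agent.R078.S103Slot199
import Crest.Agent.R078.S103TBFrame
import Crest.Agent.R078.S103RvD
import Crest.Agent.R078.S103Comp445

-- ▼ part R078/S103N1_330
section

/-!
# R78 / S0103, (N1): the adapted base vector (helper330)

From a relation in the sense of `Slot.RelBd M N R` we produce, on an amplification
`alg V M = M ⊗ 1`, `alg V N = N ⊗ 1`, an *adapted* relation: the vectors `α_a, β_a` of the
functionals are `A_a ξ`, `B_a ξ` with `A_a, B_a ∈ M' ∩ N'` and `∑ μ_a A_a^* A_a ≤ 3`.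
-/

set_option autoImplicit false
set_option linter.unusedSectionVars false
set_option linter.unusedSimpArgs false

open scoped InnerProductSpace ComplexConjugate

noncomputable section

namespace Crest.Agent.R078.Z.N1

open ContinuousLinearMap Crest.Agent.R078.Z

universe u

/-- ADAPTED RELATION with (real) value `v`. -/
structure Adapted {H : Type u} [NormedAddCommGroup H] [InnerProductSpace ℂ H] [CompleteSpace H]
    (M N : VonNeumannAlgebra H) (R v : ℝ) where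
  m : ℕ
  μ : Fin m → ℝ
  μ_nonneg : ∀ a, 0 ≤ μ a
  μ_sum : ∑ a, μ a = 1
  ξ : H
  norm_ξ : ‖ξ‖ = 1
  Y : Fin m → (H →L[ℂ] H)
  Y_mem : ∀ a, Y a ∈ M
  norm_Y : ∀ a, ‖Y a‖ ≤ 1
  A : Fin m → (H →L[ℂ] H)
  B : Fin m → (H →L[ℂ] H)
  A_memM : ∀ a, A a ∈ M.commutant
  A_memN : ∀ a, A a ∈ N.commutant
  B_memM : ∀ a, B a ∈ M.commutant
  B_memN : ∀ a, B a ∈ N.commutant
  norm_Aξ : ∀ a, ‖A a ξ‖ ≤ 1
  norm_Bξ : ∀ a, ‖B a ξ‖ ≤ 1
  avg : ∀ e : H, ∑ a, μ a * ‖A a e‖ ^ 2 ≤ 3 * ‖e‖ ^ 2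
  η : Fin m → H
  norm_η : ∀ a, ‖η a‖ ≤ R
  /-- `p` is the projection onto the closure of `N ξ` -/
  p : H →L[ℂ] H
  p_mem : p ∈ N.commutant
  p_sa : star p = p
  p_idem : p * p = p
  p_ξ : p ξ = ξ
  p_η : ∀ a, p (η a) = η a
  p_dense : ∀ h : H, p h = h → ∀ S : Set H, IsClosed S → (∀ n ∈ N, n ξ ∈ S) → h ∈ S
  star_id : ∀ a, ∀ n ∈ N, ∀ h : H, p h = h → ⟪B a ξ, n (A a h)⟫_ℂ = ⟪η a, n h⟫_ℂ
  rel : ∀ h : H, ∑ a, ((μ a : ℂ) * ⟪η a, h⟫_ℂ) • Y a = 0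
  value : ∑ a, (μ a : ℂ) * ⟪B a ξ, Y a (A a ξ)⟫_ℂ = (v : ℂ)

section std

variable {H : Type u} [NormedAddCommGroup H] [InnerProductSpace ℂ H] [CompleteSpace H]
  {J : Type} [Fintype J] [DecidableEq J]

/-- the standard embedding `H → H ⊗ e_j` -/
def sg (j : J) : H →L[ℂ] PiLp 2 (fun _ : J => H) :=
  (PiLp.continuousLinearEquiv 2 ℂ (fun _ : J => H)).symm.toContinuousLinearMap ∘L
    ContinuousLinearMap.pi fun i => if i = j then ContinuousLinearMap.id ℂ H else 0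

@[simp] theorem sg_apply (j i : J) (x : H) : (sg j x : PiLp 2 (fun _ : J => H)) i
    = if i = j then x else 0 := by
  simp only [sg, ContinuousLinearMap.comp_apply]
  change (if i = j then ContinuousLinearMap.id ℂ H else 0) x = _
  split_ifs <;> rfl

theorem adj_sg (j : J) (v : PiLp 2 (fun _ : J => H)) : adjoint (sg j) v = v j := by
  refine ext_inner_left ℂ fun x => ?_
  rw [adjoint_inner_right, PiLp.inner_apply, Finset.sum_eq_single j]
  · simp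
  · intro i _ hi
    simp [hi]
  · simp

/-- the standard frame over `Unit × J` -/
def sV (H : Type u) [NormedAddCommGroup H] [InnerProductSpace ℂ H] [CompleteSpace H]
    (J : Type) [Fintype J] [DecidableEq J] : Unit × J → H →L[ℂ] PiLp 2 (fun _ : J => H) :=
  fun p => sg p.2

theorem sV_isFrame : TB.IsFrame (sV H J) where
  orth := by
    rintro ⟨⟨⟩, i⟩ ⟨⟨⟩, j⟩
    ext x
    simp only [sV, ContinuousLinearMap.comp_apply]
    rw [adj_sg, sg_apply]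
    by_cases h : i = j
    · subst h; simp
    · simp [h]
  compl := by
    ext v i
    simp only [sV, ContinuousLinearMap.sum_apply, ContinuousLinearMap.comp_apply, adj_sg,
      ContinuousLinearMap.id_apply, Fintype.sum_prod_type, Finset.univ_unique,
      Finset.sum_singleton]
    rw [WithLp.ofLp_sum, Finset.sum_apply, Finset.sum_eq_single i]
    · simp
    · intro j _ hj
      simp [Ne.symm hj]
    · simp

/-- `x ⊗ 1` -/
theorem lft_sV_apply (x : Unit → Unit → H →L[ℂ] H) (v : PiLp 2 (fun _ : J => H)) (i : J) :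
    TB.lft (sV H J) x v i = x () () (v i) := by
  have h := TB.adj_lft (sV_isFrame (H := H) (J := J)) x () i v
  simp only [sV, adj_sg, Finset.univ_unique, Finset.sum_singleton] at h
  exact h

/-- scalar matrix acting on `H ⊗ ℓ²(J)` -/
def sc (c : J → J → ℂ) : PiLp 2 (fun _ : J => H) →L[ℂ] PiLp 2 (fun _ : J => H) :=
  TB.lft (TB.swapF (sV H J)) (fun i j => c i j • (1 : H →L[ℂ] H))

theorem sc_apply (c : J → J → ℂ) (v : PiLp 2 (fun _ : J => H)) (i : J) :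
    (sc c v : PiLp 2 (fun _ : J => H)) i = ∑ j, c i j • v j := by
  have h := TB.adj_lft (TB.swapF_isFrame (sV_isFrame (H := H) (J := J)))
    (fun i j => c i j • (1 : H →L[ℂ] H)) i () v
  simp only [TB.swapF, sV, adj_sg] at h
  simpa [sc, TB.swapF, sV] using h

theorem sc_mem (c : J → J → ℂ) (M : VonNeumannAlgebra H) :
    sc c ∈ (TB.alg (sV H J) M).commutant := by
  rw [TB.commutant_alg sV_isFrame]
  refine TB.lft_mem_alg (TB.swapF_isFrame sV_isFrame) fun i j => ?_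
  exact RvD.smul_mem' _ (one_mem _)

theorem exists_of_mem {M : VonNeumannAlgebra H} {X : PiLp 2 (fun _ : J => H) →L[ℂ] _}
    (hX : X ∈ TB.alg (sV H J) M) : ∃ x ∈ M, X = TB.lft (sV H J) (fun _ _ => x) := by
  obtain ⟨x, hx, rfl⟩ := (TB.mem_alg_iff sV_isFrame).1 hX
  exact ⟨x () (), hx _ _, rfl⟩

/-- `x ⊗ 1` -/
def am (J : Type) [Fintype J] [DecidableEq J] (x : H →L[ℂ] H) :
    PiLp 2 (fun _ : J => H) →L[ℂ] PiLp 2 (fun _ : J => H) := TB.lft (sV H J) (fun _ _ => x)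

@[simp] theorem am_apply (x : H →L[ℂ] H) (v : PiLp 2 (fun _ : J => H)) (i : J) :
    am J x v i = x (v i) := lft_sV_apply _ _ _

theorem am_mem {M : VonNeumannAlgebra H} {x : H →L[ℂ] H} (hx : x ∈ M) :
    am J x ∈ TB.alg (sV H J) M := TB.lft_mem_alg sV_isFrame fun _ _ => hx

theorem norm_am_le {x : H →L[ℂ] H} (hx : ‖x‖ ≤ 1) : ‖am J x‖ ≤ 1 := by
  refine ContinuousLinearMap.opNorm_le_bound _ zero_le_one fun v => ?_
  rw [one_mul, PiLp.norm_eq_of_L2, PiLp.norm_eq_of_L2]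
  refine Real.sqrt_le_sqrt (Finset.sum_le_sum fun i _ => ?_)
  rw [am_apply]
  have := x.le_opNorm (v i)
  have h2 : ‖x (v i)‖ ≤ ‖v i‖ := this.trans (mul_le_of_le_one_left (norm_nonneg _) hx)
  gcongr

end std


section constr

variable {H : Type u} [NormedAddCommGroup H] [InnerProductSpace ℂ H] [CompleteSpace H]
  {J : Type} [Fintype J] [DecidableEq J]

/-- partial map operator: `(pm f r v) i = r • v (f i)` -/
def pm (f : J → Option J) (r : ℝ) :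
    PiLp 2 (fun _ : J => H) →L[ℂ] PiLp 2 (fun _ : J => H) :=
  sc (fun i j => if f i = some j then (r : ℂ) else 0)

theorem pm_apply_some {f : J → Option J} {i j : J} (h : f i = some j) (r : ℝ)
    (v : PiLp 2 (fun _ : J => H)) : (pm f r v : PiLp 2 (fun _ : J => H)) i = (r : ℂ) • v j := by
  rw [pm, sc_apply, Finset.sum_eq_single j]
  · simp [h]
  · intro k _ hk
    have : f i ≠ some k := by
      rw [h]
      simpa using Ne.symm hk
    simp [this]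
  · simp

theorem pm_apply_none {f : J → Option J} {i : J} (h : f i = none) (r : ℝ)
    (v : PiLp 2 (fun _ : J => H)) : (pm f r v : PiLp 2 (fun _ : J => H)) i = 0 := by
  rw [pm, sc_apply]
  simp [h]

variable {κ : Type} [Fintype κ] [DecidableEq κ] {m : ℕ}

/-- the index set of the amplification -/
abbrev Ix (κ : Type) (m : ℕ) : Type := Option (κ × Option (Fin m ⊕ Fin m))

theorem sum_Ix {E : Type*} [AddCommMonoid E] (f : Ix κ m → E) :
    ∑ i, f i = f none + ∑ k, (f (some (k, none)) + (∑ a, f (some (k, some (Sum.inl a)))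
      + ∑ a, f (some (k, some (Sum.inr a))))) := by
  rw [Fintype.sum_option, Fintype.sum_prod_type]
  congr 1
  refine Finset.sum_congr rfl fun k _ => ?_
  rw [Fintype.sum_option, Fintype.sum_sum_type]

/-- the partial map of `A_a` -/
def fA (a : Fin m) : Ix κ m → Option (Ix κ m)
  | some (k, some (Sum.inl b)) => if b = a then some (some (k, some (Sum.inl a))) else none
  | _ => none

/-- the partial map of `B_a` -/
def fB (a : Fin m) : Ix κ m → Option (Ix κ m)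
  | some (k, some (Sum.inl b)) => if b = a then some (some (k, some (Sum.inr a))) else none
  | _ => none

/-- `A_a` -/
def opA (r : ℝ) (a : Fin m) : PiLp 2 (fun _ : Ix κ m => H) →L[ℂ] PiLp 2 (fun _ : Ix κ m => H) :=
  pm (fA a) r

/-- `B_a` -/
def opB (r : ℝ) (a : Fin m) : PiLp 2 (fun _ : Ix κ m => H) →L[ℂ] PiLp 2 (fun _ : Ix κ m => H) :=
  pm (fB a) r

theorem opA_none (r : ℝ) (a : Fin m) (v : PiLp 2 (fun _ : Ix κ m => H)) :
    opA r a v none = 0 := pm_apply_none rfl _ _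

theorem opA_base (r : ℝ) (a : Fin m) (v : PiLp 2 (fun _ : Ix κ m => H)) (k : κ) :
    opA r a v (some (k, none)) = 0 := pm_apply_none rfl _ _

theorem opA_inr (r : ℝ) (a b : Fin m) (v : PiLp 2 (fun _ : Ix κ m => H)) (k : κ) :
    opA r a v (some (k, some (Sum.inr b))) = 0 := pm_apply_none rfl _ _

theorem opA_inl (r : ℝ) (a b : Fin m) (v : PiLp 2 (fun _ : Ix κ m => H)) (k : κ) :
    opA r a v (some (k, some (Sum.inl b))) =
      if b = a then (r : ℂ) • v (some (k, some (Sum.inl a))) else 0 := by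
  by_cases h : b = a
  · rw [if_pos h]
    exact pm_apply_some (by simp [fA, h]) _ _
  · rw [if_neg h]
    exact pm_apply_none (by simp [fA, h]) _ _

theorem opB_none (r : ℝ) (a : Fin m) (v : PiLp 2 (fun _ : Ix κ m => H)) :
    opB r a v none = 0 := pm_apply_none rfl _ _

theorem opB_base (r : ℝ) (a : Fin m) (v : PiLp 2 (fun _ : Ix κ m => H)) (k : κ) :
    opB r a v (some (k, none)) = 0 := pm_apply_none rfl _ _

theorem opB_inr (r : ℝ) (a b : Fin m) (v : PiLp 2 (fun _ : Ix κ m => H)) (k : κ) :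
    opB r a v (some (k, some (Sum.inr b))) = 0 := pm_apply_none rfl _ _

theorem opB_inl (r : ℝ) (a b : Fin m) (v : PiLp 2 (fun _ : Ix κ m => H)) (k : κ) :
    opB r a v (some (k, some (Sum.inl b))) =
      if b = a then (r : ℂ) • v (some (k, some (Sum.inr a))) else 0 := by
  by_cases h : b = a
  · rw [if_pos h]
    exact pm_apply_some (by simp [fB, h]) _ _
  · rw [if_neg h]
    exact pm_apply_none (by simp [fB, h]) _ _

theorem pm_mem (f : J → Option J) (r : ℝ) (M : VonNeumannAlgebra H) :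
    pm f r ∈ (TB.alg (sV H J) M).commutant := sc_mem _ _

theorem opA_mem (r : ℝ) (a : Fin m) (M : VonNeumannAlgebra H) :
    opA r a ∈ (TB.alg (sV H (Ix κ m)) M).commutant := pm_mem _ _ _

theorem opB_mem (r : ℝ) (a : Fin m) (M : VonNeumannAlgebra H) :
    opB r a ∈ (TB.alg (sV H (Ix κ m)) M).commutant := pm_mem _ _ _

theorem norm_sq_Ix (v : PiLp 2 (fun _ : Ix κ m => H)) :
    ‖v‖ ^ 2 = ‖v none‖ ^ 2 + ∑ k, (‖v (some (k, none))‖ ^ 2
      + (∑ a, ‖v (some (k, some (Sum.inl a)))‖ ^ 2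
      + ∑ a, ‖v (some (k, some (Sum.inr a)))‖ ^ 2)) := by
  rw [PiLp.norm_sq_eq_of_L2, sum_Ix]

theorem norm_opA_sq (r : ℝ) (a : Fin m) (v : PiLp 2 (fun _ : Ix κ m => H)) :
    ‖opA r a v‖ ^ 2 = r ^ 2 * ∑ k, ‖v (some (k, some (Sum.inl a)))‖ ^ 2 := by
  rw [norm_sq_Ix, Finset.mul_sum]
  simp only [opA_none, opA_base, opA_inr, opA_inl]
  simp only [norm_zero, ne_eq, OfNat.ofNat_ne_zero, not_false_eq_true, zero_pow, zero_add,
    Finset.sum_const_zero, add_zero]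
  refine Finset.sum_congr rfl fun k _ => ?_
  rw [Finset.sum_eq_single a]
  · rw [if_pos rfl, norm_smul, mul_pow]
    simp
  · intro b _ hb
    simp [hb]
  · simp

theorem norm_opB_sq (r : ℝ) (a : Fin m) (v : PiLp 2 (fun _ : Ix κ m => H)) :
    ‖opB r a v‖ ^ 2 = r ^ 2 * ∑ k, ‖v (some (k, some (Sum.inr a)))‖ ^ 2 := by
  rw [norm_sq_Ix, Finset.mul_sum]
  simp only [opB_none, opB_base, opB_inr, opB_inl]
  simp only [norm_zero, ne_eq, OfNat.ofNat_ne_zero, not_false_eq_true, zero_pow, zero_add,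
    Finset.sum_const_zero, add_zero]
  refine Finset.sum_congr rfl fun k _ => ?_
  rw [Finset.sum_eq_single a]
  · rw [if_pos rfl, norm_smul, mul_pow]
    simp
  · intro b _ hb
    simp [hb]
  · simp

theorem inner_opB_opA (r : ℝ) (a : Fin m) (x : H →L[ℂ] H) (v w : PiLp 2 (fun _ : Ix κ m => H)) :
    ⟪opB r a v, am (Ix κ m) x (opA r a w)⟫_ℂ
      = ∑ k, ⟪(r : ℂ) • v (some (k, some (Sum.inr a))),
          x ((r : ℂ) • w (some (k, some (Sum.inl a))))⟫_ℂ := by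
  rw [PiLp.inner_apply, sum_Ix]
  simp only [opB_none, opB_base, opB_inr, opB_inl, am_apply, opA_none, opA_base, opA_inr, opA_inl]
  simp only [inner_zero_left, Finset.sum_const_zero, add_zero, zero_add]
  refine Finset.sum_congr rfl fun k _ => ?_
  rw [Finset.sum_eq_single a]
  · rw [if_pos rfl, if_pos rfl]
  · intro b _ hb
    simp [hb]
  · simp

end constr


section main

variable {H : Type u} [NormedAddCommGroup H] [InnerProductSpace ℂ H] [CompleteSpace H]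
  {κ : Type} [Fintype κ] [DecidableEq κ] {m : ℕ}

/-- the adapted vector -/
def xiv (μ : Fin m → ℝ) (x₀ : H) (ξ : κ → H) (α β : Fin m → κ → H) :
    PiLp 2 (fun _ : Ix κ m => H) :=
  WithLp.toLp 2 fun i => match i with
    | none => x₀
    | some (k, none) => (((Real.sqrt 3)⁻¹ : ℝ) : ℂ) • ξ k
    | some (k, some (Sum.inl a)) => ((Real.sqrt (μ a / 3) : ℝ) : ℂ) • α a k
    | some (k, some (Sum.inr a)) => ((Real.sqrt (μ a / 3) : ℝ) : ℂ) • β a k

/-- the vectors `η` before projection -/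
def etv (μ : Fin m → ℝ) (η : Fin m → κ → H) (a : Fin m) : PiLp 2 (fun _ : Ix κ m => H) :=
  WithLp.toLp 2 fun i => match i with
    | some (k, none) => if μ a = 0 then 0 else ((Real.sqrt 3 : ℝ) : ℂ) • η a k
    | _ => 0

section apply
variable (μ : Fin m → ℝ) (x₀ : H) (ξ : κ → H) (α β η : Fin m → κ → H) (a : Fin m) (k : κ)

theorem xiv_none : xiv μ x₀ ξ α β none = x₀ := rfl
theorem xiv_base : xiv μ x₀ ξ α β (some (k, none)) = (((Real.sqrt 3)⁻¹ : ℝ) : ℂ) • ξ k := rfl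
theorem xiv_inl : xiv μ x₀ ξ α β (some (k, some (Sum.inl a)))
    = ((Real.sqrt (μ a / 3) : ℝ) : ℂ) • α a k := rfl
theorem xiv_inr : xiv μ x₀ ξ α β (some (k, some (Sum.inr a)))
    = ((Real.sqrt (μ a / 3) : ℝ) : ℂ) • β a k := rfl
theorem etv_none : etv μ η a none = 0 := rfl
theorem etv_base : etv μ η a (some (k, none)) =
    if μ a = 0 then 0 else ((Real.sqrt 3 : ℝ) : ℂ) • η a k := rfl
theorem etv_some (s : Fin m ⊕ Fin m) : etv μ η a (some (k, some s)) = 0 := rfl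

end apply

theorem norm_smul_sq (r : ℝ) (x : H) : ‖(r : ℂ) • x‖ ^ 2 = r ^ 2 * ‖x‖ ^ 2 := by
  rw [norm_smul, mul_pow]
  simp

theorem norm_xiv_sq {μ : Fin m → ℝ} (hμ : ∀ a, 0 ≤ μ a) (x₀ : H) (ξ : κ → H)
    (α β : Fin m → κ → H) : ‖xiv μ x₀ ξ α β‖ ^ 2 = ‖x₀‖ ^ 2 + (1 / 3) * (∑ k, ‖ξ k‖ ^ 2
      + ∑ a, μ a * ∑ k, ‖α a k‖ ^ 2 + ∑ a, μ a * ∑ k, ‖β a k‖ ^ 2) := by
  rw [norm_sq_Ix]
  simp only [xiv_none, xiv_base, xiv_inl, xiv_inr, norm_smul_sq]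
  have h3 : ((Real.sqrt 3)⁻¹) ^ 2 = 1 / 3 := by
    rw [inv_pow, Real.sq_sqrt (by norm_num)]; norm_num
  have h4 : ∀ a, Real.sqrt (μ a / 3) ^ 2 = μ a / 3 := fun a =>
    Real.sq_sqrt (div_nonneg (hμ a) (by norm_num))
  simp only [h3, h4]
  rw [Finset.sum_add_distrib, Finset.sum_add_distrib, Finset.sum_comm (f := fun k a => _),
    Finset.sum_comm (s := Finset.univ) (t := Finset.univ)
      (f := fun k a => μ a / 3 * ‖β a k‖ ^ 2)]
  simp only [← Finset.mul_sum]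
  have e1 : ∀ f : Fin m → ℝ, ∑ a, μ a / 3 * f a = (1 / 3) * ∑ a, μ a * f a := by
    intro f
    rw [Finset.mul_sum]
    exact Finset.sum_congr rfl fun a _ => by ring
  rw [e1, e1]
  ring

theorem norm_etv_sq_le {μ : Fin m → ℝ} (η : Fin m → κ → H) (a : Fin m) {R : ℝ}
    (h : ∑ k, ‖η a k‖ ^ 2 ≤ R ^ 2) : ‖etv μ η a‖ ^ 2 ≤ 3 * R ^ 2 := by
  rw [norm_sq_Ix]
  simp only [etv_none, etv_base, etv_some, norm_zero]
  by_cases h0 : μ a = 0
  · simp only [h0, if_true, norm_zero]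
    simp
    positivity
  · simp only [h0, if_false, norm_smul_sq]
    have h3 : (Real.sqrt 3) ^ 2 = 3 := Real.sq_sqrt (by norm_num)
    simp only [h3]
    simp
    rw [← Finset.mul_sum]
    linarith

theorem sqrt_mul_sqrt_div {t : ℝ} (ht : 0 < t) : Real.sqrt (3 / t) * Real.sqrt (t / 3) = 1 := by
  rw [← Real.sqrt_mul (by positivity)]
  have : 3 / t * (t / 3) = 1 := by field_simp
  rw [this, Real.sqrt_one]

/-- `⟪B_a ξ', x A_a ξ'⟫ = ⟪β_a, x α_a⟫` -/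
theorem inner_B_A {μ : Fin m → ℝ} (hμ : ∀ a, 0 ≤ μ a) (x₀ : H) (ξ : κ → H)
    (α β : Fin m → κ → H) (a : Fin m) (x : H →L[ℂ] H) :
    ⟪opB (Real.sqrt (3 / μ a)) a (xiv μ x₀ ξ α β),
      am (Ix κ m) x (opA (Real.sqrt (3 / μ a)) a (xiv μ x₀ ξ α β))⟫_ℂ
      = if μ a = 0 then 0 else ∑ k, ⟪β a k, x (α a k)⟫_ℂ := by
  rw [inner_opB_opA]
  simp only [xiv_inl, xiv_inr, smul_smul]
  by_cases h0 : μ a = 0
  · simp [h0]
  · rw [if_neg h0]
    have hpos : 0 < μ a := lt_of_le_of_ne (hμ a) (Ne.symm h0)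
    have : ((Real.sqrt (3 / μ a) : ℝ) : ℂ) * ((Real.sqrt (μ a / 3) : ℝ) : ℂ) = 1 := by
      rw [← Complex.ofReal_mul, sqrt_mul_sqrt_div hpos, Complex.ofReal_one]
    simp only [this, one_smul]

/-- `⟪η', x ξ'⟫ = ⟪η, x ξ⟫` -/
theorem inner_etv (μ : Fin m → ℝ) (x₀ : H) (ξ : κ → H) (α β η : Fin m → κ → H) (a : Fin m)
    (x : H →L[ℂ] H) :
    ⟪etv μ η a, am (Ix κ m) x (xiv μ x₀ ξ α β)⟫_ℂ
      = if μ a = 0 then 0 else ∑ k, ⟪η a k, x (ξ k)⟫_ℂ := by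
  rw [PiLp.inner_apply, sum_Ix]
  simp only [etv_none, etv_base, etv_some, am_apply, xiv_base, inner_zero_left,
    Finset.sum_const_zero, add_zero, zero_add]
  by_cases h0 : μ a = 0
  · simp [h0]
  · simp only [if_neg h0]
    refine Finset.sum_congr rfl fun k _ => ?_
    rw [map_smul, inner_smul_left, inner_smul_right, Complex.conj_ofReal, ← mul_assoc,
      ← Complex.ofReal_mul, mul_inv_cancel₀ (by positivity), Complex.ofReal_one, one_mul]

theorem norm_A_xiv_sq {μ : Fin m → ℝ} (hμ : ∀ a, 0 ≤ μ a) (x₀ : H) (ξ : κ → H)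
    (α β : Fin m → κ → H) (a : Fin m) (h : ∑ k, ‖α a k‖ ^ 2 ≤ 1) :
    ‖opA (Real.sqrt (3 / μ a)) a (xiv μ x₀ ξ α β)‖ ≤ 1 := by
  have h1 : ‖opA (Real.sqrt (3 / μ a)) a (xiv μ x₀ ξ α β)‖ ^ 2 ≤ 1 := by
    rw [norm_opA_sq]
    simp only [xiv_inl, norm_smul_sq]
    rw [Real.sq_sqrt (div_nonneg (by norm_num) (hμ a)),
      Real.sq_sqrt (div_nonneg (hμ a) (by norm_num)), ← Finset.mul_sum, ← mul_assoc]
    by_cases h0 : μ a = 0
    · simp [h0]
    · have : 3 / μ a * (μ a / 3) = 1 := by field_simp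
      rw [this, one_mul]
      exact h
  nlinarith [norm_nonneg (opA (Real.sqrt (3 / μ a)) a (xiv μ x₀ ξ α β))]

theorem norm_B_xiv_sq {μ : Fin m → ℝ} (hμ : ∀ a, 0 ≤ μ a) (x₀ : H) (ξ : κ → H)
    (α β : Fin m → κ → H) (a : Fin m) (h : ∑ k, ‖β a k‖ ^ 2 ≤ 1) :
    ‖opB (Real.sqrt (3 / μ a)) a (xiv μ x₀ ξ α β)‖ ≤ 1 := by
  have h1 : ‖opB (Real.sqrt (3 / μ a)) a (xiv μ x₀ ξ α β)‖ ^ 2 ≤ 1 := by
    rw [norm_opB_sq]
    simp only [xiv_inr, norm_smul_sq]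
    rw [Real.sq_sqrt (div_nonneg (by norm_num) (hμ a)),
      Real.sq_sqrt (div_nonneg (hμ a) (by norm_num)), ← Finset.mul_sum, ← mul_assoc]
    by_cases h0 : μ a = 0
    · simp [h0]
    · have : 3 / μ a * (μ a / 3) = 1 := by field_simp
      rw [this, one_mul]
      exact h
  nlinarith [norm_nonneg (opB (Real.sqrt (3 / μ a)) a (xiv μ x₀ ξ α β))]

theorem avg_A {μ : Fin m → ℝ} (hμ : ∀ a, 0 ≤ μ a) (e : PiLp 2 (fun _ : Ix κ m => H)) :
    ∑ a, μ a * ‖opA (Real.sqrt (3 / μ a)) a e‖ ^ 2 ≤ 3 * ‖e‖ ^ 2 := by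
  have h1 : ∀ a, μ a * ‖opA (Real.sqrt (3 / μ a)) a e‖ ^ 2
      ≤ 3 * ∑ k, ‖e (some (k, some (Sum.inl a)))‖ ^ 2 := by
    intro a
    rw [norm_opA_sq, Real.sq_sqrt (div_nonneg (by norm_num) (hμ a)), ← mul_assoc]
    have hs : 0 ≤ ∑ k, ‖e (some (k, some (Sum.inl a)))‖ ^ 2 :=
      Finset.sum_nonneg fun k _ => sq_nonneg _
    refine mul_le_mul_of_nonneg_right ?_ hs
    by_cases h0 : μ a = 0
    · simp [h0]
    · have : μ a * (3 / μ a) = 3 := by field_simp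
      exact this.le
  refine (Finset.sum_le_sum fun a _ => h1 a).trans ?_
  rw [← Finset.mul_sum, Finset.sum_comm, norm_sq_Ix]
  refine mul_le_mul_of_nonneg_left ?_ (by norm_num)
  refine le_add_of_nonneg_of_le (sq_nonneg _) (Finset.sum_le_sum fun k _ => ?_)
  refine le_add_of_nonneg_of_le (sq_nonneg _) (le_add_of_nonneg_right ?_)
  exact Finset.sum_nonneg fun a _ => sq_nonneg _

theorem cyc_minimal {N : VonNeumannAlgebra H} {ξ h : H} (hh : h ∈ RvD.cyc N ξ) {S : Set H}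
    (hS : IsClosed S) (hn : ∀ n ∈ N, n ξ ∈ S) : h ∈ S := by
  rw [← hS.closure_eq, Metric.mem_closure_iff]
  intro ε hε
  obtain ⟨x, hx, hxh⟩ := RvD.exists_of_mem_cyc hh hε
  refine ⟨x ξ, hn x hx, ?_⟩
  rw [dist_eq_norm, norm_sub_rev]
  exact hxh

theorem am_sum_smul {ι : Type*} (s : Finset ι) (c : ι → ℂ) (x : ι → H →L[ℂ] H) :
    ∑ a ∈ s, c a • am (Ix κ m) (x a) = am (Ix κ m) (∑ a ∈ s, c a • x a) := by
  ext v i
  simp only [am_apply, ContinuousLinearMap.sum_apply, ContinuousLinearMap.smul_apply]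
  rw [WithLp.ofLp_sum, Finset.sum_apply]
  simp


end main

section abs

variable {G : Type u} [NormedAddCommGroup G] [InnerProductSpace ℂ G] [CompleteSpace G]

/-- abstract version: from data at the vector `ξ` to an adapted relation. -/
theorem adapted_of {m : ℕ} (M N : VonNeumannAlgebra G) {R v : ℝ} (μ : Fin m → ℝ)
    (μ_nonneg : ∀ a, 0 ≤ μ a) (μ_sum : ∑ a, μ a = 1) (ξ : G) (norm_ξ : ‖ξ‖ = 1)
    (Y A B : Fin m → (G →L[ℂ] G)) (Y_mem : ∀ a, Y a ∈ M) (norm_Y : ∀ a, ‖Y a‖ ≤ 1)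
    (A_memM : ∀ a, A a ∈ M.commutant) (A_memN : ∀ a, A a ∈ N.commutant)
    (B_memM : ∀ a, B a ∈ M.commutant) (B_memN : ∀ a, B a ∈ N.commutant)
    (norm_Aξ : ∀ a, ‖A a ξ‖ ≤ 1) (norm_Bξ : ∀ a, ‖B a ξ‖ ≤ 1)
    (avg : ∀ e : G, ∑ a, μ a * ‖A a e‖ ^ 2 ≤ 3 * ‖e‖ ^ 2)
    (η : Fin m → G) (norm_η : ∀ a, ‖η a‖ ≤ R)
    (hst : ∀ a, ∀ n ∈ N, ⟪B a ξ, n (A a ξ)⟫_ℂ = ⟪η a, n ξ⟫_ℂ)
    (hrel : ∀ n ∈ N, ∑ a, ((μ a : ℂ) * ⟪η a, n ξ⟫_ℂ) • Y a = 0)
    (hv : ∑ a, (μ a : ℂ) * ⟪B a ξ, Y a (A a ξ)⟫_ℂ = (v : ℂ)) : Nonempty (Adapted M N R v) := by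
  obtain ⟨p, hp⟩ : ∃ p, p = RvD.ee N.commutant ξ := ⟨_, rfl⟩
  have hpn : ∀ n ∈ N, p (n ξ) = n ξ := fun n hn => by rw [hp]; exact RvD.ee_comm_apply hn
  have hpsa : star p = p := by rw [hp]; exact RvD.ee_star _ _
  have hpid : ∀ h, p (p h) = p h := by rw [hp]; exact RvD.ee_idem_apply _ _
  have hdense : ∀ h, p h = h → ∀ S : Set G, IsClosed S → (∀ n ∈ N, n ξ ∈ S) → h ∈ S := by
    intro h hh S hS hn
    rw [hp] at hh
    have h1 : h ∈ RvD.cyc N.commutant.commutant ξ := RvD.ee_eq_self_iff.1 hh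
    rw [VonNeumannAlgebra.commutant_commutant] at h1
    exact cyc_minimal h1 hS hn
  have hpη : ∀ a h, ⟪p (η a), h⟫_ℂ = ⟪η a, p h⟫_ℂ := by
    intro a h
    conv_lhs => rw [← hpsa]
    rw [RvD.inner_star_left]
  have hstar0 : ∀ a, ∀ n ∈ N, ⟪B a ξ, n (A a ξ)⟫_ℂ = ⟪p (η a), n ξ⟫_ℂ := by
    intro a n hn
    rw [hpη, hpn n hn]
    exact hst a n hn
  refine ⟨{
    m := m
    μ := μ
    μ_nonneg := μ_nonneg
    μ_sum := μ_sum
    ξ := ξ
    norm_ξ := norm_ξ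
    Y := Y
    Y_mem := Y_mem
    norm_Y := norm_Y
    A := A
    B := B
    A_memM := A_memM
    A_memN := A_memN
    B_memM := B_memM
    B_memN := B_memN
    norm_Aξ := norm_Aξ
    norm_Bξ := norm_Bξ
    avg := avg
    η := fun a => p (η a)
    norm_η := fun a => ?_
    p := p
    p_mem := by rw [hp]; exact RvD.ee_mem _ _
    p_sa := hpsa
    p_idem := by rw [hp]; exact RvD.ee_idem _ _
    p_ξ := by rw [hp]; exact RvD.ee_self _ _
    p_η := fun a => hpid _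
    p_dense := hdense
    star_id := ?_
    rel := ?_
    value := hv }⟩
  · rw [hp]
    exact (RvD.ee_norm_le _ _ _).trans (norm_η a)
  · intro a n hn h hh
    have hc : IsClosed {h : G | ⟪B a ξ, n (A a h)⟫_ℂ = ⟪p (η a), n h⟫_ℂ} :=
      isClosed_eq (by fun_prop) (by fun_prop)
    refine hdense h hh _ hc fun n' hn' => ?_
    have e1 : A a (n' ξ) = n' (A a ξ) := (RvD.comm_apply hn' (A_memN a) ξ).symm
    have h2 := hstar0 a (n * n') (mul_mem hn hn')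
    simp only [ContinuousLinearMap.mul_apply] at h2
    change ⟪B a ξ, n (A a (n' ξ))⟫_ℂ = ⟪p (η a), n (n' ξ)⟫_ℂ
    rw [e1, h2]
  · intro h
    have h1 : ∀ a, ⟪p (η a), h⟫_ℂ = ⟪p (η a), p h⟫_ℂ := by
      intro a
      rw [hpη, hpη, hpid]
    simp only [h1]
    have hc : IsClosed {h : G | ∑ a, ((μ a : ℂ) * ⟪p (η a), h⟫_ℂ) • Y a = 0} :=
      isClosed_eq (by fun_prop) continuous_const
    refine hdense (p h) (hpid h) _ hc fun n hn => ?_
    change ∑ a, ((μ a : ℂ) * ⟪p (η a), n ξ⟫_ℂ) • Y a = 0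
    have h2 : ∀ a, ⟪p (η a), n ξ⟫_ℂ = ⟪η a, n ξ⟫_ℂ := by
      intro a
      rw [hpη, hpn n hn]
    simp only [h2]
    exact hrel n hn

end abs

section main2

variable {H : Type u} [NormedAddCommGroup H] [InnerProductSpace ℂ H] [CompleteSpace H]
  {κ : Type} [Fintype κ] [DecidableEq κ] {m : ℕ}

theorem exists_pad [Nontrivial H] {μ : Fin m → ℝ} (hμ : ∀ a, 0 ≤ μ a) (hμ1 : ∑ a, μ a = 1)
    {ξ : κ → H} {α β : Fin m → κ → H}
    (hξ : ∑ k, ‖ξ k‖ ^ 2 ≤ 1) (hα : ∀ a, ∑ k, ‖α a k‖ ^ 2 ≤ 1)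
    (hβ : ∀ a, ∑ k, ‖β a k‖ ^ 2 ≤ 1) : ∃ x₀ : H, ‖xiv μ x₀ ξ α β‖ = 1 := by
  have h1 : ∑ a, μ a * ∑ k, ‖α a k‖ ^ 2 ≤ 1 := by
    rw [← hμ1]
    exact Finset.sum_le_sum fun a _ => mul_le_of_le_one_right (hμ a) (hα a)
  have h2 : ∑ a, μ a * ∑ k, ‖β a k‖ ^ 2 ≤ 1 := by
    rw [← hμ1]
    exact Finset.sum_le_sum fun a _ => mul_le_of_le_one_right (hμ a) (hβ a)
  obtain ⟨t, ht⟩ : ∃ t : ℝ, t = (1 / 3) * (∑ k, ‖ξ k‖ ^ 2
    + ∑ a, μ a * ∑ k, ‖α a k‖ ^ 2 + ∑ a, μ a * ∑ k, ‖β a k‖ ^ 2) := ⟨_, rfl⟩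
  have ht1 : t ≤ 1 := by rw [ht]; linarith
  obtain ⟨u, hu⟩ := exists_norm_eq H (Real.sqrt_nonneg (1 - t))
  refine ⟨u, ?_⟩
  have h3 : ‖xiv μ u ξ α β‖ ^ 2 = 1 := by
    rw [norm_xiv_sq hμ, hu, Real.sq_sqrt (by linarith), ← ht]
    ring
  have h4 := norm_nonneg (xiv μ u ξ α β)
  nlinarith

/-- THE ADAPTED RELATION -/
theorem exists_adapted [Nontrivial H] (M N : VonNeumannAlgebra H) {R : ℝ} (hR : 0 ≤ R)
    (μ : Fin m → ℝ) (Y : Fin m → H →L[ℂ] H) (ξ : κ → H) (α β η : Fin m → κ → H)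
    (hμ : ∀ a, 0 ≤ μ a) (hμ1 : ∑ a, μ a = 1) (hY : ∀ a, Y a ∈ M) (hY1 : ∀ a, ‖Y a‖ ≤ 1)
    (hξ : ∑ k, ‖ξ k‖ ^ 2 ≤ 1) (hα : ∀ a, ∑ k, ‖α a k‖ ^ 2 ≤ 1) (hβ : ∀ a, ∑ k, ‖β a k‖ ^ 2 ≤ 1)
    (hη : ∀ a, ∑ k, ‖η a k‖ ^ 2 ≤ R ^ 2)
    (hst : ∀ a, ∀ n ∈ N, ∑ k, ⟪β a k, n (α a k)⟫_ℂ = ∑ k, ⟪η a k, n (ξ k)⟫_ℂ)
    (hrel : ∀ n ∈ N, ∑ a, ((μ a : ℂ) * ∑ k, ⟪η a k, n (ξ k)⟫_ℂ) • Y a = 0)
    (v : ℝ) (hv : ∑ a, (μ a : ℂ) * ∑ k, ⟪β a k, Y a (α a k)⟫_ℂ = (v : ℂ)) :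
    Nonempty (Adapted (TB.alg (sV H (Ix κ m)) M) (TB.alg (sV H (Ix κ m)) N)
      (Real.sqrt 3 * R) v) := by
  obtain ⟨x₀, hx₀⟩ := exists_pad hμ hμ1 hξ hα hβ
  refine adapted_of _ _ μ hμ hμ1 (xiv μ x₀ ξ α β) hx₀ (fun a => am (Ix κ m) (Y a))
    (fun a => opA (Real.sqrt (3 / μ a)) a) (fun a => opB (Real.sqrt (3 / μ a)) a)
    (fun a => am_mem (hY a)) (fun a => norm_am_le (hY1 a)) (fun a => opA_mem _ _ _)
    (fun a => opA_mem _ _ _) (fun a => opB_mem _ _ _) (fun a => opB_mem _ _ _)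
    (fun a => norm_A_xiv_sq hμ _ _ _ _ a (hα a)) (fun a => norm_B_xiv_sq hμ _ _ _ _ a (hβ a))
    (avg_A hμ) (fun a => etv μ η a) (fun a => ?_) ?_ ?_ ?_
  · have h1 := norm_etv_sq_le (μ := μ) η a (hη a)
    refine le_of_sq_le_sq ?_ (by positivity)
    rw [mul_pow, Real.sq_sqrt (by norm_num)]
    exact h1
  · intro a n hn
    obtain ⟨x, hx, rfl⟩ := exists_of_mem hn
    have e1 := inner_B_A hμ x₀ ξ α β a x
    have e2 := inner_etv μ x₀ ξ α β η a x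
    rw [hst a x hx] at e1
    exact e1.trans e2.symm
  · intro n hn
    obtain ⟨x, hx, rfl⟩ := exists_of_mem hn
    have h2 : ∀ a, (μ a : ℂ) * ⟪etv μ η a, TB.lft (sV H (Ix κ m)) (fun _ _ => x)
        (xiv μ x₀ ξ α β)⟫_ℂ = (μ a : ℂ) * ∑ k, ⟪η a k, x (ξ k)⟫_ℂ := by
      intro a
      have e2 := inner_etv μ x₀ ξ α β η a x
      unfold am at e2
      rw [e2]
      by_cases h0 : μ a = 0
      · simp [h0]
      · rw [if_neg h0]
    simp only [h2]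
    rw [am_sum_smul, hrel x hx]
    ext v i
    simp
  · rw [← hv]
    refine Finset.sum_congr rfl fun a _ => ?_
    rw [inner_B_A hμ]
    by_cases h0 : μ a = 0
    · simp [h0]
    · rw [if_neg h0]

/-- (N1) as a reduction: it suffices to bound the values of adapted relations. -/
theorem relBd_of_adapted {δ R Λ : ℝ} (hR : 0 ≤ R) (hΛ : 0 ≤ Λ) (M N : VonNeumannAlgebra H)
    (hSC : TB.SC δ M N)
    (hA : ∀ (G : Type u) [NormedAddCommGroup G] [InnerProductSpace ℂ G] [CompleteSpace G]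
      (M₁ N₁ : VonNeumannAlgebra G), TB.SC δ M₁ N₁ → ∀ v : ℝ, 0 ≤ v →
      Adapted M₁ N₁ (Real.sqrt 3 * R) v → v ≤ Λ) : Slot.RelBd M N R Λ := by
  classical
  intro κ ι _ _ μ Y ξ α β η hμ hμ1 hY hY1 hξ hα hβ hη hst hrel
  rcases subsingleton_or_nontrivial H with hH | hH
  · have h0 : ∀ a k, ⟪β a k, Y a (α a k)⟫_ℂ = 0 := by
      intro a k
      rw [Subsingleton.elim (β a k) 0, inner_zero_left]
    simp only [h0]
    simpa using hΛ
  · obtain ⟨z, hz⟩ : ∃ z : ℂ, z = ∑ a, (μ a : ℂ) * ∑ k, ⟪β a k, Y a (α a k)⟫_ℂ := ⟨_, rfl⟩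
    rw [← hz]
    obtain ⟨c, hc1, hc⟩ : ∃ c : ℂ, ‖c‖ = 1 ∧ c * z = (‖z‖ : ℂ) := by
      by_cases h0 : z = 0
      · exact ⟨1, by simp, by simp [h0]⟩
      · have hz0 : (‖z‖ : ℂ) ≠ 0 := by
          rw [Ne, Complex.ofReal_eq_zero, norm_eq_zero]
          exact h0
        refine ⟨conj z / ‖z‖, ?_, ?_⟩
        · rw [norm_div, RCLike.norm_conj]
          simp only [Complex.norm_real, norm_norm]
          exact div_self (norm_ne_zero_iff.2 h0)
        · rw [div_mul_eq_mul_div, Complex.conj_mul', pow_two, mul_div_assoc, div_self hz0, mul_one]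
    obtain ⟨e⟩ := Fintype.truncEquivFin ι |>.nonempty
    have key := exists_adapted (κ := κ) M N hR (fun i => μ (e.symm i)) (fun i => Y (e.symm i)) ξ
      (fun i k => c • α (e.symm i) k) (fun i => β (e.symm i))
      (fun i k => conj c • η (e.symm i) k) (fun i => hμ _)
      (by rw [← hμ1]; exact Equiv.sum_comp e.symm μ) (fun i => hY _) (fun i => hY1 _) hξ
      (fun i => by simpa [norm_smul, hc1] using hα (e.symm i)) (fun i => hβ _)
      (fun i => by simpa [norm_smul, hc1] using hη (e.symm i)) ?_ ?_ ‖z‖ ?_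
    · obtain ⟨ad⟩ := key
      exact hA _ _ _ (hSC.amp sV_isFrame) _ (norm_nonneg z) ad
    · intro i n hn
      simp only [map_smul, inner_smul_right, inner_smul_left, Complex.conj_conj, ← Finset.mul_sum]
      rw [hst _ n hn]
    · intro n hn
      have h1 := hrel n hn
      rw [← Equiv.sum_comp e.symm] at h1
      simp only [inner_smul_left, Complex.conj_conj, ← Finset.mul_sum]
      have h2 : ∀ i, (((μ (e.symm i) : ℝ) : ℂ) * (c * ∑ k, ⟪η (e.symm i) k, n (ξ k)⟫_ℂ))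
          • Y (e.symm i) = c • (((μ (e.symm i) : ℂ) * ∑ k, ⟪η (e.symm i) k, n (ξ k)⟫_ℂ)
            • Y (e.symm i)) := by
        intro i
        rw [smul_smul]
        congr 1
        ring
      simp only [h2]
      rw [← Finset.smul_sum, h1, smul_zero]
    · rw [← hc, hz, ← Equiv.sum_comp e.symm, Finset.mul_sum]
      refine Finset.sum_congr rfl fun i _ => ?_
      simp only [map_smul, inner_smul_right, ← Finset.mul_sum]
      ring

end main2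

end Crest.Agent.R078.Z.N1
end
private theorem rz_1c5500c9e7 : type_of% @_root_.Crest.Agent.R078.Z.N1.fA.eq_1 := @_root_.Crest.Agent.R078.Z.N1.fA.eq_1 -- L202
private theorem rz_c3ec1624a8 : type_of% @_root_.Crest.Agent.R078.Z.N1.fB.eq_1 := @_root_.Crest.Agent.R078.Z.N1.fB.eq_1 -- L207
end

-- ▼ part R078/S103KeyIneq445

set_option autoImplicit false
set_option linter.unusedSectionVars false
open scoped InnerProductSpace
open Crest.Agent.R078.Z.Slot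
open Crest.Agent.R078.S103.LSys

namespace Crest.Agent.R078.Z.Comp

universe u

/-- TB final: every adapted relation on a stably close pair has slot instances. -/
def TBFinal : Prop :=
  ∀ (H : Type u) [NormedAddCommGroup H] [InnerProductSpace ℂ H] [CompleteSpace H]
    (M N : VonNeumannAlgebra H) (δ R K v : ℝ) (ad : N1.Adapted M N R v),
    0 ≤ δ → 1 ≤ R → 1 ≤ K → TB.SC δ M N → (∀ a, ‖ad.A a‖ ≤ K) → (∀ a, ‖ad.B a‖ ≤ K) →
    TBInst M ad.μ ad.ξ ad.Y ad.A ad.B ad.η δ R K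

/-- LL final: the letter lemma. -/
def LLFinal : Prop :=
  ∀ (H : Type u) [NormedAddCommGroup H] [InnerProductSpace ℂ H] [CompleteSpace H]
    (M : VonNeumannAlgebra H) (ξ : H), ‖ξ‖ = 1 → ∀ (m : ℕ) (Y A B : Fin m → (H →L[ℂ] H)),
    (∀ a, Y a ∈ M) → (∀ a, ‖Y a‖ ≤ 1) → (∀ a, A a ∈ M.commutant) → (∀ a, B a ∈ M.commutant) →
    LLOut M ξ Y A B

/-- THE KEY INEQUALITY from TB and LL. -/
theorem keyIneq (hTB : TBFinal.{u}) (hLL : LLFinal.{u}) : Key.KeyIneq.{u} := by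
  intro δ R Λ hδ hR hΛ hall H _ _ _ M N hSC
  have h3 : (1 : ℝ) ≤ Real.sqrt 3 := by rw [Real.one_le_sqrt]; norm_num
  have hR' : 1 ≤ Real.sqrt 3 * R := by nlinarith
  refine N1.relBd_of_adapted (by linarith) (by positivity) M N hSC ?_
  intro G _ _ _ M₁ N₁ hSC₁ v _ ad
  -- the constant `K`
  obtain ⟨K, hK1, hKA, hKB⟩ : ∃ K : ℝ, 1 ≤ K ∧ (∀ a, ‖ad.A a‖ ≤ K) ∧ (∀ a, ‖ad.B a‖ ≤ K) := by
    refine ⟨1 + ∑ a, ‖ad.A a‖ + ∑ a, ‖ad.B a‖, ?_, fun a => ?_, fun a => ?_⟩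
    · have h1 : 0 ≤ ∑ a, ‖ad.A a‖ := Finset.sum_nonneg fun a _ => norm_nonneg _
      have h2 : 0 ≤ ∑ a, ‖ad.B a‖ := Finset.sum_nonneg fun a _ => norm_nonneg _
      linarith
    · have h1 : ‖ad.A a‖ ≤ ∑ a, ‖ad.A a‖ :=
        Finset.single_le_sum (f := fun a => ‖ad.A a‖) (fun a _ => norm_nonneg _)
          (Finset.mem_univ a)
      have h2 : 0 ≤ ∑ a, ‖ad.B a‖ := Finset.sum_nonneg fun a _ => norm_nonneg _
      linarith
    · have h1 : ‖ad.B a‖ ≤ ∑ a, ‖ad.B a‖ :=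
        Finset.single_le_sum (f := fun a => ‖ad.B a‖) (fun a _ => norm_nonneg _)
          (Finset.mem_univ a)
      have h2 : 0 ≤ ∑ a, ‖ad.A a‖ := Finset.sum_nonneg fun a _ => norm_nonneg _
      linarith
  have key := value_le M₁ ad.μ ad.ξ ad.Y ad.A ad.B ad.η hδ hR' (by linarith : 0 ≤ K) hΛ
    ad.μ_nonneg ad.μ_sum ad.Y_mem ad.norm_Y ad.rel
    (hLL G M₁ ad.ξ ad.norm_ξ ad.m ad.Y ad.A ad.B ad.Y_mem ad.norm_Y ad.A_memM ad.B_memM)
    (hTB G M₁ N₁ δ _ K v ad hδ hR' hK1 hSC₁ hKA hKB) hall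
  have hval : (val ad.μ ad.ξ ad.Y ad.A ad.B).re = v := by
    have : val ad.μ ad.ξ ad.Y ad.A ad.B = (v : ℂ) := ad.value
    rw [this, Complex.ofReal_re]
  rwa [hval] at key

end Crest.Agent.R078.Z.Comp
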