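import Mathlib

/-!
# Row 78 (S0103), end step, block LI-A (abstract part): near-multiplicative maps

`A`, `B` complete normed star algebras, `AH A`: approximate vanishing of `H²(A, A)` with norm
control.  A *-preserving bijection `β : A → B` which is almost multiplicative is close to a
*-homomorphism.
-/

set_option autoImplicit false
set_option linter.unusedSectionVars false

open Topology Filter

namespace Crest.Agent.R078.Z.Newton

noncomputable section

/-- the Hochschild differential of a linear map -/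
def d1 {A : Type*} [Ring A] (φ : A → A) (x y : A) : A := x * φ y - φ (x * y) + φ x * y

/-- the Hochschild differential of a bilinear map -/
def d2 {A : Type*} [Ring A] (f : A → A → A) (x y z : A) : A :=
  x * f y z - f (x * y) z + f x (y * z) - f x y * z

/-- Approximate vanishing of the second bounded cohomology with constants. -/
def AH (A : Type*) [NormedRing A] [NormedAlgebra ℂ A] (C₁ C₂ : ℝ) : Prop :=
  ∀ (f : A →L[ℂ] A →L[ℂ] A) (δ : ℝ), 0 ≤ δ →
    (∀ x y z, ‖d2 (fun a b => f a b) x y z‖ ≤ δ * ‖x‖ * ‖y‖ * ‖z‖) →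
    ∃ φ : A →L[ℂ] A, ‖φ‖ ≤ C₁ * (‖f‖ + C₂ * δ) ∧
      ∀ x y, ‖d1 φ x y - f x y‖ ≤ C₂ * δ * ‖x‖ * ‖y‖

variable {A B : Type*} [NormedRing A] [NormedAlgebra ℂ A] [StarRing A] [NormedStarGroup A]
  [StarModule ℂ A] [CompleteSpace A]
  [NormedRing B] [NormedAlgebra ℂ B] [StarRing B] [NormedStarGroup B]
  [StarModule ℂ B] [CompleteSpace B]

/-- the multiplicativity defect -/
def Dft (β : A →L[ℂ] B) (ε : ℝ) : Prop := ∀ x y, ‖β x * β y - β (x * y)‖ ≤ ε * ‖x‖ * ‖y‖

/-- *-preserving -/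
def SP (β : A →L[ℂ] B) : Prop := ∀ x, β (star x) = star (β x)

/-- `x ↦ (φ (x*))*` -/
def dag (φ : A →L[ℂ] B) : A →L[ℂ] B :=
  LinearMap.mkContinuous
    { toFun := fun x => star (φ (star x))
      map_add' := fun x y => by rw [star_add, map_add, star_add]
      map_smul' := fun c x => by
        rw [star_smul, map_smul, star_smul, star_star, RingHom.id_apply] }
    ‖φ‖ (fun x => by
      change ‖star (φ (star x))‖ ≤ _
      rw [norm_star]
      refine (φ.le_opNorm _).trans ?_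
      rw [norm_star])


lemma norm_dag_le (φ : A →L[ℂ] B) : ‖dag φ‖ ≤ ‖φ‖ :=
  LinearMap.mkContinuous_norm_le _ (norm_nonneg _) _

/-- the symmetrised map -/
def sym (φ : A →L[ℂ] B) : A →L[ℂ] B := (1 / 2 : ℂ) • (φ + dag φ)

lemma sym_apply (φ : A →L[ℂ] B) (x : A) : sym φ x = (1 / 2 : ℂ) • (φ x + star (φ (star x))) := rfl

lemma norm_sym_le (φ : A →L[ℂ] B) : ‖sym φ‖ ≤ ‖φ‖ := by
  unfold sym
  refine (norm_smul_le (1 / 2 : ℂ) (φ + dag φ)).trans ?_
  have h1 : ‖φ + dag φ‖ ≤ ‖φ‖ + ‖φ‖ := (norm_add_le _ _).trans (by gcongr; exact norm_dag_le φ)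
  have h2 : ‖(1 / 2 : ℂ)‖ = 1 / 2 := by norm_num
  rw [h2]
  linarith

lemma sym_SP (φ : A →L[ℂ] B) : SP (sym φ) := by
  intro x
  rw [sym_apply, sym_apply, star_star, star_smul, star_add, star_star, add_comm]
  congr 1
  simp

/-- the defect as a bilinear map with values in `B` -/
def defL (β : A →L[ℂ] B) : A →L[ℂ] A →L[ℂ] B :=
  LinearMap.mkContinuous₂
    (LinearMap.mk₂ ℂ (fun x y => β x * β y - β (x * y))
      (fun x x' y => by simp only [map_add, add_mul]; abel)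
      (fun c x y => by simp only [map_smul, smul_mul_assoc, smul_sub])
      (fun x y y' => by simp only [map_add, mul_add]; abel)
      (fun c x y => by simp only [map_smul, mul_smul_comm, smul_sub]))
    (‖β‖ * ‖β‖ + ‖β‖) (fun x y => by
      change ‖β x * β y - β (x * y)‖ ≤ _
      refine (norm_sub_le _ _).trans ?_
      have h1 : ‖β x * β y‖ ≤ (‖β‖ * ‖x‖) * (‖β‖ * ‖y‖) :=
        (norm_mul_le _ _).trans (by gcongr <;> exact β.le_opNorm _)
      have h2 : ‖β (x * y)‖ ≤ ‖β‖ * (‖x‖ * ‖y‖) :=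
        (β.le_opNorm _).trans (by gcongr; exact norm_mul_le _ _)
      linarith)


/-- **One Newton step.** -/
theorem step (hAH : AH A 11 15) (β : A →L[ℂ] B) (γ : B →L[ℂ] A)
    (hβγ : ∀ y, β (γ y) = y) (hγβ : ∀ x, γ (β x) = x) (hβ : ‖β‖ ≤ 2) (hγ : ‖γ‖ ≤ 2)
    (hsp : SP β) {ε : ℝ} (hε0 : 0 ≤ ε) (hε : ε ≤ 1 / 100) (hd : Dft β ε) :
    ∃ β' : A →L[ℂ] B, SP β' ∧ Dft β' (5500 * ε ^ 2) ∧ ‖β' - β‖ ≤ 72 * ε := by
  -- the defect transported to `A`
  let f : A →L[ℂ] A →L[ℂ] A := (ContinuousLinearMap.compL ℂ A B A γ).comp (defL β)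
  have hf : ∀ x y, f x y = γ (β x * β y - β (x * y)) := fun x y => rfl
  have hfb : ∀ x y, ‖f x y‖ ≤ (2 * ε) * ‖x‖ * ‖y‖ := by
    intro x y
    rw [hf]
    calc ‖γ (β x * β y - β (x * y))‖ ≤ ‖γ‖ * ‖β x * β y - β (x * y)‖ := γ.le_opNorm _
      _ ≤ 2 * (ε * ‖x‖ * ‖y‖) := by gcongr; exact hd x y
      _ = (2 * ε) * ‖x‖ * ‖y‖ := by ring
  have hfn : ‖f‖ ≤ 2 * ε := by
    refine ContinuousLinearMap.opNorm_le_bound₂ _ (by positivity) hfb
  have hβf : ∀ x y, β (f x y) = β x * β y - β (x * y) := fun x y => by rw [hf, hβγ]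
  have hγm : ∀ x y, γ (β x * β y) = x * y + f x y := fun x y => by
    rw [hf, map_sub, hγβ]; abel
  -- symmetry
  have hγs : ∀ y, γ (star y) = star (γ y) := fun y => by
    have h1 : β (star (γ y)) = star y := by rw [hsp, hβγ]
    rw [← h1, hγβ]
  have hfs : ∀ x y, star (f x y) = f (star y) (star x) := fun x y => by
    rw [hf, hf, ← hγs, star_sub, star_mul, ← hsp, ← hsp, ← hsp, star_mul]
  -- associativity
  have hass : ∀ x y z, d2 (fun a b => f a b) x y z = f (f x y) z - f x (f y z) := by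
    intro x y z
    have h1 : γ (β x * β y * β z) = (x * y + f x y) * z + f (x * y + f x y) z := by
      have : β x * β y = β (x * y + f x y) := by rw [← hγm, hβγ]
      rw [this, hγm]
    have h2 : γ (β x * (β y * β z)) = x * (y * z + f y z) + f x (y * z + f y z) := by
      have : β y * β z = β (y * z + f y z) := by rw [← hγm, hβγ]
      rw [this, hγm]
    rw [mul_assoc] at h1
    rw [h1] at h2
    unfold d2
    simp only [map_add, add_apply, mul_add, add_mul, mul_assoc] at h2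
    rw [← sub_eq_zero] at h2 ⊢
    rw [← neg_eq_zero, ← h2]
    abel
  have hdel : ∀ x y z, ‖d2 (fun a b => f a b) x y z‖ ≤ (8 * ε ^ 2) * ‖x‖ * ‖y‖ * ‖z‖ := by
    intro x y z
    rw [hass]
    have h1 : ‖f (f x y) z‖ ≤ (2 * ε) * ((2 * ε) * ‖x‖ * ‖y‖) * ‖z‖ :=
      (hfb _ _).trans (by gcongr; exact hfb x y)
    have h2 : ‖f x (f y z)‖ ≤ (2 * ε) * ‖x‖ * ((2 * ε) * ‖y‖ * ‖z‖) :=
      (hfb _ _).trans (by gcongr; exact hfb y z)
    refine (norm_sub_le _ _).trans ((add_le_add h1 h2).trans (le_of_eq ?_))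
    ring
  obtain ⟨φ₀, hφ₀, hφ₀'⟩ := hAH f (8 * ε ^ 2) (by positivity) hdel
  have hφ₀n : ‖φ₀‖ ≤ 36 * ε := by
    refine hφ₀.trans ?_
    nlinarith
  set φ := sym φ₀ with hφ
  have hφn : ‖φ‖ ≤ 36 * ε := (norm_sym_le φ₀).trans hφ₀n
  have hφsp : SP φ := sym_SP φ₀
  have hφd : ∀ x y, ‖d1 φ x y - f x y‖ ≤ (120 * ε ^ 2) * ‖x‖ * ‖y‖ := by
    intro x y
    have h1 : d1 φ x y - f x y = (1 / 2 : ℂ) • ((d1 φ₀ x y - f x y)
        + star (d1 φ₀ (star y) (star x) - f (star y) (star x))) := by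
      have h2 : star (f (star y) (star x)) = f x y := by rw [hfs, star_star, star_star]
      rw [star_sub, h2]
      unfold d1
      rw [hφ]
      simp only [sym_apply, star_add, star_sub, star_mul, star_star, mul_smul_comm,
        smul_mul_assoc, mul_add, add_mul]
      have h3 : f x y = (1 / 2 : ℂ) • (f x y + f x y) := by
        rw [← two_smul ℂ (f x y), smul_smul]; norm_num
      nth_rewrite 1 [h3]
      simp only [smul_add, smul_sub]
      abel
    rw [h1]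
    refine (norm_smul_le _ _).trans ?_
    have h4 : ‖(1 / 2 : ℂ)‖ = 1 / 2 := by norm_num
    have h5 := hφ₀' x y
    have h6 := hφ₀' (star y) (star x)
    rw [norm_star, norm_star] at h6
    have h7 := norm_add_le (d1 φ₀ x y - f x y)
      (star (d1 φ₀ (star y) (star x) - f (star y) (star x)))
    rw [norm_star] at h7
    rw [h4]
    have h8 : ‖d1 (⇑φ₀) x y - (f x) y‖ + ‖d1 (⇑φ₀) (star y) (star x) - (f (star y)) (star x)‖
        ≤ 2 * ((120 * ε ^ 2) * ‖x‖ * ‖y‖) := by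
      refine (add_le_add h5 h6).trans (le_of_eq ?_)
      ring
    linarith
  refine ⟨β - β.comp φ, ?_, ?_, ?_⟩
  · intro x
    simp only [sub_apply, ContinuousLinearMap.comp_apply, star_sub]
    rw [hφsp, hsp, hsp]
  · intro x y
    have hid : (β - β.comp φ) x * (β - β.comp φ) y - (β - β.comp φ) (x * y)
        = - β (d1 φ x y - f x y) - (β x * β (φ y) - β (x * φ y))
          - (β (φ x) * β y - β (φ x * y)) + β (φ x) * β (φ y) := by
      rw [map_sub, hβf]
      unfold d1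
      simp only [sub_apply, ContinuousLinearMap.comp_apply, map_sub, map_add,
        mul_sub, sub_mul]
      abel
    rw [hid]
    have hφx : ∀ x, ‖φ x‖ ≤ 36 * ε * ‖x‖ := fun x => (φ.le_opNorm x).trans (by gcongr)
    have b1 : ‖β (d1 φ x y - f x y)‖ ≤ 2 * ((120 * ε ^ 2) * ‖x‖ * ‖y‖) :=
      (β.le_opNorm _).trans (by gcongr; exact hφd x y)
    have b2 : ‖β x * β (φ y) - β (x * φ y)‖ ≤ ε * ‖x‖ * (36 * ε * ‖y‖) :=
      (hd _ _).trans (by gcongr; exact hφx y)
    have b3 : ‖β (φ x) * β y - β (φ x * y)‖ ≤ ε * (36 * ε * ‖x‖) * ‖y‖ :=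
      (hd _ _).trans (by gcongr; exact hφx x)
    have b4 : ‖β (φ x) * β (φ y)‖ ≤ (2 * (36 * ε * ‖x‖)) * (2 * (36 * ε * ‖y‖)) := by
      refine (norm_mul_le _ _).trans ?_
      gcongr
      · exact (β.le_opNorm _).trans (by gcongr; exact hφx x)
      · exact (β.le_opNorm _).trans (by gcongr; exact hφx y)
    refine (norm_add_le _ _).trans ?_
    refine (add_le_add_left ((norm_sub_le _ _).trans (add_le_add_left (norm_sub_le _ _) _)) _).trans ?_
    rw [norm_neg]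
    have hxy : 0 ≤ ‖x‖ * ‖y‖ := by positivity
    have : 0 ≤ ε ^ 2 * (‖x‖ * ‖y‖) := by positivity
    nlinarith
  · have : β - β.comp φ - β = - β.comp φ := by abel
    rw [this, norm_neg]
    refine (ContinuousLinearMap.opNorm_comp_le _ _).trans ?_
    calc ‖β‖ * ‖φ‖ ≤ 2 * (36 * ε) := by gcongr
      _ = 72 * ε := by ring

/-- Perturbation of an invertible operator. -/
theorem exists_inv (β₀ : A →L[ℂ] B) (γ₀ : B →L[ℂ] A) (h1 : ∀ y, β₀ (γ₀ y) = y)
    (h2 : ∀ x, γ₀ (β₀ x) = x) (hγ : ‖γ₀‖ ≤ 4 / 3) (T : A →L[ℂ] B) (hT : ‖T - β₀‖ ≤ 1 / 8) :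
    ∃ γ : B →L[ℂ] A, (∀ y, T (γ y) = y) ∧ (∀ x, γ (T x) = x) ∧ ‖γ‖ ≤ 2 := by
  set t : A →L[ℂ] A := - γ₀.comp (T - β₀) with ht
  have htn : ‖t‖ ≤ 1 / 6 := by
    rw [ht, norm_neg]
    refine (ContinuousLinearMap.opNorm_comp_le _ _).trans ?_
    calc ‖γ₀‖ * ‖T - β₀‖ ≤ (4 / 3) * (1 / 8) := by gcongr
      _ = 1 / 6 := by norm_num
  have htn' : ‖t‖ < 1 := by linarith
  let u : (A →L[ℂ] A)ˣ := Units.oneSub t htn'
  let s : A →L[ℂ] A := ((u⁻¹ : (A →L[ℂ] A)ˣ) : A →L[ℂ] A)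
  have hu : (u : A →L[ℂ] A) = 1 - t := rfl
  have hs1 : s * (1 - t) = 1 := by rw [← hu]; exact u.inv_mul
  have hs2 : (1 - t) * s = 1 := by rw [← hu]; exact u.mul_inv
  have hux : ∀ x, (1 - t) x = γ₀ (T x) := by
    intro x
    have : (1 - t) x = x + γ₀ (T x - β₀ x) := by
      rw [ht, sub_neg_eq_add]
      rfl
    rw [this, map_sub, h2]
    abel
  have hsn : ‖s‖ ≤ 6 / 5 := by
    have h3 : s = 1 + t * s := by
      have : (1 - t) * s = s - t * s := by rw [sub_mul, one_mul]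
      rw [this] at hs2
      rw [← hs2]; abel
    have h4 : ‖s‖ ≤ 1 + (1 / 6) * ‖s‖ := by
      conv_lhs => rw [h3]
      refine (norm_add_le _ _).trans ?_
      refine add_le_add ContinuousLinearMap.norm_id_le ?_
      exact (norm_mul_le _ _).trans (by gcongr)
    linarith
  refine ⟨s.comp γ₀, fun y => ?_, fun x => ?_, ?_⟩
  · have h5 : γ₀ (T (s (γ₀ y))) = γ₀ y := by
      rw [← hux]
      exact congrArg (fun R : A →L[ℂ] A => R (γ₀ y)) hs2
    have h6 := congrArg β₀ h5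
    rw [h1, h1] at h6
    exact h6
  · change s (γ₀ (T x)) = x
    rw [← hux]
    exact congrArg (fun R : A →L[ℂ] A => R x) hs1
  · refine (ContinuousLinearMap.opNorm_comp_le _ _).trans ?_
    calc ‖s‖ * ‖γ₀‖ ≤ (6 / 5) * (4 / 3) := by gcongr
      _ ≤ 2 := by norm_num

/-- **Newton iteration**: an almost multiplicative *-preserving bijection is close to a
*-isomorphism. -/
theorem newton (hAH : AH A 11 15) (β₀ : A →L[ℂ] B) (γ₀ : B →L[ℂ] A)
    (h1 : ∀ y, β₀ (γ₀ y) = y) (h2 : ∀ x, γ₀ (β₀ x) = x) (hγ : ‖γ₀‖ ≤ 4 / 3) (hβ : ‖β₀‖ ≤ 3 / 2)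
    (hsp : SP β₀) {ε : ℝ} (hε0 : 0 ≤ ε) (hε : ε ≤ 1 / 11000) (hd : Dft β₀ ε) :
    ∃ π : A ≃⋆ₐ[ℂ] B, ∀ x, ‖π x - β₀ x‖ ≤ 144 * ε * ‖x‖ := by
  classical
  let S : ℕ → Type _ := fun n => {β : A →L[ℂ] B // SP β ∧ Dft β (ε / 2 ^ n) ∧
    ‖β - β₀‖ ≤ 144 * ε * (1 - 1 / 2 ^ n)}
  have hpow : ∀ n : ℕ, (1 : ℝ) ≤ 2 ^ n := fun n => one_le_pow₀ (by norm_num)
  have hbd : ∀ (n : ℕ) (β : A →L[ℂ] B), ‖β - β₀‖ ≤ 144 * ε * (1 - 1 / 2 ^ n) →
      ‖β - β₀‖ ≤ 1 / 8 := by
    intro n β h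
    refine h.trans ?_
    have h3 : (0 : ℝ) < 1 / 2 ^ n := by positivity
    nlinarith
  have hstep : ∀ (n : ℕ) (b : S n), ∃ b' : S (n + 1), ‖b'.1 - b.1‖ ≤ 72 * ε * (1 / 2) ^ n := by
    rintro n ⟨β, hβsp, hβd, hβn⟩
    obtain ⟨γ, hγ1, hγ2, hγn⟩ := exists_inv β₀ γ₀ h1 h2 hγ β (hbd n β hβn)
    have hβ2 : ‖β‖ ≤ 2 := by
      have h3 : ‖β‖ ≤ ‖β₀‖ + ‖β - β₀‖ := by
        have := norm_add_le β₀ (β - β₀)
        rwa [add_sub_cancel] at this
      have := hbd n β hβn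
      linarith
    have hle : ε / 2 ^ n ≤ ε := div_le_self hε0 (hpow n)
    have hnn : 0 ≤ ε / 2 ^ n := by positivity
    obtain ⟨β', hsp', hd', hn'⟩ := step hAH β γ hγ1 hγ2 hβ2 hγn hβsp hnn
      (by linarith) hβd
    have e1 : 5500 * (ε / 2 ^ n) ^ 2 ≤ ε / 2 ^ (n + 1) := by
      have e2 : ε / 2 ^ (n + 1) = (1 / 2) * (ε / 2 ^ n) := by rw [pow_succ]; field_simp
      rw [e2]
      nlinarith
    have e3 : 72 * (ε / 2 ^ n) = 72 * ε * (1 / 2) ^ n := by
      rw [one_div, inv_pow]; ring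
    refine ⟨⟨β', hsp', ?_, ?_⟩, by rw [← e3]; exact hn'⟩
    · intro x y
      refine (hd' x y).trans ?_
      gcongr
    · have h4 : ‖β' - β₀‖ ≤ ‖β' - β‖ + ‖β - β₀‖ := by
        have := norm_add_le (β' - β) (β - β₀)
        rwa [sub_add_sub_cancel] at this
      have e4 : (1 : ℝ) / 2 ^ (n + 1) = (1 / 2) * (1 / 2 ^ n) := by rw [pow_succ]; field_simp
      rw [e4]
      have e5 : 72 * (ε / 2 ^ n) = 72 * ε * (1 / 2 ^ n) := by ring
      rw [e5] at hn'
      nlinarith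
  choose F hF using hstep
  let seq : ∀ n, S n := fun n => Nat.rec (motive := S)
    ⟨β₀, hsp, by simpa using hd, by simp⟩ (fun n b => F n b) n
  let u : ℕ → (A →L[ℂ] B) := fun n => (seq n).1
  have hu : ∀ n, dist (u n) (u (n + 1)) ≤ 72 * ε * (1 / 2) ^ n := by
    intro n
    rw [dist_comm, dist_eq_norm]
    exact hF n (seq n)
  have hcau : CauchySeq u := cauchySeq_of_le_geometric (1 / 2) (72 * ε) (by norm_num) hu
  obtain ⟨π, hπ⟩ := cauchySeq_tendsto_of_complete hcau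
  have hπx : ∀ x, Tendsto (fun n => u n x) atTop (𝓝 (π x)) := fun x =>
    ((ContinuousLinearMap.apply ℂ B x).continuous.tendsto π).comp hπ
  have hπn : ‖π - β₀‖ ≤ 144 * ε := by
    refine le_of_tendsto ((continuous_norm.tendsto _).comp (hπ.sub_const β₀)) ?_
    refine Filter.Eventually.of_forall fun n => ?_
    refine (seq n).2.2.2.trans ?_
    have h3 : (0 : ℝ) < 1 / 2 ^ n := by positivity
    nlinarith
  have hπsp : SP π := by
    intro x
    refine tendsto_nhds_unique (hπx (star x)) ?_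
    have h3 : Tendsto (fun n => star (u n x)) atTop (𝓝 (star (π x))) :=
      (continuous_star.tendsto _).comp (hπx x)
    refine h3.congr fun n => ?_
    exact ((seq n).2.1 x).symm
  have hπm : ∀ x y, π (x * y) = π x * π y := by
    intro x y
    have h3 : Tendsto (fun n => u n x * u n y - u n (x * y)) atTop
        (𝓝 (π x * π y - π (x * y))) := ((hπx x).mul (hπx y)).sub (hπx (x * y))
    have h4 : Tendsto (fun n => u n x * u n y - u n (x * y)) atTop (𝓝 0) := by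
      refine squeeze_zero_norm (a := fun n => (ε * ‖x‖ * ‖y‖) * (1 / 2) ^ n) (fun n => ?_) ?_
      · refine ((seq n).2.2.1 x y).trans (le_of_eq ?_)
        rw [one_div, inv_pow]; ring
      · have := (tendsto_pow_atTop_nhds_zero_of_lt_one (r := (1 / 2 : ℝ)) (by norm_num)
          (by norm_num)).const_mul (ε * ‖x‖ * ‖y‖)
        simpa using this
    have h5 := tendsto_nhds_unique h3 h4
    rw [sub_eq_zero] at h5
    exact h5.symm
  obtain ⟨γ, hγ1, hγ2, -⟩ := exists_inv β₀ γ₀ h1 h2 hγ π (hπn.trans (by linarith))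
  refine ⟨{ toFun := π
            invFun := γ
            left_inv := hγ2
            right_inv := hγ1
            map_mul' := hπm
            map_add' := map_add π
            map_star' := hπsp
            map_smul' := map_smul π }, fun x => ?_⟩
  change ‖π x - β₀ x‖ ≤ _
  exact ((π - β₀).le_opNorm x).trans (by gcongr)

end

end Crest.Agent.R078.Z.Newton
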