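import Mathlib
import Crest.Agent.R121.WLim

-- ▼ part R078/S103Sakai975
section

/-!
# Row 78, S0103, Letter Lemma part (A): Sakai's linear Radon–Nikodym theorem for a vector state,
proved by minimising `‖x ξ - h ξ‖` over `0 ≤ h ≤ 1`, `h ∈ M'` (no separation theorem, no Jordan
decomposition).
-/

set_option autoImplicit false
set_option linter.unusedSectionVars false

namespace Crest.Agent.R078.LL975

open scoped InnerProductSpace Topology
open ContinuousLinearMap Filter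

variable {H : Type*} [NormedAddCommGroup H] [InnerProductSpace ℂ H] [CompleteSpace H]

lemma re_inner_nonneg_of_nonneg {a : H →L[ℂ] H} (ha : 0 ≤ a) (v : H) : 0 ≤ (⟪v, a v⟫_ℂ).re :=
  ((ContinuousLinearMap.nonneg_iff_isPositive a).1 ha).re_inner_nonneg_right v

lemma inner_sa {a : H →L[ℂ] H} (ha : star a = a) (v w : H) : ⟪a v, w⟫_ℂ = ⟪v, a w⟫_ℂ := by
  conv_rhs => rw [← ha]
  rw [star_eq_adjoint, adjoint_inner_right]





lemma smul_real_mem {N : VonNeumannAlgebra H} {a : H →L[ℂ] H} (ha : a ∈ N) (t : ℝ) : t • a ∈ N := by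
  have : t • a = (t : ℂ) • a := by ext v; simp
  rw [this]
  exact N.toStarSubalgebra.smul_mem ha _





lemma tendsto_diff {g : H →L[ℂ] H} (h0 : 0 ≤ g) (h1 : g ≤ 1) (ξ : H) :
    Tendsto (fun n : ℕ => (⟪ξ, (g ^ (n + 1)) ξ⟫_ℂ).re - (⟪ξ, (g ^ (n + 2)) ξ⟫_ℂ).re) atTop
      (𝓝 0) := by
  set a : ℕ → ℝ := fun n => (⟪ξ, (g ^ n) ξ⟫_ℂ).re with ha
  have hanti : Antitone a := by
    intro m n hmn
    have := re_inner_nonneg_of_nonneg (sub_nonneg.2 (CStarAlgebra.pow_antitone h0 h1 hmn)) ξ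
    rw [sub_apply, inner_sub_right, Complex.sub_re] at this
    exact sub_nonneg.1 this
  have hbdd : BddBelow (Set.range a) := ⟨0, by
    rintro _ ⟨n, rfl⟩
    exact re_inner_nonneg_of_nonneg (CStarAlgebra.pow_nonneg h0 n) ξ⟩
  have hl := tendsto_atTop_ciInf hanti hbdd
  have h2 := (hl.comp (tendsto_add_atTop_nat 1)).sub (hl.comp (tendsto_add_atTop_nat 2))
  rw [sub_self] at h2
  exact h2




end Crest.Agent.R078.LL975
end

-- ▼ part R078/S103TLam975

/-!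
# Row 78, S0103, Letter Lemma part (A), general weight `lam`: the map `T_lam : M → M'`

For `x ∈ M` there is `h ∈ M'`, `‖h‖ ≤ ‖x‖`, with
`2⟪y ξ, x ξ⟫ = lam ⟪y ξ, h ξ⟫ + lam⁻¹ ⟪h* ξ, y* ξ⟫` for all `y ∈ M'`.
Direct proof: minimise over the unit ball of `M'`.
-/

set_option autoImplicit false
set_option linter.unusedSectionVars false

namespace Crest.Agent.R078.LL975

open scoped InnerProductSpace Topology
open ContinuousLinearMap Filter

variable {H : Type*} [NormedAddCommGroup H] [InnerProductSpace ℂ H] [CompleteSpace H]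

/-- `RN M ξ lam x h` (Radon–Nikodym relation of weight `lam`), the predicate of helper965. -/
def RN (M : VonNeumannAlgebra H) (ξ : H) (lam : ℝ) (x h : H →L[ℂ] H) : Prop :=
  ∀ y ∈ M.commutant, 2 * ⟪y ξ, x ξ⟫_ℂ
    = (lam : ℂ) * ⟪y ξ, h ξ⟫_ℂ + ((lam⁻¹ : ℝ) : ℂ) * ⟪star h ξ, star y ξ⟫_ℂ

/-- the unit ball of a von Neumann algebra -/
def Bal (N : VonNeumannAlgebra H) : Set (H →L[ℂ] H) := {h | h ∈ N ∧ ‖h‖ ≤ 1}

lemma exists_weak_limit {N : VonNeumannAlgebra H} {h : ℕ → H →L[ℂ] H} (hh : ∀ n, h n ∈ Bal N) :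
    ∃ L ∈ Bal N, R121.WTends (hyperfilter ℕ) h L := by
  obtain ⟨L, -, hL⟩ := R121.exists_wtends (hyperfilter ℕ) (F := h) (K := 1) (fun n => (hh n).2)
  exact ⟨L, ⟨hL.mem fun n => (hh n).1, hL.norm_le fun n => (hh n).2⟩, hL⟩

lemma wlim_eq_of_tendsto {h : ℕ → H →L[ℂ] H} {L : H →L[ℂ] H}
    (hL : R121.WTends (hyperfilter ℕ) h L) {ξ v : H} (hv : Tendsto (fun n => h n ξ) atTop (𝓝 v)) :
    L ξ = v := by
  refine ext_inner_right ℂ fun η => ?_
  have h1 := hL ξ η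
  have h2 : Tendsto (fun n => ⟪h n ξ, η⟫_ℂ) (hyperfilter ℕ) (𝓝 ⟪v, η⟫_ℂ) :=
    (hv.inner tendsto_const_nhds).mono_left Nat.hyperfilter_le_atTop
  exact tendsto_nhds_unique h1 h2

/-- existence of the minimiser, in the form of the first order condition -/
lemma exists_minimizer_ball (N : VonNeumannAlgebra H) (ξ u v : H) {a : ℝ} (ha : 0 < a) :
    ∃ h ∈ Bal N, ∀ k ∈ Bal N,
      (⟪a • h ξ - u, a • h ξ⟫_ℂ).re + (⟪a⁻¹ • star h ξ - v, a⁻¹ • star h ξ⟫_ℂ).re ≤
      (⟪a • h ξ - u, a • k ξ⟫_ℂ).re + (⟪a⁻¹ • star h ξ - v, a⁻¹ • star k ξ⟫_ℂ).re := by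
  let _ : InnerProductSpace ℝ H := InnerProductSpace.rclikeToReal ℂ H
  set φ : (H →L[ℂ] H) → WithLp 2 (H × H) := fun h => WithLp.toLp 2 (a • h ξ, a⁻¹ • star h ξ)
    with hφ
  set S : Set (WithLp 2 (H × H)) := φ '' Bal N with hS
  have h0 : (0 : H →L[ℂ] H) ∈ Bal N := ⟨N.toStarSubalgebra.zero_mem, by simp⟩
  have hne : S.Nonempty := ⟨φ 0, 0, h0, rfl⟩
  have hcl : IsClosed S := by
    refine isClosed_of_closure_subset fun w hw => ?_
    obtain ⟨p, hp, hlim⟩ := mem_closure_iff_seq_limit.1 hw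
    choose h hh hhp using hp
    obtain ⟨L, hLB, hL⟩ := exists_weak_limit hh
    refine ⟨L, hLB, ?_⟩
    have hlim' : Tendsto (fun n => φ (h n)) atTop (𝓝 w) := by
      have : (fun n => φ (h n)) = p := funext hhp
      rwa [this]
    have c1 : Tendsto (fun n => h n ξ) atTop (𝓝 (a⁻¹ • w.fst)) := by
      have h1 : Tendsto (fun n => (φ (h n)).fst) atTop (𝓝 w.fst) :=
        ((WithLp.continuous_fst 2 H H).tendsto _).comp hlim'
      have h2 := h1.const_smul a⁻¹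
      refine h2.congr fun n => ?_
      simp [hφ, smul_smul, inv_mul_cancel₀ ha.ne']
    have c2 : Tendsto (fun n => star (h n) ξ) atTop (𝓝 (a • w.snd)) := by
      have h1 : Tendsto (fun n => (φ (h n)).snd) atTop (𝓝 w.snd) :=
        ((WithLp.continuous_snd 2 H H).tendsto _).comp hlim'
      have h2 := h1.const_smul a
      refine h2.congr fun n => ?_
      simp [hφ, smul_smul, mul_inv_cancel₀ ha.ne']
    have d1 := wlim_eq_of_tendsto hL c1
    have d2 := wlim_eq_of_tendsto hL.star c2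
    simp only [hφ]
    rw [d1, d2, smul_smul, smul_smul, mul_inv_cancel₀ ha.ne', inv_mul_cancel₀ ha.ne', one_smul,
      one_smul]
    rfl
  have hconv : Convex ℝ S := by
    rintro _ ⟨b, hb, rfl⟩ _ ⟨c, hc, rfl⟩ s t hs ht hst
    refine ⟨s • b + t • c, ⟨N.toStarSubalgebra.add_mem (smul_real_mem hb.1 s)
      (smul_real_mem hc.1 t), ?_⟩, ?_⟩
    · calc ‖s • b + t • c‖ ≤ s * 1 + t * 1 := by
            refine (norm_add_le _ _).trans ?_
            rw [norm_smul, norm_smul, Real.norm_of_nonneg hs, Real.norm_of_nonneg ht]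
            gcongr
            · exact hb.2
            · exact hc.2
        _ = 1 := by rw [mul_one, mul_one, hst]
    · simp only [hφ]
      refine (WithLp.ext_iff 2).2 ?_
      refine Prod.ext ?_ ?_
      · simp [smul_add, smul_smul, mul_comm]
      · simp [smul_add, smul_smul, mul_comm, star_add, star_smul]
  obtain ⟨w, hwS, hw⟩ := exists_norm_eq_iInf_of_complete_convex hne hcl.isComplete hconv
    (WithLp.toLp 2 (u, v))
  have h1 := (norm_eq_iInf_iff_real_inner_le_zero hconv hwS).1 hw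
  obtain ⟨h, hh, rfl⟩ := hwS
  refine ⟨h, hh, fun k hk => ?_⟩
  have h2 := h1 (φ k) ⟨k, hk, rfl⟩
  rw [WithLp.prod_inner_apply] at h2
  simp only [hφ, WithLp.ofLp_sub] at h2
  have h3 : (⟪u - a • h ξ, a • k ξ - a • h ξ⟫_ℂ).re
      + (⟪v - a⁻¹ • star h ξ, a⁻¹ • star k ξ - a⁻¹ • star h ξ⟫_ℂ).re ≤ 0 := h2
  rw [inner_sub_right, inner_sub_right, Complex.sub_re, Complex.sub_re] at h3
  have h4 : ∀ p q w : H, (⟪p - q, w⟫_ℂ).re = - (⟪q - p, w⟫_ℂ).re := by
    intro p q w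
    rw [← neg_sub, inner_neg_left, Complex.neg_re]
  rw [h4 u, h4 u, h4 v, h4 v] at h3
  linarith

lemma spectrum_Icc {D : H →L[ℂ] H} (h0 : 0 ≤ D) (h1 : ‖D‖ ≤ 1) {s : ℝ} (hs : s ∈ spectrum ℝ D) :
    0 ≤ s ∧ s ≤ 1 := by
  rcases subsingleton_or_nontrivial H with hsub | hnt
  · exfalso
    have : Subsingleton (H →L[ℂ] H) := ⟨fun a b => by ext v; exact Subsingleton.elim _ _⟩
    exact spectrum.of_subsingleton (R := ℝ) D ▸ hs |>.elim
  · exact ⟨spectrum_nonneg_of_nonneg h0 hs, (le_abs_self s).trans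
      ((spectrum.norm_le_norm_of_mem hs).trans h1)⟩

/-- the variation stays in the ball -/
lemma norm_variation_le {h : H →L[ℂ] H} (hh : ‖h‖ ≤ 1) (n : ℕ) :
    ‖h + (1 / (2 * ((n : ℝ) + 1))) • (h - h * (star h * h) ^ n)‖ ≤ 1 := by
  set D : H →L[ℂ] H := star h * h with hD
  set t : ℝ := 1 / (2 * ((n : ℝ) + 1)) with ht
  have hn0 : (0 : ℝ) ≤ n := Nat.cast_nonneg n
  have ht0 : 0 ≤ t := by positivity
  have htn : t * n ≤ 1 / 2 := by
    rw [ht, one_div_mul_eq_div, div_le_div_iff₀ (by positivity) (by norm_num)]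
    linarith
  have hD0 : 0 ≤ D := star_mul_self_nonneg h
  have hDs : IsSelfAdjoint D := IsSelfAdjoint.of_nonneg hD0
  have hD1 : ‖D‖ ≤ 1 := by
    rw [hD, CStarRing.norm_star_mul_self]
    nlinarith [norm_nonneg h]
  set f : H →L[ℂ] H := 1 + t • (1 - D ^ n) with hf
  have hfs : star f = f := by
    rw [hf, star_add, star_one, star_smul, star_sub, star_one, star_pow, hDs.star_eq, star_trivial]
  have hk : h + t • (h - h * D ^ n) = h * f := by
    rw [hf, mul_add, mul_one, mul_smul_comm, mul_sub, mul_one]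
  have hcomm : Commute f D := by
    rw [hf]
    exact (Commute.one_left D).add_left
      (((Commute.one_left D).sub_left (Commute.pow_self D n)).smul_left t)
  have hsq : star (h * f) * (h * f) = D * f ^ 2 := by
    rw [star_mul, hfs, mul_assoc, ← mul_assoc (star h), ← hD, ← mul_assoc, hcomm.eq, mul_assoc,
      pow_two]
  have hcfc : cfc (fun s : ℝ => Polynomial.eval s
      (Polynomial.X * (1 + Polynomial.C t * (1 - Polynomial.X ^ n)) ^ 2 : Polynomial ℝ)) D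
      = D * f ^ 2 := by
    rw [cfc_polynomial _ D hDs, hf]
    simp [Algebra.smul_def]
  have hle : ‖D * f ^ 2‖ ≤ 1 := by
    rw [← hcfc]
    refine norm_cfc_le zero_le_one fun s hs => ?_
    obtain ⟨s0, s1⟩ := spectrum_Icc hD0 hD1 hs
    have hb : 1 + (n : ℝ) * (s - 1) ≤ s ^ n := by
      have := one_add_mul_le_pow (a := s - 1) (by linarith) n
      simpa using this
    have hsn0 : 0 ≤ s ^ n := pow_nonneg s0 n
    have hsn : s ^ n ≤ 1 := pow_le_one₀ s0 s1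
    have hg0 : 0 ≤ t * (1 - s ^ n) := mul_nonneg ht0 (by linarith)
    have hg1 : t * (1 - s ^ n) ≤ (1 - s) / 2 := by
      have h3 : t * (1 - s ^ n) ≤ t * (n * (1 - s)) :=
        mul_le_mul_of_nonneg_left (by linarith) ht0
      have h4 : t * (n * (1 - s)) ≤ 1 / 2 * (1 - s) := by
        rw [← mul_assoc]
        exact mul_le_mul_of_nonneg_right htn (by linarith)
      linarith
    simp only [Polynomial.eval_mul, Polynomial.eval_X, Polynomial.eval_pow, Polynomial.eval_add,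
      Polynomial.eval_one, Polynomial.eval_C, Polynomial.eval_sub]
    rw [Real.norm_of_nonneg (by positivity)]
    have h5 : (1 + t * (1 - s ^ n)) ^ 2 ≤ (1 + (1 - s) / 2) ^ 2 := by
      have : 0 ≤ 1 + t * (1 - s ^ n) := by linarith
      gcongr
    have h6 : s * (1 + t * (1 - s ^ n)) ^ 2 ≤ s * (1 + (1 - s) / 2) ^ 2 :=
      mul_le_mul_of_nonneg_left h5 s0
    have h7 : s * (1 + (1 - s) / 2) ^ 2 ≤ 1 := by
      nlinarith [mul_nonneg (mul_nonneg (sub_nonneg.2 s1) (sub_nonneg.2 s1))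
        (by linarith : (0:ℝ) ≤ 4 - s)]
    exact h6.trans h7
  rw [hk]
  have h8 : ‖h * f‖ * ‖h * f‖ ≤ 1 := by
    rw [← CStarRing.norm_star_mul_self, hsq]; exact hle
  nlinarith [norm_nonneg (h * f)]

lemma re_comm (v w : H) : (⟪v, w⟫_ℂ).re = (⟪w, v⟫_ℂ).re := by
  rw [← inner_conj_symm, Complex.conj_re]

lemma im_comm (v w : H) : (⟪v, w⟫_ℂ).im = -(⟪w, v⟫_ℂ).im := by
  rw [← inner_conj_symm, Complex.conj_im]

/-- the real-linear gradient functional -/
noncomputable def grad (ξ : H) (lam : ℝ) (x h k : H →L[ℂ] H) : ℝ :=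
  lam * (⟪h ξ, k ξ⟫_ℂ).re + lam⁻¹ * (⟪star h ξ, star k ξ⟫_ℂ).re - 2 * (⟪x ξ, k ξ⟫_ℂ).re

lemma grad_add (ξ : H) (lam : ℝ) (x h k k' : H →L[ℂ] H) :
    grad ξ lam x h (k + k') = grad ξ lam x h k + grad ξ lam x h k' := by
  simp only [grad, star_add, add_apply, inner_add_right, Complex.add_re]; ring

lemma grad_smul (ξ : H) (lam : ℝ) (x h k : H →L[ℂ] H) (t : ℝ) :
    grad ξ lam x h (t • k) = t * grad ξ lam x h k := by
  have e : ∀ v w : H, ⟪v, t • w⟫_ℂ = (t : ℂ) * ⟪v, w⟫_ℂ := by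
    intro v w
    rw [← inner_smul_right, Complex.coe_smul]
  simp only [grad, star_smul, star_trivial, smul_apply, e, Complex.re_ofReal_mul]; ring

lemma grad_neg (ξ : H) (lam : ℝ) (x h k : H →L[ℂ] H) :
    grad ξ lam x h (-k) = - grad ξ lam x h k := by
  have := grad_smul ξ lam x h k (-1)
  simpa using this

lemma grad_sub (ξ : H) (lam : ℝ) (x h k k' : H →L[ℂ] H) :
    grad ξ lam x h (k - k') = grad ξ lam x h k - grad ξ lam x h k' := by
  rw [sub_eq_add_neg, grad_add, grad_neg, ← sub_eq_add_neg]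

/-- lower bound for the gradient at `h (h* h)^{2 m}` -/
lemma grad_pow_ge {ξ : H} {lam : ℝ} (hlam : 0 < lam) {x h : H →L[ℂ] H} (hx : ‖x‖ ≤ 1)
    (hxh : x * star h = star h * x) (hxD : x * (star h * h) = (star h * h) * x) (m : ℕ) :
    lam * ((⟪ξ, ((star h * h) ^ (2 * m + 1)) ξ⟫_ℂ).re - (⟪ξ, ((star h * h) ^ (2 * m)) ξ⟫_ℂ).re)
      ≤ grad ξ lam x h (h * (star h * h) ^ (2 * m)) := by
  set D : H →L[ℂ] H := star h * h with hD
  have hDs : star D = D := by rw [hD, star_mul, star_star]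
  have hDps : ∀ n, star (D ^ n) = D ^ n := fun n => by rw [star_pow, hDs]
  have hcx : Commute x (D ^ m) := (show Commute x D from hxD).pow_right m
  have e1 : ⟪h ξ, (h * D ^ (2 * m)) ξ⟫_ℂ = ⟪ξ, (D ^ (2 * m + 1)) ξ⟫_ℂ := by
    rw [pow_succ', hD]
    simp only [mul_apply_eq_comp, coe_comp', Function.comp_apply, star_eq_adjoint]
    rw [adjoint_inner_right]
  have e2 : ⟪star h ξ, star (h * D ^ (2 * m)) ξ⟫_ℂ = ⟪(D ^ m) (star h ξ), (D ^ m) (star h ξ)⟫_ℂ := by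
    rw [star_mul, hDps, inner_sa (hDps m), two_mul, pow_add]
    rfl
  have e3 : ⟪x ξ, (h * D ^ (2 * m)) ξ⟫_ℂ = ⟪x ((D ^ m) (star h ξ)), (D ^ m) ξ⟫_ℂ := by
    have h1 : x ((D ^ m) (star h ξ)) = (D ^ m) (star h (x ξ)) := by
      have : x * D ^ m * star h = D ^ m * star h * x := by
        rw [hcx.eq, mul_assoc, hxh, mul_assoc]
      exact congrArg (fun T : H →L[ℂ] H => T ξ) this
    rw [h1, inner_sa (hDps m), star_eq_adjoint, adjoint_inner_left, two_mul, pow_add]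
    rfl
  have e4 : ⟪ξ, (D ^ (2 * m)) ξ⟫_ℂ = ⟪(D ^ m) ξ, (D ^ m) ξ⟫_ℂ := by
    rw [inner_sa (hDps m), two_mul, pow_add]
    rfl
  set p : ℝ := ‖(D ^ m) (star h ξ)‖ with hp
  set q : ℝ := ‖(D ^ m) ξ‖ with hq
  have e2' : (⟪star h ξ, star (h * D ^ (2 * m)) ξ⟫_ℂ).re = p ^ 2 := by
    rw [e2, inner_self_eq_norm_sq_to_K]; norm_cast
  have e4' : (⟪ξ, (D ^ (2 * m)) ξ⟫_ℂ).re = q ^ 2 := by
    rw [e4, inner_self_eq_norm_sq_to_K]; norm_cast
  have e3' : (⟪x ξ, (h * D ^ (2 * m)) ξ⟫_ℂ).re ≤ p * q := by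
    rw [e3]
    refine (Complex.re_le_norm _).trans ((norm_inner_le_norm _ _).trans ?_)
    gcongr
    calc ‖x ((D ^ m) (star h ξ))‖ ≤ 1 * p := x.le_of_opNorm_le hx _
      _ = p := one_mul _
  unfold grad
  rw [e1, e2', e4']
  have h5 : 2 * (p * q) ≤ lam * q ^ 2 + lam⁻¹ * p ^ 2 := by
    have h6 : 0 ≤ lam * (q - lam⁻¹ * p) ^ 2 := by positivity
    have h7 : lam * (q - lam⁻¹ * p) ^ 2 = lam * q ^ 2 + lam⁻¹ * p ^ 2 - 2 * (p * q) := by
      field_simp
      ring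
    linarith
  linarith

/-- at the minimiser over the ball the gradient vanishes on the ball -/
theorem grad_zero (N : VonNeumannAlgebra H) {ξ : H} {lam : ℝ} (hlam : 0 < lam)
    {x h : H →L[ℂ] H} (hx : ‖x‖ ≤ 1) (hxN : ∀ k ∈ N, x * k = k * x) (hh : h ∈ Bal N)
    (hmin : ∀ k ∈ Bal N, grad ξ lam x h h ≤ grad ξ lam x h k) :
    ∀ k ∈ N, grad ξ lam x h k = 0 := by
  obtain ⟨hN, h1⟩ := hh
  have hsN : star h ∈ N := star_mem hN
  have hDN : star h * h ∈ N := N.toStarSubalgebra.mul_mem hsN hN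
  have hD0 : 0 ≤ star h * h := star_mul_self_nonneg h
  have hD1 : star h * h ≤ 1 := by
    rw [← CStarAlgebra.norm_le_one_iff_of_nonneg _ hD0, CStarRing.norm_star_mul_self]
    nlinarith [norm_nonneg h]
  have step : ∀ n : ℕ, grad ξ lam x h (h * (star h * h) ^ n) ≤ grad ξ lam x h h := by
    intro n
    have h2 := hmin (h + (1 / (2 * ((n : ℝ) + 1))) • (h - h * (star h * h) ^ n))
      ⟨N.toStarSubalgebra.add_mem hN (smul_real_mem (N.toStarSubalgebra.sub_mem hN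
        (N.toStarSubalgebra.mul_mem hN (N.toStarSubalgebra.pow_mem hDN n))) _),
        norm_variation_le h1 n⟩
    rw [grad_add, grad_smul, grad_sub] at h2
    have ht : (0 : ℝ) < 1 / (2 * ((n : ℝ) + 1)) := by positivity
    have h3 : 0 ≤ 1 / (2 * ((n : ℝ) + 1)) *
        (grad ξ lam x h h - grad ξ lam x h (h * (star h * h) ^ n)) := by linarith
    have h4 := nonneg_of_mul_nonneg_right h3 ht
    linarith
  have hge : 0 ≤ grad ξ lam x h h := by
    have ht := tendsto_diff hD0 hD1 ξ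
    have ht2 : Tendsto (fun m : ℕ => 2 * m + 1) atTop atTop :=
      tendsto_atTop_mono (fun m => by simp only [id]; omega) tendsto_id
    have ht3 := ((ht.comp ht2).const_mul lam).neg
    rw [mul_zero, neg_zero] at ht3
    refine le_of_tendsto ht3 (Eventually.of_forall fun m => ?_)
    refine le_trans ?_ ((grad_pow_ge hlam hx (hxN _ hsN) (hxN _ hDN) (m + 1)).trans
      (step (2 * (m + 1))))
    simp only [Function.comp_apply]
    have a1 : 2 * (m + 1) + 1 = 2 * m + 1 + 2 := by ring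
    have a2 : 2 * (m + 1) = 2 * m + 1 + 1 := by ring
    rw [a1, a2]
    linarith
  have hball : ∀ k ∈ Bal N, grad ξ lam x h k = 0 := by
    intro k hk
    have h2 := hmin k hk
    have h3 := hmin (-k) ⟨N.toStarSubalgebra.neg_mem hk.1, by rw [norm_neg]; exact hk.2⟩
    rw [grad_neg] at h3
    linarith
  intro k hk
  rcases eq_or_ne k 0 with rfl | hk0
  · have := grad_smul ξ lam x h 0 0
    simpa using this
  have hn : 0 < ‖k‖ := norm_pos_iff.2 hk0
  have h4 := hball (‖k‖⁻¹ • k) ⟨smul_real_mem hk _, by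
    rw [norm_smul, Real.norm_of_nonneg (inv_nonneg.2 hn.le), inv_mul_cancel₀ hn.ne']⟩
  rw [grad_smul] at h4
  exact (mul_eq_zero.1 h4).resolve_left (inv_pos.2 hn).ne'

/-- existence of the Radon–Nikodym partner of weight `lam` for a contraction of `M` -/
theorem exists_RN_ball (M : VonNeumannAlgebra H) (ξ : H) {lam : ℝ} (hlam : 0 < lam)
    {x : H →L[ℂ] H} (hx : x ∈ M) (hx1 : ‖x‖ ≤ 1) :
    ∃ h ∈ M.commutant, ‖h‖ ≤ 1 ∧ RN M ξ lam x h := by
  set a : ℝ := Real.sqrt lam with ha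
  have ha0 : 0 < a := Real.sqrt_pos.2 hlam
  have haa : a * a = lam := Real.mul_self_sqrt hlam.le
  have hainv : a⁻¹ * a⁻¹ = lam⁻¹ := by rw [← mul_inv, haa]
  have hcomm : ∀ k ∈ M.commutant, x * k = k * x := fun k hk =>
    VonNeumannAlgebra.mem_commutant_iff.1 hk x hx
  obtain ⟨h, hh, hmin⟩ := exists_minimizer_ball M.commutant ξ (a⁻¹ • x ξ) (a • star x ξ) ha0
  have sR : ∀ (t : ℝ) (v w : H), ⟪v, t • w⟫_ℂ = (t : ℂ) * ⟪v, w⟫_ℂ := by
    intro t v w
    rw [← inner_smul_right, Complex.coe_smul]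
  have sL : ∀ (t : ℝ) (v w : H), ⟪t • v, w⟫_ℂ = (t : ℂ) * ⟪v, w⟫_ℂ := by
    intro t v w
    have : t • v = (t : ℂ) • v := (Complex.coe_smul t v).symm
    rw [this, inner_smul_left, Complex.conj_ofReal]
  have key : ∀ k ∈ M.commutant, (⟪a • h ξ - a⁻¹ • x ξ, a • k ξ⟫_ℂ).re
      + (⟪a⁻¹ • star h ξ - a • star x ξ, a⁻¹ • star k ξ⟫_ℂ).re = grad ξ lam x h k := by
    intro k hk
    have e1 : (⟪star x ξ, star k ξ⟫_ℂ).re = (⟪x ξ, k ξ⟫_ℂ).re := by
      have : ⟪star x ξ, star k ξ⟫_ℂ = ⟪k ξ, x ξ⟫_ℂ := by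
        rw [star_eq_adjoint, adjoint_inner_left, star_eq_adjoint, ← adjoint_inner_right]
        have h2 : x * star k = star k * x := hcomm _ (star_mem hk)
        exact congrArg (fun T : H →L[ℂ] H => ⟪ξ, T ξ⟫_ℂ) h2
      rw [this, ← inner_conj_symm, Complex.conj_re]
    rw [inner_sub_left, inner_sub_left, sR, sR, sR, sR, sL, sL, sL, sL, Complex.sub_re,
      Complex.sub_re]
    simp only [Complex.re_ofReal_mul]
    rw [e1]
    unfold grad
    have c1 : a * a⁻¹ = 1 := mul_inv_cancel₀ ha0.ne'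
    rw [← hainv, ← haa]
    linear_combination (-2 * (⟪x ξ, k ξ⟫_ℂ).re) * c1
  have hmin' : ∀ k ∈ Bal M.commutant, grad ξ lam x h h ≤ grad ξ lam x h k := by
    intro k hk
    rw [← key h hh.1, ← key k hk.1]
    exact hmin k hk
  have hz := grad_zero M.commutant hlam hx1 hcomm hh hmin'
  refine ⟨h, hh.1, hh.2, fun y hy => ?_⟩
  set Z : ℂ := (lam : ℂ) * ⟪y ξ, h ξ⟫_ℂ + ((lam⁻¹ : ℝ) : ℂ) * ⟪star h ξ, star y ξ⟫_ℂ
    - 2 * ⟪y ξ, x ξ⟫_ℂ with hZ
  have r1 : Z.re = 0 := by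
    have := hz y hy
    unfold grad at this
    rw [hZ, Complex.sub_re, Complex.add_re, Complex.re_ofReal_mul, Complex.re_ofReal_mul]
    have e2 : (2 * ⟪y ξ, x ξ⟫_ℂ).re = 2 * (⟪x ξ, y ξ⟫_ℂ).re := by
      rw [re_comm (x ξ)]; simp
    rw [re_comm (y ξ) (h ξ), e2]
    exact this
  have r2 : Z.im = 0 := by
    have := hz (Complex.I • y) (M.commutant.toStarSubalgebra.smul_mem hy _)
    unfold grad at this
    have e1 : (⟪h ξ, (Complex.I • y) ξ⟫_ℂ).re = (⟪y ξ, h ξ⟫_ℂ).im := by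
      rw [smul_apply, inner_smul_right, im_comm (y ξ)]; simp
    have e2 : (⟪star h ξ, star (Complex.I • y) ξ⟫_ℂ).re = (⟪star h ξ, star y ξ⟫_ℂ).im := by
      rw [star_smul, smul_apply, inner_smul_right]; simp
    have e3 : (⟪x ξ, (Complex.I • y) ξ⟫_ℂ).re = (⟪y ξ, x ξ⟫_ℂ).im := by
      rw [smul_apply, inner_smul_right, im_comm (y ξ)]; simp
    rw [e1, e2, e3] at this
    rw [hZ, Complex.sub_im, Complex.add_im, Complex.im_ofReal_mul, Complex.im_ofReal_mul]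
    have e4 : (2 * ⟪y ξ, x ξ⟫_ℂ).im = 2 * (⟪y ξ, x ξ⟫_ℂ).im := by simp
    rw [e4]
    exact this
  have hZ0 : Z = 0 := Complex.ext r1 r2
  rw [hZ] at hZ0
  linear_combination -hZ0

end Crest.Agent.R078.LL975
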