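import Crest.Agent.R078.S103Recov16
import Mathlib
import Crest.Agent.R078.S103TLam975
import Crest.Agent.R078.S103LSys938
import Crest.Agent.R078.S103RvD
import Crest.Agent.R078.S103Num535
import Crest.Agent.R078.S103KeyIneq445

-- ▼ part R078/S103RecovT16
section

/-!
# R78 / S0103, letter lemma: recovery for the linear maps `T_λ` (helper16)
-/

set_option autoImplicit false

open Filter Topology Set
open scoped ComplexOrder

namespace Crest.Agent.R078.Z.Rcv16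

open Crest.Agent.R078.Z.LLB Crest.Agent.R078.Z.RvD

noncomputable section

universe u

variable {H : Type u} [NormedAddCommGroup H] [InnerProductSpace ℂ H] [CompleteSpace H]

/-- `T` is the linear Radon–Nikodym map `T_λ` of `(M, ξ)` (535's `TLam` record) -/
def TLamAt (M : VonNeumannAlgebra H) (ξ : H) (lam : ℝ)
    (T : (H →L[ℂ] H) →ₗ[ℂ] (H →L[ℂ] H)) : Prop :=
  ∀ x ∈ M, T x ∈ M.commutant ∧ RN M ξ lam x (T x) ∧
    (∀ v : H, (∀ z ∈ M, inner ℂ (z ξ) v = 0) → T x v = 0) ∧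
    (∀ v : H, (∀ z ∈ M, inner ℂ (z ξ) v = 0) → star (T x) v = 0)

variable {M : VonNeumannAlgebra H} {ξ : H}

theorem mul_ee_of_vanish {T : H →L[ℂ] H} (h : ∀ v : H, (∀ z ∈ M, inner ℂ (z ξ) v = 0) → T v = 0) :
    T * ee M.commutant ξ = T := by
  ext v
  have h1 : T (v - ee M.commutant ξ v) = 0 := by
    apply h
    intro z hz
    have h2 : inner ℂ (z ξ) (ee M.commutant ξ v) = inner ℂ (z ξ) v := by
      rw [← inner_star_left, ee_star, ee_comm_apply hz]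
    rw [inner_sub_right, h2, sub_self]
  rw [map_sub, sub_eq_zero] at h1
  exact h1.symm

theorem corner_of_vanish {T : H →L[ℂ] H}
    (h : ∀ v : H, (∀ z ∈ M, inner ℂ (z ξ) v = 0) → T v = 0)
    (h' : ∀ v : H, (∀ z ∈ M, inner ℂ (z ξ) v = 0) → star T v = 0) :
    ee M.commutant ξ * T * ee M.commutant ξ = T := by
  have h1 := mul_ee_of_vanish h
  have h2 := congrArg star (mul_ee_of_vanish h')
  rw [star_mul, star_star, ee_star] at h2
  rw [h2, h1]

theorem TLamAt.corner {lam : ℝ} {T : (H →L[ℂ] H) →ₗ[ℂ] (H →L[ℂ] H)} (hT : TLamAt M ξ lam T)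
    {x : H →L[ℂ] H} (hx : x ∈ M) : ee M.commutant ξ * T x * ee M.commutant ξ = T x :=
  corner_of_vanish (hT x hx).2.2.1 (hT x hx).2.2.2

theorem TLamAt.exRN {T : (H →L[ℂ] H) →ₗ[ℂ] (H →L[ℂ] H)} (hT : TLamAt M ξ 1 T) : ExRN M ξ :=
  fun z hz _ => ⟨T z, (hT z hz).1, hT.corner hz, (hT z hz).2.1⟩

theorem mem_of_mem_cc {x : H →L[ℂ] H} (hx : x ∈ M.commutant.commutant) : x ∈ M := by
  rwa [VonNeumannAlgebra.commutant_commutant] at hx


/-- `(T'_{1/λ} T_λ)^q y ∈ M` -/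
theorem pow_mem {lam : ℝ} {T T' : (H →L[ℂ] H) →ₗ[ℂ] (H →L[ℂ] H)} (hT : TLamAt M ξ lam T)
    (hT' : TLamAt M.commutant ξ lam⁻¹ T') {y : H →L[ℂ] H} (hy : y ∈ M) (q : ℕ) :
    ((T' ∘ₗ T) ^ q) y ∈ M := by
  induction q with
  | zero => simpa using hy
  | succ q ih =>
    rw [pow_succ', Module.End.mul_apply, LinearMap.comp_apply]
    exact mem_of_mem_cc (hT' _ (hT _ ih).1).1

/-- `λ_ij = exp (-(i - j) h)` -/
def lamij (h : ℝ) (i j : ℕ) : ℝ := Real.exp (-(((i : ℝ) - (j : ℝ)) * h))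

/-- **scalar recovery for the `T_λ`** -/
theorem recov_of_TLam {T T' : ℝ → ((H →L[ℂ] H) →ₗ[ℂ] (H →L[ℂ] H))}
    (hT : ∀ lam : ℝ, 0 < lam → TLamAt M ξ lam (T lam))
    (hT' : ∀ lam : ℝ, 0 < lam → TLamAt M.commutant ξ lam (T' lam)) {p : ℕ}
    {Y A B : Fin p → (H →L[ℂ] H)} (hA : ∀ c, A c ∈ M.commutant) (hB : ∀ c, B c ∈ M.commutant)
    (hY : ∀ c, Y c ∈ M) {κ : ℝ} (hκ : 0 < κ) :
    ∃ η : ℝ, 0 < η ∧ ∀ (m n : ℕ) (h : ℝ), 1 ≤ m → 1 ≤ n → 0 < h →
      (∀ x : ℝ, 0 ≤ x → x ≤ 1 → η ≤ x * (1 - x) → |Phi m h n x - 1| ≤ η) →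
      ∀ c, ‖(1 / (n : ℂ)) * ∑ i : Fin n, ∑ j : Fin n, inner ℂ (B c ξ)
        ((((1 / 2 * c0 m h : ℝ) : ℂ) •
          (((T' (lamij h i j)⁻¹ ∘ₗ T (lamij h i j)) ^ m) (Y c))) (A c ξ))
        - (1 / 2 : ℂ) * inner ℂ (B c ξ) (Y c (A c ξ))‖ ≤ κ := by
  have hEx : ExRN M ξ := (hT 1 one_pos).exRN
  have hEx' : ExRN M.commutant ξ := (hT' 1 one_pos).exRN
  obtain ⟨η, hη, hr⟩ := scalar_recov_family hEx hEx' hA hB hY hκ
  refine ⟨η, hη, fun m n h hm hn hh hPhi c => ?_⟩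
  have hl : ∀ i j, 0 < lamij h i j := fun i j => Real.exp_pos _
  have hzm : ∀ (i j : Fin n) (q : ℕ),
      ((T' (lamij h i j)⁻¹ ∘ₗ T (lamij h i j)) ^ q) (Y c) ∈ M := fun i j q =>
    pow_mem (hT _ (hl i j)) (hT' _ (inv_pos.2 (hl i j))) (hY c) q
  have hzs : ∀ (i j : Fin n) (q : ℕ),
      ((T' (lamij h i j)⁻¹ ∘ₗ T (lamij h i j)) ^ (q + 1)) (Y c) =
      T' (lamij h i j)⁻¹ (T (lamij h i j)
        (((T' (lamij h i j)⁻¹ ∘ₗ T (lamij h i j)) ^ q) (Y c))) := fun i j q => by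
    rw [pow_succ', Module.End.mul_apply, LinearMap.comp_apply]
  have := hr c m n h hm hn hh hPhi
    (fun i j q => ((T' (lamij h i j)⁻¹ ∘ₗ T (lamij h i j)) ^ q) (Y c))
    (fun i j q => T (lamij h i j) (((T' (lamij h i j)⁻¹ ∘ₗ T (lamij h i j)) ^ q) (Y c)))
    (fun i j => by simp)
    (fun i j q => (hT _ (hl i j) _ (hzm i j q)).1)
    (fun i j q => (hT _ (hl i j)).corner (hzm i j q))
    (fun i j q => hzm i j (q + 1))
    (fun i j q => by
      rw [hzs]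
      have h1 := (hT' _ (inv_pos.2 (hl i j))).corner (hT _ (hl i j) _ (hzm i j q)).1
      rwa [VonNeumannAlgebra.commutant_commutant] at h1)
    (fun i j q => (hT _ (hl i j) _ (hzm i j q)).2.1)
    (fun i j q => by
      rw [hzs]
      exact (hT' _ (inv_pos.2 (hl i j)) _ (hT _ (hl i j) _ (hzm i j q)).1).2.1)
  simpa only [smul_apply] using this

end

end Crest.Agent.R078.Z.Rcv16
end

-- ▼ part R078/S103TLamMap975
section

/-!
# Row 78, S0103, Letter Lemma part (A): the linear map `T_lam : M → p M' p`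
-/

set_option autoImplicit false
set_option linter.unusedSectionVars false

namespace Crest.Agent.R078.LL975

open scoped InnerProductSpace Topology
open ContinuousLinearMap Filter

variable {H : Type*} [NormedAddCommGroup H] [InnerProductSpace ℂ H] [CompleteSpace H]

/-- `{x ξ | x ∈ M}` as a subspace -/
def orb (M : VonNeumannAlgebra H) (ξ : H) : Submodule ℂ H where
  carrier := {v | ∃ x ∈ M, x ξ = v}
  add_mem' := by
    rintro _ _ ⟨x, hx, rfl⟩ ⟨y, hy, rfl⟩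
    exact ⟨x + y, M.toStarSubalgebra.add_mem hx hy, rfl⟩
  zero_mem' := ⟨0, M.toStarSubalgebra.zero_mem, rfl⟩
  smul_mem' := by
    rintro c _ ⟨x, hx, rfl⟩
    exact ⟨c • x, M.toStarSubalgebra.smul_mem hx c, rfl⟩

/-- the projection onto the closure of `M ξ` -/
noncomputable def pr (M : VonNeumannAlgebra H) (ξ : H) : H →L[ℂ] H :=
  (orb M ξ).topologicalClosure.starProjection

lemma apply_mem_orb {M : VonNeumannAlgebra H} {x : H →L[ℂ] H} (hx : x ∈ M) (ξ : H) :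
    x ξ ∈ orb M ξ := ⟨x, hx, rfl⟩

lemma pr_apply {M : VonNeumannAlgebra H} {x : H →L[ℂ] H} (hx : x ∈ M) (ξ : H) :
    pr M ξ (x ξ) = x ξ :=
  Submodule.starProjection_eq_self_iff.2
    ((orb M ξ).le_topologicalClosure (apply_mem_orb hx ξ))

lemma pr_self (M : VonNeumannAlgebra H) (ξ : H) : pr M ξ ξ = ξ := by
  simpa using pr_apply (M := M) M.toStarSubalgebra.one_mem ξ

lemma star_pr (M : VonNeumannAlgebra H) (ξ : H) : star (pr M ξ) = pr M ξ :=
  (isStarProjection_starProjection (U := (orb M ξ).topologicalClosure)).isSelfAdjoint.star_eq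

lemma pr_mul_pr (M : VonNeumannAlgebra H) (ξ : H) : pr M ξ * pr M ξ = pr M ξ :=
  (isStarProjection_starProjection (U := (orb M ξ).topologicalClosure)).isIdempotentElem.eq

lemma norm_pr_le (M : VonNeumannAlgebra H) (ξ : H) : ‖pr M ξ‖ ≤ 1 :=
  Submodule.starProjection_norm_le _

lemma pr_eq_zero_iff {M : VonNeumannAlgebra H} {ξ v : H} :
    pr M ξ v = 0 ↔ ∀ z ∈ M, ⟪z ξ, v⟫_ℂ = 0 := by
  unfold pr
  rw [Submodule.starProjection_apply_eq_zero_iff, Submodule.orthogonal_closure]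
  constructor
  · intro h z hz
    exact (Submodule.mem_orthogonal _ _).1 h _ (apply_mem_orb hz ξ)
  · intro h
    refine (Submodule.mem_orthogonal _ _).2 ?_
    rintro _ ⟨z, hz, rfl⟩
    exact h z hz

lemma pr_mem (M : VonNeumannAlgebra H) (ξ : H) : pr M ξ ∈ M.commutant := by
  have h1 : ∀ g ∈ M, pr M ξ * g * pr M ξ = g * pr M ξ := by
    intro g hg
    ext v
    refine Submodule.starProjection_eq_self_iff.2 ?_
    have hv : pr M ξ v ∈ (orb M ξ).topologicalClosure := Submodule.starProjection_apply_mem _ _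
    have hinv : Set.MapsTo g (orb M ξ : Set H) (orb M ξ : Set H) := by
      rintro _ ⟨x, hx, rfl⟩
      exact ⟨g * x, M.toStarSubalgebra.mul_mem hg hx, rfl⟩
    exact hinv.closure g.continuous hv
  rw [VonNeumannAlgebra.mem_commutant_iff]
  intro g hg
  have h2 := h1 g hg
  have h3 := congrArg star (h1 (star g) (star_mem hg))
  simp only [star_mul, star_star, star_pr] at h3
  rw [← h2, mul_assoc]
  exact h3


section RN

variable {M : VonNeumannAlgebra H} {ξ : H} {lam : ℝ}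

lemma RN.add {x x' h h' : H →L[ℂ] H} (hr : RN M ξ lam x h) (hr' : RN M ξ lam x' h') :
    RN M ξ lam (x + x') (h + h') := by
  intro y hy
  simp only [add_apply, inner_add_right, star_add, inner_add_left]
  linear_combination hr y hy + hr' y hy

lemma RN.smul {x h : H →L[ℂ] H} (hr : RN M ξ lam x h) (c : ℂ) : RN M ξ lam (c • x) (c • h) := by
  intro y hy
  simp only [smul_apply, inner_smul_right, star_smul, inner_smul_left, Complex.star_def,
    Complex.conj_conj]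
  linear_combination c * hr y hy

lemma RN.zero : RN M ξ lam 0 0 := by
  intro y hy
  simp

lemma RN.sub {x x' h h' : H →L[ℂ] H} (hr : RN M ξ lam x h) (hr' : RN M ξ lam x' h') :
    RN M ξ lam (x - x') (h - h') := by
  have := hr.add (hr'.smul (-1))
  simpa [sub_eq_add_neg] using this

/-- the adjoint relation: `T_lam(x)^* = T_{1/lam}(x^*)` -/
lemma RN.star {x h : H →L[ℂ] H} (hx : x ∈ M) (hr : RN M ξ lam x h) :
    RN M ξ lam⁻¹ (star x) (star h) := by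
  intro y hy
  have h1 := hr (Star.star y) (star_mem hy)
  have h2 := congrArg (starRingEnd ℂ) h1
  simp only [map_mul, map_add, inner_conj_symm, Complex.conj_ofReal, star_star] at h2
  have e1 : ⟪x ξ, (Star.star y) ξ⟫_ℂ = ⟪y ξ, (Star.star x) ξ⟫_ℂ := by
    rw [star_eq_adjoint, adjoint_inner_right, star_eq_adjoint, adjoint_inner_right]
    have : y * x = x * y := (VonNeumannAlgebra.mem_commutant_iff.1 hy x hx).symm
    exact congrArg (fun T : H →L[ℂ] H => ⟪T ξ, ξ⟫_ℂ) this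
  have e2 : (starRingEnd ℂ) 2 = (2 : ℂ) := map_ofNat _ 2
  rw [e1, e2] at h2
  rw [h2, inv_inv, star_star, add_comm]

/-- cutting by the projection on the closure of `M ξ` -/
lemma RN.cut {x h : H →L[ℂ] H} (hx : x ∈ M) (hr : RN M ξ lam x h) :
    RN M ξ lam x (pr M ξ * h * pr M ξ) := by
  intro y hy
  have h1 := hr (pr M ξ * y * pr M ξ) (M.commutant.toStarSubalgebra.mul_mem
    (M.commutant.toStarSubalgebra.mul_mem (pr_mem M ξ) hy) (pr_mem M ξ))
  have hsym : ∀ v w : H, ⟪pr M ξ v, w⟫_ℂ = ⟪v, pr M ξ w⟫_ℂ := inner_sa (star_pr M ξ)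
  simp only [star_mul, star_pr, mul_apply_eq_comp, pr_self, hsym, pr_apply hx] at h1 ⊢
  rw [h1]

lemma RN.eq_zero_apply (hlam : 0 < lam) {h : H →L[ℂ] H} (hh : h ∈ M.commutant)
    (hr : RN M ξ lam 0 h) : h ξ = 0 ∧ Star.star h ξ = 0 := by
  have h1 := hr h hh
  rw [zero_apply, inner_zero_right, mul_zero, inner_self_eq_norm_sq_to_K,
    inner_self_eq_norm_sq_to_K] at h1
  have h2 : (0 : ℝ) = lam * ‖h ξ‖ ^ 2 + lam⁻¹ * ‖Star.star h ξ‖ ^ 2 := by
    have h3 : ((0 : ℝ) : ℂ) = ((lam * ‖h ξ‖ ^ 2 + lam⁻¹ * ‖Star.star h ξ‖ ^ 2 : ℝ) : ℂ) := by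
      push_cast
      push_cast at h1
      exact h1
    exact_mod_cast h3
  have h4 : 0 ≤ lam * ‖h ξ‖ ^ 2 := by positivity
  have h5 : 0 ≤ lam⁻¹ * ‖Star.star h ξ‖ ^ 2 := by positivity
  have h6 : lam * ‖h ξ‖ ^ 2 = 0 := by linarith
  have h7 : lam⁻¹ * ‖Star.star h ξ‖ ^ 2 = 0 := by linarith
  have hlam' : lam⁻¹ ≠ 0 := (inv_pos.2 hlam).ne'
  constructor
  · simpa [hlam.ne'] using h6
  · simpa [hlam'] using h7

/-- uniqueness of the partner in `p M' p` -/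
lemma RN.unique (hlam : 0 < lam) {x h h' : H →L[ℂ] H} (hh : h ∈ M.commutant)
    (hh' : h' ∈ M.commutant) (hp : ∀ v, pr M ξ v = 0 → h v = 0)
    (hp' : ∀ v, pr M ξ v = 0 → h' v = 0)
    (hr : RN M ξ lam x h) (hr' : RN M ξ lam x h') : h = h' := by
  have h1 : RN M ξ lam 0 (h - h') := by simpa using hr.sub hr'
  have hd : h - h' ∈ M.commutant := M.commutant.toStarSubalgebra.sub_mem hh hh'
  obtain ⟨h2, -⟩ := h1.eq_zero_apply hlam hd
  -- vanishing on `M ξ`, hence on its closure, and on the complement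
  have h3 : ∀ v ∈ (orb M ξ).topologicalClosure, (h - h') v = 0 := by
    have hcl : IsClosed {v : H | (h - h') v = 0} :=
      isClosed_eq (h - h').continuous continuous_const
    have hsub : (orb M ξ : Set H) ⊆ {v : H | (h - h') v = 0} := by
      rintro _ ⟨x, hx, rfl⟩
      have : x * (h - h') = (h - h') * x := VonNeumannAlgebra.mem_commutant_iff.1 hd x hx
      have h4 := congrArg (fun T : H →L[ℂ] H => T ξ) this
      simp only [mul_apply_eq_comp] at h4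
      rw [Set.mem_ofPred_eq, ← h4, h2, map_zero]
    exact fun v hv => closure_minimal hsub hcl hv
  rw [← sub_eq_zero]
  ext v
  have e : v = pr M ξ v + (v - pr M ξ v) := by abel
  have h5 : pr M ξ (v - pr M ξ v) = 0 := by
    rw [map_sub]
    have := congrArg (fun T : H →L[ℂ] H => T v) (pr_mul_pr M ξ)
    simp only [mul_apply_eq_comp] at this
    rw [this, sub_self]
  have h6 : (h - h') (pr M ξ v) = 0 := h3 _ (Submodule.starProjection_apply_mem _ _)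
  rw [e, map_add, h6, zero_add, sub_apply, hp _ h5,
    hp' _ h5, sub_zero, zero_apply]

end RN

/-- existence with the support conditions, no normalisation -/
theorem exists_RN (M : VonNeumannAlgebra H) (ξ : H) {lam : ℝ} (hlam : 0 < lam)
    {x : H →L[ℂ] H} (hx : x ∈ M) :
    ∃ h ∈ M.commutant, ‖h‖ ≤ ‖x‖ ∧ RN M ξ lam x h ∧ (∀ v, pr M ξ v = 0 → h v = 0) ∧
      ∀ v, pr M ξ v = 0 → star h v = 0 := by
  rcases eq_or_ne x 0 with rfl | hx0
  · exact ⟨0, M.commutant.toStarSubalgebra.zero_mem, le_rfl, RN.zero, by simp, by simp⟩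
  have hn : 0 < ‖x‖ := norm_pos_iff.2 hx0
  have hnc : ((‖x‖ : ℝ) : ℂ) ≠ 0 := by exact_mod_cast hn.ne'
  obtain ⟨h, hh, hh1, hr⟩ := exists_RN_ball M ξ hlam
    (M.toStarSubalgebra.smul_mem hx (((‖x‖ : ℝ) : ℂ)⁻¹)) (by
      rw [norm_smul, norm_inv, Complex.norm_real, Real.norm_of_nonneg hn.le,
        inv_mul_cancel₀ hn.ne'])
  have hr2 := hr.smul ((‖x‖ : ℝ) : ℂ)
  rw [smul_smul, mul_inv_cancel₀ hnc, one_smul] at hr2
  refine ⟨pr M ξ * (((‖x‖ : ℝ) : ℂ) • h) * pr M ξ, ?_, ?_, hr2.cut hx, ?_, ?_⟩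
  · exact M.commutant.toStarSubalgebra.mul_mem (M.commutant.toStarSubalgebra.mul_mem (pr_mem M ξ)
      (M.commutant.toStarSubalgebra.smul_mem hh _)) (pr_mem M ξ)
  · have h1 : ‖((‖x‖ : ℝ) : ℂ) • h‖ ≤ ‖x‖ := by
      rw [norm_smul, Complex.norm_real, Real.norm_of_nonneg hn.le]
      exact mul_le_of_le_one_right hn.le hh1
    have h2 := norm_pr_le M ξ
    calc ‖pr M ξ * (((‖x‖ : ℝ) : ℂ) • h) * pr M ξ‖
        ≤ ‖pr M ξ‖ * ‖((‖x‖ : ℝ) : ℂ) • h‖ * ‖pr M ξ‖ := norm_mul₃_le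
      _ ≤ 1 * ‖x‖ * 1 := by gcongr
      _ = ‖x‖ := by ring
  · intro v hv
    simp only [mul_apply_eq_comp, hv, map_zero]
  · intro v hv
    simp only [star_mul, star_pr, mul_apply_eq_comp, hv, map_zero]

/-- **The map `T_lam`.** -/
theorem exists_TLam (M : VonNeumannAlgebra H) (ξ : H) (lam : ℝ) (hlam : 0 < lam) :
    ∃ T : (H →L[ℂ] H) →ₗ[ℂ] (H →L[ℂ] H), ∀ x ∈ M, T x ∈ M.commutant ∧ RN M ξ lam x (T x) ∧
      ‖T x‖ ≤ ‖x‖ ∧ (∀ v, (∀ z ∈ M, ⟪z ξ, v⟫_ℂ = 0) → T x v = 0) ∧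
      (∀ v, (∀ z ∈ M, ⟪z ξ, v⟫_ℂ = 0) → star (T x) v = 0) := by
  choose! f hf using fun (x : H →L[ℂ] H) (hx : x ∈ M) => exists_RN M ξ hlam hx
  set S : Submodule ℂ (H →L[ℂ] H) := Subalgebra.toSubmodule M.toStarSubalgebra.toSubalgebra with hS
  have hSmem : ∀ x, x ∈ S ↔ x ∈ M := fun x => Iff.rfl
  let T0 : S →ₗ[ℂ] (H →L[ℂ] H) :=
    { toFun := fun x => f x.1
      map_add' := by
        rintro ⟨a, ha⟩ ⟨b, hb⟩
        have ha' : a ∈ M := ha
        have hb' : b ∈ M := hb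
        have hab : a + b ∈ M := M.toStarSubalgebra.add_mem ha hb
        refine RN.unique hlam (hf _ hab).1 (M.commutant.toStarSubalgebra.add_mem (hf a ha').1
          (hf b hb').1) (hf _ hab).2.2.2.1 (fun v hv => ?_) (hf _ hab).2.2.1
          ((hf a ha').2.2.1.add (hf b hb').2.2.1)
        rw [add_apply, (hf a ha').2.2.2.1 v hv, (hf b hb').2.2.2.1 v hv, add_zero]
      map_smul' := by
        rintro c ⟨a, ha⟩
        have ha' : a ∈ M := ha
        have hab : c • a ∈ M := M.toStarSubalgebra.smul_mem ha c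
        refine RN.unique hlam (hf _ hab).1 (M.commutant.toStarSubalgebra.smul_mem (hf a ha').1 c)
          (hf _ hab).2.2.2.1 (fun v hv => ?_) (hf _ hab).2.2.1 ((hf a ha').2.2.1.smul c)
        rw [smul_apply, (hf a ha').2.2.2.1 v hv, smul_zero] }
  obtain ⟨T, hT⟩ := LinearMap.exists_extend T0
  refine ⟨T, fun x hx => ?_⟩
  have e : T x = f x := by
    exact congrArg (fun g : S →ₗ[ℂ] (H →L[ℂ] H) => g ⟨x, hx⟩) hT
  rw [e]
  obtain ⟨h1, h2, h3, h4, h5⟩ := hf x hx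
  exact ⟨h1, h3, h2, fun v hv => h4 v (pr_eq_zero_iff.2 hv), fun v hv => h5 v (pr_eq_zero_iff.2 hv)⟩

end Crest.Agent.R078.LL975
end

-- ▼ part R078/S103LetterDef16
section

/-!
# R78 / S0103, letter lemma: the letters `a(Y)`, `b(Y)` (helper16)

`aM y i j = (1/2) c₀ (T'_{1/λ_ij} T_{λ_ij})^m y`, `bM y j i = T_{λ_ij} (aM y i j)`,
`λ_ij = exp (-(i - j) h)`, `om i = exp (-2 h i) / Z`.
-/

set_option autoImplicit false

open Filter Topology Set
open scoped ComplexOrder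

namespace Crest.Agent.R078.Z.Rcv16

open Crest.Agent.R078.Z.LLB Crest.Agent.R078.Z.RvD Crest.Agent.R078.S103.LSys

noncomputable section

universe u

variable {H : Type u} [NormedAddCommGroup H] [InnerProductSpace ℂ H] [CompleteSpace H]

theorem rn_of_975 {M : VonNeumannAlgebra H} {ξ : H} {lam : ℝ} {x h : H →L[ℂ] H}
    (hr : LL975.RN M ξ lam x h) : RN M ξ lam x h := by
  intro y hy
  have := hr y hy
  rwa [Complex.ofReal_inv] at this

/-- the Radon–Nikodym map `T_λ` of `(M, ξ)` -/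
def TL (M : VonNeumannAlgebra H) (ξ : H) (lam : ℝ) : (H →L[ℂ] H) →ₗ[ℂ] (H →L[ℂ] H) :=
  if h : 0 < lam then Classical.choose (LL975.exists_TLam M ξ lam h) else 0

theorem TL_spec (M : VonNeumannAlgebra H) (ξ : H) {lam : ℝ} (h : 0 < lam) :
    TLamAt M ξ lam (TL M ξ lam) := by
  intro x hx
  unfold TL
  rw [dif_pos h]
  obtain ⟨h1, h2, _, h4, h5⟩ := Classical.choose_spec (LL975.exists_TLam M ξ lam h) x hx
  exact ⟨h1, rn_of_975 h2, h4, h5⟩


theorem lamij_pos (h : ℝ) (i j : ℕ) : 0 < lamij h i j := Real.exp_pos _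

/-- one step `T'_{1/λ} T_λ` -/
def UL (M : VonNeumannAlgebra H) (ξ : H) (lam : ℝ) : (H →L[ℂ] H) →ₗ[ℂ] (H →L[ℂ] H) :=
  TL M.commutant ξ lam⁻¹ ∘ₗ TL M ξ lam

theorem UL_pow_mem (M : VonNeumannAlgebra H) (ξ : H) {lam : ℝ} (h : 0 < lam) {y : H →L[ℂ] H}
    (hy : y ∈ M) (q : ℕ) : ((UL M ξ lam) ^ q) y ∈ M :=
  pow_mem (TL_spec M ξ h) (TL_spec M.commutant ξ (inv_pos.2 h)) hy q

/-- the letter `a` -/
def aM (M : VonNeumannAlgebra H) (ξ : H) (m n : ℕ) (h : ℝ) :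
    (H →L[ℂ] H) →ₗ[ℂ] Matrix (Fin n) (Fin n) (H →L[ℂ] H) where
  toFun y := fun i j => ((1 / 2 * c0 m h : ℝ) : ℂ) • ((UL M ξ (lamij h i j)) ^ m) y
  map_add' y z := by
    ext i j : 2
    simp only [map_add, smul_add, Matrix.add_apply]
  map_smul' c y := by
    ext i j : 2
    simp only [map_smul, RingHom.id_apply, Matrix.smul_apply]
    rw [smul_comm]

theorem aM_apply (M : VonNeumannAlgebra H) (ξ : H) (m n : ℕ) (h : ℝ) (y : H →L[ℂ] H)
    (i j : Fin n) :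
    aM M ξ m n h y i j = ((1 / 2 * c0 m h : ℝ) : ℂ) • ((UL M ξ (lamij h i j)) ^ m) y := rfl

/-- the partner letter `b` -/
def bM (M : VonNeumannAlgebra H) (ξ : H) (m n : ℕ) (h : ℝ) :
    (H →L[ℂ] H) →ₗ[ℂ] Matrix (Fin n) (Fin n) (H →L[ℂ] H) where
  toFun y := fun j i => TL M ξ (lamij h i j) (aM M ξ m n h y i j)
  map_add' y z := by
    ext i j : 2
    simp only [map_add, Matrix.add_apply]
  map_smul' c y := by
    ext i j : 2
    simp only [map_smul, RingHom.id_apply, Matrix.smul_apply]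

theorem bM_apply (M : VonNeumannAlgebra H) (ξ : H) (m n : ℕ) (h : ℝ) (y : H →L[ℂ] H)
    (i j : Fin n) :
    bM M ξ m n h y j i = TL M ξ (lamij h i j) (aM M ξ m n h y i j) := rfl

theorem aM_mem (M : VonNeumannAlgebra H) (ξ : H) (m n : ℕ) (h : ℝ) {y : H →L[ℂ] H} (hy : y ∈ M)
    (i j : Fin n) : aM M ξ m n h y i j ∈ M :=
  M.toStarSubalgebra.smul_mem (UL_pow_mem M ξ (lamij_pos h i j) hy m) _

theorem bM_mem (M : VonNeumannAlgebra H) (ξ : H) (m n : ℕ) (h : ℝ) {y : H →L[ℂ] H} (hy : y ∈ M)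
    (i j : Fin n) : bM M ξ m n h y i j ∈ M.commutant :=
  (TL_spec M ξ (lamij_pos h j i) _ (aM_mem M ξ m n h hy j i)).1

/-- the weights -/
def Zom (h : ℝ) (n : ℕ) : ℝ := ∑ i ∈ Finset.range n, Real.exp (-(2 * h * i))

theorem Zom_pos {h : ℝ} {n : ℕ} (hn : 1 ≤ n) : 0 < Zom h n :=
  Finset.sum_pos (fun _ _ => Real.exp_pos _) (Finset.nonempty_range_iff.2 (by omega))

def om (h : ℝ) (n : ℕ) (i : Fin n) : ℝ := Real.exp (-(2 * h * (i : ℕ))) / Zom h n

theorem om_pos {h : ℝ} {n : ℕ} (hn : 1 ≤ n) (i : Fin n) : 0 < om h n i :=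
  div_pos (Real.exp_pos _) (Zom_pos hn)

theorem sum_om {h : ℝ} {n : ℕ} (hn : 1 ≤ n) : ∑ i, om h n i = 1 := by
  unfold om
  rw [← Finset.sum_div, div_eq_one_iff_eq (Zom_pos hn).ne', Zom,
    Finset.sum_range (fun i => Real.exp (-(2 * h * (i : ℝ))))]

theorem sum_inv_om {h : ℝ} {n : ℕ} (hn : 1 ≤ n) : ∑ i, 1 / ((n : ℝ) * om h n i) = Kth2 h n := by
  have hn' : (0 : ℝ) < n := by exact_mod_cast hn
  unfold Kth2 om
  rw [show (∑ i ∈ Finset.range n, Real.exp (-(2 * h * i))) = Zom h n from rfl,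
    Finset.sum_range (fun i => Real.exp (2 * h * (i : ℝ))), Finset.mul_sum, Finset.mul_sum]
  refine Finset.sum_congr rfl fun i _ => ?_
  have hZ := (Zom_pos (h := h) hn).ne'
  rw [Real.exp_neg]
  have he := (Real.exp_pos (2 * h * (i : ℕ))).ne'
  field_simp

/-- `λ_ij = √(om i / om j)` -/
theorem sqrt_om_div {h : ℝ} {n : ℕ} (hn : 1 ≤ n) (i j : Fin n) :
    Real.sqrt (om h n i / om h n j) = lamij h i j := by
  have hZ := (Zom_pos (h := h) hn).ne'
  have h1 : om h n i / om h n j = (lamij h i j) ^ 2 := by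
    unfold om lamij
    rw [div_div_div_cancel_right₀ hZ, ← Real.exp_sub, ← Real.exp_nat_mul]
    congr 1
    push_cast
    ring
  rw [h1, Real.sqrt_sq (lamij_pos h i j).le]

theorem one_le_Kth2 {h : ℝ} (hh : 0 ≤ h) {n : ℕ} (hn : 1 ≤ n) : 1 ≤ Kth2 h n := by
  have hn' : (0 : ℝ) < n := by exact_mod_cast hn
  unfold Kth2
  have h1 : 1 ≤ ∑ i ∈ Finset.range n, Real.exp (-(2 * h * i)) := by
    have h3 := Finset.single_le_sum (f := fun i : ℕ => Real.exp (-(2 * h * (i : ℝ))))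
      (fun i _ => (Real.exp_pos _).le) (Finset.mem_range.2 (show 0 < n by omega))
    simpa using h3
  have h2 : (n : ℝ) ≤ ∑ i ∈ Finset.range n, Real.exp (2 * h * i) := by
    have h3 : ∑ i ∈ Finset.range n, (1 : ℝ) ≤ ∑ i ∈ Finset.range n, Real.exp (2 * h * i) :=
      Finset.sum_le_sum fun i _ => Real.one_le_exp (by positivity)
    simpa using h3
  calc (1 : ℝ) = (n : ℝ)⁻¹ * (1 * n) := by field_simp
    _ ≤ (n : ℝ)⁻¹ * ((∑ i ∈ Finset.range n, Real.exp (-(2 * h * i))) *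
        ∑ i ∈ Finset.range n, Real.exp (2 * h * i)) := by gcongr

/-- the norm bound `‖opM (a y)‖, ‖opM (b y)‖ ≤ 1/2` (helper535's part) -/
def NormOK (M : VonNeumannAlgebra H) (ξ : H) (m n : ℕ) (h : ℝ) : Prop :=
  ∀ y ∈ M, ‖y‖ ≤ 1 → ‖opM (aM M ξ m n h y)‖ ≤ 1 / 2 ∧ ‖opM (bM M ξ m n h y)‖ ≤ 1 / 2

/-- the partner bound (helper535's part) -/
def PartnerOK (M : VonNeumannAlgebra H) (ξ : H) (m n : ℕ) (h : ℝ) (C : ℝ) : Prop :=
  ∀ y ∈ M, ‖y‖ ≤ 1 →
    (∑ i, ∑ j, ‖(Real.sqrt (om h n j) : ℂ) • aM M ξ m n h y i j ξ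
      - (Real.sqrt (om h n i) : ℂ) • bM M ξ m n h y j i ξ‖ ^ 2 ≤ C * (c0 m h / (m + 1))) ∧
    (∑ i, ∑ j, ‖(Real.sqrt (om h n j) : ℂ) • star (aM M ξ m n h y j i) ξ
      - (Real.sqrt (om h n i) : ℂ) • star (bM M ξ m n h y i j) ξ‖ ^ 2 ≤ C * (c0 m h / (m + 1)))

/-- **assembly of the letter lemma** -/
theorem exists_letterOut (M : VonNeumannAlgebra H) (ξ : H) {C : ℝ} (hC : 0 < C)
    (hN : ∀ (m n : ℕ) (h : ℝ), 1 ≤ m → 1 ≤ n → 0 < h → h ≤ 1 → NormOK M ξ m n h)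
    (hP : ∀ (m n : ℕ) (h : ℝ), 1 ≤ m → 1 ≤ n → 0 < h → h ≤ 1 → PartnerOK M ξ m n h C)
    {p : ℕ} {Y A B : Fin p → (H →L[ℂ] H)} (hY : ∀ c, Y c ∈ M) (hA : ∀ c, A c ∈ M.commutant)
    (hB : ∀ c, B c ∈ M.commutant) {κ τ : ℝ} (hκ : 0 < κ) (hτ : 0 < τ) :
    ∃ K ε : ℝ, 1 ≤ K ∧ 0 ≤ ε ∧ ε * K ≤ τ ∧ Nonempty (LetterOut M ξ Y A B κ K ε) := by
  obtain ⟨η, hη, hrec⟩ := recov_of_TLam (M := M) (ξ := ξ) (T := TL M ξ) (T' := TL M.commutant ξ)
    (fun lam hl => TL_spec M ξ hl) (fun lam hl => TL_spec M.commutant ξ hl) hA hB hY hκ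
  obtain ⟨m, n, h, hm, hn, hh, hh1, hKt, hPhi⟩ := exists_params η η (3 * τ ^ 2 / C) hη hη
    (by positivity)
  have hc0 := c0_pos hm hh
  have hm' : (0 : ℝ) < (m : ℝ) + 1 := by positivity
  have hK1 := one_le_Kth2 hh.le hn
  have hε0 : 0 ≤ C * (c0 m h / (m + 1)) := by positivity
  refine ⟨Real.sqrt (Kth2 h n), Real.sqrt (C * (c0 m h / (m + 1))), ?_, Real.sqrt_nonneg _, ?_, ?_⟩
  · exact Real.one_le_sqrt.2 hK1
  · rw [← Real.sqrt_mul hε0]
    refine Real.sqrt_le_iff.2 ⟨hτ.le, ?_⟩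
    rw [le_div_iff₀ hC] at hKt
    calc C * (c0 m h / (m + 1)) * Kth2 h n
        = (3 * c0 m h / (m + 1)) * Kth2 h n * C / 3 := by ring
      _ ≤ 3 * τ ^ 2 / 3 := by gcongr
      _ = τ ^ 2 := by ring
  · have hn' : (0 : ℝ) < n := by exact_mod_cast hn
    exact ⟨{
      n := n
      om := om h n
      om_pos := om_pos hn
      sum_om := sum_om hn
      a := aM M ξ m n h
      b := bM M ξ m n h
      a_mem := fun y hy i j => aM_mem M ξ m n h hy i j
      b_mem := fun y hy i j => bM_mem M ξ m n h hy i j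
      norm_a := fun y hy hy1 => (hN m n h hm hn hh hh1 y hy hy1).1
      norm_b := fun y hy hy1 => (hN m n h hm hn hh hh1 y hy hy1).2
      partner := fun y hy hy1 => by
        rw [Real.sq_sqrt hε0]
        exact (hP m n h hm hn hh hh1 y hy hy1).1
      partner_star := fun y hy hy1 => by
        rw [Real.sq_sqrt hε0]
        exact (hP m n h hm hn hh hh1 y hy hy1).2
      sum_inv := by
        rw [Real.sq_sqrt (zero_le_one.trans hK1), sum_inv_om hn]
      recov := fun c => hrec m n h hm hn hh hPhi c }⟩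

end

end Crest.Agent.R078.Z.Rcv16
end

-- ▼ part R078/S103Pos535
section

/-!
# R78 / S0103, letter lemma: positivity of the transposed Radon–Nikodym matrix (helper535)

If `opM x ≥ 0`, `x i j ∈ M`, and `h i j ∈ M'` is the Radon–Nikodym partner of `x i j` with parameter
`√(ω i / ω j)`, then `opM hᵀ ≥ 0`.  No amplified von Neumann algebra is used.
-/

set_option autoImplicit false
set_option linter.unusedSectionVars false

open scoped ComplexConjugate ComplexOrder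

noncomputable section

namespace Crest.Agent.R078.Z.Pos

open Crest.Agent.R078.S103.LSys

universe u

variable {H : Type u} [NormedAddCommGroup H] [InnerProductSpace ℂ H]

section basics

variable {J : Type*} [Fintype J]

/-- the vector `v` in coordinate `i`. -/
def sgl [DecidableEq J] (i : J) (v : H) : PiLp 2 (fun _ : J => H) := WithLp.toLp 2 (Pi.single i v)

@[simp] theorem sgl_apply [DecidableEq J] (i j : J) (v : H) :
    sgl i v j = if j = i then v else 0 := by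
  by_cases h : j = i
  · subst h; simp [sgl]
  · simp [sgl, h]

theorem opM_sgl [DecidableEq J] (x : Matrix J J (H →L[ℂ] H)) (j : J) (v : H) (i : J) :
    opM x (sgl j v) i = x i j v := by
  rw [opM_apply]
  simp only [sgl_apply]
  rw [Finset.sum_eq_single j]
  · simp
  · intro k _ hk; simp [hk]
  · simp


theorem eq_sum_sgl [DecidableEq J] (v : PiLp 2 (fun _ : J => H)) : v = ∑ j, sgl j (v j) := by
  ext i
  simp only [WithLp.ofLp_sum, Finset.sum_apply]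
  rw [Finset.sum_eq_single i]
  · simp
  · intro k _ hk
    have := sgl_apply k i (v k)
    rw [if_neg hk.symm] at this
    exact this
  · simp

theorem inner_opM (x : Matrix J J (H →L[ℂ] H)) (v w : PiLp 2 (fun _ : J => H)) :
    inner ℂ v (opM x w) = ∑ i, ∑ j, inner ℂ (v i) (x i j (w j)) := by
  rw [PiLp.inner_apply]
  refine Finset.sum_congr rfl fun i _ => ?_
  rw [opM_apply, inner_sum]


theorem opM_injective [DecidableEq J] {x y : Matrix J J (H →L[ℂ] H)} (h : opM x = opM y) : x = y := by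
  ext i j v
  rw [← opM_sgl x j v i, ← opM_sgl y j v i, h]

variable [CompleteSpace H]

theorem star_opM (x : Matrix J J (H →L[ℂ] H)) : star (opM x) = opM (star x) := by
  rw [ContinuousLinearMap.star_eq_adjoint]
  symm
  rw [ContinuousLinearMap.eq_adjoint_iff]
  intro v w
  rw [inner_opM, ← inner_conj_symm, inner_opM, map_sum, Finset.sum_comm]
  refine Finset.sum_congr rfl fun i _ => ?_
  rw [map_sum]
  refine Finset.sum_congr rfl fun j _ => ?_
  rw [inner_conj_symm, Matrix.star_apply, ContinuousLinearMap.star_eq_adjoint,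
    ContinuousLinearMap.adjoint_inner_left]

/-- entries of an operator on `H^J`. -/
def ent [DecidableEq J] (T : PiLp 2 (fun _ : J => H) →L[ℂ] PiLp 2 (fun _ : J => H)) :
    Matrix J J (H →L[ℂ] H) := fun i j =>
  (PiLp.proj 2 (fun _ : J => H) i) ∘L T ∘L
    ((PiLp.continuousLinearEquiv 2 ℂ (fun _ : J => H)).symm.toContinuousLinearMap ∘L
      ContinuousLinearMap.single ℂ (fun _ : J => H) j)

theorem ent_apply [DecidableEq J] (T : PiLp 2 (fun _ : J => H) →L[ℂ] PiLp 2 (fun _ : J => H))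
    (i j : J) (v : H) : ent T i j v = T (sgl j v) i := rfl

theorem opM_ent [DecidableEq J] (T : PiLp 2 (fun _ : J => H) →L[ℂ] PiLp 2 (fun _ : J => H)) :
    opM (ent T) = T := by
  ext v i
  rw [opM_apply]
  conv_rhs => rw [eq_sum_sgl v, map_sum]
  simp only [WithLp.ofLp_sum, Finset.sum_apply]
  rfl

/-- diagonal amplification `x ⊗ 1`. -/
def dg [DecidableEq J] (x : H →L[ℂ] H) :
    PiLp 2 (fun _ : J => H) →L[ℂ] PiLp 2 (fun _ : J => H) :=
  opM (Matrix.diagonal fun _ => x)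

theorem dg_apply [DecidableEq J] (x : H →L[ℂ] H) (v : PiLp 2 (fun _ : J => H)) (i : J) :
    dg x v i = x (v i) := by
  unfold dg
  rw [opM_apply, Finset.sum_eq_single i]
  · simp
  · intro k _ hk; simp [Matrix.diagonal_apply_ne' _ hk]
  · simp

theorem commute_dg_iff [DecidableEq J] (T : PiLp 2 (fun _ : J => H) →L[ℂ] PiLp 2 (fun _ : J => H))
    (x : H →L[ℂ] H) : Commute T (dg x) ↔ ∀ i j, Commute (ent T i j) x := by
  constructor
  · intro h i j
    ext v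
    change ent T i j (x v) = x (ent T i j v)
    rw [ent_apply, ent_apply]
    have h1 : sgl j (x v) = dg x (sgl j v) := by
      ext k
      change sgl j (x v) k = dg x (sgl j v) k
      rw [dg_apply, sgl_apply, sgl_apply]
      split_ifs <;> simp
    rw [h1]
    have h2 := congrArg (fun S => S (sgl j v)) h.eq
    change T (dg x (sgl j v)) = dg x (T (sgl j v)) at h2
    rw [h2, dg_apply]
  · intro h
    ext v i
    change T (dg x v) i = dg x (T v) i
    rw [dg_apply]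
    conv_lhs => rw [← opM_ent T]
    conv_rhs => rw [← opM_ent T]
    rw [opM_apply, opM_apply, map_sum]
    refine Finset.sum_congr rfl fun j _ => ?_
    rw [dg_apply]
    exact congrArg (fun S => S (v j)) (h i j).eq

end basics

section RN

variable [CompleteSpace H]

/-- Radon–Nikodym pairs (helper965's predicate). -/
def RN (M : VonNeumannAlgebra H) (ξ : H) (lam : ℝ) (x h : H →L[ℂ] H) : Prop :=
  ∀ y ∈ M.commutant, 2 * inner ℂ (y ξ) (x ξ)
    = lam * inner ℂ (y ξ) (h ξ) + lam⁻¹ * inner ℂ (star h ξ) (star y ξ)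

/-- `h` vanishes on the orthogonal complement of `M ξ`. -/
def Sup (M : VonNeumannAlgebra H) (ξ : H) (h : H →L[ℂ] H) : Prop :=
  ∀ v : H, (∀ z ∈ M, inner ℂ (z ξ) v = 0) → h v = 0

/-- an element of `M'` supported on `[M ξ]` and killing `ξ` is zero. -/
theorem eq_zero_of_Sup {M : VonNeumannAlgebra H} {ξ : H} {h : H →L[ℂ] H}
    (hm : h ∈ M.commutant) (hs : Sup M ξ h) (h0 : h ξ = 0) : h = 0 := by
  -- closed span of `M ξ`
  let L : Submodule ℂ H :=
    { carrier := {v | ∃ z ∈ M, v = z ξ}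
      add_mem' := by
        rintro a b ⟨z, hz, rfl⟩ ⟨w, hw, rfl⟩
        exact ⟨z + w, add_mem hz hw, rfl⟩
      zero_mem' := ⟨0, zero_mem M, rfl⟩
      smul_mem' := by
        rintro c a ⟨z, hz, rfl⟩
        exact ⟨c • z, M.toStarSubalgebra.smul_mem hz c, rfl⟩ }
  have hL : ∀ v ∈ L.topologicalClosure, h v = 0 := by
    intro v hv
    have hcl : IsClosed {v : H | h v = 0} := isClosed_eq h.continuous continuous_const
    have hsub : (L : Set H) ⊆ {v : H | h v = 0} := by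
      rintro v ⟨z, hz, rfl⟩
      have hc := VonNeumannAlgebra.mem_commutant_iff.mp hm z hz
      have := congrArg (fun S => S ξ) hc
      change z (h ξ) = h (z ξ) at this
      change h (z ξ) = 0
      rw [← this, h0, map_zero]
    exact closure_minimal hsub hcl hv
  have : CompleteSpace L.topologicalClosure := L.isClosed_topologicalClosure.completeSpace_coe
  ext v
  obtain ⟨a, ha, b, hb, rfl⟩ := L.topologicalClosure.exists_add_mem_mem_orthogonal v
  rw [map_add, hL a ha, zero_add]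
  change h b = 0
  apply hs
  intro z hz
  exact (Submodule.mem_orthogonal _ _).mp hb (z ξ)
    (L.le_topologicalClosure ⟨z, hz, rfl⟩)

theorem RN.sub {M : VonNeumannAlgebra H} {ξ : H} {lam : ℝ} {x h x' h' : H →L[ℂ] H}
    (h1 : RN M ξ lam x h) (h2 : RN M ξ lam x' h') : RN M ξ lam (x - x') (h - h') := by
  intro y hy
  have e1 := h1 y hy
  have e2 := h2 y hy
  simp only [sub_apply, inner_sub_right, star_sub, inner_sub_left]
  linear_combination e1 - e2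

theorem RN.zero_left {M : VonNeumannAlgebra H} {ξ : H} {lam : ℝ} (hl : 0 < lam) {d : H →L[ℂ] H}
    (hd : RN M ξ lam 0 d) (hm : d ∈ M.commutant) (hs : Sup M ξ d) : d = 0 := by
  have e := hd d hm
  simp only [zero_apply, inner_zero_right, mul_zero,
    inner_self_eq_norm_sq_to_K] at e
  have e2 : (0 : ℝ) = lam * ‖d ξ‖ ^ 2 + lam⁻¹ * ‖star d ξ‖ ^ 2 := by
    have e3 : ((0 : ℝ) : ℂ) = ((lam * ‖d ξ‖ ^ 2 + lam⁻¹ * ‖star d ξ‖ ^ 2 : ℝ) : ℂ) := by
      push_cast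
      simpa using e
    exact_mod_cast e3
  have h1 : 0 ≤ lam⁻¹ * ‖star d ξ‖ ^ 2 := by positivity
  have h2 : 0 ≤ lam * ‖d ξ‖ ^ 2 := by positivity
  have h3 : lam * ‖d ξ‖ ^ 2 = 0 := by linarith
  have h4 : d ξ = 0 := by
    rcases mul_eq_zero.mp h3 with h | h
    · exact absurd h hl.ne'
    · simpa using h
  exact eq_zero_of_Sup hm hs h4

/-- uniqueness of the partner. -/
theorem RN.unique {M : VonNeumannAlgebra H} {ξ : H} {lam : ℝ} (hl : 0 < lam) {x h h' : H →L[ℂ] H}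
    (h1 : RN M ξ lam x h) (h2 : RN M ξ lam x h') (hm : h ∈ M.commutant) (hm' : h' ∈ M.commutant)
    (hs : Sup M ξ h) (hs' : Sup M ξ h') : h = h' := by
  have := h1.sub h2
  rw [sub_self] at this
  refine sub_eq_zero.mp (this.zero_left hl (sub_mem hm hm') ?_)
  intro v hv
  rw [sub_apply, hs v hv, hs' v hv, sub_zero]

/-- adjoint of a pair. -/
theorem RN.star {M : VonNeumannAlgebra H} {ξ : H} {lam : ℝ} {x h : H →L[ℂ] H} (hx : x ∈ M)
    (h1 : RN M ξ lam x h) : RN M ξ lam⁻¹ (star x) (star h) := by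
  intro y hy
  have e := h1 (Star.star y) (star_mem hy)
  rw [star_star] at e
  have e' := congrArg (starRingEnd ℂ) e
  simp only [map_mul, map_add, inner_conj_symm, Complex.conj_ofReal] at e'
  have hc := VonNeumannAlgebra.mem_commutant_iff.mp hy x hx
  have e3 : inner ℂ (x ξ) (Star.star y ξ) = inner ℂ (y ξ) (Star.star x ξ) := by
    rw [ContinuousLinearMap.star_eq_adjoint, ContinuousLinearMap.star_eq_adjoint,
      ContinuousLinearMap.adjoint_inner_right, ContinuousLinearMap.adjoint_inner_right]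
    have := congrArg (fun S => S ξ) hc
    change x (y ξ) = y (x ξ) at this
    rw [this]
  rw [e3] at e'
  rw [star_star, inv_inv]
  have e4 : (starRingEnd ℂ) (2 : ℂ) = 2 := by
    rw [show (2 : ℂ) = ((2 : ℝ) : ℂ) by norm_num, Complex.conj_ofReal]
  rw [e4] at e'
  rw [e']
  ring

end RN

section pos

variable [CompleteSpace H] {J : Type*} [Fintype J] [DecidableEq J]

theorem opM_mul (x y : Matrix J J (H →L[ℂ] H)) : opM (x * y) = opM x * opM y := by
  ext v i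
  change opM (x * y) v i = opM x (opM y v) i
  simp only [opM_apply, Matrix.mul_apply, sum_apply, map_sum, mul_apply_eq_comp]
  rw [Finset.sum_comm]

theorem ent_opM (x : Matrix J J (H →L[ℂ] H)) : ent (opM x) = x :=
  opM_injective (opM_ent _)

theorem ent_mul (S T : PiLp 2 (fun _ : J => H) →L[ℂ] PiLp 2 (fun _ : J => H)) (i j : J) :
    ent (S * T) i j = ∑ k, ent S i k * ent T k j := by
  have : ent (S * T) = ent S * ent T := by
    apply opM_injective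
    rw [opM_ent, opM_mul, opM_ent, opM_ent]
  rw [this, Matrix.mul_apply]

theorem ent_star (T : PiLp 2 (fun _ : J => H) →L[ℂ] PiLp 2 (fun _ : J => H)) (i j : J) :
    ent (star T) i j = star (ent T j i) := by
  have : ent (star T) = star (ent T) := by
    apply opM_injective
    rw [opM_ent, ← star_opM, opM_ent]
  rw [this, Matrix.star_apply]

/-- positive/negative parts and a square root, on an abstract Hilbert space. -/
theorem exists_neg_part {G : Type*} [NormedAddCommGroup G] [InnerProductSpace ℂ G] [CompleteSpace G]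
    (T : G →L[ℂ] G) (hT : IsSelfAdjoint T) :
    ∃ P N b : G →L[ℂ] G, P.IsPositive ∧ T = P - N ∧ IsSelfAdjoint N ∧ IsSelfAdjoint b ∧ b * b = N ∧
      (∀ z, Commute T z → Commute N z) ∧ (∀ z, Commute T z → Commute b z) ∧
      (∀ v, inner ℂ (N v) (T v) = -((‖N v‖ ^ 2 : ℝ) : ℂ)) := by
  have h1 : T⁺ - T⁻ = T := CFC.posPart_sub_negPart T hT
  have h2 : T⁻ * T⁺ = 0 := CFC.negPart_mul_posPart T
  have hN0 : 0 ≤ T⁻ := CFC.negPart_nonneg T
  have h3 : IsSelfAdjoint (T⁻) := hN0.isSelfAdjoint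
  have hb0 : 0 ≤ CFC.sqrt (T⁻) := CFC.sqrt_nonneg _
  have hNc : ∀ z, Commute T z → Commute (T⁻) z := by
    intro z hz
    rw [CFC.negPart_def]
    exact hz.cfcₙ_real _
  refine ⟨T⁺, T⁻, CFC.sqrt (T⁻),
    (ContinuousLinearMap.nonneg_iff_isPositive _).mp (CFC.posPart_nonneg T), h1.symm, h3,
    hb0.isSelfAdjoint, CFC.sqrt_mul_sqrt_self _ hN0, hNc, ?_, ?_⟩
  · intro z hz
    rw [CFC.sqrt]
    exact (hNc z hz).cfcₙ_nnreal _
  · intro v
    have h4 : inner ℂ (T⁻ v) (T⁺ v) = 0 := by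
      have e : inner ℂ (T⁻ v) (T⁺ v) = inner ℂ v (T⁻ (T⁺ v)) := by
        rw [← ContinuousLinearMap.adjoint_inner_right (T⁻) v (T⁺ v),
          ← ContinuousLinearMap.star_eq_adjoint, h3.star_eq]
      have e2 : T⁻ (T⁺ v) = (T⁻ * T⁺) v := rfl
      rw [e, e2, h2]; simp
    have e3 : T v = T⁺ v - T⁻ v := by
      conv_lhs => rw [← h1]
      rfl
    rw [e3, inner_sub_right, h4, zero_sub, inner_self_eq_norm_sq_to_K]
    push_cast; rfl

/-- **Positivity of the transposed Radon–Nikodym matrix.** -/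
theorem pos_transpose (M : VonNeumannAlgebra H) (ξ : H) (ω : J → ℝ) (hω : ∀ i, 0 < ω i)
    (x h : Matrix J J (H →L[ℂ] H)) (hxM : ∀ i j, x i j ∈ M) (hhM : ∀ i j, h i j ∈ M.commutant)
    (hs : ∀ i j, Sup M ξ (h i j)) (hs' : ∀ i j, Sup M ξ (star (h i j)))
    (hRN : ∀ i j, RN M ξ (Real.sqrt (ω i / ω j)) (x i j) (h i j))
    (hpos : (opM x).IsPositive) : (opM h.transpose).IsPositive := by
  have hlam : ∀ i j, 0 < Real.sqrt (ω i / ω j) := fun i j =>
    Real.sqrt_pos.mpr (div_pos (hω i) (hω j))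
  -- `x` is hermitian
  have hxs : ∀ i j, star (x i j) = x j i := by
    intro i j
    have h1 : opM (star x) = opM x := by rw [← star_opM]; exact hpos.isSelfAdjoint
    have h2 := congrFun (congrFun (opM_injective h1) j) i
    rw [Matrix.star_apply] at h2
    exact h2
  -- `h` is hermitian
  have hhs : ∀ i j, star (h i j) = h j i := by
    intro i j
    have h1 := (hRN i j).star (hxM i j)
    rw [hxs i j, ← Real.sqrt_inv, inv_div] at h1
    exact RN.unique (hlam j i) h1 (hRN j i) (star_mem (hhM i j)) (hhM j i) (hs' i j) (hs j i)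
  set T := opM h.transpose with hTdef
  have hTent : ∀ i j, ent T i j = h j i := by
    intro i j; rw [hTdef, ent_opM]; rfl
  have hT : IsSelfAdjoint T := by
    rw [isSelfAdjoint_iff, hTdef, star_opM]
    congr 1
    ext i j : 2
    rw [Matrix.star_apply, Matrix.transpose_apply, Matrix.transpose_apply, hhs]
  obtain ⟨P, N, b, hP, hTPN, hNsa, hbsa, hbb, hNcc, hbcc, hin⟩ := exists_neg_part T hT
  -- commutation
  have hTc : ∀ z ∈ M, Commute T (dg z) := by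
    intro z hz
    rw [commute_dg_iff]
    intro i j
    rw [hTent]
    exact ((VonNeumannAlgebra.mem_commutant_iff.mp (hhM j i)) z hz).symm
  have hNc : ∀ z ∈ M, Commute N (dg z) := fun z hz => hNcc _ (hTc z hz)
  have hbc : ∀ z ∈ M, Commute b (dg z) := fun z hz => hbcc _ (hTc z hz)
  have hNM : ∀ i j, ent N i j ∈ M.commutant := by
    intro i j
    rw [VonNeumannAlgebra.mem_commutant_iff]
    intro z hz
    exact ((commute_dg_iff N z).mp (hNc z hz) i j).symm.eq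
  have hbM : ∀ i j, ent b i j ∈ M.commutant := by
    intro i j
    rw [VonNeumannAlgebra.mem_commutant_iff]
    intro z hz
    exact ((commute_dg_iff b z).mp (hbc z hz) i j).symm.eq
  have hbst : ∀ i j, star (ent b i j) = ent b j i := by
    intro i j; rw [← ent_star, hbsa.star_eq]
  have hNst : ∀ i j, star (ent N i j) = ent N j i := by
    intro i j; rw [← ent_star, hNsa.star_eq]
  -- the vectors `v_k`
  let V : J → PiLp 2 (fun _ : J => H) := fun k =>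
    WithLp.toLp 2 (fun j => (Real.sqrt (ω j) : ℂ) • ent b k j ξ)
  have hV : ∀ k j, V k j = (Real.sqrt (ω j) : ℂ) • ent b k j ξ := fun _ _ => rfl
  have key1 : ∀ i j, (Real.sqrt (ω i) : ℂ) * (Real.sqrt (ω j) : ℂ) * inner ℂ (ent N j i ξ) (x i j ξ)
      = ∑ k, inner ℂ (V k i) (x i j (V k j)) := by
    intro i j
    rw [← hbb, ent_mul, sum_apply, sum_inner, Finset.mul_sum]
    refine Finset.sum_congr rfl fun k _ => ?_
    rw [hV, hV, map_smul, inner_smul_left, inner_smul_right, Complex.conj_ofReal, ← mul_assoc]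
    congr 1
    rw [mul_apply_eq_comp]
    have e1 : inner ℂ (ent b j k (ent b k i ξ)) (x i j ξ)
        = inner ℂ (ent b k i ξ) (star (ent b j k) (x i j ξ)) := by
      rw [ContinuousLinearMap.star_eq_adjoint, ContinuousLinearMap.adjoint_inner_right]
    rw [e1, hbst]
    have e2 := congrArg (fun S => S ξ) (VonNeumannAlgebra.mem_commutant_iff.mp (hbM k j) _ (hxM i j))
    change x i j (ent b k j ξ) = ent b k j (x i j ξ) at e2
    rw [e2]
  have key2 : (∑ i, ∑ j, (Real.sqrt (ω i) : ℂ) * (Real.sqrt (ω j) : ℂ) *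
      inner ℂ (ent N j i ξ) (x i j ξ)) = ∑ k, inner ℂ (V k) (opM x (V k)) := by
    simp only [inner_opM, key1]
    rw [Finset.sum_congr rfl (fun i _ => Finset.sum_comm), Finset.sum_comm]
  have key3 : ∀ i j, 2 * ((Real.sqrt (ω i) : ℂ) * (Real.sqrt (ω j) : ℂ) *
      inner ℂ (ent N j i ξ) (x i j ξ)) = (ω i : ℂ) * inner ℂ (ent N j i ξ) (ent T j i ξ)
        + (ω j : ℂ) * inner ℂ (ent T i j ξ) (ent N i j ξ) := by
    intro i j
    have e := hRN i j (ent N j i) (hNM j i)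
    have l1 : (Real.sqrt (ω i / ω j) : ℂ) * ((Real.sqrt (ω i) : ℂ) * (Real.sqrt (ω j) : ℂ)) = ω i := by
      have : Real.sqrt (ω i / ω j) * (Real.sqrt (ω i) * Real.sqrt (ω j)) = ω i := by
        rw [Real.sqrt_div (hω i).le]
        have h1 := Real.sqrt_pos.mpr (hω j)
        have h2 := Real.mul_self_sqrt (hω i).le
        field_simp
        nlinarith
      exact_mod_cast this
    have l2 : ((Real.sqrt (ω i / ω j))⁻¹ : ℂ) * ((Real.sqrt (ω i) : ℂ) * (Real.sqrt (ω j) : ℂ)) = ω j := by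
      have : (Real.sqrt (ω i / ω j))⁻¹ * (Real.sqrt (ω i) * Real.sqrt (ω j)) = ω j := by
        rw [Real.sqrt_div (hω i).le]
        have h1 := Real.sqrt_pos.mpr (hω i)
        have h2 := Real.mul_self_sqrt (hω j).le
        field_simp
        nlinarith
      exact_mod_cast this
    rw [hTent, hTent, ← hhs i j, ← hNst j i]
    push_cast at e
    linear_combination ((Real.sqrt (ω i) : ℂ) * (Real.sqrt (ω j) : ℂ)) * e
      + inner ℂ (ent N j i ξ) (h i j ξ) * l1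
      + inner ℂ (star (h i j) ξ) (star (ent N j i) ξ) * l2
  have key4 : 2 * (∑ k, inner ℂ (V k) (opM x (V k)))
      = -((2 * ∑ i, ω i * ‖N (sgl i ξ)‖ ^ 2 : ℝ) : ℂ) := by
    rw [← key2, Finset.mul_sum]
    have e1 : ∀ i, 2 * ∑ j, (Real.sqrt (ω i) : ℂ) * (Real.sqrt (ω j) : ℂ) *
        inner ℂ (ent N j i ξ) (x i j ξ) = ∑ j, ((ω i : ℂ) * inner ℂ (ent N j i ξ) (ent T j i ξ)
        + (ω j : ℂ) * inner ℂ (ent T i j ξ) (ent N i j ξ)) := by
      intro i
      rw [Finset.mul_sum]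
      exact Finset.sum_congr rfl fun j _ => key3 i j
    rw [Finset.sum_congr rfl fun i _ => e1 i]
    simp only [Finset.sum_add_distrib]
    rw [Finset.sum_comm (f := fun i j => (ω j : ℂ) * inner ℂ (ent T i j ξ) (ent N i j ξ))]
    simp only [← Finset.mul_sum]
    have e2 : ∀ i, ∑ j, inner ℂ (ent N j i ξ) (ent T j i ξ) = -((‖N (sgl i ξ)‖ ^ 2 : ℝ) : ℂ) := by
      intro i
      rw [← hin, PiLp.inner_apply]
      rfl
    have e3 : ∀ j, ∑ i, inner ℂ (ent T i j ξ) (ent N i j ξ) = -((‖N (sgl j ξ)‖ ^ 2 : ℝ) : ℂ) := by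
      intro j
      have : inner ℂ (T (sgl j ξ)) (N (sgl j ξ)) = -((‖N (sgl j ξ)‖ ^ 2 : ℝ) : ℂ) := by
        rw [← inner_conj_symm, hin, map_neg, Complex.conj_ofReal]
      rw [← this, PiLp.inner_apply]
      rfl
    simp only [e2, e3]
    push_cast
    simp only [mul_neg, Finset.sum_neg_distrib]
    ring
  have key5 : ∀ i, N (sgl i ξ) = 0 := by
    have h1 : 0 ≤ (∑ k, inner ℂ (V k) (opM x (V k))).re := by
      rw [Complex.re_sum]
      exact Finset.sum_nonneg fun k _ => hpos.re_inner_nonneg_right (V k)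
    have h2 := congrArg Complex.re key4
    rw [Complex.neg_re, Complex.ofReal_re, show (2 : ℂ) = ((2 : ℝ) : ℂ) by norm_num,
      Complex.re_ofReal_mul] at h2
    have h3 : ∑ i, ω i * ‖N (sgl i ξ)‖ ^ 2 ≤ 0 := by linarith
    have h4 : ∀ i ∈ Finset.univ, 0 ≤ ω i * ‖N (sgl i ξ)‖ ^ 2 := fun i _ =>
      mul_nonneg (hω i).le (by positivity)
    have h5 := (Finset.sum_eq_zero_iff_of_nonneg h4).mp (le_antisymm h3 (Finset.sum_nonneg h4))
    intro i
    have h6 := h5 i (Finset.mem_univ i)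
    rcases mul_eq_zero.mp h6 with h | h
    · exact absurd h (hω i).ne'
    · simpa using h
  have hker : ∀ v : PiLp 2 (fun _ : J => H), T v = 0 → N v = 0 := by
    intro v hv
    have h1 := hin v
    rw [hv, inner_zero_right] at h1
    have h2 : (‖N v‖ ^ 2 : ℝ) = 0 := by
      have := congrArg Complex.re h1
      rw [Complex.neg_re, Complex.ofReal_re, Complex.zero_re] at this
      linarith
    simpa using h2
  have hNz : N = 0 := by
    rw [← opM_ent N]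
    have : ent N = 0 := by
      refine Matrix.ext fun j i => ?_
      refine eq_zero_of_Sup (M := M) (ξ := ξ) (hNM j i) ?_ ?_
      · intro v hv
        have h1 : T (sgl i v) = 0 := by
          ext k
          change T (sgl i v) k = 0
          rw [← ent_apply, hTent]
          exact hs i k v hv
        rw [ent_apply, hker _ h1]
        rfl
      · rw [ent_apply, key5 i]; rfl
    rw [this]
    ext v k
    rw [opM_apply]
    simp
  rw [hTPN, hNz, sub_zero]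
  exact hP

end pos

end Crest.Agent.R078.Z.Pos
end
end

-- ▼ part R078/S103Comp535
section

/-!
# R78 / S0103, letter lemma, matrix part (helper535)

Everything of `LetterOut` except the scalar recovery, componentwise.
-/

set_option autoImplicit false
set_option linter.unusedSectionVars false

open scoped ComplexConjugate ComplexOrder

noncomputable section

namespace Crest.Agent.R078.Z.Comp

open Crest.Agent.R078.S103.LSys Crest.Agent.R078.Z.Pos

universe u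

variable {H : Type u} [NormedAddCommGroup H] [InnerProductSpace ℂ H] [CompleteSpace H]
variable {ι : Type*} [Fintype ι] [DecidableEq ι]

/-! ### 2 x 2 block positivity as a quadratic form -/

/-- `(v, (α ⊗ P) v)`. -/
def QF (α : ι → ι → ℝ) (P : H →L[ℂ] H) (v : ι → H) : ℝ :=
  ∑ i, ∑ j, α i j * (inner ℂ (v i) (P (v j))).re

/-- positivity of `[[α ⊗ P, Z], [Z*, α ⊗ P]]`. -/
def BP (α : ι → ι → ℝ) (P : H →L[ℂ] H) (Z : Matrix ι ι (H →L[ℂ] H)) : Prop :=
  ∀ v w : ι → H, 0 ≤ QF α P v + QF α P w + 2 * ∑ i, ∑ j, (inner ℂ (v i) (Z i j (w j))).re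

theorem inner_star_right (x : H →L[ℂ] H) (v w : H) : inner ℂ v (star x w) = inner ℂ (x v) w := by
  rw [ContinuousLinearMap.star_eq_adjoint, ContinuousLinearMap.adjoint_inner_right]

theorem re_inner_star (x : H →L[ℂ] H) (v w : H) :
    (inner ℂ v (star x w)).re = (inner ℂ w (x v)).re := by
  rw [inner_star_right, ← inner_conj_symm, Complex.conj_re]

theorem BP.star {α : ι → ι → ℝ} {P : H →L[ℂ] H} {Z : Matrix ι ι (H →L[ℂ] H)} (h : BP α P Z) :
    BP α P (Star.star Z) := by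
  intro v w
  have h1 := h w v
  have h2 : ∑ i, ∑ j, (inner ℂ (v i) ((Star.star Z) i j (w j))).re
      = ∑ i, ∑ j, (inner ℂ (w i) (Z i j (v j))).re := by
    rw [Finset.sum_comm]
    refine Finset.sum_congr rfl fun i _ => Finset.sum_congr rfl fun j _ => ?_
    rw [Matrix.star_apply, re_inner_star]
  rw [h2]
  linarith

/-- the block matrix. -/
def blk (α : ι → ι → ℝ) (P : H →L[ℂ] H) (Z : Matrix ι ι (H →L[ℂ] H)) :
    Matrix (ι ⊕ ι) (ι ⊕ ι) (H →L[ℂ] H) :=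
  Matrix.fromBlocks (fun i j => (α i j : ℂ) • P) (fun i j => Z i j) (fun i j => star (Z j i))
    (fun i j => (α i j : ℂ) • P)

theorem sum_blk (A B C D : Matrix ι ι (H →L[ℂ] H)) (v w : ι → H) :
    ∑ i, ∑ j, (inner ℂ ((Sum.elim v w) i) (Matrix.fromBlocks A B C D i j ((Sum.elim v w) j))).re
      = ∑ i, ∑ j, (inner ℂ (v i) (A i j (v j))).re + ∑ i, ∑ j, (inner ℂ (v i) (B i j (w j))).re
        + (∑ i, ∑ j, (inner ℂ (w i) (C i j (v j))).re + ∑ i, ∑ j, (inner ℂ (w i) (D i j (w j))).re) := by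
  simp only [Fintype.sum_sum_type, Sum.elim_inl, Sum.elim_inr, Finset.sum_add_distrib,
    Matrix.fromBlocks_apply₁₁, Matrix.fromBlocks_apply₁₂, Matrix.fromBlocks_apply₂₁,
    Matrix.fromBlocks_apply₂₂]
  ring

theorem QF_eq (α : ι → ι → ℝ) (P : H →L[ℂ] H) (v : ι → H) :
    ∑ i, ∑ j, (inner ℂ (v i) (((α i j : ℂ) • P) (v j))).re = QF α P v := by
  unfold QF
  refine Finset.sum_congr rfl fun i _ => Finset.sum_congr rfl fun j _ => ?_
  rw [smul_apply, inner_smul_right, Complex.re_ofReal_mul]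

theorem isPositive_opM {J : Type*} [Fintype J] [DecidableEq J] (x : Matrix J J (H →L[ℂ] H))
    (hs : star x = x)
    (hp : ∀ v : J → H, 0 ≤ ∑ i, ∑ j, (inner ℂ (v i) (x i j (v j))).re) :
    (opM x).IsPositive := by
  rw [ContinuousLinearMap.isPositive_def']
  refine ⟨?_, fun v => ?_⟩
  · rw [isSelfAdjoint_iff, star_opM, hs]
  · rw [ContinuousLinearMap.reApplyInnerSelf_apply, ← inner_conj_symm, RCLike.conj_re, inner_opM]
    have := hp (fun i => v i)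
    rw [map_sum]
    simp only [map_sum]
    exact this

theorem BP.isPositive {α : ι → ι → ℝ} {P : H →L[ℂ] H} {Z : Matrix ι ι (H →L[ℂ] H)}
    (hα : ∀ i j, α i j = α j i) (hP : Star.star P = P) (h : BP α P Z) :
    (opM (blk α P Z)).IsPositive := by
  apply isPositive_opM
  · have e : ∀ i j, Star.star ((α j i : ℂ) • P) = (α i j : ℂ) • P := by
      intro i j
      rw [star_smul, hP, hα i j, RCLike.star_def, Complex.conj_ofReal]
    refine Matrix.ext fun i j => ?_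
    rw [Matrix.star_apply]
    rcases i with i | i <;> rcases j with j | j
    · exact e i j
    · exact star_star _
    · rfl
    · exact e i j
  · intro v
    have e : v = Sum.elim (fun i => v (Sum.inl i)) (fun i => v (Sum.inr i)) := by
      ext i; rcases i with i | i <;> rfl
    rw [e]
    refine le_trans ?_ (le_of_eq (sum_blk (fun i j => (α i j : ℂ) • P) (fun i j => Z i j)
      (fun i j => Star.star (Z j i)) (fun i j => (α i j : ℂ) • P) _ _).symm)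
    rw [QF_eq, QF_eq]
    have h1 := h (fun i => v (Sum.inl i)) (fun i => v (Sum.inr i))
    have h2 : ∑ i, ∑ j, (inner ℂ (v (Sum.inr i)) ((Star.star (Z j i)) (v (Sum.inl j)))).re
        = ∑ i, ∑ j, (inner ℂ (v (Sum.inl i)) (Z i j (v (Sum.inr j)))).re := by
      rw [Finset.sum_comm]
      refine Finset.sum_congr rfl fun i _ => Finset.sum_congr rfl fun j _ => ?_
      rw [re_inner_star]
    rw [h2]
    linarith

/-- the swapped block form. -/
theorem BP.of_isPositive {α : ι → ι → ℝ} {P : H →L[ℂ] H} {Z : Matrix ι ι (H →L[ℂ] H)}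
    (h : (opM (Matrix.fromBlocks (fun i j => (α i j : ℂ) • P) (fun i j => Star.star (Z j i))
      (fun i j => Z i j) (fun i j => (α i j : ℂ) • P) :
        Matrix (ι ⊕ ι) (ι ⊕ ι) (H →L[ℂ] H))).IsPositive) : BP α P Z := by
  intro v w
  have h1 := h.re_inner_nonneg_right (WithLp.toLp 2 (Sum.elim w v))
  rw [inner_opM, map_sum] at h1
  simp only [map_sum] at h1
  have h3 := sum_blk (fun i j => (α i j : ℂ) • P) (fun i j => Star.star (Z j i))
      (fun i j => Z i j) (fun i j => (α i j : ℂ) • P) w v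
  have h4 : 0 ≤ ∑ i, ∑ j, (inner ℂ ((Sum.elim w v) i) (Matrix.fromBlocks (fun i j => (α i j : ℂ) • P)
      (fun i j => Star.star (Z j i))
      (fun i j => Z i j) (fun i j => (α i j : ℂ) • P) i j ((Sum.elim w v) j))).re := h1
  rw [h3, QF_eq, QF_eq] at h4
  have h2 : ∑ i, ∑ j, (inner ℂ (w i) ((Star.star (Z j i)) (v j))).re
      = ∑ i, ∑ j, (inner ℂ (v i) (Z i j (w j))).re := by
    rw [Finset.sum_comm]
    refine Finset.sum_congr rfl fun i _ => Finset.sum_congr rfl fun j _ => ?_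
    rw [re_inner_star]
  rw [h2] at h4
  linarith

/-! ### norm bounds from block positivity -/

theorem QF_le {α : ι → ι → ℝ} {P : H →L[ℂ] H} (hα : ∀ i j, α i j = α j i) (hα0 : ∀ i j, 0 ≤ α i j)
    (hP : ∀ v, ‖P v‖ ≤ ‖v‖) {R : ℝ} (hR : ∀ i, ∑ j, α i j ≤ R) (v : ι → H) :
    QF α P v ≤ R * ∑ i, ‖v i‖ ^ 2 := by
  have h1 : QF α P v ≤ ∑ i, ∑ j, (α i j * ‖v i‖ ^ 2 / 2 + α i j * ‖v j‖ ^ 2 / 2) := by
    unfold QF
    refine Finset.sum_le_sum fun i _ => Finset.sum_le_sum fun j _ => ?_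
    have h2 : (inner ℂ (v i) (P (v j))).re ≤ ‖v i‖ * ‖v j‖ := by
      calc (inner ℂ (v i) (P (v j))).re ≤ ‖inner ℂ (v i) (P (v j))‖ := Complex.re_le_norm _
        _ ≤ ‖v i‖ * ‖P (v j)‖ := norm_inner_le_norm _ _
        _ ≤ _ := by gcongr; exact hP _
    have h3 : (inner ℂ (v i) (P (v j))).re ≤ ‖v i‖ ^ 2 / 2 + ‖v j‖ ^ 2 / 2 := by
      nlinarith [sq_nonneg (‖v i‖ - ‖v j‖)]
    calc _ ≤ α i j * (‖v i‖ ^ 2 / 2 + ‖v j‖ ^ 2 / 2) := mul_le_mul_of_nonneg_left h3 (hα0 i j)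
      _ = _ := by ring
  have h4 : ∑ i, ∑ j, α i j * ‖v i‖ ^ 2 / 2 ≤ R / 2 * ∑ i, ‖v i‖ ^ 2 := by
    rw [Finset.mul_sum]
    refine Finset.sum_le_sum fun i _ => ?_
    have : ∑ j, α i j * ‖v i‖ ^ 2 / 2 = (∑ j, α i j) * (‖v i‖ ^ 2 / 2) := by
      rw [Finset.sum_mul]; exact Finset.sum_congr rfl fun j _ => by ring
    rw [this]
    nlinarith [hR i, sq_nonneg ‖v i‖]
  have h5 : ∑ i, ∑ j, α i j * ‖v j‖ ^ 2 / 2 ≤ R / 2 * ∑ i, ‖v i‖ ^ 2 := by
    rw [Finset.sum_comm, Finset.mul_sum]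
    refine Finset.sum_le_sum fun i _ => ?_
    have : ∑ j, α j i * ‖v i‖ ^ 2 / 2 = (∑ j, α i j) * (‖v i‖ ^ 2 / 2) := by
      rw [Finset.sum_mul]; exact Finset.sum_congr rfl fun j _ => by rw [hα j i]; ring
    rw [this]
    nlinarith [hR i, sq_nonneg ‖v i‖]
  simp only [Finset.sum_add_distrib] at h1
  linarith

/-- `‖Z w‖² ≤ R (w, (α ⊗ P) w)`. -/
theorem BP.norm_sq_le {α : ι → ι → ℝ} {P : H →L[ℂ] H} {Z : Matrix ι ι (H →L[ℂ] H)}
    (hα : ∀ i j, α i j = α j i) (hα0 : ∀ i j, 0 ≤ α i j)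
    (hP : ∀ v, ‖P v‖ ≤ ‖v‖) {R : ℝ} (hR0 : 0 < R) (hR : ∀ i, ∑ j, α i j ≤ R) (h : BP α P Z)
    (w : ι → H) : ∑ i, ‖∑ j, Z i j (w j)‖ ^ 2 ≤ R * QF α P w := by
  set u : ι → H := fun i => ∑ j, Z i j (w j) with hu
  have h1 := h (fun i => ((-R⁻¹ : ℝ) : ℂ) • u i) w
  have h2 : QF α P (fun i => ((-R⁻¹ : ℝ) : ℂ) • u i) = R⁻¹ ^ 2 * QF α P u := by
    unfold QF
    rw [Finset.mul_sum]
    refine Finset.sum_congr rfl fun i _ => ?_
    rw [Finset.mul_sum]
    refine Finset.sum_congr rfl fun j _ => ?_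
    rw [map_smul, inner_smul_left, inner_smul_right, Complex.conj_ofReal, Complex.re_ofReal_mul,
      Complex.re_ofReal_mul]
    ring
  have h3 : ∑ i, ∑ j, (inner ℂ (((-R⁻¹ : ℝ) : ℂ) • u i) (Z i j (w j))).re
      = -R⁻¹ * ∑ i, ‖u i‖ ^ 2 := by
    rw [Finset.mul_sum]
    refine Finset.sum_congr rfl fun i _ => ?_
    rw [← Complex.re_sum, ← inner_sum, inner_smul_left, Complex.conj_ofReal, Complex.re_ofReal_mul]
    congr 1
    have : inner ℂ (u i) (u i) = ((‖u i‖ ^ 2 : ℝ) : ℂ) := by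
      rw [inner_self_eq_norm_sq_to_K]; push_cast; rfl
    change (inner ℂ (u i) (u i)).re = _
    rw [this, Complex.ofReal_re]
  rw [h2, h3] at h1
  have h4 := QF_le hα hα0 hP hR u
  have h5 : R⁻¹ ^ 2 * QF α P u ≤ R⁻¹ * ∑ i, ‖u i‖ ^ 2 := by
    calc R⁻¹ ^ 2 * QF α P u ≤ R⁻¹ ^ 2 * (R * ∑ i, ‖u i‖ ^ 2) := by gcongr
      _ = _ := by field_simp
  have h6 : R⁻¹ * ∑ i, ‖u i‖ ^ 2 ≤ QF α P w := by nlinarith
  calc ∑ i, ‖u i‖ ^ 2 = R * (R⁻¹ * ∑ i, ‖u i‖ ^ 2) := by field_simp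
    _ ≤ R * QF α P w := by gcongr

theorem BP.opM_norm_le {α : ι → ι → ℝ} {P : H →L[ℂ] H} {Z : Matrix ι ι (H →L[ℂ] H)}
    (hα : ∀ i j, α i j = α j i) (hα0 : ∀ i j, 0 ≤ α i j)
    (hP : ∀ v, ‖P v‖ ≤ ‖v‖) {R : ℝ} (hR0 : 0 < R) (hR : ∀ i, ∑ j, α i j ≤ R) (h : BP α P Z) :
    ‖opM Z‖ ≤ R := by
  refine ContinuousLinearMap.opNorm_le_bound _ hR0.le fun w => ?_
  have h1 := h.norm_sq_le hα hα0 hP hR0 hR (fun j => w j)
  have h2 := QF_le hα hα0 hP hR (fun j => w j)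
  have h3 : ‖opM Z w‖ ^ 2 ≤ (R * ‖w‖) ^ 2 := by
    rw [PiLp.norm_sq_eq_of_L2, mul_pow, PiLp.norm_sq_eq_of_L2]
    simp only [opM_apply]
    calc _ ≤ R * QF α P (fun j => w j) := h1
      _ ≤ R * (R * ∑ i, ‖w i‖ ^ 2) := by gcongr
      _ = _ := by ring
  exact (sq_le_sq₀ (norm_nonneg _) (by positivity)).mp h3

/-- column bound. -/
theorem BP.col_le {α : ι → ι → ℝ} {P : H →L[ℂ] H} {Z : Matrix ι ι (H →L[ℂ] H)}
    (hα : ∀ i j, α i j = α j i) (hα0 : ∀ i j, 0 ≤ α i j)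
    (hP : ∀ v, ‖P v‖ ≤ ‖v‖) {R : ℝ} (hR0 : 0 < R) (hR : ∀ i, ∑ j, α i j ≤ R) (h : BP α P Z)
    (ξ : H) (j : ι) : ∑ i, ‖Z i j ξ‖ ^ 2 ≤ R * α j j * ‖ξ‖ ^ 2 := by
  have h1 := h.norm_sq_le hα hα0 hP hR0 hR (Pi.single j ξ)
  have h2 : ∀ i, ∑ k, Z i k ((Pi.single j ξ : ι → H) k) = Z i j ξ := by
    intro i
    rw [Finset.sum_eq_single j]
    · simp
    · intro k _ hk; rw [Pi.single_eq_of_ne hk, map_zero]
    · simp
  simp only [h2] at h1
  have h3 : QF α P (Pi.single j ξ) = α j j * (inner ℂ ξ (P ξ)).re := by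
    unfold QF
    rw [Finset.sum_eq_single j]
    · rw [Finset.sum_eq_single j]
      · simp
      · intro k _ hk; rw [Pi.single_eq_of_ne hk, map_zero, inner_zero_right]; simp
      · simp
    · intro k _ hk
      refine Finset.sum_eq_zero fun l _ => ?_
      rw [Pi.single_eq_of_ne hk, inner_zero_left]; simp
    · simp
  have h4 : (inner ℂ ξ (P ξ)).re ≤ ‖ξ‖ ^ 2 := by
    calc (inner ℂ ξ (P ξ)).re ≤ ‖inner ℂ ξ (P ξ)‖ := Complex.re_le_norm _
      _ ≤ ‖ξ‖ * ‖P ξ‖ := norm_inner_le_norm _ _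
      _ ≤ ‖ξ‖ * ‖ξ‖ := by gcongr; exact hP _
      _ = _ := by ring
  rw [h3] at h1
  calc _ ≤ R * (α j j * (inner ℂ ξ (P ξ)).re) := h1
    _ ≤ R * (α j j * ‖ξ‖ ^ 2) := by
      gcongr
      exact hα0 _ _
    _ = _ := by ring

/-! ### the initial block -/

theorem BP.init {c : ℝ} (hc : 0 ≤ c) {y : H →L[ℂ] H} (hy : ‖y‖ ≤ 1) :
    BP (ι := ι) (fun _ _ => c) (1 : H →L[ℂ] H) (Matrix.of fun _ _ => (c : ℂ) • y) := by
  intro v w
  have hQ : ∀ v : ι → H, QF (fun _ _ => c) (1 : H →L[ℂ] H) v = c * ‖∑ i, v i‖ ^ 2 := by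
    intro v
    unfold QF
    have : ((‖∑ i, v i‖ ^ 2 : ℝ) : ℂ) = inner ℂ (∑ i, v i) (∑ i, v i) := by
      rw [inner_self_eq_norm_sq_to_K]; push_cast; rfl
    have h2 := congrArg Complex.re this
    rw [Complex.ofReal_re, sum_inner, Complex.re_sum] at h2
    rw [h2, Finset.mul_sum]
    refine Finset.sum_congr rfl fun i _ => ?_
    rw [inner_sum, Complex.re_sum, Finset.mul_sum]
    rfl
  have hZ : ∑ i, ∑ j, (inner ℂ (v i) ((Matrix.of fun _ _ => (c : ℂ) • y : Matrix ι ι (H →L[ℂ] H)) i j (w j))).re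
      = c * (inner ℂ (∑ i, v i) (y (∑ j, w j))).re := by
    rw [sum_inner, Complex.re_sum, Finset.mul_sum]
    refine Finset.sum_congr rfl fun i _ => ?_
    rw [map_sum, inner_sum, Complex.re_sum, Finset.mul_sum]
    refine Finset.sum_congr rfl fun j _ => ?_
    rw [Matrix.of_apply, smul_apply, inner_smul_right, Complex.re_ofReal_mul]
  rw [hQ, hQ, hZ]
  set a := ∑ i, v i
  set b := ∑ i, w i
  have h1 : -(‖a‖ * ‖b‖) ≤ (inner ℂ a (y b)).re := by
    have h2 : |(inner ℂ a (y b)).re| ≤ ‖a‖ * ‖b‖ := by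
      calc |(inner ℂ a (y b)).re| ≤ ‖inner ℂ a (y b)‖ := Complex.abs_re_le_norm _
        _ ≤ ‖a‖ * ‖y b‖ := norm_inner_le_norm _ _
        _ ≤ ‖a‖ * (‖y‖ * ‖b‖) := by gcongr; exact y.le_opNorm _
        _ ≤ ‖a‖ * (1 * ‖b‖) := by gcongr
        _ = _ := by ring
    linarith [neg_abs_le (inner ℂ a (y b)).re]
  have h3 : 0 ≤ c * ((‖a‖ - ‖b‖) ^ 2 + 2 * ((inner ℂ a (y b)).re + ‖a‖ * ‖b‖)) := by
    apply mul_nonneg hc
    nlinarith [sq_nonneg (‖a‖ - ‖b‖)]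
  nlinarith

/-! ### one Radon–Nikodym step -/

/-- `T` is the Radon–Nikodym map of weight `lam`. -/
def HT (M : VonNeumannAlgebra H) (ξ : H) (lam : ℝ) (T : (H →L[ℂ] H) →ₗ[ℂ] (H →L[ℂ] H)) : Prop :=
  ∀ x ∈ M, T x ∈ M.commutant ∧ RN M ξ lam x (T x) ∧ Sup M ξ (T x) ∧ Sup M ξ (star (T x))

theorem RN_iff {M : VonNeumannAlgebra H} {ξ : H} {lam : ℝ} {x h : H →L[ℂ] H} :
    RN M ξ lam x h ↔ RvD.RN M ξ lam x h := by
  unfold RN RvD.RN
  push_cast
  rfl

theorem Sup_ee (M : VonNeumannAlgebra H) (ξ : H) : Sup M ξ (RvD.ee M.commutant ξ) := by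
  intro v hv
  unfold RvD.ee
  rw [Submodule.starProjection_apply_eq_zero_iff, Submodule.mem_orthogonal]
  intro u hu
  rw [VonNeumannAlgebra.commutant_commutant] at hu
  have hcl : IsClosed {u : H | inner ℂ u v = 0} := isClosed_eq (by fun_prop) continuous_const
  refine closure_minimal ?_ hcl (show u ∈ closure _ from hu)
  rintro _ ⟨z, hz, rfl⟩
  exact hv z hz

theorem RN_proj {M : VonNeumannAlgebra H} {ξ : H} {lam : ℝ} (hl : 0 < lam) {E : H →L[ℂ] H}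
    (hE : E ξ = ξ) : RN M ξ lam E (((2 / (lam + lam⁻¹) : ℝ) : ℂ) • RvD.ee M.commutant ξ) := by
  intro y hy
  have h1 : star ((((2 / (lam + lam⁻¹) : ℝ) : ℂ)) • RvD.ee M.commutant ξ)
      = (((2 / (lam + lam⁻¹) : ℝ) : ℂ)) • RvD.ee M.commutant ξ := by
    rw [star_smul, RvD.ee_star, RCLike.star_def, Complex.conj_ofReal]
  rw [h1, smul_apply, RvD.ee_self, hE, inner_smul_left, inner_smul_right, Complex.conj_ofReal,
    inner_star_right]
  have h2 : lam * (2 / (lam + lam⁻¹)) + lam⁻¹ * (2 / (lam + lam⁻¹)) = 2 := by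
    have : 0 < lam + lam⁻¹ := by positivity
    field_simp
  have h3 : (lam : ℂ) * ((2 / (lam + lam⁻¹) : ℝ) : ℂ) + ((lam⁻¹ : ℝ) : ℂ) * ((2 / (lam + lam⁻¹) : ℝ) : ℂ) = 2 := by
    exact_mod_cast h2
  linear_combination (-(inner ℂ (y ξ) ξ : ℂ)) * h3

theorem RN_smul {M : VonNeumannAlgebra H} {ξ : H} {lam : ℝ} {x h : H →L[ℂ] H} (c : ℝ)
    (h1 : RN M ξ lam x h) : RN M ξ lam ((c : ℂ) • x) ((c : ℂ) • h) := by
  intro y hy
  have e := h1 y hy
  rw [star_smul, RCLike.star_def, Complex.conj_ofReal]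
  simp only [smul_apply, inner_smul_left, inner_smul_right, Complex.conj_ofReal]
  linear_combination (c : ℂ) * e

/-- `1 / cosh`. -/
def sc (ω : ι → ℝ) (i j : ι) : ℝ := 2 / (Real.sqrt (ω i / ω j) + (Real.sqrt (ω i / ω j))⁻¹)

theorem sc_symm (ω : ι → ℝ) (i j : ι) : sc ω i j = sc ω j i := by
  unfold sc
  rw [← Real.sqrt_inv, ← Real.sqrt_inv, inv_div, inv_div, add_comm]

theorem sc_nonneg (ω : ι → ℝ) (i j : ι) : 0 ≤ sc ω i j := by
  unfold sc; positivity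

theorem sc_self (ω : ι → ℝ) (hω : ∀ i, 0 < ω i) (i : ι) : sc ω i i = 1 := by
  unfold sc
  rw [div_self (hω i).ne']
  norm_num

theorem HT.star_eq {M : VonNeumannAlgebra H} {ξ : H} {lam mu : ℝ} (hl : 0 < lam) (hmu : mu = lam⁻¹)
    {T S : (H →L[ℂ] H) →ₗ[ℂ] (H →L[ℂ] H)} (hT : HT M ξ lam T) (hS : HT M ξ mu S)
    {x : H →L[ℂ] H} (hx : x ∈ M) : S (star x) = star (T x) := by
  subst hmu
  obtain ⟨a1, a2, a3, a4⟩ := hT x hx
  obtain ⟨b1, b2, b3, b4⟩ := hS (star x) (star_mem hx)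
  refine RN.unique (M := M) (ξ := ξ) (inv_pos.mpr hl) b2 (a2.star hx) b1 (star_mem a1) b3 a4

theorem step (M : VonNeumannAlgebra H) (ξ : H) (ω : ι → ℝ) (hω : ∀ i, 0 < ω i)
    (T : ι → ι → (H →L[ℂ] H) →ₗ[ℂ] (H →L[ℂ] H))
    (hT : ∀ i j, HT M ξ (Real.sqrt (ω i / ω j)) (T i j))
    {E : H →L[ℂ] H} (hE : E ∈ M) (hEξ : E ξ = ξ) (hEs : star E = E)
    {α : ι → ι → ℝ} (hα : ∀ i j, α i j = α j i)
    {Z : Matrix ι ι (H →L[ℂ] H)} (hZ : ∀ i j, Z i j ∈ M) (h : BP α E Z) :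
    BP (fun i j => α i j * sc ω i j) (RvD.ee M.commutant ξ)
      (Matrix.of fun i j => T j i (Z j i)) := by
  have hlam : ∀ i j, 0 < Real.sqrt (ω i / ω j) := fun i j =>
    Real.sqrt_pos.mpr (div_pos (hω i) (hω j))
  apply BP.of_isPositive
  set α' : ι → ι → ℝ := fun i j => α i j * sc ω i j with hα'
  have hα's : ∀ i j, α' i j = α' j i := by
    intro i j; simp only [hα']; rw [hα i j, sc_symm]
  let hh : Matrix (ι ⊕ ι) (ι ⊕ ι) (H →L[ℂ] H) :=
    Matrix.fromBlocks (Matrix.of fun i j => (α' i j : ℂ) • RvD.ee M.commutant ξ)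
      (Matrix.of fun i j => T i j (Z i j)) (Matrix.of fun i j => T i j (star (Z j i)))
      (Matrix.of fun i j => (α' i j : ℂ) • RvD.ee M.commutant ξ)
  have hee : RvD.ee M.commutant ξ ∈ M.commutant := RvD.ee_comm_mem M ξ
  have hcee : ∀ c : ℝ, (c : ℂ) • RvD.ee M.commutant ξ ∈ M.commutant := fun c =>
    RvD.smul_mem' _ hee
  have hSee : ∀ c : ℝ, Sup M ξ ((c : ℂ) • RvD.ee M.commutant ξ) := by
    intro c v hv
    rw [smul_apply, Sup_ee M ξ v hv, smul_zero]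
  have hstc : ∀ c : ℝ, star ((c : ℂ) • RvD.ee M.commutant ξ) = (c : ℂ) • RvD.ee M.commutant ξ := by
    intro c
    rw [star_smul, RvD.ee_star, RCLike.star_def, Complex.conj_ofReal]
  have hRE : ∀ i j, RN M ξ (Real.sqrt (ω i / ω j)) ((α i j : ℂ) • E)
      ((α' i j : ℂ) • RvD.ee M.commutant ξ) := by
    intro i j
    have h1 := RN_smul (α i j) (RN_proj (M := M) (hlam i j) hEξ)
    rw [smul_smul, ← Complex.ofReal_mul] at h1
    exact h1
  have key : (opM hh.transpose).IsPositive := by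
    refine pos_transpose M ξ (Sum.elim ω ω) ?_ (blk α E Z) hh ?_ ?_ ?_ ?_ ?_ (h.isPositive hα hEs)
    · rintro (i | i) <;> exact hω i
    · rintro (i | i) (j | j)
      · exact RvD.smul_mem' _ hE
      · exact hZ i j
      · exact star_mem (hZ j i)
      · exact RvD.smul_mem' _ hE
    · rintro (i | i) (j | j)
      · exact hcee _
      · exact (hT i j _ (hZ i j)).1
      · exact (hT i j _ (star_mem (hZ j i))).1
      · exact hcee _
    · rintro (i | i) (j | j)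
      · exact hSee _
      · exact (hT i j _ (hZ i j)).2.2.1
      · exact (hT i j _ (star_mem (hZ j i))).2.2.1
      · exact hSee _
    · rintro (i | i) (j | j)
      · change Sup M ξ (star ((α' i j : ℂ) • RvD.ee M.commutant ξ))
        rw [hstc]; exact hSee _
      · exact (hT i j _ (hZ i j)).2.2.2
      · exact (hT i j _ (star_mem (hZ j i))).2.2.2
      · change Sup M ξ (star ((α' i j : ℂ) • RvD.ee M.commutant ξ))
        rw [hstc]; exact hSee _
    · rintro (i | i) (j | j)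
      · exact hRE i j
      · exact (hT i j _ (hZ i j)).2.1
      · exact (hT i j _ (star_mem (hZ j i))).2.1
      · exact hRE i j
  have e : hh.transpose = (Matrix.fromBlocks (fun i j => (α' i j : ℂ) • RvD.ee M.commutant ξ)
      (fun i j => Star.star ((Matrix.of fun i j => T j i (Z j i) : Matrix ι ι (H →L[ℂ] H)) j i))
      (fun i j => (Matrix.of fun i j => T j i (Z j i) : Matrix ι ι (H →L[ℂ] H)) i j)
      (fun i j => (α' i j : ℂ) • RvD.ee M.commutant ξ) :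
        Matrix (ι ⊕ ι) (ι ⊕ ι) (H →L[ℂ] H)) := by
    refine Matrix.ext fun i j => ?_
    rcases i with i | i <;> rcases j with j | j
    · change (α' j i : ℂ) • RvD.ee M.commutant ξ = (α' i j : ℂ) • RvD.ee M.commutant ξ
      rw [hα's]
    · change T j i (star (Z i j)) = star (T i j (Z i j))
      refine HT.star_eq (hlam i j) ?_ (hT i j) (hT j i) (hZ i j)
      rw [← Real.sqrt_inv, inv_div]
    · rfl
    · change (α' j i : ℂ) • RvD.ee M.commutant ξ = (α' i j : ℂ) • RvD.ee M.commutant ξ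
      rw [hα's]
  rw [← e]
  exact key

/-! ### the iterates -/

/-- `M, M', M, M', …`. -/
def MM (M : VonNeumannAlgebra H) : ℕ → VonNeumannAlgebra H
  | 0 => M
  | q + 1 => (MM M q).commutant

theorem MM_add_two (M : VonNeumannAlgebra H) (q : ℕ) : MM M (q + 2) = MM M q :=
  VonNeumannAlgebra.commutant_commutant _

theorem MM_even (M : VonNeumannAlgebra H) (k : ℕ) : MM M (2 * k) = M := by
  induction k with
  | zero => rfl
  | succ k ih => rw [mul_add, mul_one, MM_add_two, ih]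

theorem MM_odd (M : VonNeumannAlgebra H) (k : ℕ) : MM M (2 * k + 1) = M.commutant := by
  change (MM M (2 * k)).commutant = _
  rw [MM_even]

/-- the projections. -/
def PR (M : VonNeumannAlgebra H) (ξ : H) : ℕ → (H →L[ℂ] H)
  | 0 => 1
  | q + 1 => RvD.ee (MM M q).commutant ξ

theorem PR_mem (M : VonNeumannAlgebra H) (ξ : H) (q : ℕ) : PR M ξ q ∈ MM M q := by
  cases q with
  | zero => exact one_mem _
  | succ q => exact RvD.ee_mem _ _

theorem PR_self (M : VonNeumannAlgebra H) (ξ : H) (q : ℕ) : PR M ξ q ξ = ξ := by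
  cases q with
  | zero => rfl
  | succ q => exact RvD.ee_self _ _

theorem PR_star (M : VonNeumannAlgebra H) (ξ : H) (q : ℕ) : star (PR M ξ q) = PR M ξ q := by
  cases q with
  | zero => exact star_one _
  | succ q => exact RvD.ee_star _ _

theorem PR_norm_le (M : VonNeumannAlgebra H) (ξ : H) (q : ℕ) (v : H) : ‖PR M ξ q v‖ ≤ ‖v‖ := by
  cases q with
  | zero => exact le_refl _
  | succ q => exact RvD.ee_norm_le _ _ _

/-- the iterates, `zl (q+1) i j = T_q^{(j i)} (zl q j i)`. -/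
def zl (T : ℕ → ι → ι → (H →L[ℂ] H) →ₗ[ℂ] (H →L[ℂ] H)) (c : ℝ) :
    ℕ → ι → ι → ((H →L[ℂ] H) →ₗ[ℂ] (H →L[ℂ] H))
  | 0, _, _ => (c : ℂ) • LinearMap.id
  | q + 1, i, j => (T q j i) ∘ₗ (zl T c q j i)


theorem zl_zero (T : ℕ → ι → ι → (H →L[ℂ] H) →ₗ[ℂ] (H →L[ℂ] H)) (c : ℝ) (i j : ι)
    (y : H →L[ℂ] H) : zl T c 0 i j y = (c : ℂ) • y := rfl

section iter

variable {M : VonNeumannAlgebra H} {ξ : H} {ω : ι → ℝ}
  {T : ℕ → ι → ι → (H →L[ℂ] H) →ₗ[ℂ] (H →L[ℂ] H)}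

theorem zl_mem (hT : ∀ q i j, HT (MM M q) ξ (Real.sqrt (ω i / ω j)) (T q i j)) (c : ℝ)
    {y : H →L[ℂ] H} (hy : y ∈ M) (q : ℕ) : ∀ i j, zl T c q i j y ∈ MM M q := by
  induction q with
  | zero => intro i j; exact RvD.smul_mem' _ hy
  | succ q ih => intro i j; exact (hT q j i _ (ih j i)).1

theorem zl_BP (hω : ∀ i, 0 < ω i)
    (hT : ∀ q i j, HT (MM M q) ξ (Real.sqrt (ω i / ω j)) (T q i j)) {c : ℝ} (hc : 0 ≤ c)
    {y : H →L[ℂ] H} (hy : y ∈ M) (hy1 : ‖y‖ ≤ 1) (q : ℕ) :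
    BP (fun i j => c * sc ω i j ^ q) (PR M ξ q) (Matrix.of fun i j => zl T c q i j y) := by
  induction q with
  | zero =>
    have h1 := BP.init (ι := ι) hc hy1
    simp only [pow_zero, mul_one]
    exact h1
  | succ q ih =>
    have h1 := step (MM M q) ξ ω hω (T q) (hT q) (PR_mem M ξ q) (PR_self M ξ q) (PR_star M ξ q)
      (α := fun i j => c * sc ω i j ^ q) (fun i j => by rw [sc_symm])
      (Z := Matrix.of fun i j => zl T c q i j y) (fun i j => zl_mem hT c hy q i j) ih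
    have e : (fun i j => c * sc ω i j ^ (q + 1)) = (fun i j => c * sc ω i j ^ q * sc ω i j) := by
      funext i j; rw [pow_succ, mul_assoc]
    rw [e]
    exact h1

/-- the norm at the entry `(i, j)`. -/
def nn (ω : ι → ℝ) (ξ : H) (i j : ι) (z : H →L[ℂ] H) : ℝ :=
  (ω j * ‖z ξ‖ ^ 2 + ω i * ‖star z ξ‖ ^ 2) / 2

theorem nn_nonneg (hω : ∀ i, 0 < ω i) (i j : ι) (z : H →L[ℂ] H) : 0 ≤ nn ω ξ i j z := by
  unfold nn
  have := (hω i).le
  have := (hω j).le
  positivity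

theorem sqrt_mul_1 (hω : ∀ i, 0 < ω i) (i j : ι) :
    Real.sqrt (ω i / ω j) * (Real.sqrt (ω i) * Real.sqrt (ω j)) = ω i := by
  rw [Real.sqrt_div (hω i).le]
  have h1 := Real.sqrt_pos.mpr (hω j)
  have h2 := Real.mul_self_sqrt (hω i).le
  field_simp
  nlinarith

theorem sqrt_mul_2 (hω : ∀ i, 0 < ω i) (i j : ι) :
    (Real.sqrt (ω i / ω j))⁻¹ * (Real.sqrt (ω i) * Real.sqrt (ω j)) = ω j := by
  rw [← Real.sqrt_inv, inv_div, mul_comm (Real.sqrt (ω i))]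
  exact sqrt_mul_1 hω j i

/-- the RN equation, weighted, real part. -/
theorem RN_re (hω : ∀ i, 0 < ω i) {i j : ι} {x h y : H →L[ℂ] H}
    (hR : RN M ξ (Real.sqrt (ω i / ω j)) x h) (hy : y ∈ M.commutant) :
    2 * (Real.sqrt (ω i) * Real.sqrt (ω j)) * (inner ℂ (y ξ) (x ξ)).re
      = ω i * (inner ℂ (y ξ) (h ξ)).re + ω j * (inner ℂ (star h ξ) (star y ξ)).re := by
  have e := congrArg Complex.re (hR y hy)
  rw [Complex.add_re, Complex.re_ofReal_mul, Complex.re_ofReal_mul,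
    show (2 : ℂ) = ((2 : ℝ) : ℂ) by norm_num, Complex.re_ofReal_mul] at e
  have h1 := sqrt_mul_1 hω i j
  have h2 := sqrt_mul_2 hω i j
  calc _ = (2 * (inner ℂ (y ξ) (x ξ)).re) * (Real.sqrt (ω i) * Real.sqrt (ω j)) := by ring
    _ = (Real.sqrt (ω i / ω j) * (Real.sqrt (ω i) * Real.sqrt (ω j))) * (inner ℂ (y ξ) (h ξ)).re
        + ((Real.sqrt (ω i / ω j))⁻¹ * (Real.sqrt (ω i) * Real.sqrt (ω j))) *
          (inner ℂ (star h ξ) (star y ξ)).re := by rw [e]; ring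
    _ = _ := by rw [h1, h2]

theorem inner_self_re (v : H) : (inner ℂ v v).re = ‖v‖ ^ 2 := by
  have : inner ℂ v v = ((‖v‖ ^ 2 : ℝ) : ℂ) := by
    rw [inner_self_eq_norm_sq_to_K]; push_cast; rfl
  rw [this, Complex.ofReal_re]

/-- `⟨√ω_i √ω_j hξ, xξ⟩ = n(h)`. -/
theorem cross_eq (hω : ∀ i, 0 < ω i) {i j : ι} {x h : H →L[ℂ] H}
    (hR : RN M ξ (Real.sqrt (ω i / ω j)) x h) (hh : h ∈ M.commutant) :
    (Real.sqrt (ω i) * Real.sqrt (ω j)) * (inner ℂ (h ξ) (x ξ)).re = nn ω ξ j i h := by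
  have e := RN_re hω hR hh
  rw [inner_self_re, inner_self_re] at e
  unfold nn
  linarith

theorem cross_star {x h : H →L[ℂ] H} (hx : x ∈ M) (hh : h ∈ M.commutant) :
    (inner ℂ (star h ξ) (star x ξ)).re = (inner ℂ (h ξ) (x ξ)).re := by
  have h1 : inner ℂ (star h ξ) (star x ξ) = inner ℂ (x ξ) (h ξ) := by
    rw [inner_star_right, RvD.comm_apply hx (star_mem hh), RvD.inner_star_left]
  rw [h1, ← inner_conj_symm, Complex.conj_re]

theorem norm_sub_sq_c (s t : ℝ) (v w : H) : ‖(s : ℂ) • v - (t : ℂ) • w‖ ^ 2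
    = s ^ 2 * ‖v‖ ^ 2 + t ^ 2 * ‖w‖ ^ 2 - 2 * (s * t * (inner ℂ w v).re) := by
  have h1 := @norm_sub_sq ℂ H _ _ _ ((s : ℂ) • v) ((t : ℂ) • w)
  rw [h1, norm_smul, norm_smul, mul_pow, mul_pow, Complex.norm_real, Complex.norm_real,
    Real.norm_eq_abs, Real.norm_eq_abs, sq_abs, sq_abs, inner_smul_left, inner_smul_right,
    Complex.conj_ofReal]
  have h2 : RCLike.re ((s : ℂ) * ((t : ℂ) * inner ℂ v w)) = s * t * (inner ℂ w v).re := by
    change ((s : ℂ) * ((t : ℂ) * inner ℂ v w)).re = _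
    rw [Complex.re_ofReal_mul, Complex.re_ofReal_mul, ← inner_conj_symm w v, Complex.conj_re]
    ring
  rw [h2]
  ring

/-- the two defects add up to `2 (n(x) - n(h))`. -/
theorem defect_eq (hω : ∀ i, 0 < ω i) {i j : ι} {x h : H →L[ℂ] H} (hx : x ∈ M)
    (hR : RN M ξ (Real.sqrt (ω i / ω j)) x h) (hh : h ∈ M.commutant) :
    ‖(Real.sqrt (ω j) : ℂ) • x ξ - (Real.sqrt (ω i) : ℂ) • h ξ‖ ^ 2
      + ‖(Real.sqrt (ω i) : ℂ) • star x ξ - (Real.sqrt (ω j) : ℂ) • star h ξ‖ ^ 2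
      = 2 * (nn ω ξ i j x - nn ω ξ j i h) := by
  rw [norm_sub_sq_c, norm_sub_sq_c, Real.sq_sqrt (hω i).le, Real.sq_sqrt (hω j).le,
    cross_star hx hh]
  have e := cross_eq hω hR hh
  have e' : Real.sqrt (ω j) * Real.sqrt (ω i) * (inner ℂ (h ξ) (x ξ)).re = nn ω ξ j i h := by
    rw [mul_comm (Real.sqrt (ω j))]; exact e
  rw [e, e']
  unfold nn
  ring

/-- convexity. -/
theorem convex_eq (hω : ∀ i, 0 < ω i) {i j : ι} {x h z : H →L[ℂ] H} (hx : x ∈ M)
    (hR : RN M ξ (Real.sqrt (ω i / ω j)) x h) (hh : h ∈ M.commutant)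
    (hR' : RN M.commutant ξ (Real.sqrt (ω j / ω i)) h z) :
    nn ω ξ i j x - 2 * nn ω ξ j i h + nn ω ξ i j z = nn ω ξ i j (x - z) := by
  have hx' : x ∈ M.commutant.commutant := by rw [VonNeumannAlgebra.commutant_commutant]; exact hx
  have e1 := cross_eq hω hR hh
  have e2 := RN_re hω hR' hx'
  have e3 : (inner ℂ (x ξ) (h ξ)).re = (inner ℂ (h ξ) (x ξ)).re := by
    rw [← inner_conj_symm, Complex.conj_re]
  rw [e3] at e2
  have e4 : nn ω ξ i j (x - z) = nn ω ξ i j x + nn ω ξ i j z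
      - (ω j * (inner ℂ (x ξ) (z ξ)).re + ω i * (inner ℂ (star z ξ) (star x ξ)).re) := by
    unfold nn
    have f1 : ‖(x - z) ξ‖ ^ 2 = ‖x ξ‖ ^ 2 + ‖z ξ‖ ^ 2 - 2 * (inner ℂ (x ξ) (z ξ)).re := by
      rw [sub_apply, @norm_sub_sq ℂ H]
      change _ - 2 * (inner ℂ (x ξ) (z ξ)).re + _ = _
      ring
    have f2 : ‖star (x - z) ξ‖ ^ 2 = ‖star x ξ‖ ^ 2 + ‖star z ξ‖ ^ 2
        - 2 * (inner ℂ (star z ξ) (star x ξ)).re := by
      rw [star_sub, sub_apply, @norm_sub_sq ℂ H, ← inner_conj_symm (star z ξ), Complex.conj_re]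
      change _ - 2 * (inner ℂ (star x ξ) (star z ξ)).re + _ = _
      ring
    rw [f1, f2]
    ring
  rw [e4]
  linarith

/-- total norm. -/
def NN (T : ℕ → ι → ι → (H →L[ℂ] H) →ₗ[ℂ] (H →L[ℂ] H)) (c : ℝ) (ω : ι → ℝ) (ξ : H) (y : H →L[ℂ] H)
    (q : ℕ) : ℝ := ∑ i, ∑ j, nn ω ξ i j (zl T c q i j y)

theorem NN_nonneg (hω : ∀ i, 0 < ω i) (c : ℝ) (y : H →L[ℂ] H) (q : ℕ) : 0 ≤ NN T c ω ξ y q :=
  Finset.sum_nonneg fun _ _ => Finset.sum_nonneg fun _ _ => nn_nonneg hω _ _ _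

theorem NN_swap (c : ℝ) (y : H →L[ℂ] H) (q : ℕ) :
    NN T c ω ξ y q = ∑ i, ∑ j, nn ω ξ j i (zl T c q j i y) := by
  unfold NN
  rw [Finset.sum_comm]

/-- defect sum. -/
theorem defect_sum (hω : ∀ i, 0 < ω i)
    (hT : ∀ q i j, HT (MM M q) ξ (Real.sqrt (ω i / ω j)) (T q i j)) (c : ℝ)
    {y : H →L[ℂ] H} (hy : y ∈ M) (q : ℕ) :
    ∑ i, ∑ j, (‖(Real.sqrt (ω j) : ℂ) • zl T c q i j y ξ
        - (Real.sqrt (ω i) : ℂ) • zl T c (q + 1) j i y ξ‖ ^ 2
      + ‖(Real.sqrt (ω i) : ℂ) • star (zl T c q i j y) ξ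
        - (Real.sqrt (ω j) : ℂ) • star (zl T c (q + 1) j i y) ξ‖ ^ 2)
      = 2 * (NN T c ω ξ y q - NN T c ω ξ y (q + 1)) := by
  rw [NN_swap c y (q + 1)]
  unfold NN
  rw [← Finset.sum_sub_distrib, Finset.mul_sum]
  refine Finset.sum_congr rfl fun i _ => ?_
  rw [← Finset.sum_sub_distrib, Finset.mul_sum]
  refine Finset.sum_congr rfl fun j _ => ?_
  have hx := zl_mem hT c hy q i j
  exact defect_eq hω hx (hT q i j _ hx).2.1 (hT q i j _ hx).1


theorem NN_convex (hω : ∀ i, 0 < ω i)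
    (hT : ∀ q i j, HT (MM M q) ξ (Real.sqrt (ω i / ω j)) (T q i j)) (c : ℝ)
    {y : H →L[ℂ] H} (hy : y ∈ M) (q : ℕ) :
    NN T c ω ξ y (q + 1) - NN T c ω ξ y (q + 2) ≤ NN T c ω ξ y q - NN T c ω ξ y (q + 1) := by
  have h1 : NN T c ω ξ y q - 2 * NN T c ω ξ y (q + 1) + NN T c ω ξ y (q + 2)
      = ∑ i, ∑ j, nn ω ξ i j (zl T c q i j y - zl T c (q + 2) i j y) := by
    rw [NN_swap c y (q + 1)]
    unfold NN
    rw [Finset.mul_sum, ← Finset.sum_sub_distrib, ← Finset.sum_add_distrib]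
    refine Finset.sum_congr rfl fun i _ => ?_
    rw [Finset.mul_sum, ← Finset.sum_sub_distrib, ← Finset.sum_add_distrib]
    refine Finset.sum_congr rfl fun j _ => ?_
    have hx := zl_mem hT c hy q i j
    have hx1 := zl_mem hT c hy (q + 1) j i
    exact convex_eq hω hx (hT q i j _ hx).2.1 (hT q i j _ hx).1 (hT (q + 1) j i _ hx1).2.1
  have h2 : 0 ≤ ∑ i, ∑ j, nn ω ξ i j (zl T c q i j y - zl T c (q + 2) i j y) :=
    Finset.sum_nonneg fun _ _ => Finset.sum_nonneg fun _ _ => nn_nonneg hω _ _ _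
  linarith

/-- antitone differences. -/
theorem sum_bound (f : ℕ → ℝ) (hf : ∀ q, 0 ≤ f q) (hc : ∀ q, f (q + 1) - f (q + 2) ≤ f q - f (q + 1))
    (m : ℕ) : ((m : ℝ) + 1) * (f (2 * m) - f (2 * m + 1)) ≤ f m := by
  have hanti : Antitone (fun q => f q - f (q + 1)) := antitone_nat_of_succ_le hc
  have h1 : ∑ k ∈ Finset.range (m + 1), (f (m + k) - f (m + k + 1)) = f m - f (2 * m + 1) := by
    have h2 := Finset.sum_range_sub' (fun k => f (m + k)) (m + 1)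
    have e : m + (m + 1) = 2 * m + 1 := by ring
    rw [e] at h2
    exact h2
  have h3 : ∑ _k ∈ Finset.range (m + 1), (f (2 * m) - f (2 * m + 1))
      ≤ ∑ k ∈ Finset.range (m + 1), (f (m + k) - f (m + k + 1)) := by
    refine Finset.sum_le_sum fun k hk => ?_
    have : m + k ≤ 2 * m := by have := Finset.mem_range.mp hk; omega
    exact hanti this
  rw [Finset.sum_const, Finset.card_range, nsmul_eq_mul, h1] at h3
  push_cast at h3
  linarith [hf (2 * m + 1)]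

theorem NN_le (hω : ∀ i, 0 < ω i) (hsum : ∑ i, ω i = 1) (hξ : ‖ξ‖ ≤ 1)
    (hT : ∀ q i j, HT (MM M q) ξ (Real.sqrt (ω i / ω j)) (T q i j)) {c : ℝ} (hc : 0 ≤ c)
    {y : H →L[ℂ] H} (hy : y ∈ M) (hy1 : ‖y‖ ≤ 1) (q : ℕ) {R : ℝ} (hR0 : 0 < R)
    (hR : ∀ i, ∑ j, c * sc ω i j ^ q ≤ R) : NN T c ω ξ y q ≤ R * c := by
  have hBP := zl_BP hω hT hc hy hy1 q
  have hα : ∀ i j, c * sc ω i j ^ q = c * sc ω j i ^ q := fun i j => by rw [sc_symm]
  have hα0 : ∀ i j, 0 ≤ c * sc ω i j ^ q := fun i j => mul_nonneg hc (pow_nonneg (sc_nonneg _ _ _) _)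
  have hcol := hBP.col_le hα hα0 (PR_norm_le M ξ q) hR0 hR ξ
  have hcol' := hBP.star.col_le hα hα0 (PR_norm_le M ξ q) hR0 hR ξ
  simp only [sc_self ω hω, one_pow, mul_one] at hcol hcol'
  have hξ2 : ‖ξ‖ ^ 2 ≤ 1 := by nlinarith [norm_nonneg ξ]
  have hRc : 0 ≤ R * c := mul_nonneg hR0.le hc
  have h1 : ∑ i, ∑ j, ω j * ‖zl T c q i j y ξ‖ ^ 2 ≤ R * c := by
    rw [Finset.sum_comm]
    calc ∑ j, ∑ i, ω j * ‖zl T c q i j y ξ‖ ^ 2 = ∑ j, ω j * ∑ i, ‖zl T c q i j y ξ‖ ^ 2 := by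
          simp only [Finset.mul_sum]
      _ ≤ ∑ j, ω j * (R * c) := by
          refine Finset.sum_le_sum fun j _ => mul_le_mul_of_nonneg_left ?_ (hω j).le
          refine (hcol j).trans ?_
          nlinarith
      _ = R * c := by rw [← Finset.sum_mul, hsum, one_mul]
  have h2 : ∑ i, ∑ j, ω i * ‖star (zl T c q i j y) ξ‖ ^ 2 ≤ R * c := by
    calc ∑ i, ∑ j, ω i * ‖star (zl T c q i j y) ξ‖ ^ 2
        = ∑ i, ω i * ∑ j, ‖star (zl T c q i j y) ξ‖ ^ 2 := by simp only [Finset.mul_sum]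
      _ ≤ ∑ i, ω i * (R * c) := by
          refine Finset.sum_le_sum fun i _ => mul_le_mul_of_nonneg_left ?_ (hω i).le
          refine le_trans ?_ ((hcol' i).trans ?_)
          · simp only [Matrix.star_apply, Matrix.of_apply]
            exact le_refl _
          · nlinarith
      _ = R * c := by rw [← Finset.sum_mul, hsum, one_mul]
  have h3 : NN T c ω ξ y q = (∑ i, ∑ j, ω j * ‖zl T c q i j y ξ‖ ^ 2
      + ∑ i, ∑ j, ω i * ‖star (zl T c q i j y) ξ‖ ^ 2) / 2 := by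
    unfold NN nn
    rw [← Finset.sum_add_distrib, Finset.sum_div]
    refine Finset.sum_congr rfl fun i _ => ?_
    rw [← Finset.sum_add_distrib, Finset.sum_div]
  rw [h3]
  linarith

theorem norm_opM_zl (hω : ∀ i, 0 < ω i)
    (hT : ∀ q i j, HT (MM M q) ξ (Real.sqrt (ω i / ω j)) (T q i j)) {c : ℝ} (hc : 0 ≤ c)
    {y : H →L[ℂ] H} (hy : y ∈ M) (hy1 : ‖y‖ ≤ 1) (q : ℕ) {R : ℝ} (hR0 : 0 < R)
    (hR : ∀ i, ∑ j, c * sc ω i j ^ q ≤ R) :
    ‖opM (Matrix.of fun i j => zl T c q i j y : Matrix ι ι (H →L[ℂ] H))‖ ≤ R := by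
  have hBP := zl_BP hω hT hc hy hy1 q
  have hα : ∀ i j, c * sc ω i j ^ q = c * sc ω j i ^ q := fun i j => by rw [sc_symm]
  have hα0 : ∀ i j, 0 ≤ c * sc ω i j ^ q := fun i j => mul_nonneg hc (pow_nonneg (sc_nonneg _ _ _) _)
  exact hBP.opM_norm_le hα hα0 (PR_norm_le M ξ q) hR0 hR

/-- total defect at level `2m`. -/
theorem defect_bound (hω : ∀ i, 0 < ω i) (hsum : ∑ i, ω i = 1) (hξ : ‖ξ‖ ≤ 1)
    (hT : ∀ q i j, HT (MM M q) ξ (Real.sqrt (ω i / ω j)) (T q i j)) {c : ℝ} (hc : 0 ≤ c)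
    {y : H →L[ℂ] H} (hy : y ∈ M) (hy1 : ‖y‖ ≤ 1) (m : ℕ) {R : ℝ} (hR0 : 0 < R)
    (hR : ∀ i, ∑ j, c * sc ω i j ^ m ≤ R) :
    ∑ i, ∑ j, (‖(Real.sqrt (ω j) : ℂ) • zl T c (2 * m) i j y ξ
        - (Real.sqrt (ω i) : ℂ) • zl T c (2 * m + 1) j i y ξ‖ ^ 2
      + ‖(Real.sqrt (ω i) : ℂ) • star (zl T c (2 * m) i j y) ξ
        - (Real.sqrt (ω j) : ℂ) • star (zl T c (2 * m + 1) j i y) ξ‖ ^ 2)
      ≤ 2 * (R * c / (m + 1)) := by
  rw [defect_sum hω hT c hy]
  have h1 := sum_bound (NN T c ω ξ y) (NN_nonneg hω c y) (NN_convex hω hT c hy) m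
  have h2 := NN_le hω hsum hξ hT hc hy hy1 m hR0 hR
  have h3 : (0 : ℝ) < m + 1 := by positivity
  have h4 : NN T c ω ξ y (2 * m) - NN T c ω ξ y (2 * m + 1) ≤ R * c / (m + 1) := by
    rw [le_div_iff₀ h3]
    linarith
  linarith

end iter

/-! ### the concrete weights -/

/-- `Z = ∑_{i<n} e^{-2hi}`. -/
def Zn (h : ℝ) (n : ℕ) : ℝ := ∑ i ∈ Finset.range n, Real.exp (-(2 * h * i))

/-- `ω_i = e^{-2hi} / Z`. -/
def omw (h : ℝ) (n : ℕ) (i : Fin n) : ℝ := Real.exp (-(2 * h * (i : ℕ))) / Zn h n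

theorem Zn_pos (h : ℝ) {n : ℕ} (hn : 1 ≤ n) : 0 < Zn h n :=
  Finset.sum_pos (fun _ _ => Real.exp_pos _) (Finset.nonempty_range_iff.mpr (by omega))

theorem omw_pos (h : ℝ) {n : ℕ} (hn : 1 ≤ n) (i : Fin n) : 0 < omw h n i :=
  div_pos (Real.exp_pos _) (Zn_pos h hn)

theorem sum_omw (h : ℝ) {n : ℕ} (hn : 1 ≤ n) : ∑ i, omw h n i = 1 := by
  unfold omw
  rw [← Finset.sum_div, Fin.sum_univ_eq_sum_range (fun i => Real.exp (-(2 * h * i))) n]
  exact div_self (Zn_pos h hn).ne'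

theorem sqrt_omw (h : ℝ) {n : ℕ} (hn : 1 ≤ n) (i j : Fin n) :
    Real.sqrt (omw h n i / omw h n j) = Real.exp (-((((i : ℕ) : ℝ) - ((j : ℕ) : ℝ)) * h)) := by
  have hZ := Zn_pos h hn
  have e : omw h n i / omw h n j = Real.exp (-((((i : ℕ) : ℝ) - ((j : ℕ) : ℝ)) * h)) ^ 2 := by
    unfold omw
    rw [div_div_div_cancel_right₀ hZ.ne', ← Real.exp_sub, ← Real.exp_nat_mul]
    congr 1
    push_cast
    ring
  rw [e, Real.sqrt_sq (Real.exp_pos _).le]

theorem sc_omw (h : ℝ) {n : ℕ} (hn : 1 ≤ n) (i j : Fin n) (q : ℕ) :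
    sc (omw h n) i j ^ q = LLB.ph q ((((i : ℕ) : ℝ) - ((j : ℕ) : ℝ)) * h) := by
  unfold sc LLB.ph
  rw [sqrt_omw h hn, Real.cosh_eq, ← Real.exp_neg, neg_neg]
  congr 1
  rw [inv_div, add_comm]

theorem row_omw (h : ℝ) {n : ℕ} (hn : 1 ≤ n) (i : Fin n) (q : ℕ) (c : ℝ) :
    ∑ j, c * sc (omw h n) i j ^ q
      = c * ∑ j ∈ Finset.range n, LLB.ph q ((((i : ℕ) : ℝ) - (j : ℝ)) * h) := by
  rw [← Finset.mul_sum, ← Fin.sum_univ_eq_sum_range
    (fun j => LLB.ph q ((((i : ℕ) : ℝ) - (j : ℝ)) * h)) n]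
  congr 1
  exact Finset.sum_congr rfl fun j _ => sc_omw h hn i j q


/-- **Everything of `LetterOut` except the scalar recovery**, together with the Radon–Nikodym
chain needed for it. -/
structure Core (M : VonNeumannAlgebra H) (ξ : H) (m n : ℕ) (h : ℝ) where
  a : (H →L[ℂ] H) →ₗ[ℂ] Matrix (Fin n) (Fin n) (H →L[ℂ] H)
  b : (H →L[ℂ] H) →ₗ[ℂ] Matrix (Fin n) (Fin n) (H →L[ℂ] H)
  a_mem : ∀ y ∈ M, ∀ i j, a y i j ∈ M
  b_mem : ∀ y ∈ M, ∀ i j, b y i j ∈ M.commutant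
  norm_a : ∀ y ∈ M, ‖y‖ ≤ 1 → ‖opM (a y)‖ ≤ 1 / 2
  norm_b : ∀ y ∈ M, ‖y‖ ≤ 1 → ‖opM (b y)‖ ≤ 1 / 2
  partner : ∀ y ∈ M, ‖y‖ ≤ 1 →
    ∑ i, ∑ j, ‖(Real.sqrt (omw h n j) : ℂ) • a y i j ξ
      - (Real.sqrt (omw h n i) : ℂ) • b y j i ξ‖ ^ 2 ≤ 3 * LLB.c0 m h / (m + 1)
  partner_star : ∀ y ∈ M, ‖y‖ ≤ 1 →
    ∑ i, ∑ j, ‖(Real.sqrt (omw h n j) : ℂ) • star (a y j i) ξ
      - (Real.sqrt (omw h n i) : ℂ) • star (b y i j) ξ‖ ^ 2 ≤ 3 * LLB.c0 m h / (m + 1)
  chain : ∀ y ∈ M, ∀ i j : Fin n, ∃ z k : ℕ → (H →L[ℂ] H), z 0 = y ∧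
    (∀ l, z l ∈ M) ∧ (∀ l, k l ∈ M.commutant) ∧
    (∀ l, RvD.RN M ξ (Real.exp (-((((i : ℕ) : ℝ) - ((j : ℕ) : ℝ)) * h))) (z l) (k l)) ∧
    (∀ l, RvD.RN M.commutant ξ (Real.exp (-((((i : ℕ) : ℝ) - ((j : ℕ) : ℝ)) * h)))⁻¹ (k l) (z (l + 1))) ∧
    a y i j = ((LLB.c0 m h / 2 : ℝ) : ℂ) • z m

theorem opM_smul {J : Type*} [Fintype J] (c : ℂ) (x : Matrix J J (H →L[ℂ] H)) :
    opM (c • x) = c • opM x := by
  ext v i
  simp [opM_apply, Finset.smul_sum]

/-- the core, for a given family of Radon–Nikodym maps. -/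
theorem exists_core (M : VonNeumannAlgebra H) (ξ : H) (hξ : ‖ξ‖ ≤ 1) {m n : ℕ} (hm : 1 ≤ m)
    (hn : 1 ≤ n) {h : ℝ} (hh : 0 < h)
    (T : ℕ → Fin n → Fin n → (H →L[ℂ] H) →ₗ[ℂ] (H →L[ℂ] H))
    (hT : ∀ q i j, HT (MM M q) ξ (Real.sqrt (omw h n i / omw h n j)) (T q i j)) :
    ∃ C : Core M ξ m n h, (∀ y i j, C.a y i j = (1 / 2 : ℂ) • zl T (LLB.c0 m h) (2 * m) i j y) ∧
      (∀ y i j, C.b y i j = (1 / 2 : ℂ) • zl T (LLB.c0 m h) (2 * m + 1) i j y) := by
  have hω : ∀ i, 0 < omw h n i := omw_pos h hn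
  set c : ℝ := LLB.c0 m h with hc
  have hc0 : 0 < c := LLB.c0_pos hm hh
  have hrow1 : ∀ q, 2 * m ≤ q → ∀ i, ∑ j, c * sc (omw h n) i j ^ q ≤ 1 := by
    intro q hq i
    rw [row_omw h hn]
    exact LLB.c0_row_le hm hq hh n i
  have hrow3 : ∀ i, ∑ j, c * sc (omw h n) i j ^ m ≤ 3 := by
    intro i
    rw [row_omw h hn]
    exact LLB.c0_row_le_three hm hh n i
  have hdef : ∀ y ∈ M, ‖y‖ ≤ 1 → _ := fun y hy hy1 =>
    defect_bound (M := M) (T := T) (ξ := ξ) hω (sum_omw h hn) hξ hT hc0.le (y := y) hy hy1 m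
      (by norm_num : (0 : ℝ) < 3) hrow3
  have hbd : 0 ≤ 3 * c / ((m : ℝ) + 1) := by positivity
  have hhalf : ‖(1 / 2 : ℂ)‖ = 1 / 2 := by norm_num
  refine ⟨{
    a := { toFun := fun y => Matrix.of fun i j => (1 / 2 : ℂ) • zl T c (2 * m) i j y
           map_add' := ?_
           map_smul' := ?_ }
    b := { toFun := fun y => Matrix.of fun i j => (1 / 2 : ℂ) • zl T c (2 * m + 1) i j y
           map_add' := ?_
           map_smul' := ?_ }
    a_mem := ?_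
    b_mem := ?_
    norm_a := ?_
    norm_b := ?_
    partner := ?_
    partner_star := ?_
    chain := ?_ }, fun _ _ _ => rfl, fun _ _ _ => rfl⟩
  · intro x y
    refine Matrix.ext fun i j => ?_
    change (1 / 2 : ℂ) • zl T c (2 * m) i j (x + y) = (1 / 2 : ℂ) • zl T c (2 * m) i j x
      + (1 / 2 : ℂ) • zl T c (2 * m) i j y
    rw [map_add, smul_add]
  · intro r x
    refine Matrix.ext fun i j => ?_
    change (1 / 2 : ℂ) • zl T c (2 * m) i j (r • x) = r • (1 / 2 : ℂ) • zl T c (2 * m) i j x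
    rw [map_smul, smul_comm]
  · intro x y
    refine Matrix.ext fun i j => ?_
    change (1 / 2 : ℂ) • zl T c (2 * m + 1) i j (x + y) = (1 / 2 : ℂ) • zl T c (2 * m + 1) i j x
      + (1 / 2 : ℂ) • zl T c (2 * m + 1) i j y
    rw [map_add, smul_add]
  · intro r x
    refine Matrix.ext fun i j => ?_
    change (1 / 2 : ℂ) • zl T c (2 * m + 1) i j (r • x) = r • (1 / 2 : ℂ) • zl T c (2 * m + 1) i j x
    rw [map_smul, smul_comm]
  · intro y hy i j
    have h1 := zl_mem hT c hy (2 * m) i j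
    rw [MM_even] at h1
    exact RvD.smul_mem' _ h1
  · intro y hy i j
    have h1 := zl_mem hT c hy (2 * m + 1) i j
    rw [MM_odd] at h1
    exact RvD.smul_mem' _ h1
  · intro y hy hy1
    have h1 := norm_opM_zl hω hT hc0.le hy hy1 (2 * m) one_pos (hrow1 _ le_rfl)
    change ‖opM ((1 / 2 : ℂ) • (Matrix.of fun i j => zl T c (2 * m) i j y))‖ ≤ 1 / 2
    rw [opM_smul, norm_smul, hhalf]
    linarith
  · intro y hy hy1
    have h1 := norm_opM_zl hω hT hc0.le hy hy1 (2 * m + 1) one_pos (hrow1 _ (by omega))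
    change ‖opM ((1 / 2 : ℂ) • (Matrix.of fun i j => zl T c (2 * m + 1) i j y))‖ ≤ 1 / 2
    rw [opM_smul, norm_smul, hhalf]
    linarith
  · intro y hy hy1
    have h1 := hdef y hy hy1
    have e : ∀ i j : Fin n, ‖(Real.sqrt (omw h n j) : ℂ) • ((1 / 2 : ℂ) • zl T c (2 * m) i j y) ξ
        - (Real.sqrt (omw h n i) : ℂ) • ((1 / 2 : ℂ) • zl T c (2 * m + 1) j i y) ξ‖ ^ 2
        = 1 / 4 * ‖(Real.sqrt (omw h n j) : ℂ) • zl T c (2 * m) i j y ξ
        - (Real.sqrt (omw h n i) : ℂ) • zl T c (2 * m + 1) j i y ξ‖ ^ 2 := by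
      intro i j
      rw [smul_apply, smul_apply, smul_comm (_ : ℂ) (1 / 2 : ℂ), smul_comm (_ : ℂ) (1 / 2 : ℂ),
        ← smul_sub, norm_smul, hhalf]
      ring
    calc _ = ∑ i, ∑ j, 1 / 4 * ‖(Real.sqrt (omw h n j) : ℂ) • zl T c (2 * m) i j y ξ
        - (Real.sqrt (omw h n i) : ℂ) • zl T c (2 * m + 1) j i y ξ‖ ^ 2 :=
          Finset.sum_congr rfl fun i _ => Finset.sum_congr rfl fun j _ => e i j
      _ ≤ ∑ i, ∑ j, 1 / 4 * (‖(Real.sqrt (omw h n j) : ℂ) • zl T c (2 * m) i j y ξ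
        - (Real.sqrt (omw h n i) : ℂ) • zl T c (2 * m + 1) j i y ξ‖ ^ 2
      + ‖(Real.sqrt (omw h n i) : ℂ) • star (zl T c (2 * m) i j y) ξ
        - (Real.sqrt (omw h n j) : ℂ) • star (zl T c (2 * m + 1) j i y) ξ‖ ^ 2) := by
          gcongr with i _ j _
          exact le_add_of_nonneg_right (by positivity)
      _ = 1 / 4 * (∑ i, ∑ j, (‖(Real.sqrt (omw h n j) : ℂ) • zl T c (2 * m) i j y ξ
        - (Real.sqrt (omw h n i) : ℂ) • zl T c (2 * m + 1) j i y ξ‖ ^ 2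
      + ‖(Real.sqrt (omw h n i) : ℂ) • star (zl T c (2 * m) i j y) ξ
        - (Real.sqrt (omw h n j) : ℂ) • star (zl T c (2 * m + 1) j i y) ξ‖ ^ 2)) := by
          simp only [Finset.mul_sum]
      _ ≤ 1 / 4 * (2 * (3 * c / (m + 1))) := by gcongr
      _ ≤ _ := by linarith
  · intro y hy hy1
    have h1 := hdef y hy hy1
    have hst : ∀ z : H →L[ℂ] H, star ((1 / 2 : ℂ) • z) = (1 / 2 : ℂ) • star z := by
      intro z
      rw [star_smul]
      congr 1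
      simp
    have e : ∀ i j : Fin n, ‖(Real.sqrt (omw h n i) : ℂ) • star ((1 / 2 : ℂ) • zl T c (2 * m) i j y) ξ
        - (Real.sqrt (omw h n j) : ℂ) • star ((1 / 2 : ℂ) • zl T c (2 * m + 1) j i y) ξ‖ ^ 2
        = 1 / 4 * ‖(Real.sqrt (omw h n i) : ℂ) • star (zl T c (2 * m) i j y) ξ
        - (Real.sqrt (omw h n j) : ℂ) • star (zl T c (2 * m + 1) j i y) ξ‖ ^ 2 := by
      intro i j
      rw [hst, hst, smul_apply, smul_apply, smul_comm (_ : ℂ) (1 / 2 : ℂ),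
        smul_comm (_ : ℂ) (1 / 2 : ℂ), ← smul_sub, norm_smul, hhalf]
      ring
    rw [Finset.sum_comm]
    calc _ = ∑ i, ∑ j, 1 / 4 * ‖(Real.sqrt (omw h n i) : ℂ) • star (zl T c (2 * m) i j y) ξ
        - (Real.sqrt (omw h n j) : ℂ) • star (zl T c (2 * m + 1) j i y) ξ‖ ^ 2 :=
          Finset.sum_congr rfl fun i _ => Finset.sum_congr rfl fun j _ => e i j
      _ ≤ ∑ i, ∑ j, 1 / 4 * (‖(Real.sqrt (omw h n j) : ℂ) • zl T c (2 * m) i j y ξ
        - (Real.sqrt (omw h n i) : ℂ) • zl T c (2 * m + 1) j i y ξ‖ ^ 2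
      + ‖(Real.sqrt (omw h n i) : ℂ) • star (zl T c (2 * m) i j y) ξ
        - (Real.sqrt (omw h n j) : ℂ) • star (zl T c (2 * m + 1) j i y) ξ‖ ^ 2) := by
          gcongr with i _ j _
          exact le_add_of_nonneg_left (by positivity)
      _ = 1 / 4 * (∑ i, ∑ j, (‖(Real.sqrt (omw h n j) : ℂ) • zl T c (2 * m) i j y ξ
        - (Real.sqrt (omw h n i) : ℂ) • zl T c (2 * m + 1) j i y ξ‖ ^ 2
      + ‖(Real.sqrt (omw h n i) : ℂ) • star (zl T c (2 * m) i j y) ξ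
        - (Real.sqrt (omw h n j) : ℂ) • star (zl T c (2 * m + 1) j i y) ξ‖ ^ 2)) := by
          simp only [Finset.mul_sum]
      _ ≤ 1 / 4 * (2 * (3 * c / (m + 1))) := by gcongr
      _ ≤ _ := by linarith
  · intro y hy i j
    refine ⟨fun l => ((c⁻¹ : ℝ) : ℂ) • zl T c (2 * l) i j y,
      fun l => ((c⁻¹ : ℝ) : ℂ) • zl T c (2 * l + 1) j i y, ?_, ?_, ?_, ?_, ?_, ?_⟩
    · change ((c⁻¹ : ℝ) : ℂ) • zl T c 0 i j y = y
      rw [zl_zero, smul_smul, ← Complex.ofReal_mul, inv_mul_cancel₀ hc0.ne', Complex.ofReal_one,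
        one_smul]
    · intro l
      have h1 := zl_mem hT c hy (2 * l) i j
      rw [MM_even] at h1
      exact RvD.smul_mem' _ h1
    · intro l
      have h1 := zl_mem hT c hy (2 * l + 1) j i
      rw [MM_odd] at h1
      exact RvD.smul_mem' _ h1
    · intro l
      have h1 := (hT (2 * l) i j _ (zl_mem hT c hy (2 * l) i j)).2.1
      rw [MM_even, sqrt_omw h hn] at h1
      exact RN_iff.mp (RN_smul c⁻¹ h1)
    · intro l
      have h1 := (hT (2 * l + 1) j i _ (zl_mem hT c hy (2 * l + 1) j i)).2.1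
      have e2 : Real.sqrt (omw h n j / omw h n i)
          = (Real.exp (-((((i : ℕ) : ℝ) - ((j : ℕ) : ℝ)) * h)))⁻¹ := by
        rw [← sqrt_omw h hn, ← Real.sqrt_inv, inv_div]
      rw [MM_odd, e2] at h1
      exact RN_iff.mp (RN_smul c⁻¹ h1)
    · change (1 / 2 : ℂ) • zl T c (2 * m) i j y
        = ((c / 2 : ℝ) : ℂ) • ((c⁻¹ : ℝ) : ℂ) • zl T c (2 * m) i j y
      rw [smul_smul, ← Complex.ofReal_mul]
      congr 1
      have : c / 2 * c⁻¹ = 1 / 2 := by field_simp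
      rw [this]
      norm_num


end Crest.Agent.R078.Z.Comp
end
end

-- ▼ part R078/S103LLFinal535

/-!
# R78 / S0103 : the letter lemma (helper535)

`NormOK` and `PartnerOK` of helper16 for the letters `aM`, `bM`, and `LLFinal` of helper445.
-/

set_option autoImplicit false
set_option linter.unusedSectionVars false

noncomputable section

namespace Crest.Agent.R078.Z.LLF

open Crest.Agent.R078.Z.LLB Crest.Agent.R078.Z.Rcv16 Crest.Agent.R078.S103.LSys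
open Crest.Agent.R078.Z

universe u

variable {H : Type u} [NormedAddCommGroup H] [InnerProductSpace ℂ H] [CompleteSpace H]

/-- the family of Radon–Nikodym maps. -/
def TT (M : VonNeumannAlgebra H) (ξ : H) (n : ℕ) (h : ℝ) (q : ℕ) (i j : Fin n) :
    (H →L[ℂ] H) →ₗ[ℂ] (H →L[ℂ] H) := TL (Comp.MM M q) ξ (lamij h i j)

theorem HT_of_TLamAt {M : VonNeumannAlgebra H} {ξ : H} {lam : ℝ}
    {T : (H →L[ℂ] H) →ₗ[ℂ] (H →L[ℂ] H)} (h : TLamAt M ξ lam T) : Comp.HT M ξ lam T := by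
  intro x hx
  obtain ⟨h1, h2, h3, h4⟩ := h x hx
  exact ⟨h1, Comp.RN_iff.mpr h2, h3, h4⟩

theorem omw_eq (h : ℝ) (n : ℕ) (i : Fin n) : Comp.omw h n i = om h n i := rfl

theorem HT_TT (M : VonNeumannAlgebra H) (ξ : H) {n : ℕ} (hn : 1 ≤ n) (h : ℝ) (q : ℕ)
    (i j : Fin n) : Comp.HT (Comp.MM M q) ξ (Real.sqrt (Comp.omw h n i / Comp.omw h n j))
      (TT M ξ n h q i j) := by
  rw [omw_eq, omw_eq, sqrt_om_div hn]
  exact HT_of_TLamAt (TL_spec _ _ (lamij_pos h i j))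

theorem lamij_inv (h : ℝ) (i j : ℕ) : lamij h j i = (lamij h i j)⁻¹ := by
  unfold lamij
  rw [← Real.exp_neg]
  congr 1
  ring

theorem zl_even (M : VonNeumannAlgebra H) (ξ : H) (n : ℕ) (h c : ℝ) (k : ℕ) (i j : Fin n)
    (y : H →L[ℂ] H) : Comp.zl (TT M ξ n h) c (2 * k) i j y
      = (c : ℂ) • ((UL M ξ (lamij h i j)) ^ k) y := by
  induction k with
  | zero => rfl
  | succ k ih =>
    change TT M ξ n h (2 * k + 1) j i (TT M ξ n h (2 * k) i j
      (Comp.zl (TT M ξ n h) c (2 * k) i j y)) = _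
    rw [ih, map_smul, map_smul, pow_succ', Module.End.mul_apply]
    unfold TT UL
    rw [Comp.MM_odd, Comp.MM_even, lamij_inv h i j]
    rfl

theorem zl_odd (M : VonNeumannAlgebra H) (ξ : H) (n : ℕ) (h c : ℝ) (k : ℕ) (i j : Fin n)
    (y : H →L[ℂ] H) : Comp.zl (TT M ξ n h) c (2 * k + 1) j i y
      = TL M ξ (lamij h i j) ((c : ℂ) • ((UL M ξ (lamij h i j)) ^ k) y) := by
  change TT M ξ n h (2 * k) i j (Comp.zl (TT M ξ n h) c (2 * k) i j y) = _
  rw [zl_even]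
  unfold TT
  rw [Comp.MM_even]

theorem half_smul (c : ℝ) (z : H →L[ℂ] H) :
    ((1 / 2 * c : ℝ) : ℂ) • z = (1 / 2 : ℂ) • (c : ℂ) • z := by
  rw [smul_smul]
  congr 1
  push_cast
  ring

/-- helper16's letters are the letters of `Core`. -/
theorem exists_core' (M : VonNeumannAlgebra H) (ξ : H) (hξ : ‖ξ‖ ≤ 1) {m n : ℕ} (hm : 1 ≤ m)
    (hn : 1 ≤ n) {h : ℝ} (hh : 0 < h) :
    ∃ C : Comp.Core M ξ m n h, (∀ y, C.a y = aM M ξ m n h y) ∧ (∀ y, C.b y = bM M ξ m n h y) := by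
  obtain ⟨C, hCa, hCb⟩ := Comp.exists_core M ξ hξ hm hn hh (TT M ξ n h) (HT_TT M ξ hn h)
  refine ⟨C, fun y => ?_, fun y => ?_⟩
  · refine Matrix.ext fun i j => ?_
    rw [hCa, zl_even, aM_apply, half_smul]
  · refine Matrix.ext fun j i => ?_
    rw [hCb, zl_odd, bM_apply, aM_apply, half_smul, map_smul _ (1 / 2 : ℂ)]

theorem normOK (M : VonNeumannAlgebra H) (ξ : H) (hξ : ‖ξ‖ ≤ 1) {m n : ℕ} (hm : 1 ≤ m)
    (hn : 1 ≤ n) {h : ℝ} (hh : 0 < h) : NormOK M ξ m n h := by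
  obtain ⟨C, hCa, hCb⟩ := exists_core' M ξ hξ hm hn hh
  intro y hy hy1
  rw [← hCa, ← hCb]
  exact ⟨C.norm_a y hy hy1, C.norm_b y hy hy1⟩

theorem partnerOK (M : VonNeumannAlgebra H) (ξ : H) (hξ : ‖ξ‖ ≤ 1) {m n : ℕ} (hm : 1 ≤ m)
    (hn : 1 ≤ n) {h : ℝ} (hh : 0 < h) : PartnerOK M ξ m n h 3 := by
  obtain ⟨C, hCa, hCb⟩ := exists_core' M ξ hξ hm hn hh
  intro y hy hy1
  rw [← hCa, ← hCb, ← mul_div_assoc]
  exact ⟨C.partner y hy hy1, C.partner_star y hy hy1⟩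

/-- **THE LETTER LEMMA.** -/
theorem llFinal : Comp.LLFinal.{u} := by
  intro H _ _ _ M ξ hξ m Y A B hY _ hA hB κ hκ τ hτ
  exact exists_letterOut M ξ (by norm_num : (0 : ℝ) < 3)
    (fun m n h hm hn hh _ => normOK M ξ hξ.le hm hn hh)
    (fun m n h hm hn hh _ => partnerOK M ξ hξ.le hm hn hh) hY hA hB hκ hτ

end Crest.Agent.R078.Z.LLF
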