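import Mathlib
import Crest.Agent.R078.S103TBFrame

/-!
Row 78, S0103, tensor bookkeeping, part 2: norms in frames, relabelled frames, the concrete frame on
`PiLp 2`, and the chain `G = PiLp 2 (fun _ : Fin d → I × I => H)` with its slot operators.
-/

set_option autoImplicit false
set_option linter.unusedSectionVars false
set_option linter.deprecated false
set_option linter.unusedSimpArgs false

namespace Crest.Agent.R078.Z.TB

open ContinuousLinearMap

universe u

section Norm

variable {H G : Type*} [NormedAddCommGroup H] [InnerProductSpace ℂ H] [CompleteSpace H]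
  [NormedAddCommGroup G] [InnerProductSpace ℂ G] [CompleteSpace G]
  {J : Type*} [Fintype J] [DecidableEq J] {V : J → H →L[ℂ] G}




theorem IsFrame.ext_adj (hV : IsFrame V) {g g' : G}
    (h : ∀ i, adjoint (V i) g = adjoint (V i) g') : g = g' := by
  rw [← hV.sum_apply g, ← hV.sum_apply g']
  exact Finset.sum_congr rfl fun i _ => by rw [h i]







end Norm

section NormLft

variable {H G : Type*} [NormedAddCommGroup H] [InnerProductSpace ℂ H] [CompleteSpace H]
  [NormedAddCommGroup G] [InnerProductSpace ℂ G] [CompleteSpace G]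
  {J₁ J₂ : Type*} [Fintype J₁] [DecidableEq J₁] [Fintype J₂] [DecidableEq J₂]
  {V : J₁ × J₂ → H →L[ℂ] G}







end NormLft

section Relabel

variable {H G : Type*} [NormedAddCommGroup H] [InnerProductSpace ℂ H] [CompleteSpace H]
  [NormedAddCommGroup G] [InnerProductSpace ℂ G] [CompleteSpace G]
  {J J' : Type*} [Fintype J] [DecidableEq J] [Fintype J'] [DecidableEq J']
  {V : J → H →L[ℂ] G}

/-- relabelled frame -/
def reF (V : J → H →L[ℂ] G) (e : J ≃ J') : J' → H →L[ℂ] G := fun p => V (e.symm p)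

theorem reF_isFrame (hV : IsFrame V) (e : J ≃ J') : IsFrame (reF V e) where
  orth := by
    intro i j
    rw [reF, reF, hV.orth]
    by_cases h : i = j
    · subst h; simp
    · rw [if_neg h, if_neg (fun h' => h (e.symm.injective h'))]
  compl := by
    rw [← hV.compl]
    exact Fintype.sum_equiv e.symm _ _ (fun p => rfl)

theorem ent_reF (e : J ≃ J') (X : G →L[ℂ] G) (p q : J') :
    ent (reF V e) X p q = ent V X (e.symm p) (e.symm q) := rfl

variable {J₁ J₂ : Type*} [Fintype J₁] [DecidableEq J₁] [Fintype J₂] [DecidableEq J₂]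

/-- entries of `x ⊗ 1` in the original labels -/
theorem ent_lft_reF (hV : IsFrame V) (e : J ≃ J₁ × J₂) (x : J₁ → J₁ → H →L[ℂ] H) (i j : J) :
    ent V (lft (reF V e) x) i j = if (e i).2 = (e j).2 then x (e i).1 (e j).1 else 0 := by
  have := ent_lft (reF_isFrame hV e) x (e i) (e j)
  rw [ent_reF, Equiv.symm_apply_apply, Equiv.symm_apply_apply] at this
  exact this

theorem ent_lft_swap_reF (hV : IsFrame V) (e : J ≃ J₁ × J₂) (y : J₂ → J₂ → H →L[ℂ] H)
    (i j : J) :
    ent V (lft (swapF (reF V e)) y) i j = if (e i).1 = (e j).1 then y (e i).2 (e j).2 else 0 := by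
  have := ent_lft (swapF_isFrame (reF_isFrame hV e)) y ((e i).2, (e i).1) ((e j).2, (e j).1)
  have h2 : ent (swapF (reF V e)) (lft (swapF (reF V e)) y) ((e i).2, (e i).1) ((e j).2, (e j).1)
      = ent V (lft (swapF (reF V e)) y) (e.symm (e i)) (e.symm (e j)) := rfl
  rw [h2, Equiv.symm_apply_apply, Equiv.symm_apply_apply] at this
  exact this

end Relabel

section PiLpFrame

variable (H : Type u) [NormedAddCommGroup H] [InnerProductSpace ℂ H] [CompleteSpace H]
  (J : Type*) [Fintype J] [DecidableEq J]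

/-- the concrete frame on `PiLp 2 (fun _ : J => H)` -/
noncomputable def injF : J → H →L[ℂ] PiLp 2 (fun _ : J => H) := fun j =>
  LinearMap.mkContinuous
    { toFun := fun x => WithLp.toLp 2 (fun i => if i = j then x else 0)
      map_add' := by
        intro x y
        ext i
        by_cases h : i = j <;> simp [h]
      map_smul' := by
        intro c x
        ext i
        by_cases h : i = j <;> simp [h] } 1 (by
      intro x
      rw [one_mul]
      refine (sq_le_sq₀ (norm_nonneg _) (norm_nonneg _)).1 ?_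
      rw [PiLp.norm_sq_eq_of_L2, Finset.sum_eq_single j]
      · simp
      · intro i _ hi
        simp [hi]
      · simp)

variable {H J}

@[simp] theorem injF_apply (j : J) (x : H) (i : J) :
    injF H J j x i = if i = j then x else 0 := rfl

@[simp] theorem adj_injF (j : J) (v : PiLp 2 (fun _ : J => H)) :
    adjoint (injF H J j) v = v j := by
  refine ext_inner_left ℂ fun w => ?_
  rw [adjoint_inner_right, PiLp.inner_apply, Finset.sum_eq_single j]
  · simp
  · intro i _ hi
    simp [hi]
  · simp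

theorem injF_isFrame : IsFrame (injF H J) where
  orth := by
    intro i j
    ext x
    rw [ContinuousLinearMap.comp_apply, adj_injF, injF_apply]
    split_ifs <;> simp
  compl := by
    ext v i
    simp only [sum_apply, ContinuousLinearMap.comp_apply, adj_injF, ContinuousLinearMap.id_apply]
    have : (∑ x : J, injF H J x (v x)) i = ∑ x : J, (injF H J x (v x)) i := by
      simp [WithLp.ofLp_sum]
    rw [this, Finset.sum_eq_single i]
    · simp
    · intro k _ hk
      simp [Ne.symm hk]
    · simp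


theorem opM_injF_apply (t : J → J → H →L[ℂ] H) (v : PiLp 2 (fun _ : J => H)) (i : J) :
    opM (injF H J) t v i = ∑ j, t i j (v j) := by
  rw [← adj_injF, adj_opM_apply injF_isFrame]
  simp

end PiLpFrame

section Slots

variable {H G : Type*} [NormedAddCommGroup H] [InnerProductSpace ℂ H] [CompleteSpace H]
  [NormedAddCommGroup G] [InnerProductSpace ℂ G] [CompleteSpace G]
  {I : Type*} [Fintype I] [DecidableEq I] {d : ℕ}
  {V : (Fin d → I × I) → H →L[ℂ] G}

/-- splitting off slot `j` -/
def eS (j : Fin d) : (Fin d → I × I) ≃ (I × I) × ({i // i ≠ j} → I × I) where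
  toFun ω := (ω j, fun i => ω i)
  invFun p := fun i => if h : i = j then p.1 else p.2 ⟨i, h⟩
  left_inv := by
    intro ω
    funext i
    by_cases h : i = j
    · subst h; simp
    · simp [h]
  right_inv := by
    rintro ⟨p, q⟩
    ext i
    · simp
    · simp
    · simp [i.2]
    · simp [i.2]

/-- splitting the two legs of all slots -/
def eL : (Fin d → I × I) ≃ (Fin d → I) × (Fin d → I) where
  toFun ω := (fun i => (ω i).1, fun i => (ω i).2)
  invFun p := fun i => (p.1 i, p.2 i)
  left_inv := fun _ => rfl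
  right_inv := fun _ => rfl

/-- first legs off slot `j`, against slot `j` and all second legs off `j` -/
def eO (j : Fin d) : (Fin d → I × I) ≃ ({i // i ≠ j} → I) × ((I × I) × ({i // i ≠ j} → I)) where
  toFun ω := (fun i => (ω i).1, (ω j, fun i => (ω i).2))
  invFun p := fun i => if h : i = j then p.2.1 else (p.1 ⟨i, h⟩, p.2.2 ⟨i, h⟩)
  left_inv := by
    intro ω
    funext i
    by_cases h : i = j
    · subst h; simp
    · simp [h]
  right_inv := by
    rintro ⟨a, p, b⟩
    ext i
    · simp [i.2]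
    · simp
    · simp
    · simp [i.2]

/-- exchanging the two legs -/
def flipE : (Fin d → I × I) ≃ (Fin d → I × I) where
  toFun ω := fun i => (ω i).swap
  invFun ω := fun i => (ω i).swap
  left_inv := fun _ => rfl
  right_inv := fun _ => rfl

/-- the operator `x` on slot `j` -/
noncomputable def slot (V : (Fin d → I × I) → H →L[ℂ] G) (j : Fin d)
    (x : I × I → I × I → H →L[ℂ] H) : G →L[ℂ] G := lft (reF V (eS j)) x

/-- the diagonal operator `y ⊗ 1` -/
noncomputable def dia {J : Type*} [Fintype J] [DecidableEq J] (V : J → H →L[ℂ] G)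
    (y : H →L[ℂ] H) : G →L[ℂ] G :=
  opM V (fun p q => if p = q then y else 0)

/-- `M ⊗ B(first legs) ⊗ 1` -/
noncomputable def MM (V : (Fin d → I × I) → H →L[ℂ] G) (M : VonNeumannAlgebra H) :
    VonNeumannAlgebra G := alg (reF V eL) M

/-- `M ⊗ B(first legs off slot j) ⊗ 1` -/
noncomputable def MO (V : (Fin d → I × I) → H →L[ℂ] G) (j : Fin d) (M : VonNeumannAlgebra H) :
    VonNeumannAlgebra G := alg (reF V (eO j)) M

/-- a matrix on leg 1 -/
def lg1 (t : I → I → H →L[ℂ] H) : I × I → I × I → H →L[ℂ] H :=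
  fun p q => if p.2 = q.2 then t p.1 q.1 else 0

/-- a matrix on leg 2 -/
def lg2 (t : I → I → H →L[ℂ] H) : I × I → I × I → H →L[ℂ] H :=
  fun p q => if p.1 = q.1 then t p.2 q.2 else 0

theorem eS_snd_eq_iff (j : Fin d) (ω ω' : Fin d → I × I) :
    (eS j ω).2 = (eS j ω').2 ↔ ∀ i, i ≠ j → ω i = ω' i := by
  constructor
  · intro h i hi
    exact congrFun h ⟨i, hi⟩
  · intro h
    funext i
    exact h i i.2


theorem eL_snd_eq_iff (ω ω' : Fin d → I × I) :
    (eL ω).2 = (eL ω').2 ↔ ∀ i, (ω i).2 = (ω' i).2 := by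
  constructor
  · intro h i
    exact congrFun h i
  · intro h
    funext i
    exact h i

theorem eO_fst_eq_iff (j : Fin d) (ω ω' : Fin d → I × I) :
    (eO j ω).1 = (eO j ω').1 ↔ ∀ i, i ≠ j → (ω i).1 = (ω' i).1 := by
  constructor
  · intro h i hi
    exact congrFun h ⟨i, hi⟩
  · intro h
    funext i
    exact h i i.2

theorem eO_snd_eq_iff (j : Fin d) (ω ω' : Fin d → I × I) :
    (eO j ω).2 = (eO j ω').2 ↔ ω j = ω' j ∧ ∀ i, i ≠ j → (ω i).2 = (ω' i).2 := by
  constructor
  · intro h
    refine ⟨congrArg Prod.fst h, fun i hi => ?_⟩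
    exact congrFun (congrArg Prod.snd h) ⟨i, hi⟩
  · rintro ⟨h1, h2⟩
    refine Prod.ext h1 ?_
    funext i
    exact h2 i i.2

theorem ent_slot (hV : IsFrame V) (j : Fin d) (x : I × I → I × I → H →L[ℂ] H)
    (ω ω' : Fin d → I × I) : ent V (slot V j x) ω ω' =
      if (∀ i, i ≠ j → ω i = ω' i) then x (ω j) (ω' j) else 0 := by
  classical
  rw [slot, ent_lft_reF hV]
  by_cases h : (∀ i, i ≠ j → ω i = ω' i)
  · rw [if_pos h, if_pos ((eS_snd_eq_iff j ω ω').2 h)]
    rfl
  · rw [if_neg h, if_neg (fun h' => h ((eS_snd_eq_iff j ω ω').1 h'))]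

theorem ent_dia {J : Type*} [Fintype J] [DecidableEq J] {V : J → H →L[ℂ] G} (hV : IsFrame V)
    (y : H →L[ℂ] H) (p q : J) : ent V (dia V y) p q = if p = q then y else 0 := by
  rw [dia, ent_opM hV]

/-- coordinates of `slot j x g` -/
theorem adj_slot (hV : IsFrame V) (j : Fin d) (x : I × I → I × I → H →L[ℂ] H) (g : G)
    (ω : Fin d → I × I) : adjoint (V ω) (slot V j x g) =
      ∑ p, x (ω j) p (adjoint (V (Function.update ω j p)) g) := by
  have h := adj_lft (reF_isFrame hV (eS j)) x (eS j ω).1 (eS j ω).2 g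
  have e1 : reF V (eS j) ((eS j ω).1, (eS j ω).2) = V ω := by
    rw [reF]
    exact congrArg V ((eS j).symm_apply_apply ω)
  rw [e1] at h
  rw [slot, h]
  refine Finset.sum_congr rfl fun p _ => ?_
  have e2 : reF V (eS j) (p, (eS j ω).2) = V (Function.update ω j p) := by
    rw [reF]
    congr 1
    funext i
    by_cases hi : i = j
    · subst hi; simp [eS]
    · simp [eS, hi]
  rw [e2]
  rfl

theorem adj_dia {J : Type*} [Fintype J] [DecidableEq J] {V : J → H →L[ℂ] G} (hV : IsFrame V)
    (y : H →L[ℂ] H) (g : G) (p : J) : adjoint (V p) (dia V y g) = y (adjoint (V p) g) := by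
  rw [dia, adj_opM_apply hV, Finset.sum_eq_single p]
  · simp
  · intro q _ hq
    simp [Ne.symm hq]
  · simp

theorem slot_mul (hV : IsFrame V) (j : Fin d) (x y : I × I → I × I → H →L[ℂ] H) :
    slot V j x * slot V j y = slot V j (fun a b => ∑ c, x a c * y c b) :=
  lft_mul (reF_isFrame hV _) x y

theorem slot_star (hV : IsFrame V) (j : Fin d) (x : I × I → I × I → H →L[ℂ] H) :
    star (slot V j x) = slot V j (fun a b => star (x b a)) :=
  lft_star (reF_isFrame hV _) x



theorem slot_one (hV : IsFrame V) (j : Fin d) :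
    slot V j (fun a b => if a = b then (1 : H →L[ℂ] H) else 0) = 1 :=
  lft_one (reF_isFrame hV _)





/-! ### membership -/

theorem slot_lg1_mem_MM (hV : IsFrame V) (M : VonNeumannAlgebra H) (j : Fin d)
    {t : I → I → H →L[ℂ] H} (ht : ∀ a b, t a b ∈ M) : slot V j (lg1 t) ∈ MM V M := by
  classical
  rw [MM, mem_alg_iff (reF_isFrame hV _)]
  refine ⟨fun α β => if (∀ i, i ≠ j → α i = β i) then t (α j) (β j) else 0, fun α β => ?_, ?_⟩
  · beta_reduce
    split_ifs
    · exact ht _ _
    · exact zero_mem _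
  · refine ext_ent hV fun ω ω' => ?_
    rw [ent_slot hV, ent_lft_reF hV]
    simp only [eL_snd_eq_iff, lg1]
    by_cases h : ∀ i, i ≠ j → ω i = ω' i
    · rw [if_pos h]
      by_cases h2 : (ω j).2 = (ω' j).2
      · have h3 : ∀ i, (ω i).2 = (ω' i).2 := by
          intro i
          by_cases hi : i = j
          · rw [hi]; exact h2
          · rw [h i hi]
        have h4 : ∀ i, i ≠ j → (eL ω).1 i = (eL ω').1 i := by
          intro i hi
          change (ω i).1 = (ω' i).1
          rw [h i hi]
        rw [if_pos h2, if_pos h3, if_pos h4]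
        rfl
      · rw [if_neg h2, if_neg (fun h3 => h2 (h3 j))]
    · rw [if_neg h]
      by_cases h3 : ∀ i, (ω i).2 = (ω' i).2
      · rw [if_pos h3, if_neg]
        intro h4
        exact h fun i hi => Prod.ext (h4 i hi) (h3 i)
      · rw [if_neg h3]

theorem slot_lg1_mem_MO (hV : IsFrame V) (M : VonNeumannAlgebra H) {i j : Fin d} (hij : i ≠ j)
    {t : I → I → H →L[ℂ] H} (ht : ∀ a b, t a b ∈ M) : slot V i (lg1 t) ∈ MO V j M := by
  classical
  rw [MO, mem_alg_iff (reF_isFrame hV _)]
  refine ⟨fun α β => if (∀ k, k ≠ ⟨i, hij⟩ → α k = β k) then t (α ⟨i, hij⟩) (β ⟨i, hij⟩) else 0,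
    fun α β => ?_, ?_⟩
  · beta_reduce
    split_ifs
    · exact ht _ _
    · exact zero_mem _
  · refine ext_ent hV fun ω ω' => ?_
    rw [ent_slot hV, ent_lft_reF hV]
    simp only [eO_snd_eq_iff, lg1]
    by_cases h : ∀ k, k ≠ i → ω k = ω' k
    · rw [if_pos h]
      by_cases h2 : (ω i).2 = (ω' i).2
      · have h3 : ω j = ω' j ∧ ∀ k, k ≠ j → (ω k).2 = (ω' k).2 := by
          refine ⟨h j (Ne.symm hij), fun k _ => ?_⟩
          by_cases hk : k = i
          · rw [hk]; exact h2
          · rw [h k hk]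
        have h4 : ∀ k, k ≠ ⟨i, hij⟩ → (eO j ω).1 k = (eO j ω').1 k := by
          intro k hk
          change (ω k).1 = (ω' k).1
          rw [h k (fun e => hk (Subtype.ext e))]
        rw [if_pos h2, if_pos h3, if_pos h4]
        rfl
      · rw [if_neg h2, if_neg (fun h3 => h2 (h3.2 i hij))]
    · rw [if_neg h]
      by_cases h3 : ω j = ω' j ∧ ∀ k, k ≠ j → (ω k).2 = (ω' k).2
      · rw [if_pos h3, if_neg]
        intro h4
        refine h fun k hk => ?_
        by_cases hkj : k = j
        · rw [hkj]; exact h3.1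
        · exact Prod.ext (h4 ⟨k, hkj⟩ (fun e => hk (congrArg Subtype.val e))) (h3.2 k hkj)
      · rw [if_neg h3]

theorem MO_le_MM (hV : IsFrame V) (M : VonNeumannAlgebra H) (j : Fin d) {X : G →L[ℂ] G}
    (hX : X ∈ MO V j M) : X ∈ MM V M := by
  classical
  rw [MO, mem_alg_iff (reF_isFrame hV _)] at hX
  obtain ⟨u, hu, rfl⟩ := hX
  rw [MM, mem_alg_iff (reF_isFrame hV _)]
  refine ⟨fun α β => if α j = β j then u (fun i => α i) (fun i => β i) else 0, fun α β => ?_, ?_⟩
  · beta_reduce
    split_ifs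
    · exact hu _ _
    · exact zero_mem _
  · refine ext_ent hV fun ω ω' => ?_
    rw [ent_lft_reF hV, ent_lft_reF hV]
    simp only [eL_snd_eq_iff, eO_snd_eq_iff]
    by_cases h : ω j = ω' j ∧ ∀ k, k ≠ j → (ω k).2 = (ω' k).2
    · have h3 : ∀ i, (ω i).2 = (ω' i).2 := by
        intro i
        by_cases hi : i = j
        · rw [hi, h.1]
        · exact h.2 i hi
      have h4 : (eL ω).1 j = (eL ω').1 j := by
        change (ω j).1 = (ω' j).1
        rw [h.1]
      rw [if_pos h, if_pos h3, if_pos h4]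
      rfl
    · rw [if_neg h]
      by_cases h3 : ∀ i, (ω i).2 = (ω' i).2
      · rw [if_pos h3, if_neg]
        intro h4
        exact h ⟨Prod.ext h4 (h3 j), fun k _ => h3 k⟩
      · rw [if_neg h3]

/-- elements of `MO` commute with operators on slot `j` (entries commuting) -/
theorem MO_comm_slot (hV : IsFrame V) (M : VonNeumannAlgebra H) (j : Fin d) {X : G →L[ℂ] G}
    (hX : X ∈ MO V j M) {x : I × I → I × I → H →L[ℂ] H} (hx : ∀ p q, x p q ∈ M.commutant) :
    X * slot V j x = slot V j x * X := by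
  classical
  rw [MO, mem_alg_iff (reF_isFrame hV _)] at hX
  obtain ⟨u, hu, rfl⟩ := hX
  have e : slot V j x = lft (swapF (reF V (eO j)))
      (fun p q => if p.2 = q.2 then x p.1 q.1 else 0) := by
    refine ext_ent hV fun ω ω' => ?_
    rw [ent_slot hV, ent_lft_swap_reF hV]
    simp only [eO_fst_eq_iff]
    by_cases h : ∀ i, i ≠ j → ω i = ω' i
    · have h1 : ∀ i, i ≠ j → (ω i).1 = (ω' i).1 := fun i hi => by rw [h i hi]
      have h2 : (eO j ω).2.2 = (eO j ω').2.2 := by
        funext i
        change (ω i).2 = (ω' i).2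
        rw [h i i.2]
      rw [if_pos h, if_pos h1, if_pos h2]
      rfl
    · rw [if_neg h]
      by_cases h1 : ∀ i, i ≠ j → (ω i).1 = (ω' i).1
      · rw [if_pos h1, if_neg]
        intro h2
        exact h fun i hi => Prod.ext (h1 i hi) (congrFun h2 ⟨i, hi⟩)
      · rw [if_neg h1]
  rw [e]
  refine lft_comm_lft_swap (reF_isFrame hV _) _ _ fun a a' b b' => ?_
  split_ifs
  · exact (VonNeumannAlgebra.mem_commutant_iff.1 (hx _ _)) _ (hu a a')
  · simp



theorem dia_mem_alg {J₁ J₂ : Type*} [Fintype J₁] [DecidableEq J₁] [Fintype J₂] [DecidableEq J₂]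
    {V : J₁ × J₂ → H →L[ℂ] G} (hV : IsFrame V) {M : VonNeumannAlgebra H} {y : H →L[ℂ] H}
    (hy : y ∈ M) : dia V y ∈ alg V M := by
  rw [mem_alg_iff hV]
  refine ⟨fun a b => if a = b then y else 0, fun a b => ?_, ?_⟩
  · beta_reduce
    split_ifs
    · exact hy
    · exact zero_mem _
  · refine ext_ent hV fun p q => ?_
    rw [ent_dia hV, ent_lft hV]
    by_cases h : p = q
    · subst h; simp
    · rw [if_neg h]
      by_cases h2 : p.2 = q.2
      · have h1 : p.1 ≠ q.1 := fun e => h (Prod.ext e h2)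
        simp [h1]
      · simp [h2]

theorem dia_reF {J J' : Type*} [Fintype J] [DecidableEq J] [Fintype J'] [DecidableEq J']
    {V : J → H →L[ℂ] G} (hV : IsFrame V) (e : J ≃ J') (y : H →L[ℂ] H) :
    dia (reF V e) y = dia V y := by
  ext g
  refine hV.ext_adj fun i => ?_
  rw [adj_dia hV]
  have h := adj_dia (reF_isFrame hV e) y g (e i)
  have e1 : reF V e (e i) = V i := by
    rw [reF, Equiv.symm_apply_apply]
  rw [e1] at h
  exact h

theorem dia_mem_MM (hV : IsFrame V) {M : VonNeumannAlgebra H} {y : H →L[ℂ] H}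
    (hy : y ∈ M) : dia V y ∈ MM V M := by
  rw [MM, ← dia_reF hV eL y]
  exact dia_mem_alg (reF_isFrame hV _) hy

/-! ### the flipped frame: second legs -/

theorem flip_isFrame (hV : IsFrame V) : IsFrame (reF V flipE) := reF_isFrame hV _

theorem commutant_MM (hV : IsFrame V) (M : VonNeumannAlgebra H) :
    (MM V M).commutant = MM (reF V flipE) M.commutant := by
  rw [MM, commutant_alg (reF_isFrame hV _)]
  rfl

theorem slot_flip (hV : IsFrame V) (j : Fin d) (x : I × I → I × I → H →L[ℂ] H) :
    slot (reF V flipE) j x = slot V j (fun p q => x p.swap q.swap) := by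
  refine ext_ent hV fun ω ω' => ?_
  rw [ent_slot hV]
  have h := ent_slot (flip_isFrame hV) j x (flipE ω) (flipE ω')
  rw [ent_reF, Equiv.symm_apply_apply, Equiv.symm_apply_apply] at h
  rw [h]
  have e1 : (∀ i, i ≠ j → flipE ω i = flipE ω' i) ↔ ∀ i, i ≠ j → ω i = ω' i := by
    constructor
    · intro h i hi
      have := h i hi
      exact Prod.swap_injective this
    · intro h i hi
      change (ω i).swap = (ω' i).swap
      rw [h i hi]
  simp only [e1]
  rfl

theorem slot_flip_lg1 (hV : IsFrame V) (j : Fin d) (t : I → I → H →L[ℂ] H) :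
    slot (reF V flipE) j (lg1 t) = slot V j (lg2 t) := by
  rw [slot_flip hV]
  rfl

theorem slot_lg2_mem (hV : IsFrame V) (M : VonNeumannAlgebra H) (j : Fin d)
    {t : I → I → H →L[ℂ] H} (ht : ∀ a b, t a b ∈ M.commutant) :
    slot V j (lg2 t) ∈ (MM V M).commutant := by
  rw [commutant_MM hV, ← slot_flip_lg1 hV]
  exact slot_lg1_mem_MM (flip_isFrame hV) _ j ht

theorem dia_mem_comm (hV : IsFrame V) {M : VonNeumannAlgebra H} {y : H →L[ℂ] H}
    (hy : y ∈ M.commutant) : dia V y ∈ (MM V M).commutant := by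
  rw [commutant_MM hV, ← dia_reF hV flipE y]
  exact dia_mem_MM (flip_isFrame hV) hy


end Slots

end Crest.Agent.R078.Z.TB
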