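import Mathlib
import Crest.Agent.R078.S103TBChain
import Crest.Agent.R078.S103Slot199
import Crest.Agent.R078.S103Rec445B
import Crest.Agent.R078.S103LSys938

-- ▼ part R078/S103TBOps
section

/-!
Row 78, S0103, tensor bookkeeping, part 3: the operator part of the slot system
(leg homomorphisms, unitarity, scalars, norms, lifts).
-/

set_option autoImplicit false
set_option linter.unusedSectionVars false
set_option linter.deprecated false
set_option linter.unusedSimpArgs false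

namespace Crest.Agent.R078.Z.TB

open ContinuousLinearMap Crest.Agent.R078.Z.Slot

universe u

section Legs

variable {H G : Type*} [NormedAddCommGroup H] [InnerProductSpace ℂ H] [CompleteSpace H]
  [NormedAddCommGroup G] [InnerProductSpace ℂ G] [CompleteSpace G]
  {I : Type*} [Fintype I] [DecidableEq I] {d : ℕ}
  {V : (Fin d → I × I) → H →L[ℂ] G}

theorem lg1_mul (s t : Matrix I I (H →L[ℂ] H)) :
    (fun p q => ∑ c, lg1 s p c * lg1 t c q) = lg1 (H := H) (s * t : Matrix I I (H →L[ℂ] H)) := by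
  funext p q
  rw [Fintype.sum_prod_type]
  unfold lg1
  by_cases h : p.2 = q.2
  · rw [if_pos h, Matrix.mul_apply]
    refine Finset.sum_congr rfl fun a _ => ?_
    rw [Finset.sum_eq_single p.2]
    · simp [h]
    · intro b _ hb
      simp [Ne.symm hb]
    · simp
  · rw [if_neg h]
    refine Finset.sum_eq_zero fun a _ => Finset.sum_eq_zero fun b _ => ?_
    by_cases h1 : p.2 = b
    · have h2 : b ≠ q.2 := fun e => h (h1.trans e)
      simp [h2]
    · simp [h1]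

theorem lg1_star (s : Matrix I I (H →L[ℂ] H)) :
    (fun p q => star (lg1 (H := H) s q p)) = lg1 (H := H) (star s : Matrix I I (H →L[ℂ] H)) := by
  funext p q
  unfold lg1
  by_cases h : p.2 = q.2
  · rw [if_pos h, if_pos h.symm]
    rfl
  · rw [if_neg h, if_neg (Ne.symm h), star_zero]

theorem lg1_one : lg1 (H := H) (1 : Matrix I I (H →L[ℂ] H)) =
    fun p q => if p = q then 1 else 0 := by
  funext p q
  unfold lg1
  by_cases h : p = q
  · subst h; simp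
  · rw [if_neg h]
    by_cases h2 : p.2 = q.2
    · have h1 : p.1 ≠ q.1 := fun e => h (Prod.ext e h2)
      rw [if_pos h2, Matrix.one_apply_ne h1]
    · rw [if_neg h2]

theorem slot_lg1_mul (hV : IsFrame V) (j : Fin d) (s t : Matrix I I (H →L[ℂ] H)) :
    slot V j (lg1 s) * slot V j (lg1 t) = slot V j (lg1 (s * t : Matrix I I (H →L[ℂ] H))) := by
  rw [slot_mul hV, lg1_mul]

theorem slot_lg1_star (hV : IsFrame V) (j : Fin d) (s : Matrix I I (H →L[ℂ] H)) :
    star (slot V j (lg1 s)) = slot V j (lg1 (star s : Matrix I I (H →L[ℂ] H))) := by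
  rw [slot_star hV, lg1_star]

theorem slot_lg1_one (hV : IsFrame V) (j : Fin d) :
    slot V j (lg1 (1 : Matrix I I (H →L[ℂ] H))) = 1 := by
  rw [lg1_one, slot_one hV]





theorem slot_lg1_unitary (hV : IsFrame V) (j : Fin d) {s : Matrix I I (H →L[ℂ] H)}
    (h1 : s * star s = 1) (h2 : star s * s = 1) :
    slot V j (lg1 s) ∈ unitary (G →L[ℂ] G) := by
  rw [Unitary.mem_iff]
  constructor
  · rw [slot_lg1_star hV, slot_lg1_mul hV, h2, slot_lg1_one hV]
  · rw [slot_lg1_star hV, slot_lg1_mul hV, h1, slot_lg1_one hV]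


/-- scalar matrix -/
def sc (k : I → I → ℂ) : I → I → H →L[ℂ] H := fun a b => k a b • (1 : H →L[ℂ] H)

theorem smul_one_mem (M : VonNeumannAlgebra H) (c : ℂ) : c • (1 : H →L[ℂ] H) ∈ M := by
  rw [← VonNeumannAlgebra.commutant_commutant M, VonNeumannAlgebra.mem_commutant_iff]
  intro g _
  simp

theorem sc_mem (M : VonNeumannAlgebra H) (k : I → I → ℂ) (a b : I) :
    sc (H := H) k a b ∈ M := smul_one_mem M _

theorem lg2_sc_mem (M : VonNeumannAlgebra H) (k : I → I → ℂ) (p q : I × I) :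
    lg2 (sc (H := H) k) p q ∈ M := by
  unfold lg2
  split_ifs
  · exact sc_mem M k _ _
  · exact zero_mem _





/-- the slot projection `|z⟩⟨z|` -/
def pz (z : I × I → ℂ) : I × I → I × I → H →L[ℂ] H :=
  fun p q => (z p * (starRingEnd ℂ) (z q)) • (1 : H →L[ℂ] H)

theorem pz_mem (M : VonNeumannAlgebra H) (z : I × I → ℂ) (p q : I × I) :
    pz (H := H) z p q ∈ M := smul_one_mem M _




end Legs

section Lifts

variable {H G : Type u} [NormedAddCommGroup H] [InnerProductSpace ℂ H] [CompleteSpace H]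
  [NormedAddCommGroup G] [InnerProductSpace ℂ G] [CompleteSpace G]
  {I : Type} [Fintype I] [DecidableEq I] {d : ℕ}
  {V : (Fin d → I × I) → H →L[ℂ] G} {δ : ℝ} {M N : VonNeumannAlgebra H}

theorem ballClose_MM (hSC : SC δ M N) (hV : IsFrame V) : BallClose δ (MM V M) (MM V N) :=
  (hSC G _ _ _ (reF_isFrame hV _)).1

theorem ballClose_MO (hSC : SC δ M N) (hV : IsFrame V) (j : Fin d) :
    BallClose δ (MO V j M) (MO V j N) :=
  (hSC G _ _ _ (reF_isFrame hV _)).1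

theorem SC_MM (hSC : SC δ M N) (hV : IsFrame V) : SC δ (MM V M) (MM V N) :=
  hSC.amp (reF_isFrame hV _)

theorem norm_le_one_of_unitary {x : G →L[ℂ] G} (hx : x ∈ unitary (G →L[ℂ] G)) : ‖x‖ ≤ 1 := by
  refine opNorm_le_bound _ zero_le_one fun g => ?_
  rw [one_mul]
  have h1 : inner ℂ (x g) (x g) = inner ℂ g g := by
    rw [← adjoint_inner_right, ← star_eq_adjoint]
    have := Unitary.star_mul_self_of_mem hx
    have h2 := congrArg (fun T : G →L[ℂ] G => T g) this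
    simp only [ContinuousLinearMap.mul_apply, ContinuousLinearMap.one_apply] at h2
    rw [h2]
  rw [inner_self_eq_norm_sq_to_K, inner_self_eq_norm_sq_to_K] at h1
  have h2 : ‖x g‖ ^ 2 = ‖g‖ ^ 2 := by exact_mod_cast h1
  exact ((sq_eq_sq₀ (norm_nonneg _) (norm_nonneg _)).1 h2).le

variable {L : Type} [Fintype L] [DecidableEq L]


theorem pre_mem' (P : VonNeumannAlgebra G) (T : Fin d → L → G →L[ℂ] G) (w : Fin d → L) (j : ℕ)
    (h : ∀ i : Fin d, (i : ℕ) < j → ∀ l, T i l ∈ P) : pre T w j ∈ P := by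
  refine list_prod_mem fun x hx => ?_
  rw [List.mem_map] at hx
  obtain ⟨i, hi, rfl⟩ := hx
  exact h i (Rec.lt_of_mem_take hi) _

theorem suf_mem' (P : VonNeumannAlgebra G) (T : Fin d → L → G →L[ℂ] G) (w : Fin d → L) (j : ℕ)
    (h : ∀ i : Fin d, j ≤ (i : ℕ) → ∀ l, T i l ∈ P) : suf T w j ∈ P := by
  refine list_prod_mem fun x hx => ?_
  rw [List.mem_map] at hx
  obtain ⟨i, hi, rfl⟩ := hx
  exact h i (Rec.le_of_mem_drop hi) _

theorem pre_unitary' (T : Fin d → L → G →L[ℂ] G) (w : Fin d → L) (j : ℕ)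
    (h : ∀ i l, T i l ∈ unitary (G →L[ℂ] G)) : pre T w j ∈ unitary (G →L[ℂ] G) := by
  refine list_prod_mem fun x hx => ?_
  rw [List.mem_map] at hx
  obtain ⟨i, hi, rfl⟩ := hx
  exact h i _

theorem suf_unitary' (T : Fin d → L → G →L[ℂ] G) (w : Fin d → L) (j : ℕ)
    (h : ∀ i l, T i l ∈ unitary (G →L[ℂ] G)) : suf T w j ∈ unitary (G →L[ℂ] G) := by
  refine list_prod_mem fun x hx => ?_
  rw [List.mem_map] at hx
  obtain ⟨i, hi, rfl⟩ := hx
  exact h i _

/-- the lifts of the initial words -/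
theorem exists_lft (hSC : SC δ M N) (hV : IsFrame V) (T : Fin d → L → Matrix I I (H →L[ℂ] H))
    (hT : ∀ j l a b, T j l a b ∈ M) (hU : ∀ j l, T j l * star (T j l) = 1)
    (hU' : ∀ j l, star (T j l) * T j l = 1) :
    ∃ f : Fin d → (Fin d → L) → G →L[ℂ] G,
      (∀ j w, f j w ∈ MM V N) ∧ (∀ j w, ‖f j w‖ ≤ 1) ∧
      (∀ (j : Fin d) w, ‖pre (fun i l => slot V i (lg1 (T i l))) w j - f j w‖ ≤ δ) ∧
      (∀ j w l, f j (Function.update w j l) = f j w) := by
  have hB := (ballClose_MM hSC hV).1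
  choose! f hf using hB
  have hm : ∀ (w : Fin d → L) (j : Fin d),
      pre (fun i l => slot V i (lg1 (T i l))) w j ∈ MM V M := fun w j =>
    pre_mem' _ _ _ _ fun i _ l => slot_lg1_mem_MM hV M i (hT i l)
  have hn : ∀ (w : Fin d → L) (j : Fin d),
      ‖pre (fun i l => slot V i (lg1 (T i l))) w j‖ ≤ 1 := fun w j =>
    norm_le_one_of_unitary (pre_unitary' _ _ _ fun i l => slot_lg1_unitary hV i (hU i l) (hU' i l))
  refine ⟨fun j w => f (pre (fun i l => slot V i (lg1 (T i l))) w j), fun j w => ?_,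
    fun j w => ?_, fun j w => ?_, fun j w l => ?_⟩
  · exact (hf _ (hm w j) (hn w j)).1
  · exact (hf _ (hm w j) (hn w j)).2.1
  · exact (hf _ (hm w j) (hn w j)).2.2
  · dsimp only
    rw [Rec.pre_update]

/-- the lifts of the final words, off slot `j` -/
theorem exists_rho (hSC : SC δ M N) (hV : IsFrame V) (T : Fin d → L → Matrix I I (H →L[ℂ] H))
    (hT : ∀ j l a b, T j l a b ∈ M) (hU : ∀ j l, T j l * star (T j l) = 1)
    (hU' : ∀ j l, star (T j l) * T j l = 1) :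
    ∃ f : Fin d → (Fin d → L) → G →L[ℂ] G,
      (∀ j w, f j w ∈ MO V j N) ∧ (∀ j w, ‖f j w‖ ≤ 1) ∧
      (∀ (j : Fin d) w, ‖suf (fun i l => slot V i (lg1 (T i l))) w (j + 1) - f j w‖ ≤ δ) ∧
      (∀ j w l, f j (Function.update w j l) = f j w) := by
  have hB := fun j => (ballClose_MO hSC hV j).1
  choose! f hf using hB
  have hm : ∀ (w : Fin d → L) (j : Fin d),
      suf (fun i l => slot V i (lg1 (T i l))) w (j + 1) ∈ MO V j M := fun w j =>
    suf_mem' _ _ _ _ fun i hi l => slot_lg1_mem_MO hV M (by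
      intro e; rw [e] at hi; omega) (hT i l)
  have hn : ∀ (w : Fin d → L) (j : Fin d),
      ‖suf (fun i l => slot V i (lg1 (T i l))) w (j + 1)‖ ≤ 1 := fun w j =>
    norm_le_one_of_unitary (suf_unitary' _ _ _ fun i l => slot_lg1_unitary hV i (hU i l) (hU' i l))
  refine ⟨fun j w => f j (suf (fun i l => slot V i (lg1 (T i l))) w (j + 1)), fun j w => ?_,
    fun j w => ?_, fun j w => ?_, fun j w l => ?_⟩
  · exact (hf j _ (hm w j) (hn w j)).1
  · exact (hf j _ (hm w j) (hn w j)).2.1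
  · exact (hf j _ (hm w j) (hn w j)).2.2
  · dsimp only
    rw [Rec.suf_update]

/-- the lifts of the final words of the commutant letters, off slot `j` -/
theorem exists_tp (hSC : SC δ M N) (hV : IsFrame V) (T : Fin d → L → Matrix I I (H →L[ℂ] H))
    (hT : ∀ j l a b, T j l a b ∈ M.commutant) (hU : ∀ j l, T j l * star (T j l) = 1)
    (hU' : ∀ j l, star (T j l) * T j l = 1) :
    ∃ f : Fin d → (Fin d → L) → G →L[ℂ] G,
      (∀ j w, f j w ∈ MO (reF V flipE) j N.commutant) ∧ (∀ j w, ‖f j w‖ ≤ 1) ∧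
      (∀ (j : Fin d) w, ‖suf (fun i l => slot V i (lg2 (T i l))) w (j + 1) - f j w‖ ≤ δ) ∧
      (∀ j w l, f j (Function.update w j l) = f j w) := by
  obtain ⟨f, h1, h2, h3, h4⟩ := exists_rho (hSC.commutant) (flip_isFrame hV) T hT hU hU'
  refine ⟨f, h1, h2, fun j w => ?_, h4⟩
  have e : (fun i l => slot (reF V flipE) i (lg1 (T i l))) = fun i l => slot V i (lg2 (T i l)) := by
    funext i l
    exact slot_flip_lg1 hV i _
  rw [← e]
  exact h3 j w

theorem MO_flip_mem (hV : IsFrame V) (N : VonNeumannAlgebra H) (j : Fin d) {X : G →L[ℂ] G}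
    (hX : X ∈ MO (reF V flipE) j N.commutant) : X ∈ (MM V N).commutant := by
  rw [commutant_MM hV]
  exact MO_le_MM (flip_isFrame hV) _ j hX

theorem MO_flip_comm_slot (hV : IsFrame V) (N : VonNeumannAlgebra H) (j : Fin d) {X : G →L[ℂ] G}
    (hX : X ∈ MO (reF V flipE) j N.commutant) {x : I × I → I × I → H →L[ℂ] H}
    (hx : ∀ p q, x p q ∈ N) : X * slot V j x = slot V j x * X := by
  have e : slot V j x = slot (reF V flipE) j (fun p q => x p.swap q.swap) := by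
    rw [slot_flip hV]
    rfl
  rw [e]
  refine MO_comm_slot (flip_isFrame hV) N.commutant j hX fun p q => ?_
  rw [VonNeumannAlgebra.commutant_commutant]
  exact hx _ _

end Lifts

end Crest.Agent.R078.Z.TB
end

-- ▼ part R078/S103TBVec836
section

set_option autoImplicit false
set_option linter.unusedSectionVars false
set_option linter.deprecated false
set_option linter.unusedDecidableInType false
set_option linter.unusedFintypeInType false

open scoped InnerProductSpace ComplexConjugate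

noncomputable section

namespace Crest.Agent.R078.Z.TBV

open Crest.Agent.R078.S103.LSys

universe u

/-! ### combinatorics of one slot -/

section comb

variable {d : ℕ} {W A : Type} (e : W ≃ (Fin d → A)) (j : Fin d)

/-- replace the letter of slot `j` by `a`. -/
def st (w : W) (a : A) : W := e.symm (Function.update (e w) j a)

@[simp] theorem e_st (w : W) (a : A) : e (st e j w a) = Function.update (e w) j a := by
  simp [st]

theorem e_st_same (w : W) (a : A) : e (st e j w a) j = a := by simp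

theorem e_st_of_ne {i : Fin d} (h : i ≠ j) (w : W) (a : A) : e (st e j w a) i = e w i := by
  simp [h]

@[simp] theorem st_get (w : W) : st e j w (e w j) = w := by simp [st]

@[simp] theorem st_st (w : W) (a b : A) : st e j (st e j w a) b = st e j w b := by
  simp [st]

theorem st_comm {i j : Fin d} (h : i ≠ j) (w : W) (a b : A) :
    st e i (st e j w a) b = st e j (st e i w b) a := by
  simp only [st, Equiv.apply_symm_apply]
  rw [Function.update_comm h.symm]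

variable [Fintype W] [Fintype A]

theorem sum_st_swap {E : Type*} [AddCommMonoid E] (F : W → A → W → E) :
    ∑ w, ∑ a, F w a (st e j w a) = ∑ w, ∑ a, F (st e j w a) (e w j) w := by
  rw [← Fintype.sum_prod_type', ← Fintype.sum_prod_type']
  let φ : W × A ≃ W × A :=
    { toFun := fun p => (st e j p.1 p.2, e p.1 j)
      invFun := fun p => (st e j p.1 p.2, e p.1 j)
      left_inv := fun p => by simp
      right_inv := fun p => by simp }
  refine Fintype.sum_equiv φ _ _ fun p => ?_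
  simp [φ]

theorem sum_st_const {E : Type*} [AddCommMonoid E] (F : W → E) :
    ∑ w, ∑ a, F (st e j w a) = Fintype.card A • ∑ w, F w := by
  rw [sum_st_swap e j (fun _ _ w' => F w')]
  simp [Finset.sum_const, Finset.smul_sum]

end comb

/-! ### slot operators -/

variable {H : Type u} [NormedAddCommGroup H] [InnerProductSpace ℂ H]
variable {d : ℕ} {W A : Type} [Fintype W] [DecidableEq W] [Fintype A] [DecidableEq A]
  (e : W ≃ (Fin d → A))

/-- the operator matrix of a slot operator -/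
def slM (j : Fin d) (t : Matrix A A (H →L[ℂ] H)) : Matrix W W (H →L[ℂ] H) :=
  fun w w' => if w' = st e j w (e w' j) then t (e w j) (e w' j) else 0

/-- the operator `t` acting on slot `j`. -/
def sl (j : Fin d) (t : Matrix A A (H →L[ℂ] H)) :
    PiLp 2 (fun _ : W => H) →L[ℂ] PiLp 2 (fun _ : W => H) := opM (slM e j t)

theorem sl_apply (j : Fin d) (t : Matrix A A (H →L[ℂ] H)) (v : PiLp 2 (fun _ : W => H)) (w : W) :
    sl e j t v w = ∑ a, t (e w j) a (v (st e j w a)) := by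
  unfold sl
  rw [opM_apply]
  have h1 : ∀ w' : W, (slM e j t w w') (v w')
      = ∑ a, if w' = st e j w a then t (e w j) a (v w') else 0 := by
    intro w'
    unfold slM
    split_ifs with h
    · rw [Finset.sum_eq_single (e w' j)]
      · rw [if_pos h]
      · intro b _ hb
        rw [if_neg]
        intro h'
        exact hb (by rw [h']; simp)
      · intro h'; exact absurd (Finset.mem_univ _) h'
    · rw [Finset.sum_eq_zero]
      · simp
      · intro b _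
        rw [if_neg]
        intro h'
        exact h (by conv_lhs => rw [h']
                    rw [h']; simp)
  rw [Finset.sum_congr rfl fun w' _ => h1 w', Finset.sum_comm]
  refine Finset.sum_congr rfl fun a _ => ?_
  rw [Finset.sum_ite_eq']
  simp

/-- diagonal operators -/
def dg (x : H →L[ℂ] H) : PiLp 2 (fun _ : W => H) →L[ℂ] PiLp 2 (fun _ : W => H) :=
  opM (Matrix.diagonal fun _ => x)

@[simp] theorem dg_apply (x : H →L[ℂ] H) (v : PiLp 2 (fun _ : W => H)) (w : W) :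
    dg x v w = x (v w) := by
  unfold dg
  rw [opM_apply, Finset.sum_eq_single w]
  · simp
  · intro b _ hb
    rw [Matrix.diagonal_apply_ne _ (Ne.symm hb)]
    simp
  · intro h; exact absurd (Finset.mem_univ _) h

theorem sl_add (j : Fin d) (t s : Matrix A A (H →L[ℂ] H)) : sl e j (t + s) = sl e j t + sl e j s := by
  ext v w
  simp [sl_apply, Finset.sum_add_distrib]

theorem sl_zero (j : Fin d) : sl e j (0 : Matrix A A (H →L[ℂ] H)) = 0 := by
  ext v w
  simp [sl_apply]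

theorem sl_smul (j : Fin d) (c : ℂ) (t : Matrix A A (H →L[ℂ] H)) : sl e j (c • t) = c • sl e j t := by
  ext v w
  simp [sl_apply, Finset.smul_sum]

theorem sl_sum (j : Fin d) {ι : Type*} (s : Finset ι) (t : ι → Matrix A A (H →L[ℂ] H)) :
    sl e j (∑ i ∈ s, t i) = ∑ i ∈ s, sl e j (t i) := by
  classical
  induction s using Finset.induction_on with
  | empty => simp [sl_zero]
  | insert i s hi ih => rw [Finset.sum_insert hi, Finset.sum_insert hi, sl_add, ih]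

theorem sl_one (j : Fin d) : sl e j (1 : Matrix A A (H →L[ℂ] H)) = 1 := by
  ext v w
  rw [sl_apply, Finset.sum_eq_single (e w j)]
  · simp
  · intro b _ hb
    rw [Matrix.one_apply_ne (Ne.symm hb)]
    simp
  · intro h; exact absurd (Finset.mem_univ _) h

theorem sl_mul (j : Fin d) (t s : Matrix A A (H →L[ℂ] H)) : sl e j (t * s) = sl e j t * sl e j s := by
  ext v w
  rw [ContinuousLinearMap.mul_apply, sl_apply, sl_apply]
  simp only [sl_apply, e_st_same, st_st, map_sum]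
  rw [Finset.sum_comm]
  refine Finset.sum_congr rfl fun a _ => ?_
  rw [Matrix.mul_apply, ContinuousLinearMap.sum_apply]
  rfl

theorem sl_comm {i j : Fin d} (h : i ≠ j) (t s : Matrix A A (H →L[ℂ] H))
    (hc : ∀ a b a' b', t a b * s a' b' = s a' b' * t a b) :
    sl e i t * sl e j s = sl e j s * sl e i t := by
  ext v w
  simp only [ContinuousLinearMap.mul_apply, sl_apply, map_sum]
  rw [Finset.sum_comm]
  refine Finset.sum_congr rfl fun a _ => Finset.sum_congr rfl fun b _ => ?_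
  rw [e_st_of_ne e i h.symm, e_st_of_ne e j h, st_comm e h]
  exact DFunLike.congr_fun (hc (e w i) b (e w j) a) _

theorem sl_dg_comm (j : Fin d) (t : Matrix A A (H →L[ℂ] H)) (x : H →L[ℂ] H)
    (hc : ∀ a b, t a b * x = x * t a b) :
    sl e j t * dg x = dg x * sl e j t := by
  ext v w
  simp only [ContinuousLinearMap.mul_apply, sl_apply, dg_apply, map_sum]
  refine Finset.sum_congr rfl fun a _ => ?_
  exact DFunLike.congr_fun (hc (e w j) a) _

theorem dg_mul (x y : H →L[ℂ] H) : dg (W := W) (x * y) = dg x * dg y := by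
  ext v w; simp


/-! ### norms -/

theorem norm_sq_eq {J : Type} [Fintype J] (v : PiLp 2 (fun _ : J => H)) :
    ‖v‖ ^ 2 = ∑ w, ‖v w‖ ^ 2 :=
  PiLp.norm_sq_eq_of_L2 _ v

theorem norm_sl_apply_sq (j : Fin d) (t : Matrix A A (H →L[ℂ] H)) (v : PiLp 2 (fun _ : W => H)) :
    (Fintype.card A : ℝ) * ‖sl e j t v‖ ^ 2
      = ∑ w, ‖opM t (WithLp.toLp 2 fun b => v (st e j w b))‖ ^ 2 := by
  rw [norm_sq_eq, ← nsmul_eq_mul, ← sum_st_const e j (fun w => ‖sl e j t v w‖ ^ 2)]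
  refine Finset.sum_congr rfl fun w _ => ?_
  rw [norm_sq_eq]
  refine Finset.sum_congr rfl fun a _ => ?_
  rw [sl_apply, opM_apply]
  simp

theorem norm_sq_st (j : Fin d) (v : PiLp 2 (fun _ : W => H)) :
    (Fintype.card A : ℝ) * ‖v‖ ^ 2
      = ∑ w, ‖(WithLp.toLp 2 fun b => v (st e j w b) : PiLp 2 (fun _ : A => H))‖ ^ 2 := by
  rw [norm_sq_eq, ← nsmul_eq_mul, ← sum_st_const e j (fun w => ‖v w‖ ^ 2)]
  refine Finset.sum_congr rfl fun w _ => ?_
  rw [norm_sq_eq]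

theorem norm_sl_le (j : Fin d) (t : Matrix A A (H →L[ℂ] H)) {C : ℝ} (hC : 0 ≤ C)
    (h : ‖opM t‖ ≤ C) : ‖sl e j t‖ ≤ C := by
  refine ContinuousLinearMap.opNorm_le_bound _ hC fun v => ?_
  by_cases hA : Nonempty A
  · have hcard : (0 : ℝ) < Fintype.card A := by exact_mod_cast Fintype.card_pos
    have key : (Fintype.card A : ℝ) * ‖sl e j t v‖ ^ 2 ≤ (Fintype.card A : ℝ) * (C * ‖v‖) ^ 2 := by
      rw [norm_sl_apply_sq, mul_pow, mul_left_comm, norm_sq_st e j, Finset.mul_sum]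
      refine Finset.sum_le_sum fun w _ => ?_
      rw [← mul_pow]
      refine pow_le_pow_left₀ (norm_nonneg _) ?_ 2
      exact (ContinuousLinearMap.le_opNorm _ _).trans (mul_le_mul_of_nonneg_right h (norm_nonneg _))
    have := le_of_mul_le_mul_left key hcard
    exact le_of_sq_le_sq this (by positivity)
  · have hW : IsEmpty W := ⟨fun w => hA ⟨e w j⟩⟩
    have : ‖sl e j t v‖ ^ 2 = 0 := by rw [norm_sq_eq]; simp
    have : ‖sl e j t v‖ = 0 := by simpa using this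
    rw [this]; positivity

theorem norm_dg_le (x : H →L[ℂ] H) : ‖dg (W := W) x‖ ≤ ‖x‖ := by
  refine ContinuousLinearMap.opNorm_le_bound _ (norm_nonneg _) fun v => ?_
  refine le_of_sq_le_sq ?_ (by positivity)
  rw [mul_pow, norm_sq_eq, norm_sq_eq, Finset.mul_sum]
  refine Finset.sum_le_sum fun w _ => ?_
  rw [dg_apply, ← mul_pow]
  exact pow_le_pow_left₀ (norm_nonneg _) (x.le_opNorm _) 2

/-! ### product vectors -/

/-- `∏_i ζ₀(w_i)` -/
def prodv (ζ₀ : A → ℂ) (w : W) : ℂ := ∏ i, ζ₀ (e w i)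

/-- the amplitude of all the slots except `j` -/
def restv (ζ₀ : A → ℂ) (j : Fin d) (w : W) : ℂ := ∏ i ∈ Finset.univ.erase j, ζ₀ (e w i)

theorem restv_st (ζ₀ : A → ℂ) (j : Fin d) (w : W) (a : A) :
    restv e ζ₀ j (st e j w a) = restv e ζ₀ j w := by
  unfold restv
  refine Finset.prod_congr rfl fun i hi => ?_
  rw [e_st_of_ne e j (Finset.ne_of_mem_erase hi)]

theorem prodv_eq (ζ₀ : A → ℂ) (j : Fin d) (w : W) :
    prodv e ζ₀ w = restv e ζ₀ j w * ζ₀ (e w j) := by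
  unfold prodv restv
  rw [mul_comm]
  exact (Finset.mul_prod_erase Finset.univ (fun i => ζ₀ (e w i)) (Finset.mem_univ j)).symm

theorem sum_rest (ζ₀ : A → ℂ) (hζ : ∑ a, ‖ζ₀ a‖ ^ 2 = 1) (j : Fin d) (f : A → ℝ) :
    ∑ w : W, ‖restv e ζ₀ j w‖ ^ 2 * f (e w j) = ∑ a, f a := by
  classical
  have h1 : ∀ w : W, ‖restv e ζ₀ j w‖ ^ 2 * f (e w j)
      = ∏ i, (if i = j then f (e w i) else ‖ζ₀ (e w i)‖ ^ 2) := by
    intro w
    rw [← Finset.mul_prod_erase Finset.univ _ (Finset.mem_univ j), if_pos rfl, mul_comm]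
    congr 1
    unfold restv
    rw [norm_prod, ← Finset.prod_pow]
    refine Finset.prod_congr rfl fun i hi => ?_
    rw [if_neg (Finset.ne_of_mem_erase hi)]
  rw [Finset.sum_congr rfl fun w _ => h1 w]
  rw [Fintype.sum_equiv e _ (fun g : Fin d → A => ∏ i, (if i = j then f (g i) else ‖ζ₀ (g i)‖ ^ 2))
    (fun w => rfl)]
  have h2 := (Finset.prod_univ_sum (fun _ : Fin d => (Finset.univ : Finset A))
    (fun i a => if i = j then f a else ‖ζ₀ a‖ ^ 2))
  rw [Fintype.piFinset_univ] at h2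
  rw [← h2, ← Finset.mul_prod_erase Finset.univ _ (Finset.mem_univ j)]
  simp only [if_true]
  rw [Finset.prod_eq_one, mul_one]
  intro i hi
  simp only [if_neg (Finset.ne_of_mem_erase hi)]
  exact hζ

/-- `v` in slot `j`, `ζ₀` in all the others. -/
def emb (ζ₀ : A → ℂ) (j : Fin d) (v : PiLp 2 (fun _ : A => H)) : PiLp 2 (fun _ : W => H) :=
  WithLp.toLp 2 fun w => restv e ζ₀ j w • v (e w j)

@[simp] theorem emb_apply (ζ₀ : A → ℂ) (j : Fin d) (v : PiLp 2 (fun _ : A => H)) (w : W) :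
    emb e ζ₀ j v w = restv e ζ₀ j w • v (e w j) := rfl

theorem norm_emb (ζ₀ : A → ℂ) (hζ : ∑ a, ‖ζ₀ a‖ ^ 2 = 1) (j : Fin d)
    (v : PiLp 2 (fun _ : A => H)) : ‖emb e ζ₀ j v‖ = ‖v‖ := by
  have : ‖emb e ζ₀ j v‖ ^ 2 = ‖v‖ ^ 2 := by
    rw [norm_sq_eq, norm_sq_eq, ← sum_rest e ζ₀ hζ j]
    refine Finset.sum_congr rfl fun w _ => ?_
    rw [emb_apply, norm_smul, mul_pow]
  exact (sq_eq_sq₀ (norm_nonneg _) (norm_nonneg _)).1 this

theorem emb_sub (ζ₀ : A → ℂ) (j : Fin d) (v v' : PiLp 2 (fun _ : A => H)) :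
    emb e ζ₀ j (v - v') = emb e ζ₀ j v - emb e ζ₀ j v' := by
  ext w; simp [smul_sub]

theorem emb_add (ζ₀ : A → ℂ) (j : Fin d) (v v' : PiLp 2 (fun _ : A => H)) :
    emb e ζ₀ j (v + v') = emb e ζ₀ j v + emb e ζ₀ j v' := by
  ext w; simp [smul_add]

theorem emb_smul (ζ₀ : A → ℂ) (j : Fin d) (c : ℂ) (v : PiLp 2 (fun _ : A => H)) :
    emb e ζ₀ j (c • v) = c • emb e ζ₀ j v := by
  ext w
  rw [emb_apply, PiLp.smul_apply, PiLp.smul_apply, emb_apply, smul_comm]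

theorem inner_emb (ζ₀ : A → ℂ) (hζ : ∑ a, ‖ζ₀ a‖ ^ 2 = 1) (j : Fin d)
    (v v' : PiLp 2 (fun _ : A => H)) : ⟪emb e ζ₀ j v, emb e ζ₀ j v'⟫_ℂ = ⟪v, v'⟫_ℂ := by
  rw [inner_eq_sum_norm_sq_div_four, inner_eq_sum_norm_sq_div_four]
  rw [← emb_add, ← emb_sub, norm_emb e ζ₀ hζ, norm_emb e ζ₀ hζ]
  have h1 : ∀ c : ℂ, ‖emb e ζ₀ j v - c • emb e ζ₀ j v'‖ = ‖v - c • v'‖ := by
    intro c; rw [← emb_smul, ← emb_sub, norm_emb e ζ₀ hζ]
  have h2 : ∀ c : ℂ, ‖emb e ζ₀ j v + c • emb e ζ₀ j v'‖ = ‖v + c • v'‖ := by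
    intro c; rw [← emb_smul, ← emb_add, norm_emb e ζ₀ hζ]
  rw [h1, h2]

theorem sl_emb (ζ₀ : A → ℂ) (j : Fin d) (t : Matrix A A (H →L[ℂ] H))
    (v : PiLp 2 (fun _ : A => H)) : sl e j t (emb e ζ₀ j v) = emb e ζ₀ j (opM t v) := by
  ext w
  rw [sl_apply, emb_apply, opM_apply, Finset.smul_sum]
  refine Finset.sum_congr rfl fun a _ => ?_
  rw [emb_apply, restv_st, e_st_same, map_smul]

theorem dg_emb (ζ₀ : A → ℂ) (j : Fin d) (x : H →L[ℂ] H)
    (v : PiLp 2 (fun _ : A => H)) :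
    dg x (emb e ζ₀ j v) = emb e ζ₀ j (WithLp.toLp 2 fun a => x (v a)) := by
  ext w
  simp

theorem emb_tv (ζ₀ : A → ℂ) (j : Fin d) (x : H) (z : A → ℂ) :
    emb e ζ₀ j (tv x z) = tv x (fun w => restv e ζ₀ j w * z (e w j)) := by
  ext w
  simp [mul_smul]

theorem emb_tv_prod (ζ₀ : A → ℂ) (j : Fin d) (x : H) :
    emb e ζ₀ j (tv x ζ₀) = tv x (prodv e ζ₀) := by
  rw [emb_tv]
  congr 1
  ext w
  rw [prodv_eq e ζ₀ j]

theorem norm_tv_sq (x : H) (z : W → ℂ) : ‖tv x z‖ ^ 2 = (∑ w, ‖z w‖ ^ 2) * ‖x‖ ^ 2 := by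
  rw [norm_sq_eq, Finset.sum_mul]
  refine Finset.sum_congr rfl fun w _ => ?_
  rw [tv_apply, norm_smul, mul_pow]

theorem dg_tv' (x : H →L[ℂ] H) (y : H) (z : W → ℂ) :
    (WithLp.toLp 2 fun w => x (tv y z w) : PiLp 2 (fun _ : W => H)) = tv (x y) z := by
  ext w; simp

theorem dg_tv (x : H →L[ℂ] H) (y : H) (z : W → ℂ) : dg x (tv y z) = tv (x y) z := by
  ext w; simp

/-! ### adjoints -/

section adj

variable [CompleteSpace H]

theorem opM_star {J : Type} [Fintype J] (t : Matrix J J (H →L[ℂ] H)) :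
    opM (star t) = star (opM t) := by
  rw [ContinuousLinearMap.star_eq_adjoint, ContinuousLinearMap.eq_adjoint_iff]
  intro x y
  rw [PiLp.inner_apply, PiLp.inner_apply]
  simp only [opM_apply, sum_inner, inner_sum]
  rw [Finset.sum_comm]
  refine Finset.sum_congr rfl fun i _ => Finset.sum_congr rfl fun k _ => ?_
  rw [Matrix.star_apply, ContinuousLinearMap.star_eq_adjoint,
    ContinuousLinearMap.adjoint_inner_left]

theorem opM_mul {J : Type} [Fintype J] (t s : Matrix J J (H →L[ℂ] H)) :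
    opM (t * s) = opM t * opM s := by
  ext v i
  rw [ContinuousLinearMap.mul_apply, opM_apply, opM_apply]
  simp only [opM_apply, map_sum]
  rw [Finset.sum_comm]
  refine Finset.sum_congr rfl fun a _ => ?_
  rw [Matrix.mul_apply, ContinuousLinearMap.sum_apply]
  rfl

theorem opM_one {J : Type} [Fintype J] [DecidableEq J] :
    opM (1 : Matrix J J (H →L[ℂ] H)) = 1 := by
  ext v i
  rw [opM_apply, Finset.sum_eq_single i]
  · simp
  · intro b _ hb
    rw [Matrix.one_apply_ne (Ne.symm hb)]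
    simp
  · intro h; exact absurd (Finset.mem_univ _) h

/-- a unitary operator matrix acts isometrically. -/
theorem norm_opM_of_unitary {J : Type} [Fintype J] [DecidableEq J] (t : Matrix J J (H →L[ℂ] H))
    (ht : star t * t = 1) (v : PiLp 2 (fun _ : J => H)) : ‖opM t v‖ = ‖v‖ := by
  have h1 : ⟪opM t v, opM t v⟫_ℂ = ⟪v, v⟫_ℂ := by
    rw [← ContinuousLinearMap.adjoint_inner_left, ← ContinuousLinearMap.star_eq_adjoint,
      ← opM_star, ← ContinuousLinearMap.mul_apply, ← opM_mul, ht, opM_one]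
    rfl
  rw [inner_self_eq_norm_sq_to_K, inner_self_eq_norm_sq_to_K] at h1
  have h2 : ‖opM t v‖ ^ 2 = ‖v‖ ^ 2 := by exact_mod_cast h1
  exact (sq_eq_sq₀ (norm_nonneg _) (norm_nonneg _)).1 h2

theorem sl_star (j : Fin d) (t : Matrix A A (H →L[ℂ] H)) : star (sl e j t) = sl e j (star t) := by
  symm
  rw [ContinuousLinearMap.star_eq_adjoint, ContinuousLinearMap.eq_adjoint_iff]
  intro x y
  rw [PiLp.inner_apply, PiLp.inner_apply]
  simp only [sl_apply, sum_inner, inner_sum]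
  have h := sum_st_swap e j (fun w a w' => ⟪x w, t (e w j) a (y w')⟫_ℂ)
  rw [h]
  refine Finset.sum_congr rfl fun w _ => Finset.sum_congr rfl fun a _ => ?_
  rw [Matrix.star_apply, ContinuousLinearMap.star_eq_adjoint,
    ContinuousLinearMap.adjoint_inner_left, e_st_same]

theorem dg_star (x : H →L[ℂ] H) : star (dg (W := W) x) = dg (star x) := by
  unfold dg
  rw [← opM_star]
  congr 1
  rw [Matrix.star_eq_conjTranspose, Matrix.diagonal_conjTranspose]
  rfl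

theorem dg_eq_sl (j : Fin d) (x : H →L[ℂ] H) : dg x = sl e j (Matrix.diagonal fun _ => x) := by
  ext v w
  rw [sl_apply, Finset.sum_eq_single (e w j)]
  · simp
  · intro b _ hb
    rw [Matrix.diagonal_apply_ne _ (Ne.symm hb)]
    simp
  · intro h; exact absurd (Finset.mem_univ _) h

/-! ### scalar matrices -/

/-- scalar operator matrices -/
def sc {J : Type} (k : Matrix J J ℂ) : Matrix J J (H →L[ℂ] H) := fun i j => k i j • 1

@[simp] theorem sc_apply {J : Type} (k : Matrix J J ℂ) (i j : J) :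
    (sc k i j : H →L[ℂ] H) = k i j • 1 := rfl

theorem sc_mul {J : Type} [Fintype J] (k k' : Matrix J J ℂ) :
    (sc (k * k') : Matrix J J (H →L[ℂ] H)) = sc k * sc k' := by
  refine Matrix.ext fun i j => ?_
  rw [sc_apply, Matrix.mul_apply, Matrix.mul_apply, Finset.sum_smul]
  refine Finset.sum_congr rfl fun a _ => ?_
  rw [sc_apply, sc_apply, smul_mul_smul_comm, one_mul]

theorem sc_star {J : Type} (k : Matrix J J ℂ) :
    (star (sc k) : Matrix J J (H →L[ℂ] H)) = sc (star k) := by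
  refine Matrix.ext fun i j => ?_
  rw [Matrix.star_apply, sc_apply, sc_apply, Matrix.star_apply, star_smul, star_one]

theorem sc_comm {J : Type} (k : Matrix J J ℂ) (i j : J) (x : H →L[ℂ] H) :
    (sc k i j) * x = x * sc k i j := by
  rw [sc_apply, smul_one_mul, mul_smul_one]

theorem opM_sc_tv {J : Type} [Fintype J] (k : Matrix J J ℂ) (x : H) (z : J → ℂ) :
    opM (sc k) (tv x z) = tv x (k.mulVec z) := by
  ext i
  rw [opM_apply, tv_apply, Matrix.mulVec, dotProduct, Finset.sum_smul]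
  refine Finset.sum_congr rfl fun a _ => ?_
  rw [sc_apply, tv_apply, ContinuousLinearMap.smul_apply, ContinuousLinearMap.one_apply, smul_smul]


/-! ### the slot projection -/

/-- `ζ₀ ζ₀^*` -/
def pz (ζ₀ : A → ℂ) : Matrix A A ℂ := fun a b => ζ₀ a * conj (ζ₀ b)

theorem pz_star (ζ₀ : A → ℂ) : star (pz ζ₀) = pz ζ₀ := by
  ext a b
  rw [Matrix.star_apply]
  simp [pz, mul_comm]

theorem sum_conj_mul {ζ₀ : A → ℂ} (hζ : ∑ a, ‖ζ₀ a‖ ^ 2 = 1) : ∑ b, conj (ζ₀ b) * ζ₀ b = 1 := by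
  have : ∀ b, conj (ζ₀ b) * ζ₀ b = ((‖ζ₀ b‖ ^ 2 : ℝ) : ℂ) := by
    intro b
    rw [← Complex.normSq_eq_conj_mul_self, Complex.normSq_eq_norm_sq]
  rw [Finset.sum_congr rfl fun b _ => this b, ← Complex.ofReal_sum, hζ, Complex.ofReal_one]

theorem pz_mulVec {ζ₀ : A → ℂ} (hζ : ∑ a, ‖ζ₀ a‖ ^ 2 = 1) : (pz ζ₀).mulVec ζ₀ = ζ₀ := by
  ext a
  rw [Matrix.mulVec, dotProduct]
  simp only [pz, mul_assoc]
  rw [← Finset.mul_sum, sum_conj_mul hζ, mul_one]

/-- `p₀ K p₀ = ⟨ζ₀, K ζ₀⟩ p₀` -/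
theorem pz_mul_mul (ζ₀ : A → ℂ) (K : Matrix A A ℂ) :
    pz ζ₀ * K * pz ζ₀ = (∑ a, conj (ζ₀ a) * K.mulVec ζ₀ a) • pz ζ₀ := by
  ext a b
  rw [Matrix.mul_apply, Matrix.smul_apply]
  simp only [Matrix.mul_apply, pz, Matrix.mulVec, dotProduct, smul_eq_mul, Finset.sum_mul,
    Finset.mul_sum]
  rw [Finset.sum_comm]
  refine Finset.sum_congr rfl fun c _ => Finset.sum_congr rfl fun c' _ => ?_
  ring

theorem pz_idem {ζ₀ : A → ℂ} (hζ : ∑ a, ‖ζ₀ a‖ ^ 2 = 1) : pz ζ₀ * pz ζ₀ = pz ζ₀ := by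
  have := pz_mul_mul ζ₀ 1
  rw [mul_one, Matrix.one_mulVec, sum_conj_mul hζ, one_smul] at this
  exact this

/-- slot projection -/
def Pj (ζ₀ : A → ℂ) (j : Fin d) : PiLp 2 (fun _ : W => H) →L[ℂ] PiLp 2 (fun _ : W => H) :=
  sl e j (sc (pz ζ₀))

theorem Pj_star (ζ₀ : A → ℂ) (j : Fin d) : star (Pj (H := H) e ζ₀ j) = Pj e ζ₀ j := by
  rw [Pj, sl_star, sc_star, pz_star]

theorem Pj_idem {ζ₀ : A → ℂ} (hζ : ∑ a, ‖ζ₀ a‖ ^ 2 = 1) (j : Fin d) :
    Pj (H := H) e ζ₀ j * Pj e ζ₀ j = Pj e ζ₀ j := by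
  rw [Pj, ← sl_mul, ← sc_mul, pz_idem hζ]

theorem sl_sc_ζ (ζ₀ : A → ℂ) (j : Fin d) (k : Matrix A A ℂ) (x : H) :
    sl e j (sc k) (tv x (prodv e ζ₀)) = emb e ζ₀ j (tv x (k.mulVec ζ₀)) := by
  rw [← emb_tv_prod e ζ₀ j, sl_emb, opM_sc_tv]

theorem Pj_ζ {ζ₀ : A → ℂ} (hζ : ∑ a, ‖ζ₀ a‖ ^ 2 = 1) (j : Fin d) (x : H) :
    Pj e ζ₀ j (tv x (prodv e ζ₀)) = tv x (prodv e ζ₀) := by
  rw [Pj, sl_sc_ζ, pz_mulVec hζ, emb_tv_prod]

theorem sl_sc_comm {i j : Fin d} (h : i ≠ j) (k : Matrix A A ℂ) (t : Matrix A A (H →L[ℂ] H)) :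
    sl e i (sc k) * sl e j t = sl e j t * sl e i (sc k) :=
  sl_comm e h _ _ fun _ _ _ _ => sc_comm _ _ _ _

theorem Pj_comm (ζ₀ : A → ℂ) (i j : Fin d) :
    Pj (H := H) e ζ₀ i * Pj e ζ₀ j = Pj e ζ₀ j * Pj e ζ₀ i := by
  by_cases h : i = j
  · rw [h]
  · exact sl_sc_comm e h _ _

theorem dg_sc_comm (j : Fin d) (k : Matrix A A ℂ) (x : H →L[ℂ] H) :
    dg x * sl e j (sc k) = sl e j (sc k) * dg x :=
  (sl_dg_comm e j _ x fun _ _ => sc_comm _ _ _ _).symm

/-- (S3) -/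
theorem isom_of_Pj {ζ₀ : A → ℂ} (j : Fin d) (k : Matrix A A ℂ)
    (hk : ∑ a, ‖k.mulVec ζ₀ a‖ ^ 2 = 1) (v : PiLp 2 (fun _ : W => H)) (hv : Pj e ζ₀ j v = v) :
    ‖sl e j (sc k) v‖ = ‖v‖ := by
  have hm : pz ζ₀ * (star k * k) * pz ζ₀ = pz ζ₀ := by
    rw [pz_mul_mul]
    have : ∑ a, conj (ζ₀ a) * (star k * k).mulVec ζ₀ a = 1 := by
      have h1 : ∑ a, conj (ζ₀ a) * (star k * k).mulVec ζ₀ a
          = ∑ a, conj (k.mulVec ζ₀ a) * k.mulVec ζ₀ a := by
        rw [← Matrix.mulVec_mulVec]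
        have := Matrix.dotProduct_mulVec (fun a => conj (ζ₀ a)) (star k) (k.mulVec ζ₀)
        rw [dotProduct, dotProduct] at this
        rw [this]
        refine Finset.sum_congr rfl fun a _ => ?_
        congr 1
        rw [Matrix.vecMul, Matrix.mulVec, dotProduct, dotProduct, map_sum]
        refine Finset.sum_congr rfl fun b _ => ?_
        rw [Matrix.star_apply, map_mul, mul_comm]
        rfl
      rw [h1, sum_conj_mul hk]
    rw [this, one_smul]
  have h1 : ⟪sl e j (sc k) v, sl e j (sc k) v⟫_ℂ = ⟪v, v⟫_ℂ := by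
    have h2 : Pj (H := H) e ζ₀ j * (star (sl e j (sc k)) * sl e j (sc k)) * Pj e ζ₀ j
        = Pj e ζ₀ j := by
      rw [sl_star, sc_star, ← sl_mul, ← sc_mul, Pj, ← sl_mul, ← sc_mul, ← sl_mul, ← sc_mul, hm]
    calc ⟪sl e j (sc k) v, sl e j (sc k) v⟫_ℂ
        = ⟪sl e j (sc k) (Pj e ζ₀ j v), sl e j (sc k) (Pj e ζ₀ j v)⟫_ℂ := by rw [hv]
      _ = ⟪v, (star (Pj (H := H) e ζ₀ j) * (star (sl e j (sc k)) * sl e j (sc k))
            * Pj (H := H) e ζ₀ j : PiLp 2 (fun _ : W => H) →L[ℂ] PiLp 2 (fun _ : W => H)) v⟫_ℂ := by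
          simp only [ContinuousLinearMap.mul_apply, ContinuousLinearMap.star_eq_adjoint,
            ContinuousLinearMap.adjoint_inner_right]
      _ = ⟪v, v⟫_ℂ := by rw [Pj_star, h2, hv]
  rw [inner_self_eq_norm_sq_to_K, inner_self_eq_norm_sq_to_K] at h1
  have h2 : ‖sl e j (sc k) v‖ ^ 2 = ‖v‖ ^ 2 := by exact_mod_cast h1
  exact (sq_eq_sq₀ (norm_nonneg _) (norm_nonneg _)).1 h2

/-- compression of a slot operator to the state `ζ₀`. -/
def comp (ζ₀ : A → ℂ) (t : Matrix A A (H →L[ℂ] H)) : H →L[ℂ] H :=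
  ∑ a, ∑ b, (conj (ζ₀ a) * ζ₀ b) • t a b

theorem comp_star (ζ₀ : A → ℂ) (t : Matrix A A (H →L[ℂ] H)) :
    star (comp ζ₀ t) = comp ζ₀ (star t) := by
  unfold comp
  rw [star_sum, Finset.sum_comm]
  refine Finset.sum_congr rfl fun a _ => ?_
  rw [star_sum]
  refine Finset.sum_congr rfl fun b _ => ?_
  rw [star_smul, Matrix.star_apply, star_mul']
  congr 1
  simp [mul_comm]

/-- (S4) -/
theorem Pj_mul_mul_Pj (ζ₀ : A → ℂ) (j : Fin d) (t : Matrix A A (H →L[ℂ] H)) :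
    Pj e ζ₀ j * sl e j t * Pj e ζ₀ j = dg (comp ζ₀ t) * Pj e ζ₀ j := by
  rw [Pj, dg_eq_sl e j, ← sl_mul, ← sl_mul, ← sl_mul]
  congr 1
  refine Matrix.ext fun a b => ?_
  rw [Matrix.diagonal_mul, Matrix.mul_apply]
  simp only [Matrix.mul_apply, sc_apply, pz, comp, Finset.sum_mul]
  rw [Finset.sum_comm]
  refine Finset.sum_congr rfl fun c _ => Finset.sum_congr rfl fun c' _ => ?_
  rw [smul_one_mul, mul_smul_one, smul_smul, mul_smul_one, smul_smul]
  congr 1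
  ring

theorem comp_apply (ζ₀ : A → ℂ) (t : Matrix A A (H →L[ℂ] H)) (x : H) :
    comp ζ₀ t x = ∑ a, conj (ζ₀ a) • opM t (tv x ζ₀) a := by
  unfold comp
  rw [ContinuousLinearMap.sum_apply]
  refine Finset.sum_congr rfl fun a _ => ?_
  rw [ContinuousLinearMap.sum_apply, opM_apply, Finset.smul_sum]
  refine Finset.sum_congr rfl fun b _ => ?_
  rw [ContinuousLinearMap.smul_apply, tv_apply, map_smul, smul_smul]

theorem norm_comp_le {ζ₀ : A → ℂ} (hζ : ∑ a, ‖ζ₀ a‖ ^ 2 = 1) (t : Matrix A A (H →L[ℂ] H))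
    {C : ℝ} (hC : 0 ≤ C) (ht : ∀ v, ‖opM t v‖ ≤ C * ‖v‖) : ‖comp ζ₀ t‖ ≤ C := by
  refine ContinuousLinearMap.opNorm_le_bound _ hC fun x => ?_
  rw [comp_apply]
  have h1 : ‖∑ a, conj (ζ₀ a) • opM t (tv x ζ₀) a‖ ≤ ∑ a, ‖ζ₀ a‖ * ‖opM t (tv x ζ₀) a‖ := by
    refine (norm_sum_le _ _).trans (Finset.sum_le_sum fun a _ => ?_)
    rw [norm_smul, RCLike.norm_conj]
  have h2 : (∑ a, ‖ζ₀ a‖ * ‖opM t (tv x ζ₀) a‖) ^ 2 ≤ (C * ‖x‖) ^ 2 := by
    refine (Finset.sum_mul_sq_le_sq_mul_sq _ _ _).trans ?_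
    rw [hζ, one_mul, ← norm_sq_eq]
    refine pow_le_pow_left₀ (norm_nonneg _) ((ht _).trans (le_of_eq ?_)) 2
    congr 1
    have := norm_tv_sq x ζ₀
    rw [hζ, one_mul] at this
    exact (sq_eq_sq₀ (norm_nonneg _) (norm_nonneg _)).1 this
  exact h1.trans (le_of_sq_le_sq h2 (by positivity))

end adj

end Crest.Agent.R078.Z.TBV
end
end

-- ▼ part R078/S103TBLegs836
section

set_option autoImplicit false
set_option linter.unusedSectionVars false
set_option linter.deprecated false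
set_option linter.unusedDecidableInType false
set_option linter.unusedFintypeInType false

open scoped InnerProductSpace ComplexConjugate

noncomputable section

namespace Crest.Agent.R078.Z.TBV

open Crest.Agent.R078.S103.LSys

universe u

variable {H : Type u} [NormedAddCommGroup H] [InnerProductSpace ℂ H]

/-! ### the two legs -/

section legs

variable {I : Type} [Fintype I] [DecidableEq I]

theorem leg1_mul (x y : Matrix I I (H →L[ℂ] H)) : leg1 (x * y) = leg1 x * leg1 y := by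
  refine Matrix.ext fun p q => ?_
  rw [Matrix.mul_apply, Fintype.sum_prod_type]
  simp only [leg1, Matrix.mul_apply]
  split_ifs with h
  · refine Finset.sum_congr rfl fun a _ => ?_
    rw [Finset.sum_eq_single q.2]
    · simp [h]
    · intro b _ hb
      rw [if_neg hb, mul_zero]
    · intro h; exact absurd (Finset.mem_univ _) h
  · symm
    refine Finset.sum_eq_zero fun a _ => Finset.sum_eq_zero fun b _ => ?_
    by_cases hb : b = q.2
    · rw [if_neg (by rw [hb]; exact h), zero_mul]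
    · rw [if_neg hb, mul_zero]

theorem leg2_mul (x y : Matrix I I (H →L[ℂ] H)) : leg2 (x * y) = leg2 x * leg2 y := by
  refine Matrix.ext fun p q => ?_
  rw [Matrix.mul_apply, Fintype.sum_prod_type_right]
  simp only [leg2, Matrix.mul_apply]
  split_ifs with h
  · refine Finset.sum_congr rfl fun a _ => ?_
    rw [Finset.sum_eq_single q.1]
    · simp [h]
    · intro b _ hb
      rw [if_neg hb, mul_zero]
    · intro h; exact absurd (Finset.mem_univ _) h
  · symm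
    refine Finset.sum_eq_zero fun a _ => Finset.sum_eq_zero fun b _ => ?_
    by_cases hb : b = q.1
    · rw [if_neg (by rw [hb]; exact h), zero_mul]
    · rw [if_neg hb, mul_zero]

theorem leg1_one : leg1 (1 : Matrix I I (H →L[ℂ] H)) = 1 := by
  refine Matrix.ext fun p q => ?_
  simp only [leg1, Matrix.one_apply, Prod.ext_iff]
  by_cases h1 : p.1 = q.1 <;> by_cases h2 : p.2 = q.2 <;> simp [h1, h2]

theorem leg2_one : leg2 (1 : Matrix I I (H →L[ℂ] H)) = 1 := by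
  refine Matrix.ext fun p q => ?_
  simp only [leg2, Matrix.one_apply, Prod.ext_iff]
  by_cases h1 : p.1 = q.1 <;> by_cases h2 : p.2 = q.2 <;> simp [h1, h2]

theorem leg_comm (x y : Matrix I I (H →L[ℂ] H)) (h : ∀ i j i' j', x i j * y i' j' = y i' j' * x i j) :
    leg1 x * leg2 y = leg2 y * leg1 x := by
  refine Matrix.ext fun p q => ?_
  rw [Matrix.mul_apply, Matrix.mul_apply, Finset.sum_eq_single (q.1, p.2),
    Finset.sum_eq_single (p.1, q.2)]
  · simp [leg1, leg2, h]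
  · rintro ⟨a, b⟩ _ hb
    simp only [leg1, leg2]
    by_cases h1 : p.1 = a
    · by_cases h2 : b = q.2
      · exact absurd (by rw [h1, h2]) hb
      · rw [if_neg h2, mul_zero]
    · rw [if_neg h1, zero_mul]
  · intro h; exact absurd (Finset.mem_univ _) h
  · rintro ⟨a, b⟩ _ hb
    simp only [leg1, leg2]
    by_cases h1 : a = q.1
    · by_cases h2 : p.2 = b
      · exact absurd (by rw [h1, h2]) hb
      · rw [if_neg h2, zero_mul]
    · rw [if_neg h1, mul_zero]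
  · intro h; exact absurd (Finset.mem_univ _) h

theorem leg1_smul (c : ℂ) (x : Matrix I I (H →L[ℂ] H)) : leg1 (c • x) = c • leg1 x := by
  refine Matrix.ext fun p q => ?_
  simp only [leg1, Matrix.smul_apply]
  split_ifs <;> simp

theorem leg1_sum {ι : Type*} (s : Finset ι) (x : ι → Matrix I I (H →L[ℂ] H)) :
    leg1 (∑ i ∈ s, x i) = ∑ i ∈ s, leg1 (x i) := by
  refine Matrix.ext fun p q => ?_
  rw [Matrix.sum_apply]
  simp only [leg1, Matrix.sum_apply]
  split_ifs <;> simp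

theorem leg1_zero : leg1 (0 : Matrix I I (H →L[ℂ] H)) = 0 := by
  refine Matrix.ext fun p q => ?_
  simp [leg1]

/-- scalar matrix on the second leg -/
def leg2s (k : Matrix I I ℂ) : Matrix (I × I) (I × I) ℂ :=
  fun p q => if p.1 = q.1 then k p.2 q.2 else 0

theorem leg2s_mulVec (k : Matrix I I ℂ) (z : I × I → ℂ) : (leg2s k).mulVec z = leg2c k z := by
  ext p
  rw [Matrix.mulVec, dotProduct, Fintype.sum_prod_type, leg2c, Finset.sum_eq_single p.1]
  · simp [leg2s]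
  · intro b _ hb
    refine Finset.sum_eq_zero fun c _ => ?_
    simp [leg2s, Ne.symm hb]
  · intro h; exact absurd (Finset.mem_univ _) h

variable [CompleteSpace H]

theorem leg1_star (x : Matrix I I (H →L[ℂ] H)) : leg1 (star x) = star (leg1 x) := by
  refine Matrix.ext fun p q => ?_
  rw [Matrix.star_apply]
  simp only [leg1, Matrix.star_apply]
  by_cases h : p.2 = q.2
  · rw [if_pos h, if_pos h.symm]
  · rw [if_neg h, if_neg (Ne.symm h), star_zero]

theorem leg2_star (x : Matrix I I (H →L[ℂ] H)) : leg2 (star x) = star (leg2 x) := by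
  refine Matrix.ext fun p q => ?_
  rw [Matrix.star_apply]
  simp only [leg2, Matrix.star_apply]
  by_cases h : p.1 = q.1
  · rw [if_pos h, if_pos h.symm]
  · rw [if_neg h, if_neg (Ne.symm h), star_zero]

theorem leg2_sc (k : Matrix I I ℂ) : leg2 (sc k : Matrix I I (H →L[ℂ] H)) = sc (leg2s k) := by
  refine Matrix.ext fun p q => ?_
  simp only [leg2, leg2s, sc_apply]
  split_ifs <;> simp


/-- Hilbert–Schmidt bound for scalar matrices on the second leg. -/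
theorem norm_opM_leg2s_le (k : Matrix I I ℂ) {K : ℝ} (hK : 0 ≤ K)
    (h : ∑ i, ∑ j, ‖k i j‖ ^ 2 ≤ K ^ 2) :
    ‖opM (sc (leg2s k) : Matrix (I × I) (I × I) (H →L[ℂ] H))‖ ≤ K := by
  refine ContinuousLinearMap.opNorm_le_bound _ hK fun v => ?_
  refine le_of_sq_le_sq ?_ (by positivity)
  rw [mul_pow, norm_sq_eq, norm_sq_eq v, Fintype.sum_prod_type, Fintype.sum_prod_type,
    Finset.mul_sum]
  refine Finset.sum_le_sum fun i _ => ?_
  have h0 : ∀ b, opM (sc (leg2s k)) v (i, b) = ∑ c, k b c • v (i, c) := by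
    intro b
    rw [opM_apply, Fintype.sum_prod_type, Finset.sum_eq_single i]
    · simp [leg2s]
    · intro a _ ha
      refine Finset.sum_eq_zero fun c _ => ?_
      simp [leg2s, Ne.symm ha]
    · intro h; exact absurd (Finset.mem_univ _) h
  calc ∑ b, ‖opM (sc (leg2s k)) v (i, b)‖ ^ 2
      ≤ ∑ b, (∑ c, ‖k b c‖ ^ 2) * ∑ c, ‖v (i, c)‖ ^ 2 := by
        refine Finset.sum_le_sum fun b _ => ?_
        rw [h0]
        have h1 : ‖∑ c, k b c • v (i, c)‖ ≤ ∑ c, ‖k b c‖ * ‖v (i, c)‖ := by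
          refine (norm_sum_le _ _).trans (Finset.sum_le_sum fun c _ => ?_)
          rw [norm_smul]
        calc _ ≤ (∑ c, ‖k b c‖ * ‖v (i, c)‖) ^ 2 := pow_le_pow_left₀ (norm_nonneg _) h1 2
          _ ≤ _ := Finset.sum_mul_sq_le_sq_mul_sq _ _ _
    _ = (∑ b, ∑ c, ‖k b c‖ ^ 2) * ∑ c, ‖v (i, c)‖ ^ 2 := by rw [Finset.sum_mul]
    _ ≤ K ^ 2 * ∑ c, ‖v (i, c)‖ ^ 2 := mul_le_mul_of_nonneg_right h (by positivity)

end legs

end Crest.Agent.R078.Z.TBV
end
end

-- ▼ part R078/S103TBSys836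
section

set_option autoImplicit false
set_option linter.unusedSectionVars false
set_option linter.deprecated false
set_option linter.unusedDecidableInType false
set_option linter.unusedFintypeInType false

open scoped InnerProductSpace ComplexConjugate

noncomputable section

namespace Crest.Agent.R078.Z.TBV

open Crest.Agent.R078.S103.LSys

universe u

variable {H : Type u} [NormedAddCommGroup H] [InnerProductSpace ℂ H] [CompleteSpace H]
variable {d : ℕ} {W : Type} [Fintype W] [DecidableEq W]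

theorem norm_tv {J : Type} [Fintype J] (x : H) (z : J → ℂ) (hz : ∑ w, ‖z w‖ ^ 2 = 1) :
    ‖tv x z‖ = ‖x‖ := by
  have h : ‖tv x z‖ ^ 2 = ‖x‖ ^ 2 := by
    rw [norm_sq_eq]
    calc ∑ w, ‖tv x z w‖ ^ 2 = (∑ w, ‖z w‖ ^ 2) * ‖x‖ ^ 2 := by
          rw [Finset.sum_mul]
          refine Finset.sum_congr rfl fun w _ => ?_
          rw [tv_apply, norm_smul, mul_pow]
      _ = ‖x‖ ^ 2 := by rw [hz, one_mul]
  exact (sq_eq_sq₀ (norm_nonneg _) (norm_nonneg _)).1 h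

theorem norm_prodv {A : Type} [Fintype A] [DecidableEq A] (e : W ≃ (Fin d → A)) {ζ₀ : A → ℂ}
    (hζ : ∑ a, ‖ζ₀ a‖ ^ 2 = 1) : ∑ w, ‖prodv e ζ₀ w‖ ^ 2 = 1 := by
  have h1 : ∀ w : W, ‖prodv e ζ₀ w‖ ^ 2 = ∏ i, ‖ζ₀ (e w i)‖ ^ 2 := by
    intro w
    unfold prodv
    rw [norm_prod, Finset.prod_pow]
  rw [Finset.sum_congr rfl fun w _ => h1 w,
    Fintype.sum_equiv e _ (fun g : Fin d → A => ∏ i, ‖ζ₀ (g i)‖ ^ 2) (fun w => rfl)]
  have h2 := (Finset.prod_univ_sum (fun _ : Fin d => (Finset.univ : Finset A))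
    (fun _ a => ‖ζ₀ a‖ ^ 2))
  rw [Fintype.piFinset_univ] at h2
  rw [← h2]
  simp [hζ]

theorem inner_tv {J : Type} [Fintype J] (x : H) (z : J → ℂ) (h : PiLp 2 (fun _ : J => H)) :
    ⟪tv x z, h⟫_ℂ = ⟪x, ∑ w, conj (z w) • h w⟫_ℂ := by
  rw [PiLp.inner_apply, inner_sum]
  refine Finset.sum_congr rfl fun w _ => ?_
  rw [tv_apply, inner_smul_left, inner_smul_right]

section sys

variable {M : VonNeumannAlgebra H} {ξ : H} {m : ℕ} {μ : Fin m → ℝ} {Y A B : Fin m → (H →L[ℂ] H)}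
  {η : Fin m → H} {κ K ε : ℝ} (s : LetterSystem M ξ μ Y A B η κ K ε)
  (e : W ≃ (Fin d → s.I × s.I))

/-- letters -/
def T (j : Fin d) (l : Fin m × Fin 4) : PiLp 2 (fun _ : W => H) →L[ℂ] PiLp 2 (fun _ : W => H) :=
  sl e j (leg1 (s.T l.1 l.2))

def S (j : Fin d) (l : Fin m × Fin 4) : PiLp 2 (fun _ : W => H) →L[ℂ] PiLp 2 (fun _ : W => H) :=
  sl e j (leg2 (s.S l.1 l.2))

/-- `k` and `k1` -/
def kk (j : Fin d) : PiLp 2 (fun _ : W => H) →L[ℂ] PiLp 2 (fun _ : W => H) :=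
  sl e j (sc (leg2s s.k))

def kk1 (j : Fin d) : PiLp 2 (fun _ : W => H) →L[ℂ] PiLp 2 (fun _ : W => H) :=
  sl e j (sc (leg2s s.k1))

def ζ : PiLp 2 (fun _ : W => H) := tv ξ (prodv e s.ζ₀)

def kap (j : Fin d) (l : Fin m × Fin 4) :
    PiLp 2 (fun _ : W => H) →L[ℂ] PiLp 2 (fun _ : W => H) := dg (A l.1) * kk s e j

/-- `b_j = c_l B_l` -/
def bb (_s : LetterSystem M ξ μ Y A B η κ K ε) (l : Fin m × Fin 4) :
    PiLp 2 (fun _ : W => H) →L[ℂ] PiLp 2 (fun _ : W => H) := dg (ph l.2 • B l.1)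

def eta (j : Fin d) (l : Fin m × Fin 4) : PiLp 2 (fun _ : W => H) :=
  emb e s.ζ₀ j (tv (ph l.2 • η l.1) (leg2c s.k1 s.ζ₀))

/-- the operator matrix `Σ_l μ_l T_l S_l` -/
def tau : Matrix (s.I × s.I) (s.I × s.I) (H →L[ℂ] H) :=
  ∑ l : Fin m × Fin 4, ((μ l.1 / 4 : ℝ) : ℂ) • (leg1 (s.T l.1 l.2) * leg2 (s.S l.1 l.2))

def cT : PiLp 2 (fun _ : W => H) →L[ℂ] PiLp 2 (fun _ : W => H) := dg (comp s.ζ₀ (tau s))

theorem norm_ζ (hξ : ‖ξ‖ = 1) : ‖ζ s e‖ = 1 := by
  unfold ζ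
  rw [norm_tv _ _ (norm_prodv e s.norm_ζ₀), hξ]

theorem ζ_eq (j : Fin d) : ζ s e = emb e s.ζ₀ j (tv ξ s.ζ₀) := by
  unfold ζ
  rw [emb_tv_prod]

theorem T_unitary (j : Fin d) (l : Fin m × Fin 4) :
    T s e j l ∈ unitary (PiLp 2 (fun _ : W => H) →L[ℂ] PiLp 2 (fun _ : W => H)) := by
  rw [Unitary.mem_iff]
  unfold T
  rw [sl_star, ← sl_mul, ← sl_mul, ← leg1_star, ← leg1_mul, ← leg1_mul, s.star_T_mul,
    s.T_mul_star, leg1_one, sl_one]
  exact ⟨rfl, rfl⟩

theorem S_unitary (j : Fin d) (l : Fin m × Fin 4) :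
    S s e j l ∈ unitary (PiLp 2 (fun _ : W => H) →L[ℂ] PiLp 2 (fun _ : W => H)) := by
  rw [Unitary.mem_iff]
  unfold S
  rw [sl_star, ← sl_mul, ← sl_mul, ← leg2_star, ← leg2_mul, ← leg2_mul, s.star_S_mul,
    s.S_mul_star, leg2_one, sl_one]
  exact ⟨rfl, rfl⟩

theorem T_inv (j : Fin d) (l : Fin m × Fin 4) : T s e j (l.1, l.2 + 2) = star (T s e j l) := by
  unfold T
  rw [sl_star, ← leg1_star, s.star_T]

theorem S_inv (j : Fin d) (l : Fin m × Fin 4) : S s e j (l.1, l.2 + 2) = star (S s e j l) := by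
  unfold S
  rw [sl_star, ← leg2_star, s.star_S]

theorem TS_ζ (j : Fin d) (l : Fin m × Fin 4) :
    ‖T s e j l (S s e j l (ζ s e)) - ζ s e‖ ≤ ε := by
  rw [ζ_eq s e j]
  unfold T S
  rw [sl_emb, sl_emb, ← emb_sub, norm_emb e s.ζ₀ s.norm_ζ₀]
  exact s.partner l.1 l.2

theorem norm_kk (hK : 0 ≤ K) (j : Fin d) : ‖kk s e j‖ ≤ K :=
  norm_sl_le e j _ hK (norm_opM_leg2s_le _ hK s.norm_k)

theorem norm_kk1 (hK : 0 ≤ K) (j : Fin d) : ‖kk1 s e j‖ ≤ K :=
  norm_sl_le e j _ hK (norm_opM_leg2s_le _ hK s.norm_k1)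

theorem kk_ζ (j : Fin d) : kk s e j (ζ s e) = emb e s.ζ₀ j (tv ξ (leg2c s.k s.ζ₀)) := by
  unfold kk ζ
  rw [sl_sc_ζ, leg2s_mulVec]

theorem kk1_ζ (j : Fin d) : kk1 s e j (ζ s e) = emb e s.ζ₀ j (tv ξ (leg2c s.k1 s.ζ₀)) := by
  unfold kk1 ζ
  rw [sl_sc_ζ, leg2s_mulVec]

theorem norm_kζ (hξ : ‖ξ‖ = 1) (j : Fin d) : ‖kk s e j (ζ s e)‖ = 1 := by
  rw [kk_ζ, norm_emb e s.ζ₀ s.norm_ζ₀, norm_tv _ _ s.norm_kζ₀, hξ]

theorem norm_kap {K₀ : ℝ} (hK₀ : 0 ≤ K₀) (hK : 0 ≤ K) (hA : ∀ a, ‖A a‖ ≤ K₀) (j : Fin d)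
    (l : Fin m × Fin 4) : ‖kap s e j l‖ ≤ K₀ * K := by
  unfold kap
  refine (norm_mul_le _ _).trans ?_
  exact mul_le_mul ((norm_dg_le _).trans (hA _)) (norm_kk s e hK j) (norm_nonneg _) hK₀

theorem norm_ph (k : Fin 4) : ‖ph k‖ = 1 := by
  fin_cases k <;> simp [ph]

theorem norm_bb {K₀ : ℝ} (hB : ∀ a, ‖B a‖ ≤ K₀) (l : Fin m × Fin 4) :
    ‖bb (W := W) s l‖ ≤ K₀ := by
  unfold bb
  refine (norm_dg_le _).trans ?_
  rw [norm_smul, norm_ph, one_mul]
  exact hB _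

theorem kap_ζ (j : Fin d) (l : Fin m × Fin 4) :
    kap s e j l (ζ s e) = emb e s.ζ₀ j (tv (A l.1 ξ) (leg2c s.k s.ζ₀)) := by
  unfold kap
  rw [ContinuousLinearMap.mul_apply, kk_ζ, dg_emb, dg_tv']

theorem bb_kk1_ζ (j : Fin d) (l : Fin m × Fin 4) :
    bb s l (kk1 s e j (ζ s e)) = emb e s.ζ₀ j (tv (ph l.2 • B l.1 ξ) (leg2c s.k1 s.ζ₀)) := by
  unfold bb
  rw [kk1_ζ, dg_emb, dg_tv']
  rfl

theorem norm_kapζ (hA : ∀ a, ‖A a ξ‖ ≤ 1) (j : Fin d) (l : Fin m × Fin 4) :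
    ‖kap s e j l (ζ s e)‖ ≤ 1 := by
  rw [kap_ζ, norm_emb e s.ζ₀ s.norm_ζ₀, norm_tv _ _ s.norm_kζ₀]
  exact hA _

theorem norm_bζ (hB : ∀ a, ‖B a ξ‖ ≤ 1) (j : Fin d) (l : Fin m × Fin 4) :
    ‖bb s l (kk1 s e j (ζ s e))‖ ≤ 1 := by
  rw [bb_kk1_ζ, norm_emb e s.ζ₀ s.norm_ζ₀, norm_tv _ _ s.norm_k1ζ₀, norm_smul, norm_ph, one_mul]
  exact hB _

theorem norm_eta {R : ℝ} (hη : ∀ a, ‖η a‖ ≤ R) (j : Fin d) (l : Fin m × Fin 4) :
    ‖eta s e j l‖ ≤ R := by
  unfold eta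
  rw [norm_emb e s.ζ₀ s.norm_ζ₀, norm_tv _ _ s.norm_k1ζ₀, norm_smul, norm_ph, one_mul]
  exact hη _

/-! (S2) -/

theorem P_ζ (j : Fin d) : Pj e s.ζ₀ j (ζ s e) = ζ s e := Pj_ζ e s.norm_ζ₀ j ξ

theorem P_T {i j : Fin d} (h : i ≠ j) (l : Fin m × Fin 4) :
    Pj e s.ζ₀ i * T s e j l = T s e j l * Pj e s.ζ₀ i := sl_sc_comm e h _ _

theorem P_S {i j : Fin d} (h : i ≠ j) (l : Fin m × Fin 4) :
    Pj e s.ζ₀ i * S s e j l = S s e j l * Pj e s.ζ₀ i := sl_sc_comm e h _ _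

theorem k_S {i j : Fin d} (h : i ≠ j) (l : Fin m × Fin 4) :
    kk s e i * S s e j l = S s e j l * kk s e i := sl_sc_comm e h _ _

theorem k1_S {i j : Fin d} (h : i ≠ j) (l : Fin m × Fin 4) :
    kk1 s e i * S s e j l = S s e j l * kk1 s e i := sl_sc_comm e h _ _

/-! (S3) -/

theorem k_isom (j : Fin d) (v : PiLp 2 (fun _ : W => H)) (hv : Pj e s.ζ₀ j v = v) :
    ‖kk s e j v‖ = ‖v‖ :=
  isom_of_Pj e j _ (by rw [leg2s_mulVec]; exact s.norm_kζ₀) v hv

theorem k1_isom (j : Fin d) (v : PiLp 2 (fun _ : W => H)) (hv : Pj e s.ζ₀ j v = v) :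
    ‖kk1 s e j v‖ = ‖v‖ :=
  isom_of_Pj e j _ (by rw [leg2s_mulVec]; exact s.norm_k1ζ₀) v hv

theorem kap_avg (hA : ∀ x : H, ∑ a, μ a * ‖A a x‖ ^ 2 ≤ 3 * ‖x‖ ^ 2) (j : Fin d)
    (v : PiLp 2 (fun _ : W => H)) (hv : Pj e s.ζ₀ j v = v) :
    ∑ l : Fin m × Fin 4, μ l.1 / 4 * ‖kap s e j l v‖ ^ 2 ≤ 3 * ‖v‖ ^ 2 := by
  rw [← k_isom s e j v hv]
  set g := kk s e j v with hg
  have h1 : ∀ l : Fin m × Fin 4, ‖kap s e j l v‖ ^ 2 = ∑ w, ‖A l.1 (g w)‖ ^ 2 := by
    intro l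
    unfold kap
    rw [ContinuousLinearMap.mul_apply, ← hg, norm_sq_eq]
    simp
  simp only [h1]
  rw [Fintype.sum_prod_type, norm_sq_eq g]
  simp only [Finset.sum_const, Finset.card_univ, Fintype.card_fin, nsmul_eq_mul]
  have h2 : ∀ a : Fin m, ((4 : ℕ) : ℝ) * (μ a / 4 * ∑ w, ‖A a (g w)‖ ^ 2)
      = ∑ w, μ a * ‖A a (g w)‖ ^ 2 := by
    intro a
    rw [← Finset.mul_sum]
    push_cast
    ring
  rw [Finset.sum_congr rfl fun a _ => h2 a, Finset.sum_comm, Finset.mul_sum]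
  exact Finset.sum_le_sum fun w _ => hA (g w)

/-! (S4) -/

theorem T_S_leg_comm (l l' : Fin m × Fin 4) :
    leg1 (s.T l.1 l.2) * leg2 (s.S l'.1 l'.2) = leg2 (s.S l'.1 l'.2) * leg1 (s.T l.1 l.2) :=
  leg_comm _ _ fun i j i' j' => by
    have := VonNeumannAlgebra.mem_commutant_iff.1 (s.S_mem l'.1 l'.2 i' j') _ (s.T_mem l.1 l.2 i j)
    exact this

theorem tau_star (hμ : True) : star (tau s) = tau s := by
  unfold tau
  rw [star_sum]
  have h1 : ∀ l : Fin m × Fin 4, star (((μ l.1 / 4 : ℝ) : ℂ) •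
      (leg1 (s.T l.1 l.2) * leg2 (s.S l.1 l.2)))
      = ((μ l.1 / 4 : ℝ) : ℂ) • (leg1 (s.T l.1 (l.2 + 2)) * leg2 (s.S l.1 (l.2 + 2))) := by
    intro l
    rw [star_smul, star_mul, ← leg1_star, ← leg2_star, s.star_T, s.star_S,
      ← T_S_leg_comm s (l.1, l.2 + 2) (l.1, l.2 + 2)]
    congr 1
    exact Complex.conj_ofReal _
  rw [Finset.sum_congr rfl fun l _ => h1 l]
  let φ : (Fin m × Fin 4) ≃ (Fin m × Fin 4) := Equiv.prodCongr (Equiv.refl _) (Equiv.addRight 2)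
  exact Fintype.sum_equiv φ _ _ fun l => rfl

theorem cT_sa : star (cT (W := W) s) = cT s := by
  unfold cT
  rw [dg_star, comp_star, tau_star s trivial]

theorem norm_cT (hμ : ∀ a, 0 ≤ μ a) (hμ1 : ∑ a, μ a ≤ 1) : ‖cT (W := W) s‖ ≤ 1 := by
  unfold cT
  refine (norm_dg_le _).trans (norm_comp_le s.norm_ζ₀ _ zero_le_one fun v => ?_)
  have h0 : opM (tau s) v = ∑ l : Fin m × Fin 4, ((μ l.1 / 4 : ℝ) : ℂ) •
      opM (leg1 (s.T l.1 l.2)) (opM (leg2 (s.S l.1 l.2)) v) := by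
    ext p
    rw [opM_apply, WithLp.ofLp_sum, Finset.sum_apply]
    unfold tau
    simp only [Matrix.sum_apply, ContinuousLinearMap.sum_apply]
    rw [Finset.sum_comm]
    refine Finset.sum_congr rfl fun l _ => ?_
    rw [PiLp.smul_apply, ← ContinuousLinearMap.mul_apply, ← opM_mul, opM_apply, Finset.smul_sum]
    rfl
  rw [h0]
  calc _ ≤ ∑ l : Fin m × Fin 4, ‖((μ l.1 / 4 : ℝ) : ℂ) •
        opM (leg1 (s.T l.1 l.2)) (opM (leg2 (s.S l.1 l.2)) v)‖ := norm_sum_le _ _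
    _ = ∑ l : Fin m × Fin 4, μ l.1 / 4 * ‖v‖ := by
        refine Finset.sum_congr rfl fun l _ => ?_
        rw [norm_smul, norm_opM_of_unitary, norm_opM_of_unitary]
        · rw [Complex.norm_real, Real.norm_of_nonneg (by have := hμ l.1; positivity)]
        · rw [← leg2_star, ← leg2_mul, s.star_S_mul, leg2_one]
        · rw [← leg1_star, ← leg1_mul, s.star_T_mul, leg1_one]
    _ = (∑ a, μ a) * ‖v‖ := by
        rw [Fintype.sum_prod_type, Finset.sum_mul]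
        refine Finset.sum_congr rfl fun a _ => ?_
        simp only [Finset.sum_const, Finset.card_univ, Fintype.card_fin, nsmul_eq_mul]
        push_cast
        ring
    _ ≤ 1 * ‖v‖ := mul_le_mul_of_nonneg_right hμ1 (norm_nonneg _)

theorem cT_P (j : Fin d) : cT s * Pj e s.ζ₀ j = Pj e s.ζ₀ j * cT s := dg_sc_comm e j _ _

theorem PTSP (j : Fin d) :
    Pj e s.ζ₀ j * (∑ l : Fin m × Fin 4, ((μ l.1 / 4 : ℝ) : ℂ) • (T s e j l * S s e j l))
      * Pj e s.ζ₀ j = cT s * Pj e s.ζ₀ j := by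
  have h : (∑ l : Fin m × Fin 4, ((μ l.1 / 4 : ℝ) : ℂ) • (T s e j l * S s e j l))
      = sl e j (tau s) := by
    unfold tau
    rw [sl_sum]
    refine Finset.sum_congr rfl fun l _ => ?_
    rw [sl_smul, sl_mul]
    rfl
  rw [h, Pj_mul_mul_Pj]
  rfl

/-! (S6) -/

theorem eta_eq (j : Fin d) (l : Fin m × Fin 4) :
    eta s e j l = tv (ph l.2 • η l.1) (fun w => restv e s.ζ₀ j w * leg2c s.k1 s.ζ₀ (e w j)) := by
  unfold eta
  rw [emb_tv]

theorem exact_T (j : Fin d) (h : PiLp 2 (fun _ : W => H)) :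
    ∑ l : Fin m × Fin 4, (((μ l.1 / 4 : ℝ) : ℂ) * ⟪eta s e j l, h⟫_ℂ) • T s e j l = 0 := by
  have h1 : ∀ l : Fin m × Fin 4, ⟪eta s e j l, h⟫_ℂ = ⟪ph l.2 • η l.1,
      ∑ w, conj (restv e s.ζ₀ j w * leg2c s.k1 s.ζ₀ (e w j)) • h w⟫_ℂ := by
    intro l
    rw [eta_eq, inner_tv]
  set x := ∑ w, conj (restv e s.ζ₀ j w * leg2c s.k1 s.ζ₀ (e w j)) • h w with hx
  simp only [h1]
  have h2 : ∑ l : Fin m × Fin 4, (((μ l.1 / 4 : ℝ) : ℂ) * ⟪ph l.2 • η l.1, x⟫_ℂ) • T s e j l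
      = sl e j (leg1 (∑ l : Fin m × Fin 4,
        (((μ l.1 / 4 : ℝ) : ℂ) * ⟪ph l.2 • η l.1, x⟫_ℂ) • s.T l.1 l.2)) := by
    rw [leg1_sum, sl_sum]
    refine Finset.sum_congr rfl fun l _ => ?_
    rw [leg1_smul, sl_smul]
    rfl
  have h3 : ∑ l : Fin m × Fin 4, (((μ l.1 / 4 : ℝ) : ℂ) * ⟪ph l.2 • η l.1, x⟫_ℂ) • s.T l.1 l.2
      = 0 := by
    refine Matrix.ext fun i i' => ?_
    rw [Matrix.sum_apply, Fintype.sum_prod_type]
    have h4 := congrArg (fun y : H →L[ℂ] H => (1 / 4 : ℂ) • y) (s.relT x i i')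
    simp only [smul_zero, Finset.smul_sum] at h4
    rw [Matrix.zero_apply, ← h4]
    refine Finset.sum_congr rfl fun a _ => Finset.sum_congr rfl fun θ _ => ?_
    rw [Matrix.smul_apply, smul_smul]
    congr 1
    push_cast
    ring
  rw [h2, h3, leg1_zero, sl_zero]

theorem exact_S (j : Fin d) :
    ∑ l : Fin m × Fin 4, ((μ l.1 / 4 : ℝ) : ℂ) • S s e j l (star (kk s e j) (eta s e j l)) = 0 := by
  have h1 : ∀ l : Fin m × Fin 4, star (kk s e j) (eta s e j l)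
      = emb e s.ζ₀ j (tv (ph l.2 • η l.1) ((star (leg2s s.k)).mulVec (leg2c s.k1 s.ζ₀))) := by
    intro l
    unfold kk eta
    rw [sl_star, sc_star, sl_emb, opM_sc_tv]
  set z := (star (leg2s s.k)).mulVec (leg2c s.k1 s.ζ₀) with hz
  have h2 : ∀ l : Fin m × Fin 4, S s e j l (star (kk s e j) (eta s e j l))
      = emb e s.ζ₀ j (opM (leg2 (s.S l.1 l.2)) (tv (ph l.2 • η l.1) z)) := by
    intro l
    rw [h1, S, sl_emb]
  simp only [h2]
  have h3 : ∀ p : s.I × s.I, ∑ l : Fin m × Fin 4, ((μ l.1 / 4 : ℝ) : ℂ) •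
      opM (leg2 (s.S l.1 l.2)) (tv (ph l.2 • η l.1) z) p = 0 := by
    intro p
    simp only [opM_apply, tv_apply, Finset.smul_sum]
    rw [Finset.sum_comm]
    refine Finset.sum_eq_zero fun q _ => ?_
    by_cases hpq : p.1 = q.1
    · have h4 := congrArg (fun y : H => ((1 / 4 : ℂ) * z q) • y) (s.relS p.2 q.2)
      simp only [smul_zero, Finset.smul_sum] at h4
      rw [Fintype.sum_prod_type, ← h4]
      refine Finset.sum_congr rfl fun a _ => Finset.sum_congr rfl fun θ _ => ?_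
      simp only [leg2, if_pos hpq, map_smul, ContinuousLinearMap.smul_apply, smul_smul]
      congr 1
      push_cast
      ring
    · refine Finset.sum_eq_zero fun l _ => ?_
      simp [leg2, hpq]
  ext w
  rw [WithLp.ofLp_sum, Finset.sum_apply]
  simp only [PiLp.smul_apply, emb_apply]
  have h5 := congrArg (fun y : H => restv e s.ζ₀ j w • y) (h3 (e w j))
  simp only [smul_zero, Finset.smul_sum] at h5
  rw [PiLp.zero_apply, ← h5]
  exact Finset.sum_congr rfl fun l _ => smul_comm _ _ _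

/-! the projection `p'` -/

theorem p'_sa {q : H →L[ℂ] H} (hq : star q = q) : star (dg (W := W) q) = dg q := by
  rw [dg_star, hq]

theorem p'_idem {q : H →L[ℂ] H} (hq : q * q = q) : dg (W := W) q * dg q = dg q := by
  rw [← dg_mul, hq]

theorem p'_ζ {q : H →L[ℂ] H} (hq : q ξ = ξ) : dg q (ζ s e) = ζ s e := by
  unfold ζ
  rw [dg_tv, hq]

theorem p'_eta {q : H →L[ℂ] H} (hq : ∀ a, q (η a) = η a) (j : Fin d) (l : Fin m × Fin 4) :
    dg q (eta s e j l) = eta s e j l := by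
  rw [eta_eq, dg_tv, map_smul, hq]

theorem p'_P (q : H →L[ℂ] H) (j : Fin d) : dg q * Pj e s.ζ₀ j = Pj e s.ζ₀ j * dg q :=
  dg_sc_comm e j _ _

theorem p'_k (q : H →L[ℂ] H) (j : Fin d) : dg q * kk s e j = kk s e j * dg q :=
  dg_sc_comm e j _ _

/-! (S7) -/

theorem star_id {N : VonNeumannAlgebra H} {q : H →L[ℂ] H}
    (hst : ∀ a, ∀ n ∈ N, ∀ h : H, q h = h → ⟪B a ξ, n (A a h)⟫_ℂ = ⟪η a, n h⟫_ℂ)
    (j : Fin d) (l : Fin m × Fin 4) (x : Matrix W W (H →L[ℂ] H)) (hx : ∀ w w', x w w' ∈ N)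
    (h : PiLp 2 (fun _ : W => H)) (hh : dg q h = h) :
    ⟪bb s l (kk1 s e j (ζ s e)), opM x (kap s e j l h)⟫_ℂ
      = ⟪eta s e j l, opM x (kk s e j h)⟫_ℂ := by
  rw [bb_kk1_ζ, emb_tv, eta_eq, inner_tv, inner_tv]
  unfold kap
  rw [ContinuousLinearMap.mul_apply]
  set g := kk s e j h with hg
  have hgq : ∀ w, q (g w) = g w := by
    intro w
    have h1 : dg q g = g := by
      rw [hg, ← ContinuousLinearMap.mul_apply, p'_k, ContinuousLinearMap.mul_apply, hh]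
    have h2 := congrArg (fun v : PiLp 2 (fun _ : W => H) => v w) h1
    simpa using h2
  rw [inner_smul_left, inner_smul_left, inner_sum, inner_sum]
  congr 1
  refine Finset.sum_congr rfl fun w _ => ?_
  rw [inner_smul_right, inner_smul_right, opM_apply, opM_apply, inner_sum, inner_sum]
  congr 1
  refine Finset.sum_congr rfl fun w' _ => ?_
  rw [dg_apply]
  exact hst l.1 _ (hx w w') _ (hgq w')

/-! the value of a letter -/

theorem value (j : Fin d) :
    ‖(∑ l : Fin m × Fin 4, ((μ l.1 / 4 : ℝ) : ℂ)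
        * ⟪bb s l (kk1 s e j (ζ s e)), T s e j l (kap s e j l (ζ s e))⟫_ℂ)
      - (1 / 2 : ℂ) * ∑ a, (μ a : ℂ) * ⟪B a ξ, Y a (A a ξ)⟫_ℂ‖ ≤ κ := by
  have h1 : ∑ l : Fin m × Fin 4, ((μ l.1 / 4 : ℝ) : ℂ)
        * ⟪bb s l (kk1 s e j (ζ s e)), T s e j l (kap s e j l (ζ s e))⟫_ℂ
      = ∑ a, ∑ θ, ((μ a : ℂ) / 4) * inner ℂ (tv (B a ξ) (fun p => ph θ * leg2c s.k1 s.ζ₀ p))
      (opM (leg1 (s.T a θ)) (tv (A a ξ) (leg2c s.k s.ζ₀))) := by
    rw [Fintype.sum_prod_type]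
    refine Finset.sum_congr rfl fun a _ => Finset.sum_congr rfl fun θ _ => ?_
    rw [bb_kk1_ζ, kap_ζ, T, sl_emb, inner_emb e s.ζ₀ s.norm_ζ₀]
    congr 1
    · push_cast; ring
    · congr 1
      ext p
      simp only [tv_apply, smul_smul]
      rw [mul_comm]
  rw [h1]
  exact s.value

end sys

end Crest.Agent.R078.Z.TBV
end
end

-- ▼ part R078/S103TBInst304

/-!
Row 78, S0103, tensor bookkeeping, part 4: the slot system of a letter system.
-/

set_option autoImplicit false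
set_option linter.unusedSectionVars false
set_option linter.deprecated false
set_option linter.unusedSimpArgs false

open scoped InnerProductSpace

namespace Crest.Agent.R078.Z.TBI

open ContinuousLinearMap Crest.Agent.R078.Z.Slot Crest.Agent.R078.Z.TB
open Crest.Agent.R078.S103.LSys (LetterSystem leg1 leg2 leg2c tv ph)

universe u

section bridge

variable {H : Type u} [NormedAddCommGroup H] [InnerProductSpace ℂ H] [CompleteSpace H]
  {I : Type} [Fintype I] [DecidableEq I] {d : ℕ}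

abbrev W (I : Type) (d : ℕ) := Fin d → I × I

theorem slot_eq_sl (j : Fin d) (x : Matrix (I × I) (I × I) (H →L[ℂ] H)) :
    slot (injF H (W I d)) j x = TBV.sl (Equiv.refl (W I d)) j x := by
  ext v w
  have h := adj_slot (injF_isFrame (H := H) (J := W I d)) j x v w
  rw [adj_injF] at h
  rw [h, TBV.sl_apply]
  refine Finset.sum_congr rfl fun p _ => ?_
  rw [adj_injF]
  rfl

theorem dia_eq_dg (x : H →L[ℂ] H) : dia (injF H (W I d)) x = TBV.dg x := by
  ext v w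
  have h := adj_dia (injF_isFrame (H := H) (J := W I d)) x v w
  rw [adj_injF, adj_injF] at h
  rw [h, TBV.dg_apply]

theorem lsys_opM_ent (n : PiLp 2 (fun _ : W I d => H) →L[ℂ] PiLp 2 (fun _ : W I d => H)) :
    n = S103.LSys.opM (Matrix.of fun i j => ent (injF H (W I d)) n i j) := by
  ext v w
  rw [S103.LSys.opM_apply]
  have h := opM_injF_apply (ent (injF H (W I d)) n) v w
  rw [opM_ent injF_isFrame] at h
  exact h

theorem exists_opM_of_mem_MM {N : VonNeumannAlgebra H}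
    {n : PiLp 2 (fun _ : W I d => H) →L[ℂ] PiLp 2 (fun _ : W I d => H)}
    (hn : n ∈ MM (injF H (W I d)) N) :
    ∃ x : Matrix (W I d) (W I d) (H →L[ℂ] H), (∀ w w', x w w' ∈ N) ∧ n = S103.LSys.opM x := by
  refine ⟨Matrix.of fun i j => ent (injF H (W I d)) n i j, fun w w' => ?_, lsys_opM_ent n⟩
  rw [MM, mem_alg_iff (reF_isFrame injF_isFrame _)] at hn
  obtain ⟨u, hu, rfl⟩ := hn
  change ent (injF H (W I d)) _ w w' ∈ N
  rw [ent_lft_reF injF_isFrame]
  split_ifs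
  · exact hu _ _
  · exact zero_mem _

end bridge

section inst

variable {H : Type u} [NormedAddCommGroup H] [InnerProductSpace ℂ H] [CompleteSpace H]
  {M N : VonNeumannAlgebra H} {ξ : H} {m : ℕ} {μ : Fin m → ℝ} {Y A B : Fin m → (H →L[ℂ] H)}
  {η : Fin m → H} {κ Kθ ε : ℝ}


theorem sc_leg2s_eq {I : Type} [Fintype I] [DecidableEq I] (k : Matrix I I ℂ) :
    (TBV.sc (TBV.leg2s k) : Matrix (I × I) (I × I) (H →L[ℂ] H)) = lg2 (TB.sc k) := by
  rw [← TBV.leg2_sc]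
  rfl

variable (s : LetterSystem M ξ μ Y A B η κ Kθ ε)

theorem T_eq (d : ℕ) (j : Fin d) (l : Fin m × Fin 4) :
    TBV.T s (Equiv.refl (W s.I d)) j l = slot (injF H (W s.I d)) j (lg1 (s.T l.1 l.2)) :=
  (slot_eq_sl j _).symm

theorem S_eq (d : ℕ) (j : Fin d) (l : Fin m × Fin 4) :
    TBV.S s (Equiv.refl (W s.I d)) j l = slot (injF H (W s.I d)) j (lg2 (s.S l.1 l.2)) :=
  (slot_eq_sl j _).symm

theorem kk_eq (d : ℕ) (j : Fin d) :
    TBV.kk s (Equiv.refl (W s.I d)) j = slot (injF H (W s.I d)) j (lg2 (TB.sc s.k)) := by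
  rw [TBV.kk, sc_leg2s_eq]
  exact (slot_eq_sl j _).symm

theorem kk1_eq (d : ℕ) (j : Fin d) :
    TBV.kk1 s (Equiv.refl (W s.I d)) j = slot (injF H (W s.I d)) j (lg2 (TB.sc s.k1)) := by
  rw [TBV.kk1, sc_leg2s_eq]
  exact (slot_eq_sl j _).symm

theorem Pj_eq (d : ℕ) (j : Fin d) :
    TBV.Pj (Equiv.refl (W s.I d)) s.ζ₀ j = slot (injF H (W s.I d)) j (TB.pz s.ζ₀) := by
  rw [TBV.Pj]
  exact (slot_eq_sl j _).symm

theorem kk_mem (P : VonNeumannAlgebra H) (d : ℕ) (j : Fin d) :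
    TBV.kk s (Equiv.refl (W s.I d)) j ∈ (MM (injF H (W s.I d)) P).commutant := by
  rw [kk_eq]
  exact slot_lg2_mem injF_isFrame P j fun a b => sc_mem _ _ _ _

theorem kk1_mem (P : VonNeumannAlgebra H) (d : ℕ) (j : Fin d) :
    TBV.kk1 s (Equiv.refl (W s.I d)) j ∈ (MM (injF H (W s.I d)) P).commutant := by
  rw [kk1_eq]
  exact slot_lg2_mem injF_isFrame P j fun a b => sc_mem _ _ _ _

theorem dg_mem {P : VonNeumannAlgebra H} {x : H →L[ℂ] H} (hx : x ∈ P.commutant) (I : Type)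
    [Fintype I] [DecidableEq I] (d : ℕ) :
    TBV.dg (W := W I d) x ∈ (MM (injF H (W I d)) P).commutant := by
  rw [← dia_eq_dg]
  exact dia_mem_comm injF_isFrame hx

theorem smul_mem' {P : VonNeumannAlgebra H} (c : ℂ) {x : H →L[ℂ] H} (hx : x ∈ P) : c • x ∈ P := by
  have := mul_mem (smul_one_mem P c) hx
  simpa using this

/-- THE SLOT SYSTEM of a letter system. -/
theorem exists_slotSys {δ R K : ℝ} (hSC : SC δ M N) (hξ : ‖ξ‖ = 1) (hμ : ∀ a, 0 ≤ μ a)
    (hμ1 : ∑ a, μ a = 1) (hAM : ∀ a, A a ∈ M.commutant) (hAN : ∀ a, A a ∈ N.commutant)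
    (hBM : ∀ a, B a ∈ M.commutant) (hBN : ∀ a, B a ∈ N.commutant)
    (hA : ∀ a, ‖A a‖ ≤ K) (hB : ∀ a, ‖B a‖ ≤ K) (hK : 0 ≤ K)
    (hAξ : ∀ a, ‖A a ξ‖ ≤ 1) (hBξ : ∀ a, ‖B a ξ‖ ≤ 1)
    (hη : ∀ a, ‖η a‖ ≤ R) (havg : ∀ x : H, ∑ a, μ a * ‖A a x‖ ^ 2 ≤ 3 * ‖x‖ ^ 2)
    {q : H →L[ℂ] H} (hqN : q ∈ N.commutant) (hqs : star q = q) (hqi : q * q = q)
    (hqξ : q ξ = ξ) (hqη : ∀ a, q (η a) = η a)
    (hstar : ∀ a, ∀ n ∈ N, ∀ h : H, q h = h → ⟪B a ξ, n (A a h)⟫_ℂ = ⟪η a, n h⟫_ℂ)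
    (hKθ : 0 ≤ Kθ) (d : ℕ) :
    ∃ t : SlotSys (MM (injF H (W s.I d)) M) (MM (injF H (W s.I d)) N) d (Fin m × Fin 4)
        δ R K Kθ ε,
      ∀ j, ‖t.value j - (1 / 2 : ℂ) * ∑ a, (μ a : ℂ) * ⟪B a ξ, Y a (A a ξ)⟫_ℂ‖ ≤ κ := by
  have hF : IsFrame (injF H (W s.I d)) := injF_isFrame
  obtain ⟨fl, fl1, fl2, fl3, fl4⟩ := exists_lft (L := Fin m × Fin 4) hSC hF
    (fun _ l => s.T l.1 l.2) (fun _ l => s.T_mem l.1 l.2) (fun _ l => s.T_mul_star l.1 l.2)
    (fun _ l => s.star_T_mul l.1 l.2)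
  obtain ⟨fr, fr1, fr2, fr3, fr4⟩ := exists_rho (L := Fin m × Fin 4) hSC hF
    (fun _ l => s.T l.1 l.2) (fun _ l => s.T_mem l.1 l.2) (fun _ l => s.T_mul_star l.1 l.2)
    (fun _ l => s.star_T_mul l.1 l.2)
  obtain ⟨ft, ft1, ft2, ft3, ft4⟩ := exists_tp (L := Fin m × Fin 4) hSC hF
    (fun _ l => s.S l.1 l.2) (fun _ l => s.S_mem l.1 l.2) (fun _ l => s.S_mul_star l.1 l.2)
    (fun _ l => s.star_S_mul l.1 l.2)
  have eT : (fun (i : Fin d) (l : Fin m × Fin 4) => slot (injF H (W s.I d)) i (lg1 (s.T l.1 l.2)))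
      = TBV.T s (Equiv.refl (W s.I d)) := by
    funext i l
    exact (T_eq s d i l).symm
  have eS : (fun (i : Fin d) (l : Fin m × Fin 4) => slot (injF H (W s.I d)) i (lg2 (s.S l.1 l.2)))
      = TBV.S s (Equiv.refl (W s.I d)) := by
    funext i l
    exact (S_eq s d i l).symm
  rw [eT] at fl3 fr3
  rw [eS] at ft3
  refine ⟨{
    μ := fun l => μ l.1 / 4
    μ_nonneg := fun l => div_nonneg (hμ _) (by norm_num)
    μ_sum := ?_
    inv := fun l => (l.1, l.2 + 2)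
    inv_inv := ?_
    μ_inv := fun l => rfl
    ζ := TBV.ζ s (Equiv.refl (W s.I d))
    norm_ζ := TBV.norm_ζ s _ hξ
    T := TBV.T s (Equiv.refl (W s.I d))
    S := TBV.S s (Equiv.refl (W s.I d))
    T_mem := ?_
    S_mem := ?_
    T_unitary := TBV.T_unitary s _
    S_unitary := TBV.S_unitary s _
    T_inv := TBV.T_inv s _
    S_inv := TBV.S_inv s _
    TS_ζ := TBV.TS_ζ s _
    k := TBV.kk s (Equiv.refl (W s.I d))
    k1 := TBV.kk1 s (Equiv.refl (W s.I d))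
    k_memM := kk_mem s M d
    k_memN := kk_mem s N d
    k1_memM := kk1_mem s M d
    k1_memN := kk1_mem s N d
    norm_k := TBV.norm_kk s _ hKθ
    norm_k1 := TBV.norm_kk1 s _ hKθ
    norm_kζ := TBV.norm_kζ s _ hξ
    kap := TBV.kap s (Equiv.refl (W s.I d))
    b := fun _ l => TBV.bb s l
    kap_memM := fun j l => mul_mem (dg_mem (hAM _) s.I d) (kk_mem s M d j)
    kap_memN := fun j l => mul_mem (dg_mem (hAN _) s.I d) (kk_mem s N d j)
    b_memM := fun j l => dg_mem (smul_mem' _ (hBM _)) s.I d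
    b_memN := fun j l => dg_mem (smul_mem' _ (hBN _)) s.I d
    norm_kap := TBV.norm_kap s _ hK hKθ hA
    norm_b := fun _ l => TBV.norm_bb s hB l
    norm_kapζ := TBV.norm_kapζ s _ hAξ
    norm_bζ := fun j l => TBV.norm_bζ s _ hBξ j l
    η := TBV.eta s (Equiv.refl (W s.I d))
    norm_η := TBV.norm_eta s _ hη
    P := TBV.Pj (Equiv.refl (W s.I d)) s.ζ₀
    P_sa := TBV.Pj_star _ _
    P_idem := TBV.Pj_idem _ s.norm_ζ₀
    P_ζ := TBV.P_ζ s _
    P_P := TBV.Pj_comm _ _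
    P_T := fun i j l h => TBV.P_T s _ h l
    P_S := fun i j l h => TBV.P_S s _ h l
    k_S := fun i j l h => TBV.k_S s _ h l
    k1_S := fun i j l h => TBV.k1_S s _ h l
    k1_isom := TBV.k1_isom s _
    kap_avg := fun j e he => TBV.kap_avg s _ havg j e he
    cT := TBV.cT s
    cT_sa := TBV.cT_sa s
    norm_cT := TBV.norm_cT s hμ hμ1.le
    cT_P := TBV.cT_P s _
    PTSP := TBV.PTSP s _
    exact_T := TBV.exact_T s _
    exact_S := TBV.exact_S s _
    p' := TBV.dg q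
    p'_mem := dg_mem hqN s.I d
    p'_sa := TBV.p'_sa hqs
    p'_idem := TBV.p'_idem hqi
    p'_ζ := TBV.p'_ζ s _ hqξ
    p'_η := TBV.p'_eta s _ hqη
    p'_P := TBV.p'_P s _ q
    p'_k := TBV.p'_k s _ q
    star_id := ?_
    lft := fl
    rho := fr
    tp := ft
    lft_mem := fl1
    rho_mem := fun j w => MO_le_MM hF N j (fr1 j w)
    tp_mem := fun j w => MO_flip_mem hF N j (ft1 j w)
    norm_lft := fl2
    norm_rho := fr2
    norm_tp := ft2
    lft_near := fl3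
    rho_near := fr3
    tp_near := ft3
    lft_upd := fl4
    rho_upd := fr4
    tp_upd := ft4
    rho_P := ?_
    tp_P := ?_
    tp_k := ?_ }, ?_⟩
  · rw [Fintype.sum_prod_type]
    simp only [Finset.sum_const, Finset.card_univ, Fintype.card_fin, nsmul_eq_mul]
    rw [← hμ1]
    refine Finset.sum_congr rfl fun a _ => ?_
    push_cast
    ring
  · rintro ⟨a, θ⟩
    refine Prod.ext rfl ?_
    change θ + 2 + 2 = θ
    revert θ
    decide
  · intro j l
    rw [T_eq]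
    exact slot_lg1_mem_MM hF M j (s.T_mem l.1 l.2)
  · intro j l
    rw [S_eq]
    exact slot_lg2_mem hF M j (s.S_mem l.1 l.2)
  · intro j l n hn h hh
    obtain ⟨x, hx, rfl⟩ := exists_opM_of_mem_MM hn
    exact TBV.star_id s _ hstar j l x hx h hh
  · intro j w
    rw [Pj_eq]
    exact MO_comm_slot hF N j (fr1 j w) fun p q => pz_mem _ _ _ _
  · intro j w
    rw [Pj_eq]
    exact MO_flip_comm_slot hF N j (ft1 j w) fun p q => pz_mem _ _ _ _
  · intro j w
    rw [kk_eq]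
    exact MO_flip_comm_slot hF N j (ft1 j w) fun p q => lg2_sc_mem _ _ _ _
  · intro j
    exact TBV.value s _ j

end inst

end Crest.Agent.R078.Z.TBI
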