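import Crest.Agent.R078.S104Targets

/-!
# R78, S0104, block A: pure algebra
-/

set_option autoImplicit false
set_option linter.unusedSimpArgs false

noncomputable section

namespace Crest.Agent.R078.S104.Alg

open scoped InnerProductSpace

/-! ### Abstract ring computations -/

section ring

variable {A : Type} [Ring A] {e J J' B B' : A}

/-- the relations between `e = e₁`, `J`, `J' = J^*`, `B`, `B' = B^*` -/
structure Rel (e J J' B B' : A) : Prop where
  ee : e * e = e
  JJ : J' * J = 1 - e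
  eJ : e * J = 0
  Je : J * e = 0
  J'e : J' * e = 0
  eJ' : e * J' = 0
  BB : B * B' = 1 - e
  eB : e * B = 0
  Be : B * e = B
  eB' : e * B' = B'
  B'e : B' * e = 0

namespace Rel

variable (h : Rel e J J' B B')
include h

theorem BJ : B * J = 0 := by rw [← h.Be, mul_assoc, h.eJ, mul_zero]
theorem BJ' : B * J' = 0 := by rw [← h.Be, mul_assoc, h.eJ', mul_zero]
theorem J'B' : J' * B' = 0 := by rw [← h.eB', ← mul_assoc, h.J'e, zero_mul]
theorem JB' : J * B' = 0 := by rw [← h.eB', ← mul_assoc, h.Je, zero_mul]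
theorem BB2 : B * B = 0 := by
  conv_lhs => rw [← h.Be, mul_assoc, h.Be, h.eB, mul_zero]
theorem B'B'2 : B' * B' = 0 := by
  conv_lhs => rw [← h.eB', ← mul_assoc, h.eB', h.B'e, zero_mul]

theorem JJ1 (z : A) : J' * (J * z) = z - e * z := by rw [← mul_assoc, h.JJ, sub_mul, one_mul]
theorem ee1 (z : A) : e * (e * z) = e * z := by rw [← mul_assoc, h.ee]
theorem eJ1 (z : A) : e * (J * z) = 0 := by rw [← mul_assoc, h.eJ, zero_mul]
theorem Je1 (z : A) : J * (e * z) = 0 := by rw [← mul_assoc, h.Je, zero_mul]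
theorem J'e1 (z : A) : J' * (e * z) = 0 := by rw [← mul_assoc, h.J'e, zero_mul]
theorem eJ'1 (z : A) : e * (J' * z) = 0 := by rw [← mul_assoc, h.eJ', zero_mul]
theorem BB1 (z : A) : B * (B' * z) = z - e * z := by rw [← mul_assoc, h.BB, sub_mul, one_mul]
theorem eB1 (z : A) : e * (B * z) = 0 := by rw [← mul_assoc, h.eB, zero_mul]
theorem Be1 (z : A) : B * (e * z) = B * z := by rw [← mul_assoc, h.Be]
theorem eB'1 (z : A) : e * (B' * z) = B' * z := by rw [← mul_assoc, h.eB']
theorem B'e1 (z : A) : B' * (e * z) = 0 := by rw [← mul_assoc, h.B'e, zero_mul]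
theorem BJ1 (z : A) : B * (J * z) = 0 := by rw [← mul_assoc, h.BJ, zero_mul]
theorem BJ'1 (z : A) : B * (J' * z) = 0 := by rw [← mul_assoc, h.BJ', zero_mul]
theorem J'B'1 (z : A) : J' * (B' * z) = 0 := by rw [← mul_assoc, h.J'B', zero_mul]
theorem JB'1 (z : A) : J * (B' * z) = 0 := by rw [← mul_assoc, h.JB', zero_mul]
theorem BB21 (z : A) : B * (B * z) = 0 := by rw [← mul_assoc, h.BB2, zero_mul]
theorem B'B'21 (z : A) : B' * (B' * z) = 0 := by rw [← mul_assoc, h.B'B'2, zero_mul]

/-- `U U^* = 1` -/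
theorem mul_star_U :
    ((e - B' * B) + ((1 - e) - J * J') + J * B - B' * J') *
      ((e - B' * B) + ((1 - e) - J * J') + B' * J' - J * B) = 1 := by
  simp only [mul_add, add_mul, mul_sub, sub_mul, mul_assoc, mul_one, one_mul, mul_zero, zero_mul,
    h.ee, h.JJ, h.eJ, h.Je, h.J'e, h.eJ', h.BB, h.eB, h.Be, h.eB', h.B'e, h.BJ, h.BJ', h.J'B',
    h.JB', h.BB2, h.B'B'2, h.JJ1, h.ee1, h.eJ1, h.Je1, h.J'e1, h.eJ'1, h.BB1, h.eB1, h.Be1, h.eB'1,
    h.B'e1, h.BJ1, h.BJ'1, h.J'B'1, h.JB'1, h.BB21, h.B'B'21]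
  abel

/-- `U^* U = 1` -/
theorem star_U_mul :
    ((e - B' * B) + ((1 - e) - J * J') + B' * J' - J * B) *
      ((e - B' * B) + ((1 - e) - J * J') + J * B - B' * J') = 1 := by
  simp only [mul_add, add_mul, mul_sub, sub_mul, mul_assoc, mul_one, one_mul, mul_zero, zero_mul,
    h.ee, h.JJ, h.eJ, h.Je, h.J'e, h.eJ', h.BB, h.eB, h.Be, h.eB', h.B'e, h.BJ, h.BJ', h.J'B',
    h.JB', h.BB2, h.B'B'2, h.JJ1, h.ee1, h.eJ1, h.Je1, h.J'e1, h.eJ'1, h.BB1, h.eB1, h.Be1, h.eB'1,
    h.B'e1, h.BJ1, h.BJ'1, h.J'B'1, h.JB'1, h.BB21, h.B'B'21]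
  abel

/-- identity (1) -/
theorem conj_U {x : A} (hB : x * B = B * x) (hB' : x * B' = B' * x) (he : x * e = e * x) :
    ((e - B' * B) + ((1 - e) - J * J') + J * B - B' * J') * x *
      ((e - B' * B) + ((1 - e) - J * J') + B' * J' - J * B) =
    x + J * (x * J' - J' * x) * (1 - e - J * J')
    - (x * J - J * x) * J'
    - (1 - e - J * J') * ((x * J - J * x) * B)
    + (B' * (x * J' - J' * x)) * (1 - e - J * J')
    + B' * (J' * (x * J - J * x)) * B := by
  have hB1 : ∀ z, x * (B * z) = B * (x * z) := fun z => by rw [← mul_assoc, hB, mul_assoc]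
  have hB'1 : ∀ z, x * (B' * z) = B' * (x * z) := fun z => by rw [← mul_assoc, hB', mul_assoc]
  have he1 : ∀ z, x * (e * z) = e * (x * z) := fun z => by rw [← mul_assoc, he, mul_assoc]
  have h1 : ∀ z, e * (x * (J * z)) = 0 := fun z => by rw [← he1, h.eJ1, mul_zero]
  have h2 : e * (x * J) = 0 := by rw [← he1, h.eJ, mul_zero]
  have h3 : ∀ z, e * (x * (J' * z)) = 0 := fun z => by rw [← he1, h.eJ'1, mul_zero]
  have h4 : e * (x * J') = 0 := by rw [← he1, h.eJ', mul_zero]
  have h5 : ∀ z, B * (x * (J * z)) = 0 := fun z => by rw [← hB1, h.BJ1, mul_zero]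
  have h6 : B * (x * J) = 0 := by rw [← hB1, h.BJ, mul_zero]
  have h7 : ∀ z, B * (x * (J' * z)) = 0 := fun z => by rw [← hB1, h.BJ'1, mul_zero]
  have h8 : B * (x * J') = 0 := by rw [← hB1, h.BJ', mul_zero]
  simp only [mul_add, add_mul, mul_sub, sub_mul, mul_assoc, mul_one, one_mul, mul_zero, zero_mul,
    hB, hB', he, hB1, hB'1, he1, h1, h2, h3, h4, h5, h6, h7, h8,
    h.ee, h.JJ, h.eJ, h.Je, h.J'e, h.eJ', h.BB, h.eB, h.Be, h.eB', h.B'e, h.BJ, h.BJ', h.J'B',
    h.JB', h.BB2, h.B'B'2, h.JJ1, h.ee1, h.eJ1, h.Je1, h.J'e1, h.eJ'1, h.BB1, h.eB1, h.Be1, h.eB'1,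
    h.B'e1, h.BJ1, h.BJ'1, h.J'B'1, h.JB'1, h.BB21, h.B'B'21]
  abel

end Rel

end ring

/-! ### The system -/

variable {p : ℕ} [NeZero p] {H : Type} [NormedAddCommGroup H] [InnerProductSpace ℂ H]
  [CompleteSpace H]

section basic

variable (S : Sys p H)


theorem star_E_e1 (b : ZMod p) : star (S.E b) * S.e1 = 0 := by
  have := congrArg star (S.e1_E b)
  rwa [star_mul, S.star_e1, star_zero] at this

theorem star_E_E_self (b : ZMod p) : star (S.E b) * S.E b = S.e1 := by
  rw [S.star_E_E, if_pos rfl]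



theorem comm_star_r_E (a b : ZMod p) : Commute (star (S.r a)) (S.E b) := by
  simpa using (S.comm_r_E' a b).star_star

theorem comm_star_r_E' (a b : ZMod p) : Commute (star (S.r a)) (star (S.E b)) :=
  (S.comm_r_E a b).star_star

theorem comm_star_m_E (a b : ZMod p) : Commute (star (S.m a)) (S.E b) := by
  simpa using (S.comm_m_E' a b).star_star

theorem comm_star_m_E' (a b : ZMod p) : Commute (star (S.m a)) (star (S.E b)) :=
  (S.comm_m_E a b).star_star

theorem comm_star_t_E (a b : ZMod p) : Commute (star (S.t a)) (S.E b) := by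
  simpa using (S.comm_t_E' a b).star_star




theorem comm_star_r_m (a b : ZMod p) : Commute (star (S.r a)) (S.m b) := by
  simpa using (S.comm_r_m' a b).star_star

theorem comm_star_r_m' (a b : ZMod p) : Commute (star (S.r a)) (star (S.m b)) :=
  (S.comm_r_m a b).star_star

theorem comm_star_r_t (a b : ZMod p) : Commute (star (S.r a)) (S.t b) := by
  simpa using (S.comm_r_t' a b).star_star

theorem comm_star_r_t' (a b : ZMod p) : Commute (star (S.r a)) (star (S.t b)) :=
  (S.comm_r_t a b).star_star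

theorem star_s (a : ZMod p) : star (S.s a) = S.s a := by
  rw [Sys.s, star_add, star_star, add_comm]



theorem star_d' (a : ZMod p) : star (S.d' a) = S.d' a := by
  rw [Sys.d', star_add, star_star, add_comm]


/-- the closed formula for `û_a` -/
theorem star_uh (a : ZMod p) :
    star (S.uh a) = ∑ b, (starRingEnd ℂ) (c a b) • (S.E b * star (S.E (a + b))) := by
  rw [Sys.uh, star_sum]
  refine Finset.sum_congr rfl fun b _ => ?_
  rw [star_smul, star_mul, star_star]
  rfl

theorem e1_uh (a : ZMod p) : S.e1 * S.uh a = 0 := by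
  rw [Sys.uh, Finset.mul_sum]
  refine Finset.sum_eq_zero fun b _ => ?_
  rw [mul_smul_comm, ← mul_assoc, S.e1_E, zero_mul, smul_zero]

theorem uh_e1 (a : ZMod p) : S.uh a * S.e1 = 0 := by
  rw [Sys.uh, Finset.sum_mul]
  refine Finset.sum_eq_zero fun b _ => ?_
  rw [smul_mul_assoc, mul_assoc, star_E_e1, mul_zero, smul_zero]

theorem star_c_mul_c (a b : ZMod p) : (starRingEnd ℂ) (c a b) * c a b = 1 := by
  rw [c, ← Complex.normSq_eq_conj_mul_self, Complex.normSq_eq_norm_sq]
  have : ‖ZMod.stdAddChar (a ^ 2 * b)‖ = 1 := AddChar.norm_apply _ _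
  rw [this]
  norm_num


theorem star_uh_mul_E (a b : ZMod p) :
    star (S.uh a) * S.E (a + b) = (starRingEnd ℂ) (c a b) • S.E b := by
  rw [star_uh, Finset.sum_mul, Finset.sum_eq_single b]
  · rw [smul_mul_assoc, mul_assoc, star_E_E_self, S.E_e1]
  · intro b' _ hb
    rw [smul_mul_assoc, mul_assoc, S.star_E_E, if_neg (fun h => hb (add_left_cancel h)), mul_zero,
      smul_zero]
  · intro h
    exact absurd (Finset.mem_univ b) h

theorem star_uh_uh (a : ZMod p) : star (S.uh a) * S.uh a = 1 - S.e1 := by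
  rw [Sys.uh, Finset.mul_sum, ← S.sum_E]
  refine Finset.sum_congr rfl fun b _ => ?_
  rw [mul_smul_comm, ← mul_assoc]
  change c a b • (star (S.uh a) * S.E (a + b) * star (S.E b)) = _
  rw [star_uh_mul_E, smul_mul_assoc, smul_smul, mul_comm, star_c_mul_c, one_smul]

theorem starUhUh : StarUhUh (p := p) (H := H) := fun S a => star_uh_uh S a






theorem comm_e1_of {T : H →L[ℂ] H} (h : ∀ b, Commute T (S.E b)) (h' : ∀ b, Commute T (star (S.E b))) :
    Commute T S.e1 := by
  rw [← star_E_E_self S 0]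
  exact (h' 0).mul_right (h 0)

theorem comm_l_e1 (a : ZMod p) : Commute (S.l a) S.e1 :=
  comm_e1_of S (S.comm_l_E a) (S.comm_l_E' a)



/-! ### `J` and `B` -/

theorem star_J : star S.J = (((Real.sqrt p)⁻¹ : ℝ) : ℂ) • ∑ a, star (S.uh a) * star (S.l a) := by
  rw [Sys.J, star_smul, star_sum]
  congr 1
  · exact Complex.conj_ofReal _
  · exact Finset.sum_congr rfl fun a _ => star_mul _ _

theorem sqrt_inv_mul : (((Real.sqrt p)⁻¹ : ℝ) : ℂ) * (((Real.sqrt p)⁻¹ : ℝ) : ℂ) = (p : ℂ)⁻¹ := by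
  rw [← Complex.ofReal_mul, ← mul_inv, Real.mul_self_sqrt (by positivity)]
  push_cast
  rfl

theorem e1_J : S.e1 * S.J = 0 := by
  rw [Sys.J, mul_smul_comm, Finset.mul_sum, Finset.sum_eq_zero, smul_zero]
  intro a _
  rw [← mul_assoc, ← (comm_l_e1 S a).eq, mul_assoc, e1_uh, mul_zero]

theorem J_e1 : S.J * S.e1 = 0 := by
  rw [Sys.J, smul_mul_assoc, Finset.sum_mul, Finset.sum_eq_zero, smul_zero]
  intro a _
  rw [mul_assoc, uh_e1, mul_zero]

theorem star_J_e1 : star S.J * S.e1 = 0 := by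
  have := congrArg star (e1_J S)
  rwa [star_mul, S.star_e1, star_zero] at this

theorem e1_star_J : S.e1 * star S.J = 0 := by
  have := congrArg star (J_e1 S)
  rwa [star_mul, S.star_e1, star_zero] at this

theorem star_J_J : star S.J * S.J = 1 - S.e1 := by
  rw [star_J]
  conv_lhs => rw [Sys.J]
  rw [smul_mul_smul_comm, sqrt_inv_mul, Finset.sum_mul]
  have h : ∀ a : ZMod p, star (S.uh a) * star (S.l a) * ∑ a', S.l a' * S.uh a' = 1 - S.e1 := by
    intro a
    rw [Finset.mul_sum, Finset.sum_eq_single a]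
    · rw [mul_assoc, ← mul_assoc (star (S.l a)), S.star_l_l, if_pos rfl, one_mul, star_uh_uh]
    · intro a' _ ha
      rw [mul_assoc, ← mul_assoc (star (S.l a)), S.star_l_l, if_neg (Ne.symm ha), zero_mul, mul_zero]
    · intro ha
      exact absurd (Finset.mem_univ a) ha
  rw [Finset.sum_congr rfl fun a _ => h a, Finset.sum_const, Finset.card_univ, ZMod.card,
    ← Nat.cast_smul_eq_nsmul ℂ, smul_smul, inv_mul_cancel₀, one_smul]
  exact_mod_cast NeZero.ne p


theorem star_B : star S.B = ∑ b, star (S.E b) * S.m b := by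
  rw [Sys.B, star_sum]
  refine Finset.sum_congr rfl fun b _ => ?_
  rw [star_mul, star_star]

theorem B_mul_star_B : S.B * star S.B = 1 - S.e1 := by
  rw [star_B, ← S.sum_E]
  conv_lhs => rw [Sys.B]
  rw [Finset.sum_mul]
  refine Finset.sum_congr rfl fun b _ => ?_
  rw [Finset.mul_sum, Finset.sum_eq_single b]
  · calc star (S.m b) * S.E b * (star (S.E b) * S.m b)
        = star (S.m b) * (S.E b * (star (S.E b) * S.m b)) := by rw [mul_assoc]
      _ = star (S.m b) * (S.m b * (S.E b * star (S.E b))) := by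
          rw [← (S.comm_m_E' b b).eq, ← mul_assoc (S.E b), ← (S.comm_m_E b b).eq, mul_assoc]
      _ = S.E b * star (S.E b) := by
          rw [← mul_assoc, S.star_m_m, if_pos rfl, one_mul]
  · intro b' _ hb
    calc star (S.m b) * S.E b * (star (S.E b') * S.m b')
        = star (S.m b) * (S.E b * (star (S.E b') * S.m b')) := by rw [mul_assoc]
      _ = star (S.m b) * (S.m b' * (S.E b * star (S.E b'))) := by
          rw [← (S.comm_m_E' b' b').eq, ← mul_assoc (S.E b), ← (S.comm_m_E b' b).eq, mul_assoc]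
      _ = 0 := by
          rw [← mul_assoc, S.star_m_m, if_neg (Ne.symm hb), zero_mul]
  · intro hb
    exact absurd (Finset.mem_univ b) hb

theorem b_star_B : B_star_B (p := p) (H := H) := fun S => B_mul_star_B S

theorem B_e1 : S.B * S.e1 = S.B := by
  rw [Sys.B, Finset.sum_mul]
  refine Finset.sum_congr rfl fun b _ => ?_
  rw [mul_assoc, S.E_e1]

theorem e1_B : S.e1 * S.B = 0 := by
  rw [Sys.B, Finset.mul_sum]
  refine Finset.sum_eq_zero fun b _ => ?_
  rw [← mul_assoc, ← (comm_e1_of S (comm_star_m_E S b) (comm_star_m_E' S b)).eq, mul_assoc, S.e1_E,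
    mul_zero]

theorem e1_star_B : S.e1 * star S.B = star S.B := by
  have := congrArg star (B_e1 S)
  rwa [star_mul, S.star_e1] at this

theorem star_B_e1 : star S.B * S.e1 = 0 := by
  have := congrArg star (e1_B S)
  rwa [star_mul, S.star_e1, star_zero] at this

theorem rel : Rel S.e1 S.J (star S.J) S.B (star S.B) where
  ee := S.e1_e1
  JJ := star_J_J S
  eJ := e1_J S
  Je := J_e1 S
  J'e := star_J_e1 S
  eJ' := e1_star_J S
  BB := B_mul_star_B S
  eB := e1_B S
  Be := B_e1 S
  eB' := e1_star_B S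
  B'e := star_B_e1 S

theorem star_Z : star S.Z = star S.B * star S.J := by
  rw [Sys.Z, star_mul]

theorem star_Z_Z : star S.Z * S.Z = star S.B * S.B := by
  rw [star_Z, Sys.Z, mul_assoc, ← mul_assoc (star S.J), star_J_J, sub_mul, one_mul, e1_B, sub_zero]

theorem U_eq : S.U = (S.e1 - star S.B * S.B) + ((1 - S.e1) - S.J * star S.J) + S.J * S.B
    - star S.B * star S.J := by
  rw [Sys.U, star_Z_Z, Sys.f, star_Z, Sys.Z]

theorem star_U : star S.U = (S.e1 - star S.B * S.B) + ((1 - S.e1) - S.J * star S.J)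
    + star S.B * star S.J - S.J * S.B := by
  rw [U_eq]
  simp only [star_sub, star_add, star_mul, star_star, star_one, S.star_e1]

theorem star_U_mul_U : star S.U * S.U = 1 := by
  rw [star_U, U_eq]
  exact (rel S).star_U_mul

theorem U_mul_star_U : S.U * star S.U = 1 := by
  rw [star_U, U_eq]
  exact (rel S).mul_star_U

theorem uUnitary : UUnitary (p := p) (H := H) := fun S =>
  Unitary.mem_iff.mpr ⟨star_U_mul_U S, U_mul_star_U S⟩

end basic

section good

variable (S : Sys p H)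

theorem good_B {x : H →L[ℂ] H} (hx : S.Good x) : Commute x S.B := by
  rw [Sys.B]
  exact Commute.sum_right _ _ _ fun b _ => (hx.m' b).mul_right (hx.E b)

theorem good_star_B {x : H →L[ℂ] H} (hx : S.Good x) : Commute x (star S.B) := by
  rw [star_B]
  exact Commute.sum_right _ _ _ fun b _ => (hx.E' b).mul_right (hx.m b)

theorem good_e1 {x : H →L[ℂ] H} (hx : S.Good x) : Commute x S.e1 :=
  comm_e1_of S hx.E hx.E'

theorem conjU : ConjU (p := p) (H := H) := by
  intro S x hx
  rw [star_U, U_eq, Sys.f, Sys.C]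
  exact (rel S).conj_U (good_B S hx).eq (good_star_B S hx).eq (good_e1 S hx).eq

theorem goodD : GoodD (p := p) (H := H) := by
  intro S a
  refine ⟨fun b => (S.comm_s_d b a).symm, fun b => ?_, fun b => ?_, fun b => ?_, fun b => ?_,
    fun b => ?_⟩
  · exact (S.comm_r_m a b).add_left (comm_star_r_m S a b)
  · exact (S.comm_r_m' a b).add_left (comm_star_r_m' S a b)
  · exact ((S.comm_r_t a b).add_right (S.comm_r_t' a b)).add_left
      ((comm_star_r_t S a b).add_right (comm_star_r_t' S a b))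
  · exact (S.comm_r_E a b).add_left (comm_star_r_E S a b)
  · exact (S.comm_r_E' a b).add_left (comm_star_r_E' S a b)

/-! ### membership in `N` -/

variable {S}

theorem InN.star {y : H →L[ℂ] H} (hy : S.InN y) : S.InN (star y) := fun b => by
  have := (hy b).star_star
  rwa [star_d'] at this

theorem InN.mul {y z : H →L[ℂ] H} (hy : S.InN y) (hz : S.InN z) : S.InN (y * z) :=
  fun b => (hy b).mul_left (hz b)

theorem InN.add {y z : H →L[ℂ] H} (hy : S.InN y) (hz : S.InN z) : S.InN (y + z) :=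
  fun b => (hy b).add_left (hz b)

theorem InN.sub {y z : H →L[ℂ] H} (hy : S.InN y) (hz : S.InN z) : S.InN (y - z) :=
  fun b => (hy b).sub_left (hz b)

theorem InN.smul {y : H →L[ℂ] H} (hy : S.InN y) (t : ℂ) : S.InN (t • y) :=
  fun b => (hy b).smul_left t

theorem InN.sum {ι : Type} (s : Finset ι) (y : ι → (H →L[ℂ] H)) (hy : ∀ i ∈ s, S.InN (y i)) :
    S.InN (∑ i ∈ s, y i) := fun b => Commute.sum_left _ _ _ fun i hi => hy i hi b

theorem InN.one : S.InN 1 := fun b => Commute.one_left _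

theorem InN.zero : S.InN 0 := fun b => Commute.zero_left _

theorem inN_l (a : ZMod p) : S.InN (S.l a) := fun b => (S.comm_l_t a b).add_right (S.comm_l_t' a b)

theorem inN_E (a : ZMod p) : S.InN (S.E a) := fun b =>
  ((S.comm_t_E b a).add_left (comm_star_t_E S b a)).symm

theorem inN_uh (a : ZMod p) : S.InN (S.uh a) := by
  rw [Sys.uh]
  exact InN.sum _ _ fun b _ => InN.smul (InN.mul (inN_E _) (InN.star (inN_E _))) _

theorem inN_e1 : S.InN S.e1 := by
  rw [← star_E_E_self S 0]
  exact InN.mul (InN.star (inN_E _)) (inN_E _)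

theorem inN_J : S.InN S.J := by
  rw [Sys.J]
  exact InN.smul (InN.sum _ _ fun a _ => InN.mul (inN_l a) (inN_uh a)) _

theorem inN_s' (a : ZMod p) : S.InN (S.s' a) := fun b => S.comm_s_d' a b

theorem inN_SS : S.InN S.SS := by
  rw [Sys.SS]
  exact InN.sum _ _ fun a _ => InN.mul (inN_s' a) (inN_E a)

theorem inN_X {x : H →L[ℂ] H} (hx : S.Good x) (a : ZMod p) : S.InN (S.X x a) :=
  InN.sub (InN.mul hx.d' (inN_l a)) (InN.mul (inN_l a) hx.d')

theorem inN_V {x : H →L[ℂ] H} (hx : S.Good x) : S.InN (S.V x) := by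
  rw [Sys.V]
  exact InN.sum _ _ fun a _ => InN.mul (inN_X hx a) (inN_uh a)

theorem inN_Coff {x : H →L[ℂ] H} (hx : S.Good x) : S.InN (S.Coff x) := by
  rw [Sys.Coff]
  refine InN.smul (InN.sum _ _ fun a _ => InN.sum _ _ fun a' _ => ?_) _
  split_ifs
  · exact InN.zero
  · exact InN.mul (InN.mul (InN.star (inN_l a)) (inN_X hx a'))
      (InN.mul (InN.star (inN_uh a)) (inN_uh a'))

theorem inNList : InNList (p := p) (H := H) := by
  intro S
  refine ⟨inN_J, InN.star inN_J, inN_SS, InN.star inN_SS, inN_e1, ?_, fun x hx =>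
    ⟨hx.d', inN_V hx, InN.star (inN_V hx), inN_Coff hx⟩⟩
  rw [Sys.f]
  exact InN.mul inN_J (InN.star inN_J)

end good

end Crest.Agent.R078.S104.Alg
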