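import Crest.Agent.R078.S104Targets
import Crest.Agent.R078.S104Resolvent
import Mathlib

-- ▼ part R078/S104NearV
section

/-!
# R78, S0104, block D: `[x, J] B` is near `N` (part (3) of post #3287)
-/

set_option autoImplicit false

noncomputable section

namespace Crest.Agent.R078.S104

open scoped InnerProductSpace

variable {p : ℕ} [NeZero p] {H : Type} [NormedAddCommGroup H] [InnerProductSpace ℂ H]
  [CompleteSpace H]

namespace NearVAux

variable (S : Sys p H)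

theorem comm_of_star {A B : H →L[ℂ] H} (h : Commute A (star B)) : Commute (star A) B := by
  have := h.star_star
  rwa [star_star] at this

/-- if `A` commutes with all `l a`, `x`, it commutes with `X a` -/
theorem comm_X {x A : H →L[ℂ] H} (hx : Commute x A) (hl : ∀ a, Commute (S.l a) A) (a : ZMod p) :
    Commute (S.X x a) A := by
  unfold Sys.X
  exact (hx.mul_left (hl a)).sub_left ((hl a).mul_left hx)

theorem comm_uh {A : H →L[ℂ] H} (h1 : ∀ b, Commute A (S.E b)) (h2 : ∀ b, Commute A (star (S.E b)))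
    (a : ZMod p) : Commute A (S.uh a) := by
  unfold Sys.uh
  refine Commute.sum_right _ _ _ fun b _ => ?_
  exact ((h1 _).mul_right (h2 _)).smul_right _

theorem comm_star_uh {A : H →L[ℂ] H} (h1 : ∀ b, Commute A (S.E b))
    (h2 : ∀ b, Commute A (star (S.E b))) (a : ZMod p) : Commute A (star (S.uh a)) := by
  unfold Sys.uh
  rw [star_sum]
  refine Commute.sum_right _ _ _ fun b _ => ?_
  rw [star_smul, star_mul, star_star]
  exact ((h1 _).mul_right (h2 _)).smul_right _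

variable {S}

theorem X_E {x : H →L[ℂ] H} (hx : S.Good x) (a b : ZMod p) : Commute (S.X x a) (S.E b) :=
  comm_X S (hx.E b) (fun a => S.comm_l_E a b) a

theorem X_E' {x : H →L[ℂ] H} (hx : S.Good x) (a b : ZMod p) :
    Commute (S.X x a) (star (S.E b)) :=
  comm_X S (hx.E' b) (fun a => S.comm_l_E' a b) a

theorem X_m {x : H →L[ℂ] H} (hx : S.Good x) (a b : ZMod p) : Commute (S.X x a) (S.m b) :=
  comm_X S (hx.m b) (fun a => S.comm_l_m a b) a

theorem X_m' {x : H →L[ℂ] H} (hx : S.Good x) (a b : ZMod p) :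
    Commute (S.X x a) (star (S.m b)) :=
  comm_X S (hx.m' b) (fun a => S.comm_l_m' a b) a

theorem V_m {x : H →L[ℂ] H} (hx : S.Good x) (b : ZMod p) : Commute (S.m b) (S.V x) := by
  unfold Sys.V
  refine Commute.sum_right _ _ _ fun a _ => ?_
  exact (X_m hx a b).symm.mul_right (comm_uh S (S.comm_m_E b) (S.comm_m_E' b) a)

theorem V_m' {x : H →L[ℂ] H} (hx : S.Good x) (b : ZMod p) :
    Commute (star (S.m b)) (S.V x) := by
  unfold Sys.V
  refine Commute.sum_right _ _ _ fun a _ => ?_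
  refine (X_m' hx a b).symm.mul_right (comm_uh S (fun c => ?_) (fun c => ?_) a)
  · exact comm_of_star (S.comm_m_E' b c)
  · exact (S.comm_m_E b c).star_star

theorem starV_m {x : H →L[ℂ] H} (hx : S.Good x) (b : ZMod p) :
    Commute (S.m b) (star (S.V x)) := by
  have := (V_m' hx b).star_star
  rwa [star_star] at this

/-- `[x, J] = p^{-1/2} V` -/
theorem comm_J {x : H →L[ℂ] H} (hx : S.Good x) :
    x * S.J - S.J * x = (((Real.sqrt p)⁻¹ : ℝ) : ℂ) • S.V x := by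
  unfold Sys.J Sys.V
  rw [mul_smul_comm, smul_mul_assoc, ← smul_sub, Finset.mul_sum, Finset.sum_mul,
    ← Finset.sum_sub_distrib]
  congr 1
  refine Finset.sum_congr rfl fun a _ => ?_
  have h : Commute x (S.uh a) := comm_uh S hx.E hx.E' a
  unfold Sys.X
  rw [sub_mul, mul_assoc, mul_assoc, mul_assoc, h.eq]

/-- `V^* V = ∑ X_a^* X_a' û_a^* û_a'` -/
theorem starV_V {x : H →L[ℂ] H} (hx : S.Good x) :
    star (S.V x) * S.V x
      = ∑ a, ∑ a', (star (S.X x a) * S.X x a') * (star (S.uh a) * S.uh a') := by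
  unfold Sys.V
  rw [star_sum, Finset.sum_mul]
  refine Finset.sum_congr rfl fun a _ => ?_
  rw [Finset.mul_sum]
  refine Finset.sum_congr rfl fun a' _ => ?_
  rw [star_mul]
  have h1 : Commute (star (S.X x a)) (star (S.uh a)) :=
    (comm_uh S (X_E hx a) (X_E' hx a) a).star_star
  have h2 : Commute (S.X x a') (star (S.uh a)) :=
    comm_star_uh S (X_E hx a') (X_E' hx a') a
  calc star (S.uh a) * star (S.X x a) * (S.X x a' * S.uh a')
      = star (S.X x a) * star (S.uh a) * (S.X x a' * S.uh a') := by rw [h1.eq]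
    _ = star (S.X x a) * (star (S.uh a) * S.X x a') * S.uh a' := by simp only [mul_assoc]
    _ = star (S.X x a) * (S.X x a' * star (S.uh a)) * S.uh a' := by rw [h2.eq]
    _ = _ := by simp only [mul_assoc]

theorem norm_sq_dual {ι : Type*} [Fintype ι] (Y : ι → (H →L[ℂ] H)) (C : ℝ) (hC : 0 ≤ C)
    (h : ∀ ζ, ∑ a, ‖Y a ζ‖ ^ 2 ≤ C * ‖ζ‖ ^ 2) (ξ : ι → H) :
    ‖∑ a, (star (Y a)) (ξ a)‖ ^ 2 ≤ C * ∑ a, ‖ξ a‖ ^ 2 := by
  set w : H := ∑ a, (star (Y a)) (ξ a) with hw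
  have h1 : ‖w‖ ^ 2 ≤ ∑ a, ‖ξ a‖ * ‖Y a w‖ := by
    have h2 : (‖w‖ ^ 2 : ℝ) = ‖⟪w, w⟫_ℂ‖ := by
      rw [inner_self_eq_norm_sq_to_K]
      norm_num
    have h3 : ⟪w, w⟫_ℂ = ∑ a, ⟪ξ a, Y a w⟫_ℂ := by
      conv_lhs => rw [hw, sum_inner]
      refine Finset.sum_congr rfl fun a _ => ?_
      rw [ContinuousLinearMap.star_eq_adjoint, ContinuousLinearMap.adjoint_inner_left]
    rw [h2, h3]
    refine (norm_sum_le _ _).trans (Finset.sum_le_sum fun a _ => norm_inner_le_norm _ _)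
  have h4 : (∑ a, ‖ξ a‖ * ‖Y a w‖) ^ 2 ≤ (∑ a, ‖ξ a‖ ^ 2) * ∑ a, ‖Y a w‖ ^ 2 :=
    Finset.sum_mul_sq_le_sq_mul_sq _ _ _
  have h5 : 0 ≤ ∑ a, ‖ξ a‖ ^ 2 := Finset.sum_nonneg fun _ _ => by positivity
  have h6 : (‖w‖ ^ 2) ^ 2 ≤ (∑ a, ‖ξ a‖ ^ 2) * (C * ‖w‖ ^ 2) := by
    calc (‖w‖ ^ 2) ^ 2 ≤ (∑ a, ‖ξ a‖ * ‖Y a w‖) ^ 2 := by
          exact pow_le_pow_left₀ (by positivity) h1 2
      _ ≤ _ := h4
      _ ≤ _ := mul_le_mul_of_nonneg_left (h w) h5
  rcases eq_or_lt_of_le (show (0 : ℝ) ≤ ‖w‖ ^ 2 by positivity) with h0 | h0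
  · rw [← h0]; positivity
  · nlinarith [h6, h0]

end NearVAux

open NearVAux

theorem nearV (hBB : B_star_B (p := p) (H := H)) (hN : InNList (p := p) (H := H))
    (hSid : Sidon (p := p) (H := H)) (hX : SumX (p := p) (H := H))
    (hXs : SumXstar (p := p) (H := H)) (hM : NormSumM (p := p) (H := H)) :
    NearV (p := p) (H := H) := by
  intro S hp hp2 x hx hx1
  have hp0 : (0 : ℝ) < p := by exact_mod_cast hp.pos
  set t : ℝ := Real.sqrt p with ht
  have ht0 : 0 < t := Real.sqrt_pos.mpr hp0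
  have htt : t * t = p := Real.mul_self_sqrt hp0.le
  set q : ℝ := Real.sqrt t with hq
  have hq0 : 0 < q := Real.sqrt_pos.mpr ht0
  have hqq : q * q = t := Real.mul_self_sqrt ht0.le
  obtain ⟨G, hG1, hG2, hG3⟩ := S104Resolvent.exists_transform (S.V x) ht0
  set K : H →L[ℂ] H := star (S.V x) * S.V x with hK
  obtain ⟨-, -, hSS, -, -, -, hgood⟩ := hN S
  obtain ⟨-, hVN, hVN', -⟩ := hgood x hx
  -- commutation of `G`, `K` with `d'_b` and `m_b`
  have hGd : S.InN G := fun b => by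
    have := hG3 (S.d' b) (hVN b).symm.eq (hVN' b).symm.eq
    exact this.symm
  have hKd : S.InN K := fun b => (hVN' b).mul_left (hVN b)
  have hGm : ∀ b, Commute (S.m b) G := fun b =>
    hG3 (S.m b) (V_m hx b).eq (starV_m hx b).eq
  have hKm : ∀ b, Commute (S.m b) K := fun b => (starV_m hx b).mul_right (V_m hx b)
  refine ⟨((t⁻¹ : ℝ) : ℂ) • (G * K * S.SS), ?_, ?_⟩
  · intro b
    exact (((hGd b).mul_left (hKd b)).mul_left (hSS b)).smul_left _
  -- `SS = B + B'`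
  have hSSB : S.SS = S.B + S.B' := by
    unfold Sys.SS Sys.B Sys.B' Sys.s'
    rw [← Finset.sum_add_distrib]
    refine Finset.sum_congr rfl fun b _ => ?_
    rw [add_mul, add_comm]
  have hdiff : (x * S.J - S.J * x) * S.B - ((t⁻¹ : ℝ) : ℂ) • (G * K * S.SS)
      = ((t⁻¹ : ℝ) : ℂ) • ((t : ℂ) • (G * S.B) - G * K * S.B') := by
    rw [comm_J hx, smul_mul_assoc, ← smul_sub]
    congr 1
    rw [hSSB, mul_add]
    nth_rewrite 1 [← hG1]
    rw [add_mul, smul_mul_assoc, mul_assoc]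
    abel
  rw [hdiff, norm_smul]
  have hBn : ‖S.B‖ ≤ 1 := by
    have h1 : ‖S.B * star S.B‖ ≤ 1 := by
      rw [hBB S]
      have hproj : IsSelfAdjoint (1 - S.e1) := by
        rw [IsSelfAdjoint, star_sub, star_one, S.star_e1]
      have hidem : (1 - S.e1) * (1 - S.e1) = 1 - S.e1 := by
        rw [mul_sub, sub_mul, sub_mul, S.e1_e1]
        simp
      have h2 : ‖(1 - S.e1 : H →L[ℂ] H)‖ * ‖(1 - S.e1 : H →L[ℂ] H)‖ = ‖(1 - S.e1 : H →L[ℂ] H)‖ := by
        have h3 := CStarRing.norm_star_mul_self (x := (1 - S.e1 : H →L[ℂ] H))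
        rw [hproj.star_eq, hidem] at h3
        exact h3.symm
      nlinarith [norm_nonneg (1 - S.e1 : H →L[ℂ] H)]
    rw [CStarRing.norm_self_mul_star] at h1
    nlinarith [norm_nonneg S.B]
  have e1 : ‖((t⁻¹ : ℝ) : ℂ)‖ = t⁻¹ := by
    rw [Complex.norm_real, Real.norm_eq_abs, abs_of_pos (inv_pos.mpr ht0)]
  have e2 : ‖(t : ℂ)‖ = t := by
    rw [Complex.norm_real, Real.norm_eq_abs, abs_of_pos ht0]
  -- first piece
  have p1 : ‖(t : ℂ) • (G * S.B)‖ ≤ q / 2 := by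
    rw [norm_smul, e2]
    have h1 : ‖G * S.B‖ ≤ 1 / (2 * q) := by
      calc ‖G * S.B‖ ≤ ‖G‖ * ‖S.B‖ := norm_mul_le _ _
        _ ≤ ‖G‖ * 1 := mul_le_mul_of_nonneg_left hBn (norm_nonneg _)
        _ = ‖G‖ := mul_one _
        _ ≤ _ := hG2
    calc t * ‖G * S.B‖ ≤ t * (1 / (2 * q)) := mul_le_mul_of_nonneg_left h1 ht0.le
      _ = q / 2 := by
        rw [← hqq]
        field_simp
  -- second piece
  have p2 : ‖G * K * S.B'‖ ≤ 3 * q := by
    refine ContinuousLinearMap.opNorm_le_bound _ (by positivity) fun ζ => ?_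
    have h1 : (G * K * S.B') ζ = ∑ b, S.m b ((G * K) (S.E b ζ)) := by
      have h2 : G * K * S.B' = ∑ b, S.m b * ((G * K) * S.E b) := by
        unfold Sys.B'
        rw [Finset.mul_sum]
        refine Finset.sum_congr rfl fun b _ => ?_
        have hc : S.m b * (G * K) = (G * K) * S.m b := ((hGm b).mul_right (hKm b)).eq
        calc G * K * (S.m b * S.E b) = ((G * K) * S.m b) * S.E b := by
              rw [mul_assoc (G * K)]
          _ = (S.m b * (G * K)) * S.E b := by rw [hc]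
          _ = S.m b * ((G * K) * S.E b) := by rw [mul_assoc (S.m b)]
      rw [h2]
      simp only [sum_apply]
      rfl
    have h2 : ‖(G * K * S.B') ζ‖ ^ 2 = ∑ b, ‖(G * K) (S.E b ζ)‖ ^ 2 := by
      rw [h1]; exact hM S _
    have h3 : ∀ b, ‖(G * K) (S.E b ζ)‖ ^ 2 ≤ 1 / (4 * t) * ‖K (S.E b ζ)‖ ^ 2 := by
      intro b
      have h4 : ‖(G * K) (S.E b ζ)‖ ≤ 1 / (2 * q) * ‖K (S.E b ζ)‖ := by
        have : (G * K) (S.E b ζ) = G (K (S.E b ζ)) := rfl
        rw [this]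
        exact (G.le_opNorm _).trans (mul_le_mul_of_nonneg_right hG2 (norm_nonneg _))
      calc ‖(G * K) (S.E b ζ)‖ ^ 2 ≤ (1 / (2 * q) * ‖K (S.E b ζ)‖) ^ 2 :=
            pow_le_pow_left₀ (norm_nonneg _) h4 2
        _ = 1 / (4 * t) * ‖K (S.E b ζ)‖ ^ 2 := by
            rw [← hqq, mul_pow]
            congr 1
            rw [div_pow]
            ring
    have h5 := hSid S hp hp2 (fun a a' => star (S.X x a) * S.X x a') (fun a a' b =>
      ((comm_of_star (X_E' hx a b)).mul_left (X_E hx a' b))) ζ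
    rw [← starV_V hx] at h5
    have h6 : ‖(∑ a, star (S.X x a) * S.X x a) ζ‖ ^ 2 ≤ 16 * ‖ζ‖ ^ 2 := by
      have h7 : (∑ a, star (S.X x a) * S.X x a) ζ = ∑ a, (star (S.X x a)) (S.X x a ζ) := by
        simp only [sum_apply]
        rfl
      rw [h7]
      have h8 := norm_sq_dual (fun a => S.X x a) 4 (by norm_num) (hX S x hx hx1)
        (fun a => S.X x a ζ)
      have h9 := hX S x hx hx1 ζ
      nlinarith
    have h10 : ∑ a, ∑ a', (if a = a' then 0 else ‖(star (S.X x a) * S.X x a') ζ‖ ^ 2)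
        ≤ 16 * ‖ζ‖ ^ 2 := by
      calc ∑ a, ∑ a', (if a = a' then 0 else ‖(star (S.X x a) * S.X x a') ζ‖ ^ 2)
          ≤ ∑ a, ∑ a', ‖(star (S.X x a)) (S.X x a' ζ)‖ ^ 2 := by
            refine Finset.sum_le_sum fun a _ => Finset.sum_le_sum fun a' _ => ?_
            split_ifs
            · positivity
            · exact le_rfl
        _ = ∑ a', ∑ a, ‖(star (S.X x a)) (S.X x a' ζ)‖ ^ 2 := Finset.sum_comm
        _ ≤ ∑ a', 4 * ‖S.X x a' ζ‖ ^ 2 :=
            Finset.sum_le_sum fun a' _ => hXs S x hx hx1 _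
        _ = 4 * ∑ a', ‖S.X x a' ζ‖ ^ 2 := by rw [Finset.mul_sum]
        _ ≤ 4 * (4 * ‖ζ‖ ^ 2) := mul_le_mul_of_nonneg_left (hX S x hx hx1 ζ) (by norm_num)
        _ = _ := by ring
    have h11 : ∑ b, ‖K (S.E b ζ)‖ ^ 2 ≤ 32 * p * ‖ζ‖ ^ 2 := by
      refine h5.trans ?_
      nlinarith [mul_le_mul_of_nonneg_left h6 hp0.le, mul_le_mul_of_nonneg_left h10 hp0.le]
    have h12 : ‖(G * K * S.B') ζ‖ ^ 2 ≤ (3 * q * ‖ζ‖) ^ 2 := by
      rw [h2]
      calc ∑ b, ‖(G * K) (S.E b ζ)‖ ^ 2 ≤ ∑ b, 1 / (4 * t) * ‖K (S.E b ζ)‖ ^ 2 :=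
            Finset.sum_le_sum fun b _ => h3 b
        _ = 1 / (4 * t) * ∑ b, ‖K (S.E b ζ)‖ ^ 2 := by rw [Finset.mul_sum]
        _ ≤ 1 / (4 * t) * (32 * p * ‖ζ‖ ^ 2) :=
            mul_le_mul_of_nonneg_left h11 (by positivity)
        _ = 8 * t * ‖ζ‖ ^ 2 := by
            rw [← htt]; field_simp; ring
        _ ≤ (3 * q * ‖ζ‖) ^ 2 := by
            have : (3 * q * ‖ζ‖) ^ 2 = 9 * t * ‖ζ‖ ^ 2 := by rw [← hqq]; ring
            rw [this]
            have : 0 ≤ t * ‖ζ‖ ^ 2 := by positivity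
            nlinarith
    exact (sq_le_sq₀ (norm_nonneg _) (by positivity)).mp h12
  rw [e1]
  calc t⁻¹ * ‖(t : ℂ) • (G * S.B) - G * K * S.B'‖ ≤ t⁻¹ * (q / 2 + 3 * q) :=
        mul_le_mul_of_nonneg_left ((norm_sub_le _ _).trans (add_le_add p1 p2))
          (inv_pos.mpr ht0).le
    _ ≤ 4 / q := by
        rw [inv_mul_le_iff₀ ht0, ← hqq]
        have : q * q * (4 / q) = 4 * q := by field_simp
        rw [this]
        linarith

end Crest.Agent.R078.S104
end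
end

-- ▼ part R078/S104Parseval
section

set_option autoImplicit false

/-!
# R78, S0104: Parseval over `ZMod p` with Hilbert space values, and the phases `c a b = ψ (a² b)`
-/

noncomputable section

namespace Crest.Agent.R078.S104Parseval

open scoped InnerProductSpace

variable {p : ℕ} [Fact p.Prime]
variable {F : Type} [NormedAddCommGroup F] [InnerProductSpace ℂ F]

/-- the standard additive character -/
abbrev ψ : AddChar (ZMod p) ℂ := ZMod.stdAddChar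

theorem isPrimitive : (ψ (p := p)).IsPrimitive := ZMod.isPrimitive_stdAddChar p

theorem conj_ψ (x : ZMod p) : (starRingEnd ℂ) (ψ x) = ψ (-x) := by
  rw [AddChar.map_neg_eq_conj]

theorem norm_ψ (x : ZMod p) : ‖ψ x‖ = 1 := by
  exact AddChar.norm_apply _ _

theorem sum_ψ (x : ZMod p) : ∑ b : ZMod p, ψ (b * x) = if x = 0 then (p : ℂ) else 0 := by
  have := AddChar.sum_mulShift (R := ZMod p) (R' := ℂ) x (isPrimitive (p := p))
  rw [ZMod.card] at this
  simpa using this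

/-- Parseval -/
theorem parseval {k : ZMod p} (hk : k ≠ 0) (y : ZMod p → F) :
    ∑ b : ZMod p, ‖∑ a : ZMod p, ψ (k * a * b) • y a‖ ^ 2 = p * ∑ a : ZMod p, ‖y a‖ ^ 2 := by
  have h1 : ((∑ b : ZMod p, ‖∑ a : ZMod p, ψ (k * a * b) • y a‖ ^ 2 : ℝ) : ℂ)
      = ((p * ∑ a : ZMod p, ‖y a‖ ^ 2 : ℝ) : ℂ) := by
    have h2 : ∀ v : F, ((‖v‖ ^ 2 : ℝ) : ℂ) = ⟪v, v⟫_ℂ := by
      intro v
      rw [inner_self_eq_norm_sq_to_K]
      push_cast
      rfl
    have h3 : ∀ b : ZMod p, ((‖∑ a : ZMod p, ψ (k * a * b) • y a‖ ^ 2 : ℝ) : ℂ)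
        = ∑ a : ZMod p, ∑ a' : ZMod p, ψ (b * (k * (a' - a))) * ⟪y a, y a'⟫_ℂ := by
      intro b
      rw [h2, sum_inner]
      refine Finset.sum_congr rfl fun a _ => ?_
      rw [inner_sum]
      refine Finset.sum_congr rfl fun a' _ => ?_
      rw [inner_smul_left, inner_smul_right, conj_ψ, ← mul_assoc, ← AddChar.map_add_eq_mul]
      congr 2
      ring
    rw [Complex.ofReal_sum]
    simp only [h3]
    rw [Finset.sum_comm]
    push_cast
    rw [Finset.mul_sum]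
    refine Finset.sum_congr rfl fun a _ => ?_
    rw [Finset.sum_comm, Finset.sum_eq_single a]
    · rw [← Finset.sum_mul, sum_ψ, sub_self, mul_zero, if_pos rfl, inner_self_eq_norm_sq_to_K]
      rfl
    · intro a' _ ha'
      rw [← Finset.sum_mul, sum_ψ, if_neg, zero_mul]
      exact mul_ne_zero hk (sub_ne_zero.mpr ha')
    · simp
  exact_mod_cast h1

/-- the phases -/
def c (a b : ZMod p) : ℂ := ψ (a ^ 2 * b)

theorem norm_c (a b : ZMod p) : ‖c a b‖ = 1 := norm_ψ _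

theorem conj_c_mul_c (a b : ZMod p) : (starRingEnd ℂ) (c a b) * c a b = 1 := by
  rw [← Complex.normSq_eq_conj_mul_self, Complex.normSq_eq_norm_sq, norm_c]
  norm_num

/-- the phase of `û_a* û_{a+h} e_b = phase • e_{b+h}` -/
theorem conj_c_mul_c_shift (a h b : ZMod p) :
    (starRingEnd ℂ) (c a (b + h)) * c (a + h) b
      = ψ (h ^ 2 * b) * (ψ (2 * h * a * b) * ψ (-(a ^ 2 * h))) := by
  unfold c
  rw [conj_ψ, ← AddChar.map_add_eq_mul, ← AddChar.map_add_eq_mul, ← AddChar.map_add_eq_mul]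
  congr 1
  ring

/-- Parseval in the form needed for `Σ_b ‖Σ_a phase(a,h,b) y_a‖²` -/
theorem sum_norm_phase_sq (hp : p ≠ 2) {h : ZMod p} (hh : h ≠ 0) (y : ZMod p → F) :
    ∑ b : ZMod p, ‖∑ a : ZMod p, ((starRingEnd ℂ) (c a (b + h)) * c (a + h) b) • y a‖ ^ 2
      = p * ∑ a : ZMod p, ‖y a‖ ^ 2 := by
  have h2 : (2 : ZMod p) ≠ 0 := by
    intro h0
    have h1 : ((2 : ℕ) : ZMod p) = 0 := by exact_mod_cast h0
    rw [ZMod.natCast_eq_zero_iff] at h1
    exact hp ((Nat.prime_dvd_prime_iff_eq (Fact.out) Nat.prime_two).mp h1)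
  have hk : 2 * h ≠ 0 := mul_ne_zero h2 hh
  have h3 := parseval hk (fun a => ψ (-(a ^ 2 * h)) • y a)
  have h4 : ∑ a : ZMod p, ‖ψ (-(a ^ 2 * h)) • y a‖ ^ 2 = ∑ a : ZMod p, ‖y a‖ ^ 2 := by
    refine Finset.sum_congr rfl fun a _ => ?_
    rw [norm_smul, norm_ψ, one_mul]
  rw [h4] at h3
  rw [← h3]
  refine Finset.sum_congr rfl fun b _ => ?_
  have h5 : ∑ a : ZMod p, ((starRingEnd ℂ) (c a (b + h)) * c (a + h) b) • y a
      = ψ (h ^ 2 * b) • ∑ a : ZMod p, ψ (2 * h * a * b) • ψ (-(a ^ 2 * h)) • y a := by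
    rw [Finset.smul_sum]
    refine Finset.sum_congr rfl fun a _ => ?_
    rw [conj_c_mul_c_shift, smul_smul, smul_smul]
    congr 1
    ring
  rw [h5, norm_smul, norm_ψ, one_mul]

end Crest.Agent.R078.S104Parseval
end
end

-- ▼ part R078/S104Sidon
section

/-!
# R78, S0104, block B1: the Sidon lemma
-/

set_option autoImplicit false

noncomputable section

namespace Crest.Agent.R078.S104.SidonProof

open scoped InnerProductSpace

variable {p : ℕ} [NeZero p] {H : Type} [NormedAddCommGroup H] [InnerProductSpace ℂ H]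
  [CompleteSpace H]

theorem inner_E_E (S : Sys p H) (a b : ZMod p) (x y : H) :
    ⟪S.E a x, S.E b y⟫_ℂ = if a = b then ⟪S.e1 x, y⟫_ℂ else 0 := by
  have h1 : ⟪S.E a x, S.E b y⟫_ℂ = ⟪x, (star (S.E a) * S.E b) y⟫_ℂ := by
    change _ = ⟪x, star (S.E a) (S.E b y)⟫_ℂ
    rw [ContinuousLinearMap.star_eq_adjoint, ContinuousLinearMap.adjoint_inner_right]
  rw [h1, S.star_E_E]
  by_cases h : a = b
  · rw [if_pos h, if_pos h]
    conv_lhs => rw [← S.star_e1]
    rw [ContinuousLinearMap.star_eq_adjoint, ContinuousLinearMap.adjoint_inner_right]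
  · rw [if_neg h, if_neg h]
    simp

theorem norm_e1_le (S : Sys p H) (x : H) : ‖S.e1 x‖ ^ 2 ≤ ‖x‖ ^ 2 := by
  have h1 : ⟪S.e1 x, x⟫_ℂ = ⟪S.e1 x, S.e1 x⟫_ℂ := by
    have h2 : S.e1 x = (star S.e1 * S.e1) x := by rw [S.star_e1, S.e1_e1]
    conv_lhs => rw [h2]
    change ⟪star S.e1 (S.e1 x), x⟫_ℂ = _
    rw [ContinuousLinearMap.star_eq_adjoint, ContinuousLinearMap.adjoint_inner_left]
  have h3 : ‖S.e1 x‖ ^ 2 = RCLike.re ⟪S.e1 x, x⟫_ℂ := by
    rw [h1, inner_self_eq_norm_sq]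
  have h4 : RCLike.re ⟪S.e1 x, x⟫_ℂ ≤ ‖S.e1 x‖ * ‖x‖ := re_inner_le_norm _ _
  have h5 : ‖S.e1 x‖ ^ 2 ≤ ‖S.e1 x‖ * ‖x‖ := h3 ▸ h4
  have h6 : ‖S.e1 x‖ ≤ ‖x‖ := by
    by_cases h0 : ‖S.e1 x‖ = 0
    · rw [h0]; exact norm_nonneg _
    · have h7 : 0 < ‖S.e1 x‖ := lt_of_le_of_ne (norm_nonneg _) (Ne.symm h0)
      rw [sq] at h5
      exact le_of_mul_le_mul_left h5 h7
  exact pow_le_pow_left₀ (norm_nonneg _) h6 2

/-- Pythagoras for `∑_h E (b+h) y_h`, as an inequality -/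
theorem norm_sum_E_le (S : Sys p H) (b : ZMod p) (y : ZMod p → H) :
    ‖∑ h, S.E (b + h) (y h)‖ ^ 2 ≤ ∑ h, ‖y h‖ ^ 2 := by
  have h1 : ‖∑ h, S.E (b + h) (y h)‖ ^ 2 = ∑ h, ‖S.e1 (y h)‖ ^ 2 := by
    have h2 : ((‖∑ h, S.E (b + h) (y h)‖ ^ 2 : ℝ) : ℂ) = ((∑ h, ‖S.e1 (y h)‖ ^ 2 : ℝ) : ℂ) := by
      have h3 : ∀ v : H, ((‖v‖ ^ 2 : ℝ) : ℂ) = ⟪v, v⟫_ℂ := by
        intro v
        rw [inner_self_eq_norm_sq_to_K]
        push_cast
        rfl
      rw [h3, sum_inner, Complex.ofReal_sum]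
      refine Finset.sum_congr rfl fun h _ => ?_
      rw [inner_sum, Finset.sum_eq_single h]
      · rw [inner_E_E, if_pos rfl, h3]
        have h2 : S.e1 (y h) = (star S.e1 * S.e1) (y h) := by rw [S.star_e1, S.e1_e1]
        conv_lhs => rw [h2]
        change ⟪star S.e1 (S.e1 (y h)), y h⟫_ℂ = _
        rw [ContinuousLinearMap.star_eq_adjoint, ContinuousLinearMap.adjoint_inner_left]
      · intro h' _ hh
        rw [inner_E_E, if_neg]
        intro h4
        exact hh (add_left_cancel h4).symm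
      · simp
    exact_mod_cast h2
  rw [h1]
  exact Finset.sum_le_sum fun h _ => norm_e1_le S _

theorem uh_E (S : Sys p H) (a b : ZMod p) : S.uh a * S.E b = c a b • S.E (a + b) := by
  unfold Sys.uh
  rw [Finset.sum_mul, Finset.sum_eq_single b]
  · rw [smul_mul_assoc, mul_assoc, S.star_E_E, if_pos rfl, S.E_e1]
  · intro b' _ hb
    rw [smul_mul_assoc, mul_assoc, S.star_E_E, if_neg hb, mul_zero, smul_zero]
  · simp

theorem star_uh_E (S : Sys p H) (a b : ZMod p) :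
    star (S.uh a) * S.E b = (starRingEnd ℂ) (c a (b - a)) • S.E (b - a) := by
  unfold Sys.uh
  rw [star_sum, Finset.sum_mul, Finset.sum_eq_single (b - a)]
  · rw [star_smul, star_mul, star_star, smul_mul_assoc, mul_assoc, S.star_E_E,
      if_pos (by ring), S.E_e1]
    rfl
  · intro b' _ hb
    rw [star_smul, star_mul, star_star, smul_mul_assoc, mul_assoc, S.star_E_E, if_neg,
      mul_zero, smul_zero]
    intro h
    apply hb
    rw [← h]; ring
  · simp

theorem star_uh_uh_E (S : Sys p H) (a h b : ZMod p) :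
    star (S.uh a) * S.uh (a + h) * S.E b
      = ((starRingEnd ℂ) (c a (b + h)) * c (a + h) b) • S.E (b + h) := by
  rw [mul_assoc, uh_E, mul_smul_comm, star_uh_E, smul_smul]
  have h1 : a + h + b - a = b + h := by ring
  rw [h1, mul_comm]

theorem sum_E_eq (S : Sys p H) (T : ZMod p → ZMod p → (H →L[ℂ] H))
    (hT : ∀ a a' b, Commute (T a a') (S.E b)) (ζ : H) (b : ZMod p) :
    (∑ a, ∑ a', T a a' * (star (S.uh a) * S.uh a')) (S.E b ζ)
      = ∑ h, S.E (b + h) (∑ a, ((starRingEnd ℂ) (c a (b + h)) * c (a + h) b) • T a (a + h) ζ) := by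
  have h1 : (∑ a, ∑ a', T a a' * (star (S.uh a) * S.uh a')) (S.E b ζ)
      = ((∑ a, ∑ a', T a a' * (star (S.uh a) * S.uh a')) * S.E b) ζ := rfl
  rw [h1]
  have h2 : ∀ a : ZMod p, ∑ a', T a a' * (star (S.uh a) * S.uh a')
      = ∑ h, T a (a + h) * (star (S.uh a) * S.uh (a + h)) := by
    intro a
    exact (Equiv.sum_comp (Equiv.addLeft a)
      (fun a' => T a a' * (star (S.uh a) * S.uh a'))).symm
  have h3 : (∑ a, ∑ a', T a a' * (star (S.uh a) * S.uh a')) * S.E b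
      = ∑ h, S.E (b + h) *
        (∑ a, ((starRingEnd ℂ) (c a (b + h)) * c (a + h) b) • T a (a + h)) := by
    rw [Finset.sum_congr rfl (fun a _ => h2 a), Finset.sum_comm, Finset.sum_mul]
    refine Finset.sum_congr rfl fun h _ => ?_
    rw [Finset.sum_mul, Finset.mul_sum]
    refine Finset.sum_congr rfl fun a _ => ?_
    rw [mul_assoc, star_uh_uh_E, mul_smul_comm, mul_smul_comm, (hT _ _ _).eq]
  rw [h3, sum_apply]
  refine Finset.sum_congr rfl fun h _ => ?_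
  change S.E (b + h) ((∑ a, ((starRingEnd ℂ) (c a (b + h)) * c (a + h) b) • T a (a + h)) ζ) = _
  rw [sum_apply]
  rfl

theorem sidon : @Sidon p _ H _ _ _ := by
  intro S hp hp2 T hT ζ
  have : Fact p.Prime := ⟨hp⟩
  have h1 : ∀ b : ZMod p,
      ‖(∑ a, ∑ a', T a a' * (star (S.uh a) * S.uh a')) (S.E b ζ)‖ ^ 2
        ≤ ∑ h, ‖∑ a, ((starRingEnd ℂ) (c a (b + h)) * c (a + h) b) • T a (a + h) ζ‖ ^ 2 := by
    intro b
    rw [sum_E_eq S T hT]
    exact norm_sum_E_le S b _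
  refine (Finset.sum_le_sum fun b _ => h1 b).trans ?_
  rw [Finset.sum_comm]
  have h2 : ∀ h : ZMod p,
      ∑ b, ‖∑ a, ((starRingEnd ℂ) (c a (b + h)) * c (a + h) b) • T a (a + h) ζ‖ ^ 2
        = (if h = 0 then p * ‖(∑ a, T a a) ζ‖ ^ 2 else 0)
          + p * ∑ a, if h = 0 then 0 else ‖T a (a + h) ζ‖ ^ 2 := by
    intro h
    by_cases hh : h = 0
    · subst hh
      simp only [if_true, Finset.sum_const_zero, mul_zero, add_zero]
      have h3 : ∀ a b : ZMod p, (starRingEnd ℂ) (c a b) * c a b = 1 :=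
        fun a b => S104Parseval.conj_c_mul_c a b
      simp only [h3, one_smul, Finset.sum_const, Finset.card_univ, ZMod.card, nsmul_eq_mul]
      rw [sum_apply]
    · simp only [if_neg hh, zero_add]
      exact S104Parseval.sum_norm_phase_sq hp2 hh (fun a => T a (a + h) ζ)
  rw [Finset.sum_congr rfl (fun h _ => h2 h), Finset.sum_add_distrib, Finset.sum_ite_eq',
    if_pos (Finset.mem_univ _), ← Finset.mul_sum]
  refine add_le_add le_rfl (mul_le_mul_of_nonneg_left (le_of_eq ?_) (Nat.cast_nonneg _))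
  rw [Finset.sum_comm]
  refine Finset.sum_congr rfl fun a _ => ?_
  rw [← Equiv.sum_comp (Equiv.addLeft a) (fun a' => if a = a' then (0 : ℝ) else ‖T a a' ζ‖ ^ 2)]
  refine Finset.sum_congr rfl fun h _ => ?_
  have h4 : (Equiv.addLeft a) h = a + h := rfl
  rw [h4]
  by_cases hh : h = 0
  · subst hh
    simp
  · rw [if_neg hh, if_neg]
    intro h5
    exact hh (by simpa using h5.symm)

end Crest.Agent.R078.S104.SidonProof
end
end

-- ▼ part R078/S104Bounds
section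

set_option autoImplicit false
set_option linter.unusedSectionVars false

/-!
# R78, S0104, block B2: row and column bounds
-/

noncomputable section

namespace Crest.Agent.R078.S104.BoundsFile

open scoped InnerProductSpace
open Crest.Agent.R078.S104

section general

variable {ι : Type} [Fintype ι] [DecidableEq ι] {H : Type} [NormedAddCommGroup H]
  [InnerProductSpace ℂ H] [CompleteSpace H]


theorem inner_star_right (T : H →L[ℂ] H) (x y : H) : ⟪x, star T y⟫_ℂ = ⟪T x, y⟫_ℂ := by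
  rw [ContinuousLinearMap.star_eq_adjoint, ContinuousLinearMap.adjoint_inner_right]

theorem norm_sq_eq_re (x : H) : ‖x‖ ^ 2 = (⟪x, x⟫_ℂ).re := by
  rw [inner_self_eq_norm_sq_to_K]
  norm_cast

theorem norm_sum_iso (t : ι → (H →L[ℂ] H))
    (ht : ∀ a b, star (t a) * t b = if a = b then 1 else 0) (ξ : ι → H) :
    ‖∑ a, t a (ξ a)‖ ^ 2 = ∑ a, ‖ξ a‖ ^ 2 := by
  rw [norm_sq_eq_re, sum_inner, Complex.re_sum]
  refine Finset.sum_congr rfl fun a _ => ?_
  rw [inner_sum, Finset.sum_eq_single a]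
  · rw [← inner_star_right, ← ContinuousLinearMap.mul_apply, ht, if_pos rfl, norm_sq_eq_re]
    rfl
  · intro b _ hb
    rw [← inner_star_right, ← ContinuousLinearMap.mul_apply, ht, if_neg (Ne.symm hb)]
    simp
  · intro h
    exact absurd (Finset.mem_univ a) h

theorem sum_norm_star_iso_le (t : ι → (H →L[ℂ] H))
    (ht : ∀ a b, star (t a) * t b = if a = b then 1 else 0) (ζ : H) :
    ∑ a, ‖star (t a) ζ‖ ^ 2 ≤ ‖ζ‖ ^ 2 := by
  set v : H := ∑ a, t a (star (t a) ζ) with hv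
  have h1 : ‖v‖ ^ 2 = ∑ a, ‖star (t a) ζ‖ ^ 2 := norm_sum_iso t ht _
  have h2 : (⟪v, ζ⟫_ℂ).re = ∑ a, ‖star (t a) ζ‖ ^ 2 := by
    rw [hv, sum_inner, Complex.re_sum]
    refine Finset.sum_congr rfl fun a _ => ?_
    rw [← inner_star_right, norm_sq_eq_re]
  have h3 : (⟪v, ζ⟫_ℂ).re ≤ ‖v‖ * ‖ζ‖ := (Complex.re_le_norm _).trans (norm_inner_le_norm _ _)
  rw [h2, ← h1] at h3
  rw [← h1]
  by_cases h : ‖v‖ = 0
  · rw [h, zero_pow two_ne_zero]
    positivity
  · have h4 : 0 < ‖v‖ := lt_of_le_of_ne (norm_nonneg _) (Ne.symm h)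
    have h5 : ‖v‖ ≤ ‖ζ‖ := by nlinarith
    exact pow_le_pow_left₀ (norm_nonneg _) h5 2

end general

variable {p : ℕ} [NeZero p] {H : Type} [NormedAddCommGroup H] [InnerProductSpace ℂ H]
  [CompleteSpace H]

theorem sumStarL : SumStarL (p := p) (H := H) := fun S ζ =>
  sum_norm_star_iso_le S.l S.star_l_l ζ

theorem normSumM : NormSumM (p := p) (H := H) := fun S ξ => norm_sum_iso S.m S.star_m_m ξ

theorem norm_star_l_le (S : Sys p H) (a : ZMod p) (ζ : H) : ‖star (S.l a) ζ‖ ≤ ‖ζ‖ := by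
  have h1 := sumStarL S ζ
  have h2 : ‖star (S.l a) ζ‖ ^ 2 ≤ ∑ a, ‖star (S.l a) ζ‖ ^ 2 :=
    Finset.single_le_sum (f := fun a => ‖star (S.l a) ζ‖ ^ 2) (fun _ _ => by positivity)
      (Finset.mem_univ a)
  exact le_of_sq_le_sq (h2.trans h1) (norm_nonneg _)

theorem normSumStarL : NormSumStarL (p := p) (H := H) := by
  intro S ξ
  have h1 : ‖∑ a, star (S.l a) (ξ a)‖ ≤ ∑ a, ‖ξ a‖ :=
    (norm_sum_le _ _).trans (Finset.sum_le_sum fun a _ => norm_star_l_le S a _)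
  have h2 : (∑ a, ‖ξ a‖) ^ 2 ≤ p * ∑ a, ‖ξ a‖ ^ 2 := by
    have := sq_sum_le_card_mul_sum_sq (s := (Finset.univ : Finset (ZMod p)))
      (f := fun i => ‖ξ i‖)
    rwa [Finset.card_univ, ZMod.card] at this
  exact (pow_le_pow_left₀ (norm_nonneg _) h1 2).trans h2

theorem X_eq (S : Sys p H) {x : H →L[ℂ] H} (hx : S.Good x) (a : ZMod p) :
    S.X x a = star (S.l a) * x - x * star (S.l a) := by
  have h := (hx.s a).eq
  unfold Sys.s at h
  rw [mul_add, add_mul] at h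
  unfold Sys.X
  rw [sub_eq_sub_iff_add_eq_add, h, add_comm]

theorem starLX : StarLX (p := p) (H := H) := by
  intro S x hx a a'
  rw [X_eq S hx a]
  unfold Sys.X
  rw [mul_sub, sub_mul, ← mul_assoc (star (S.l a)) (S.l a') x, mul_assoc x, S.star_l_l]
  split_ifs
  · rw [one_mul, mul_one, mul_assoc]
  · rw [zero_mul, mul_zero, mul_assoc]

theorem norm_sub_sq_le (u v : H) : ‖u - v‖ ^ 2 ≤ 2 * ‖u‖ ^ 2 + 2 * ‖v‖ ^ 2 := by
  have h : ‖u - v‖ ≤ ‖u‖ + ‖v‖ := norm_sub_le _ _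
  have h2 : ‖u - v‖ ^ 2 ≤ (‖u‖ + ‖v‖) ^ 2 := by gcongr
  nlinarith [sq_nonneg (‖u‖ - ‖v‖)]

theorem sum_comm_le (S : Sys p H) (y : H →L[ℂ] H) (hy : ‖y‖ ≤ 1) (ζ : H) :
    ∑ a, ‖(star (S.l a) * y - y * star (S.l a)) ζ‖ ^ 2 ≤ 4 * ‖ζ‖ ^ 2 := by
  have hyv : ∀ v : H, ‖y v‖ ≤ ‖v‖ := fun v =>
    (y.le_opNorm v).trans (by nlinarith [norm_nonneg v])
  have h1 : ∀ a, ‖(star (S.l a) * y - y * star (S.l a)) ζ‖ ^ 2 ≤
      2 * ‖star (S.l a) (y ζ)‖ ^ 2 + 2 * ‖star (S.l a) ζ‖ ^ 2 := by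
    intro a
    have e : (star (S.l a) * y - y * star (S.l a)) ζ =
        star (S.l a) (y ζ) - y (star (S.l a) ζ) := rfl
    rw [e]
    refine (norm_sub_sq_le _ _).trans ?_
    have := pow_le_pow_left₀ (norm_nonneg _) (hyv (star (S.l a) ζ)) 2
    linarith
  have h2 := sumStarL S (y ζ)
  have h3 := sumStarL S ζ
  have h4 := pow_le_pow_left₀ (norm_nonneg _) (hyv ζ) 2
  calc ∑ a, ‖(star (S.l a) * y - y * star (S.l a)) ζ‖ ^ 2
      ≤ ∑ a, (2 * ‖star (S.l a) (y ζ)‖ ^ 2 + 2 * ‖star (S.l a) ζ‖ ^ 2) :=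
        Finset.sum_le_sum fun a _ => h1 a
    _ = 2 * ∑ a, ‖star (S.l a) (y ζ)‖ ^ 2 + 2 * ∑ a, ‖star (S.l a) ζ‖ ^ 2 := by
        rw [Finset.sum_add_distrib, Finset.mul_sum, Finset.mul_sum]
    _ ≤ 4 * ‖ζ‖ ^ 2 := by linarith

theorem sumX : SumX (p := p) (H := H) := by
  intro S x hx hx1 ζ
  have h := sum_comm_le S x hx1 ζ
  simp only [← X_eq S hx] at h
  exact h

theorem sumXstar : SumXstar (p := p) (H := H) := by
  intro S x hx hx1 ζ
  have h := sum_comm_le S (star x) (by rw [norm_star]; exact hx1) ζ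
  have e : ∀ a, star (S.X x a) = star (S.l a) * star x - star x * star (S.l a) := by
    intro a
    unfold Sys.X
    rw [star_sub, star_mul, star_mul]
  simp only [e]
  exact h

end Crest.Agent.R078.S104.BoundsFile
end
end

-- ▼ part R078/S104Detect

/-!
# R78, S0104: block F, the detection argument (part (4) of post #3287)
-/

set_option autoImplicit false

noncomputable section

namespace Crest.Agent.R078.S104.DetectF

open scoped InnerProductSpace

variable {p : ℕ} [NeZero p] {H : Type} [NormedAddCommGroup H] [InnerProductSpace ℂ H]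
  [CompleteSpace H]

/-! ### generalities -/

lemma star_left (T : H →L[ℂ] H) (x y : H) : ⟪star T x, y⟫_ℂ = ⟪x, T y⟫_ℂ := by
  rw [ContinuousLinearMap.star_eq_adjoint, ContinuousLinearMap.adjoint_inner_left]

lemma star_right (T : H →L[ℂ] H) (x y : H) : ⟪x, star T y⟫_ℂ = ⟪T x, y⟫_ℂ := by
  rw [ContinuousLinearMap.star_eq_adjoint, ContinuousLinearMap.adjoint_inner_right]

omit [CompleteSpace H] in
lemma comm_apply {A B : H →L[ℂ] H} (h : Commute A B) (x : H) : A (B x) = B (A x) := by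
  have := congrArg (fun T : H →L[ℂ] H => T x) h.eq
  simpa using this

omit [CompleteSpace H] in
lemma mul_ap (A B : H →L[ℂ] H) (x : H) : (A * B) x = A (B x) := rfl

lemma norm_unitary {u : H →L[ℂ] H} (hu : u ∈ unitary (H →L[ℂ] H)) (x : H) : ‖u x‖ = ‖x‖ := by
  have h1 : star u * u = 1 := (Unitary.mem_iff.mp hu).1
  have h2 : ⟪u x, u x⟫_ℂ = ⟪x, x⟫_ℂ := by
    rw [← star_left, ← mul_ap, h1]; rfl
  have h3 : ‖u x‖ ^ 2 = ‖x‖ ^ 2 := by
    rw [inner_self_eq_norm_sq_to_K, inner_self_eq_norm_sq_to_K] at h2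
    exact_mod_cast h2
  exact (sq_eq_sq₀ (norm_nonneg _) (norm_nonneg _)).mp h3

lemma norm_c (a b : ZMod p) : ‖c a b‖ = 1 := by
  unfold c
  exact AddChar.norm_apply _ _

variable (S : Sys p H)

lemma star_E_e1 (k : ZMod p) : star (S.E k) * S.e1 = 0 := by
  have := congrArg star (S.e1_E k)
  rwa [star_mul, S.star_e1, star_zero] at this

lemma star_E_v0 (k : ZMod p) : star (S.E k) S.v0 = 0 := by
  have := congrArg (fun T : H →L[ℂ] H => T S.v0) (star_E_e1 S k)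
  simpa [mul_ap, S.e1_v0] using this

lemma E_E (j k : ZMod p) : S.E j * S.E k = 0 := by
  rw [← S.E_e1 j, mul_assoc, S.e1_E, mul_zero]

lemma inner_E (j k : ZMod p) (x y : H) :
    ⟪S.E j x, S.E k y⟫_ℂ = if j = k then ⟪x, S.e1 y⟫_ℂ else 0 := by
  rw [← star_right, ← mul_ap, S.star_E_E]
  split_ifs with h
  · rfl
  · simp

lemma comm_star {A B : H →L[ℂ] H} (h : Commute A (star B)) : Commute (star A) B := by
  have := h.star_star
  rwa [star_star] at this

lemma comm_star' {A B : H →L[ℂ] H} (h : Commute A B) : Commute (star A) (star B) :=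
  h.star_star

lemma e1_eq : S.e1 = star (S.E 0) * S.E 0 := by
  rw [S.star_E_E]; simp

lemma comm_e1 {A : H →L[ℂ] H} (h : ∀ b, Commute A (S.E b)) (h' : ∀ b, Commute A (star (S.E b))) :
    Commute A S.e1 := by
  rw [e1_eq]
  exact (h' 0).mul_right (h 0)

lemma comm_uh {A : H →L[ℂ] H} (h : ∀ b, Commute A (S.E b)) (h' : ∀ b, Commute A (star (S.E b)))
    (a : ZMod p) : Commute A (S.uh a) := by
  unfold Sys.uh
  refine Commute.sum_right _ _ _ fun b _ => ?_
  exact (((h (a + b)).mul_right (h' b))).smul_right _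

lemma comm_t_e1 (b : ZMod p) : Commute (S.t b) S.e1 :=
  comm_e1 S (S.comm_t_E b) (S.comm_t_E' b)

lemma comm_d_E (a b : ZMod p) : Commute (S.d a) (S.E b) :=
  (S.comm_r_E a b).add_left (comm_star (S.comm_r_E' a b))

lemma comm_d_E' (a b : ZMod p) : Commute (S.d a) (star (S.E b)) :=
  (S.comm_r_E' a b).add_left (comm_star' (S.comm_r_E a b))

lemma uh_mul_E (a b : ZMod p) : S.uh a * S.E b = c a b • S.E (a + b) := by
  unfold Sys.uh
  rw [Finset.sum_mul, Finset.sum_eq_single b]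
  · rw [smul_mul_assoc, mul_assoc, S.star_E_E, if_pos rfl, S.E_e1]
  · intro k _ hk
    rw [smul_mul_assoc, mul_assoc, S.star_E_E, if_neg hk, mul_zero, smul_zero]
  · intro h; exact absurd (Finset.mem_univ _) h


lemma e1_mul_uh (a : ZMod p) : S.e1 * S.uh a = 0 := by
  unfold Sys.uh
  rw [Finset.mul_sum]
  refine Finset.sum_eq_zero fun b _ => ?_
  rw [mul_smul_comm, ← mul_assoc, S.e1_E, zero_mul, smul_zero]

lemma comm_l_e1 (a : ZMod p) : Commute (S.l a) S.e1 :=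
  comm_e1 S (S.comm_l_E a) (S.comm_l_E' a)


lemma e1_J : S.e1 * S.J = 0 := by
  unfold Sys.J
  rw [mul_smul_comm, Finset.mul_sum, Finset.sum_eq_zero, smul_zero]
  intro a _
  rw [← mul_assoc, ← (comm_l_e1 S a).eq, mul_assoc, e1_mul_uh, mul_zero]

lemma starJ_e1 : star S.J * S.e1 = 0 := by
  have := congrArg star (e1_J S)
  rwa [star_mul, S.star_e1, star_zero] at this

/-- `J^*` kills everything on level 1 -/
lemma starJ_apply {ζ : H} (h : S.e1 ζ = ζ) : star S.J ζ = 0 := by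
  have := congrArg (fun T : H →L[ℂ] H => T ζ) (starJ_e1 S)
  simpa [mul_ap, h] using this

lemma e1_t_v0 (b : ZMod p) : S.e1 (S.t b S.v0) = S.t b S.v0 := by
  rw [← comm_apply (comm_t_e1 S b), S.e1_v0]

lemma proj_zero {ζ : H} (h : S.e1 ζ = ζ) : (1 - S.e1 - S.f) ζ = 0 := by
  simp [Sys.f, h, starJ_apply S h]

lemma comm_mstar_E (a b : ZMod p) : Commute (star (S.m a)) (S.E b) := comm_star (S.comm_m_E' a b)

lemma B_v0 : S.B S.v0 = 0 := by
  unfold Sys.B
  rw [sum_apply]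
  refine Finset.sum_eq_zero fun b _ => ?_
  rw [mul_ap, comm_apply (comm_mstar_E S b b), S.star_m_v0, map_zero]

lemma B_t_v0 (b : ZMod p) : S.B (S.t b S.v0) = S.E b S.v0 := by
  unfold Sys.B
  rw [sum_apply, Finset.sum_eq_single b]
  · rw [mul_ap, comm_apply (comm_mstar_E S b b), S.star_m_t_v0, if_pos rfl]
  · intro k _ hk
    rw [mul_ap, comm_apply (comm_mstar_E S k k), S.star_m_t_v0, if_neg hk, map_zero]
  · intro h; exact absurd (Finset.mem_univ _) h

lemma B_E (k : ZMod p) : S.B * S.E k = 0 := by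
  unfold Sys.B
  rw [Finset.sum_mul]
  refine Finset.sum_eq_zero fun b _ => ?_
  rw [mul_assoc, E_E, mul_zero]

/-- `[d_a, J] = p^{-1/2} P û_a` -/
lemma comm_d_J (a : ZMod p) : S.d a * S.J - S.J * S.d a =
    (((Real.sqrt p)⁻¹ : ℝ) : ℂ) • (S.P * S.uh a) := by
  unfold Sys.J
  rw [mul_smul_comm, smul_mul_assoc, ← smul_sub, Finset.mul_sum, Finset.sum_mul,
    ← Finset.sum_sub_distrib]
  congr 1
  rw [Finset.sum_eq_single a]
  · have h := S.d_l a a
    rw [if_pos rfl] at h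
    have h2 : Commute (S.d a) (S.uh a) := comm_uh S (comm_d_E S a) (comm_d_E' S a) a
    rw [mul_assoc (S.l a), ← h2.eq, ← mul_assoc, ← mul_assoc, ← sub_mul, ← h]
    rfl
  · intro k _ hk
    have h := S.d_l a k
    rw [if_neg (Ne.symm hk)] at h
    have h2 : Commute (S.d a) (S.uh k) := comm_uh S (comm_d_E S a) (comm_d_E' S a) k
    rw [mul_assoc (S.l k), ← h2.eq, ← mul_assoc, ← mul_assoc, ← sub_mul]
    have h3 : S.d a * S.l k - S.l k * S.d a = 0 := h
    rw [h3, zero_mul]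
  · intro h; exact absurd (Finset.mem_univ _) h

lemma comm_d_J_apply (a b : ZMod p) : (S.d a * S.J - S.J * S.d a) (S.E b S.v0) =
    ((((Real.sqrt p)⁻¹ : ℝ) : ℂ) * c a b) • S.E (a + b) S.v0 := by
  rw [comm_d_J, smul_apply, mul_ap, ← mul_ap (S.uh a), uh_mul_E,
    smul_apply, map_smul, smul_smul, comm_apply (S.comm_P_E _), S.P_v0]

lemma starJ_E_v0 (k : ZMod p) : star S.J (S.E k S.v0) = 0 := by
  unfold Sys.J
  rw [star_smul, star_sum, smul_apply, sum_apply,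
    Finset.sum_eq_zero, smul_zero]
  intro a _
  rw [star_mul, mul_ap, comm_apply (comm_star (S.comm_l_E' a k))]
  have h : star (S.l a) S.v0 = 0 := by
    have := congrArg (fun T : H →L[ℂ] H => T S.v0) (S.star_l_P a)
    simpa [mul_ap, S.P_v0] using this
  rw [h, map_zero, map_zero]

lemma e1_E_v0 (k : ZMod p) : S.e1 (S.E k S.v0) = 0 := by
  rw [← mul_ap, S.e1_E]; rfl

lemma proj_E_v0 (k : ZMod p) : (1 - S.e1 - S.f) (S.E k S.v0) = S.E k S.v0 := by
  simp [Sys.f, starJ_E_v0, e1_E_v0]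

/-- `x̂_a = U d_a U^*` -/
def xh (a : ZMod p) : H →L[ℂ] H := S.U * S.d a * star S.U

section withConj

variable (hC : ConjU (p := p) (H := H)) (hG : GoodD (p := p) (H := H))

include hC hG

lemma xh_level1 (a : ZMod p) {ζ : H} (h : S.e1 ζ = ζ) : xh S a ζ = S.d a ζ
    - (1 - S.e1 - S.f) ((S.d a * S.J - S.J * S.d a) (S.B ζ))
    + star S.B (S.C (S.d a) (S.B ζ)) := by
  unfold xh
  rw [hC S (S.d a) (hG S a)]
  generalize hD : S.d a * S.J - S.J * S.d a = D
  generalize hD' : S.d a * star S.J - star S.J * S.d a = D'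
  generalize hQ : 1 - S.e1 - S.f = Q
  have h1 : Q ζ = 0 := by rw [← hQ]; exact proj_zero S h
  have h2 : star S.J ζ = 0 := starJ_apply S h
  simp only [add_apply, sub_apply, mul_ap, h1, h2, map_zero, add_zero, sub_zero]

lemma xh_v0 (a : ZMod p) : xh S a S.v0 = S.d a S.v0 := by
  rw [xh_level1 S hC hG a S.e1_v0, B_v0]
  simp

omit hC hG in
lemma inner_E_d_t (a b k : ZMod p) : ⟪S.E k S.v0, S.d a (S.t b S.v0)⟫_ℂ = 0 := by
  rw [← star_right, ← comm_apply (comm_d_E' S a k), ← comm_apply (S.comm_t_E' b k), star_E_v0,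
    map_zero, map_zero, inner_zero_right]

omit hC hG in
lemma inner_E_starB (k : ZMod p) (y : H) : ⟪S.E k S.v0, star S.B y⟫_ℂ = 0 := by
  rw [star_right, ← mul_ap, B_E]
  simp

omit hC hG in
lemma inner_v0 : ⟪S.v0, S.v0⟫_ℂ = 1 := by
  rw [inner_self_eq_norm_sq_to_K, S.norm_v0]; simp

lemma inner_xh_t (a b : ZMod p) : ⟪S.E (a + b) S.v0, xh S a (S.t b S.v0)⟫_ℂ =
    -((((Real.sqrt p)⁻¹ : ℝ) : ℂ) * c a b) := by
  rw [xh_level1 S hC hG a (e1_t_v0 S b), B_t_v0, comm_d_J_apply, map_smul, proj_E_v0,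
    inner_add_right, inner_sub_right, inner_E_d_t, inner_E_starB, inner_smul_right, inner_E,
    if_pos rfl, S.e1_v0, inner_v0]
  simp

end withConj

lemma d'_v0 (b : ZMod p) : S.d' b S.v0 = S.t b S.v0 := by
  unfold Sys.d'
  rw [add_apply, S.star_t_v0, add_zero]

lemma comm_d'_E (a b : ZMod p) : Commute (S.d' a) (S.E b) :=
  (S.comm_t_E a b).add_left (comm_star (S.comm_t_E' a b))

lemma comm_d'_E' (a b : ZMod p) : Commute (S.d' a) (star (S.E b)) :=
  (S.comm_t_E' a b).add_left (comm_star' (S.comm_t_E a b))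

lemma star_d' (b : ZMod p) : star (S.d' b) = S.d' b := by
  unfold Sys.d'
  rw [star_add, star_star, add_comm]

lemma inner_E_d'_d (a b k : ZMod p) : ⟪S.E k S.v0, S.d' b (S.d a S.v0)⟫_ℂ = 0 := by
  rw [← star_right, ← comm_apply (comm_d'_E' S b k), ← comm_apply (comm_d_E' S a k), star_E_v0,
    map_zero, map_zero, inner_zero_right]

/-! ### norms -/

lemma norm_sum_r (y : ZMod p → H) : ‖∑ a, S.r a (y a)‖ ^ 2 = ∑ a, ‖y a‖ ^ 2 := by
  have h : ⟪∑ a, S.r a (y a), ∑ a, S.r a (y a)⟫_ℂ = ∑ a, ⟪y a, y a⟫_ℂ := by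
    rw [sum_inner]
    refine Finset.sum_congr rfl fun a _ => ?_
    rw [inner_sum, Finset.sum_eq_single a]
    · rw [← star_right, ← mul_ap, S.star_r_r, if_pos rfl]; rfl
    · intro k _ hk
      rw [← star_right, ← mul_ap, S.star_r_r, if_neg (Ne.symm hk)]; simp
    · intro h; exact absurd (Finset.mem_univ _) h
  simp only [inner_self_eq_norm_sq_to_K] at h
  exact_mod_cast h

lemma norm_r (a : ZMod p) (y : H) : ‖S.r a y‖ = ‖y‖ := by
  have h2 : ⟪S.r a y, S.r a y⟫_ℂ = ⟪y, y⟫_ℂ := by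
    rw [← star_right, ← mul_ap, S.star_r_r, if_pos rfl]; rfl
  have h3 : ‖S.r a y‖ ^ 2 = ‖y‖ ^ 2 := by
    rw [inner_self_eq_norm_sq_to_K, inner_self_eq_norm_sq_to_K] at h2
    exact_mod_cast h2
  exact (sq_eq_sq₀ (norm_nonneg _) (norm_nonneg _)).mp h3

lemma norm_star_r (a : ZMod p) (y : H) : ‖star (S.r a) y‖ ≤ ‖y‖ := by
  have h1 : ‖S.r a‖ ≤ 1 := ContinuousLinearMap.opNorm_le_bound _ zero_le_one fun y => by
    rw [norm_r, one_mul]
  have h2 : ‖star (S.r a)‖ ≤ 1 := by rwa [norm_star]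
  calc _ ≤ ‖star (S.r a)‖ * ‖y‖ := ContinuousLinearMap.le_opNorm _ _
    _ ≤ 1 * ‖y‖ := by gcongr
    _ = _ := one_mul _

lemma norm_d (a : ZMod p) (y : H) : ‖S.d a y‖ ≤ 2 * ‖y‖ := by
  unfold Sys.d
  rw [add_apply]
  calc _ ≤ ‖S.r a y‖ + ‖star (S.r a) y‖ := norm_add_le _ _
    _ ≤ ‖y‖ + ‖y‖ := add_le_add (norm_r S a y).le (norm_star_r S a y)
    _ = _ := by ring

lemma norm_xh (hU : S.U ∈ unitary (H →L[ℂ] H)) (a : ZMod p) (y : H) : ‖xh S a y‖ ≤ 2 * ‖y‖ := by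
  unfold xh
  rw [mul_ap, mul_ap, norm_unitary hU]
  calc _ ≤ 2 * ‖star S.U y‖ := norm_d _ _ _
    _ = _ := by rw [norm_unitary (Unitary.star_mem hU)]

omit [InnerProductSpace ℂ H] [CompleteSpace H] in
lemma sum_norm_mul_le (z g : ZMod p → H) (N : ℝ) (hN : 0 ≤ N) (hg : ∀ b, ‖g b‖ ≤ N) :
    ∑ b, ‖z b‖ * ‖g b‖ ≤ Real.sqrt p * N * Real.sqrt (∑ b, ‖z b‖ ^ 2) := by
  have h1 : (∑ b, ‖z b‖) ^ 2 ≤ p * ∑ b, ‖z b‖ ^ 2 := by
    have := sq_sum_le_card_mul_sum_sq (s := (Finset.univ : Finset (ZMod p))) (f := fun b => ‖z b‖)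
    rwa [Finset.card_univ, ZMod.card] at this
  have h2 : ∑ b, ‖z b‖ ≤ Real.sqrt p * Real.sqrt (∑ b, ‖z b‖ ^ 2) := by
    rw [← Real.sqrt_mul (Nat.cast_nonneg p)]
    exact Real.le_sqrt_of_sq_le h1
  calc ∑ b, ‖z b‖ * ‖g b‖ ≤ ∑ b, ‖z b‖ * N := by
        refine Finset.sum_le_sum fun b _ => ?_
        exact mul_le_mul_of_nonneg_left (hg b) (norm_nonneg _)
    _ = (∑ b, ‖z b‖) * N := by rw [Finset.sum_mul]
    _ ≤ (Real.sqrt p * Real.sqrt (∑ b, ‖z b‖ ^ 2)) * N := by gcongr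
    _ = _ := by ring

/-- the form `β(v,w) = ∑ conj c(a,b) ⟨x̂_a v_b, w_{a+b}⟩` -/
def beta (v w : ZMod p → H) : ℂ :=
  ∑ a, ∑ b, (starRingEnd ℂ (c a b)) * ⟪w (a + b), xh S a (v b)⟫_ℂ

lemma beta_sub (v w v' w' : ZMod p → H) :
    beta S v w - beta S v' w' = beta S (fun b => v b - v' b) w + beta S v' (fun b => w b - w' b) := by
  unfold beta
  rw [← Finset.sum_sub_distrib, ← Finset.sum_add_distrib]
  refine Finset.sum_congr rfl fun a _ => ?_
  rw [← Finset.sum_sub_distrib, ← Finset.sum_add_distrib]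
  refine Finset.sum_congr rfl fun b _ => ?_
  rw [map_sub, inner_sub_right, inner_sub_left]
  ring

lemma beta_bound (hU : S.U ∈ unitary (H →L[ℂ] H)) (v w : ZMod p → H) :
    ‖beta S v w‖ ≤ 2 * Real.sqrt p * Real.sqrt (∑ b, ‖v b‖ ^ 2) * Real.sqrt (∑ b, ‖w b‖ ^ 2) := by
  set v' : ZMod p → H := fun b => star S.U (v b) with hv'
  set w' : ZMod p → H := fun b => star S.U (w b) with hw'
  have hvn : ∀ b, ‖v' b‖ = ‖v b‖ := fun b => norm_unitary (Unitary.star_mem hU) _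
  have hwn : ∀ b, ‖w' b‖ = ‖w b‖ := fun b => norm_unitary (Unitary.star_mem hU) _
  have hsv : ∑ b, ‖v' b‖ ^ 2 = ∑ b, ‖v b‖ ^ 2 := Finset.sum_congr rfl fun b _ => by rw [hvn]
  have hsw : ∑ b, ‖w' b‖ ^ 2 = ∑ b, ‖w b‖ ^ 2 := Finset.sum_congr rfl fun b _ => by rw [hwn]
  -- splitting
  have hsplit : beta S v w =
      ∑ k, ⟪w' k, ∑ a, S.r a (starRingEnd ℂ (c a (k - a)) • v' (k - a))⟫_ℂ +
      ∑ b, ⟪∑ a, S.r a (c a b • w' (a + b)), v' b⟫_ℂ := by
    have h1 : beta S v w = ∑ a, ∑ b, (starRingEnd ℂ (c a b)) * ⟪w' (a + b), S.r a (v' b)⟫_ℂ +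
        ∑ a, ∑ b, (starRingEnd ℂ (c a b)) * ⟪S.r a (w' (a + b)), v' b⟫_ℂ := by
      unfold beta
      rw [← Finset.sum_add_distrib]
      refine Finset.sum_congr rfl fun a _ => ?_
      rw [← Finset.sum_add_distrib]
      refine Finset.sum_congr rfl fun b _ => ?_
      rw [← mul_add]
      congr 1
      unfold xh
      rw [mul_ap, mul_ap, ← star_left, ← star_right (S.r a), ← inner_add_right]
      rfl
    rw [h1]
    congr 1
    · have h2 : ∀ a, ∑ b, (starRingEnd ℂ (c a b)) * ⟪w' (a + b), S.r a (v' b)⟫_ℂ =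
          ∑ k, (starRingEnd ℂ (c a (k - a))) * ⟪w' k, S.r a (v' (k - a))⟫_ℂ := by
        intro a
        rw [← (Equiv.subRight a).sum_comp]
        refine Finset.sum_congr rfl fun k _ => ?_
        simp
      rw [Finset.sum_congr rfl fun a _ => h2 a, Finset.sum_comm]
      refine Finset.sum_congr rfl fun k _ => ?_
      rw [inner_sum]
      refine Finset.sum_congr rfl fun a _ => ?_
      rw [map_smul, inner_smul_right]
    · rw [Finset.sum_comm]
      refine Finset.sum_congr rfl fun b _ => ?_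
      rw [sum_inner]
      refine Finset.sum_congr rfl fun a _ => ?_
      rw [map_smul, inner_smul_left]
  have hA : ∀ k, ‖∑ a, S.r a (starRingEnd ℂ (c a (k - a)) • v' (k - a))‖ ≤
      Real.sqrt (∑ b, ‖v b‖ ^ 2) := by
    intro k
    refine Real.le_sqrt_of_sq_le (le_of_eq ?_)
    rw [norm_sum_r, ← hsv, ← (Equiv.subLeft k).sum_comp (fun b => ‖v' b‖ ^ 2)]
    refine Finset.sum_congr rfl fun a _ => ?_
    rw [norm_smul, RCLike.norm_conj, norm_c, one_mul]
    rfl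
  have hB : ∀ b, ‖∑ a, S.r a (c a b • w' (a + b))‖ ≤ Real.sqrt (∑ b, ‖w b‖ ^ 2) := by
    intro b
    refine Real.le_sqrt_of_sq_le (le_of_eq ?_)
    rw [norm_sum_r, ← hsw, ← Equiv.sum_comp (Equiv.addRight b) (fun b => ‖w' b‖ ^ 2)]
    refine Finset.sum_congr rfl fun a _ => ?_
    rw [norm_smul, norm_c, one_mul]
    rfl
  rw [hsplit]
  calc _ ≤ ‖∑ k, ⟪w' k, ∑ a, S.r a (starRingEnd ℂ (c a (k - a)) • v' (k - a))⟫_ℂ‖ +
        ‖∑ b, ⟪∑ a, S.r a (c a b • w' (a + b)), v' b⟫_ℂ‖ := norm_add_le _ _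
    _ ≤ (∑ k, ‖w' k‖ * ‖∑ a, S.r a (starRingEnd ℂ (c a (k - a)) • v' (k - a))‖) +
        ∑ b, ‖v' b‖ * ‖∑ a, S.r a (c a b • w' (a + b))‖ := by
        refine add_le_add ?_ ?_
        · refine (norm_sum_le _ _).trans (Finset.sum_le_sum fun k _ => norm_inner_le_norm _ _)
        · refine (norm_sum_le _ _).trans (Finset.sum_le_sum fun k _ => ?_)
          rw [mul_comm]
          exact norm_inner_le_norm _ _
    _ ≤ Real.sqrt p * Real.sqrt (∑ b, ‖v b‖ ^ 2) * Real.sqrt (∑ b, ‖w' b‖ ^ 2) +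
        Real.sqrt p * Real.sqrt (∑ b, ‖w b‖ ^ 2) * Real.sqrt (∑ b, ‖v' b‖ ^ 2) :=
        add_le_add (sum_norm_mul_le _ _ _ (Real.sqrt_nonneg _) hA)
          (sum_norm_mul_le _ _ _ (Real.sqrt_nonneg _) hB)
    _ = _ := by rw [hsv, hsw]; ring

lemma norm_t (a : ZMod p) (y : H) : ‖S.t a y‖ = ‖y‖ := by
  have h2 : ⟪S.t a y, S.t a y⟫_ℂ = ⟪y, y⟫_ℂ := by
    rw [← star_right, ← mul_ap, S.star_t_t, if_pos rfl]; rfl
  have h3 : ‖S.t a y‖ ^ 2 = ‖y‖ ^ 2 := by
    rw [inner_self_eq_norm_sq_to_K, inner_self_eq_norm_sq_to_K] at h2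
    exact_mod_cast h2
  exact (sq_eq_sq₀ (norm_nonneg _) (norm_nonneg _)).mp h3

lemma norm_E_v0 (k : ZMod p) : ‖S.E k S.v0‖ = 1 := by
  have h2 : ⟪S.E k S.v0, S.E k S.v0⟫_ℂ = 1 := by
    rw [inner_E, if_pos rfl, S.e1_v0, inner_v0]
  rw [inner_self_eq_norm_sq_to_K] at h2
  have h3 : ‖S.E k S.v0‖ ^ 2 = 1 := by
    have h4 : ((‖S.E k S.v0‖ ^ 2 : ℝ) : ℂ) = ((1 : ℝ) : ℂ) := by push_cast; exact h2
    exact Complex.ofReal_injective h4
  nlinarith [norm_nonneg (S.E k S.v0)]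

/-- `γ_a = ∑_b c(a,b) d'_b η_{a+b}` has norm `√p` -/
lemma norm_gamma (a : ZMod p) :
    ‖∑ b, c a b • S.d' b (S.E (a + b) S.v0)‖ = Real.sqrt p := by
  have h0 : ∀ b, c a b • S.d' b (S.E (a + b) S.v0) = c a b • S.E (a + b) (S.t b S.v0) := by
    intro b
    rw [comm_apply (comm_d'_E S b (a + b)), d'_v0]
  rw [Finset.sum_congr rfl fun b _ => h0 b]
  have h : ⟪∑ b, c a b • S.E (a + b) (S.t b S.v0), ∑ b, c a b • S.E (a + b) (S.t b S.v0)⟫_ℂ =
      (p : ℂ) := by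
    rw [sum_inner]
    have h1 : ∀ b, ⟪c a b • S.E (a + b) (S.t b S.v0),
        ∑ b, c a b • S.E (a + b) (S.t b S.v0)⟫_ℂ = 1 := by
      intro b
      rw [inner_sum, Finset.sum_eq_single b]
      · rw [inner_smul_left, inner_smul_right, inner_E, if_pos rfl, e1_t_v0,
          inner_self_eq_norm_sq_to_K, norm_t, S.norm_v0]
        have : starRingEnd ℂ (c a b) * c a b = 1 := by
          rw [← Complex.normSq_eq_conj_mul_self, Complex.normSq_eq_norm_sq, norm_c]; simp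
        simp [this]
      · intro k _ hk
        rw [inner_smul_left, inner_smul_right, inner_E, if_neg]
        · simp
        · intro h
          exact hk (add_left_cancel h).symm
      · intro h; exact absurd (Finset.mem_univ _) h
    rw [Finset.sum_congr rfl fun b _ => h1 b]
    simp
  rw [inner_self_eq_norm_sq_to_K] at h
  have h3 : ‖∑ b, c a b • S.E (a + b) (S.t b S.v0)‖ ^ 2 = (p : ℝ) := by
    have h4 : ((‖∑ b, c a b • S.E (a + b) (S.t b S.v0)‖ ^ 2 : ℝ) : ℂ) = ((p : ℝ) : ℂ) := by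
      push_cast; exact h
    exact Complex.ofReal_injective h4
  rw [← h3, Real.sqrt_sq (norm_nonneg _)]

/-! ### the detection inequality -/

theorem detect (hC : ConjU (p := p) (H := H)) (hG : GoodD (p := p) (H := H))
    (hUU : UUnitary (p := p) (H := H)) : Detect (p := p) (H := H) := by
  intro S u hu hcomm
  have hU := hUU S
  set ε := ‖u - 1‖ with hε
  have hε0 : 0 ≤ ε := norm_nonneg _
  have hp : (0 : ℝ) < p := by exact_mod_cast Nat.pos_of_ne_zero (NeZero.ne p)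
  have hsq : Real.sqrt p * Real.sqrt p = p := Real.mul_self_sqrt hp.le
  have hsp : 0 < Real.sqrt p := Real.sqrt_pos.mpr hp
  set ζ : ZMod p → H := fun b => S.t b S.v0 with hζ
  set η : ZMod p → H := fun k => S.E k S.v0 with hη
  -- `β(ζ,η) = -p^{3/2}`
  have hβ : beta S ζ η = -(((Real.sqrt p * p : ℝ)) : ℂ) := by
    unfold beta
    have h1 : ∀ a b, (starRingEnd ℂ (c a b)) * ⟪η (a + b), xh S a (ζ b)⟫_ℂ =
        -(((Real.sqrt p)⁻¹ : ℝ) : ℂ) := by
      intro a b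
      rw [hη, hζ]
      simp only
      rw [inner_xh_t S hC hG]
      have : starRingEnd ℂ (c a b) * c a b = 1 := by
        rw [← Complex.normSq_eq_conj_mul_self, Complex.normSq_eq_norm_sq, norm_c]; simp
      calc _ = -((((Real.sqrt p)⁻¹ : ℝ) : ℂ) * (starRingEnd ℂ (c a b) * c a b)) := by ring
        _ = _ := by rw [this, mul_one]
    rw [Finset.sum_congr rfl fun a _ => Finset.sum_congr rfl fun b _ => h1 a b]
    simp only [Finset.sum_const, Finset.card_univ, ZMod.card, nsmul_eq_mul]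
    have h2 : ((p : ℝ)) * (p * (-(Real.sqrt p)⁻¹)) = -(Real.sqrt p * p) := by
      have h3 : (p : ℝ) * (Real.sqrt p)⁻¹ = Real.sqrt p := by
        rw [← div_eq_mul_inv, div_eq_iff hsp.ne']; exact hsq.symm
      calc _ = -(p * ((p : ℝ) * (Real.sqrt p)⁻¹)) := by ring
        _ = _ := by rw [h3]; ring
    have h5 : (((p : ℝ) * (p * (-(Real.sqrt p)⁻¹)) : ℝ) : ℂ) = ((-(Real.sqrt p * p) : ℝ) : ℂ) := by
      rw [h2]
    push_cast at h5 ⊢
    exact h5
  -- `A1 = A2`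
  set A2 : ℂ := ∑ a, ∑ b, (starRingEnd ℂ (c a b)) *
    ⟪η (a + b), S.d' b ((u * xh S a * star u) S.v0)⟫_ℂ with hA2
  have hA12 : beta S (fun b => star u (ζ b)) (fun k => star u (η k)) = A2 := by
    unfold beta
    rw [hA2]
    refine Finset.sum_congr rfl fun a _ => Finset.sum_congr rfl fun b _ => ?_
    congr 1
    have h1 := comm_apply (hcomm a b) S.v0
    rw [d'_v0] at h1
    rw [star_left]
    have h2 : u (xh S a (star u (ζ b))) = (u * xh S a * star u) (ζ b) := rfl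
    rw [h2]
    exact congrArg _ h1
  have hA3 : A2 = ∑ a, ⟪∑ b, c a b • S.d' b (S.E (a + b) S.v0),
      (u * xh S a * star u - xh S a) S.v0⟫_ℂ := by
    rw [hA2]
    refine Finset.sum_congr rfl fun a _ => ?_
    rw [sum_inner]
    refine Finset.sum_congr rfl fun b _ => ?_
    rw [inner_smul_left]
    congr 1
    rw [sub_apply, inner_sub_right, xh_v0 S hC hG]
    have h1 : ⟪S.d' b (S.E (a + b) S.v0), S.d a S.v0⟫_ℂ = 0 := by
      rw [← star_right, star_d', inner_E_d'_d]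
    rw [h1, sub_zero]
    conv_lhs => rw [← star_d' S b]
    rw [star_right]
  -- norms
  have hux : ∀ y : H, ‖u y - y‖ ≤ ε * ‖y‖ := by
    intro y
    have : u y - y = (u - 1) y := by simp
    rw [this]
    exact ContinuousLinearMap.le_opNorm _ _
  have hε' : ‖star u - 1‖ = ε := by
    have : star u - 1 = star (u - 1) := by rw [star_sub, star_one]
    rw [this, norm_star]
  have husx : ∀ y : H, ‖star u y - y‖ ≤ ε * ‖y‖ := by
    intro y
    have : star u y - y = (star u - 1) y := by simp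
    rw [this, ← hε']
    exact ContinuousLinearMap.le_opNorm _ _
  have hus : star u ∈ unitary (H →L[ℂ] H) := Unitary.star_mem hu
  have hsζ : ∑ b, ‖ζ b‖ ^ 2 = (p : ℝ) := by
    have : ∀ b, ‖ζ b‖ ^ 2 = 1 := fun b => by
      show ‖S.t b S.v0‖ ^ 2 = 1
      rw [norm_t, S.norm_v0, one_pow]
    simp [this]
  have hsη : ∑ b, ‖η b‖ ^ 2 = (p : ℝ) := by
    have : ∀ b, ‖η b‖ ^ 2 = 1 := fun b => by
      show ‖S.E b S.v0‖ ^ 2 = 1
      rw [norm_E_v0, one_pow]
    simp [this]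
  have hsη' : ∑ b, ‖star u (η b)‖ ^ 2 = (p : ℝ) := by
    rw [← hsη]
    exact Finset.sum_congr rfl fun b _ => by rw [norm_unitary hus]
  have hdζ : Real.sqrt (∑ b, ‖star u (ζ b) - ζ b‖ ^ 2) ≤ ε * Real.sqrt p := by
    refine Real.sqrt_le_iff.mpr ⟨by positivity, ?_⟩
    calc ∑ b, ‖star u (ζ b) - ζ b‖ ^ 2 ≤ ∑ b, (ε * ‖ζ b‖) ^ 2 :=
          Finset.sum_le_sum fun b _ => by
            have := husx (ζ b)
            gcongr
      _ = ε ^ 2 * ∑ b, ‖ζ b‖ ^ 2 := by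
          rw [Finset.mul_sum]; exact Finset.sum_congr rfl fun b _ => by ring
      _ = (ε * Real.sqrt p) ^ 2 := by rw [hsζ, mul_pow, Real.sq_sqrt hp.le]
  have hdη : Real.sqrt (∑ b, ‖star u (η b) - η b‖ ^ 2) ≤ ε * Real.sqrt p := by
    refine Real.sqrt_le_iff.mpr ⟨by positivity, ?_⟩
    calc ∑ b, ‖star u (η b) - η b‖ ^ 2 ≤ ∑ b, (ε * ‖η b‖) ^ 2 :=
          Finset.sum_le_sum fun b _ => by
            have := husx (η b)
            gcongr
      _ = ε ^ 2 * ∑ b, ‖η b‖ ^ 2 := by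
          rw [Finset.mul_sum]; exact Finset.sum_congr rfl fun b _ => by ring
      _ = (ε * Real.sqrt p) ^ 2 := by rw [hsη, mul_pow, Real.sq_sqrt hp.le]
  have hfirst : ‖A2 - beta S ζ η‖ ≤ 4 * ε * (Real.sqrt p * p) := by
    rw [← hA12, beta_sub]
    calc _ ≤ ‖beta S (fun b => star u (ζ b) - ζ b) (fun k => star u (η k))‖ +
          ‖beta S ζ (fun b => star u (η b) - η b)‖ := norm_add_le _ _
      _ ≤ 2 * Real.sqrt p * Real.sqrt (∑ b, ‖star u (ζ b) - ζ b‖ ^ 2) *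
            Real.sqrt (∑ b, ‖star u (η b)‖ ^ 2) +
          2 * Real.sqrt p * Real.sqrt (∑ b, ‖ζ b‖ ^ 2) *
            Real.sqrt (∑ b, ‖star u (η b) - η b‖ ^ 2) :=
          add_le_add (beta_bound S hU _ _) (beta_bound S hU _ _)
      _ ≤ 2 * Real.sqrt p * (ε * Real.sqrt p) * Real.sqrt p +
          2 * Real.sqrt p * Real.sqrt p * (ε * Real.sqrt p) := by
          rw [hsη', hsζ]
          gcongr
      _ = 4 * ε * (Real.sqrt p * (Real.sqrt p * Real.sqrt p)) := by ring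
      _ = _ := by rw [hsq]
  have hΔ : ∀ a, ‖(u * xh S a * star u - xh S a) S.v0‖ ≤ 4 * ε := by
    intro a
    have h1 : (u * xh S a * star u - xh S a) S.v0 =
        (u (xh S a (star u S.v0)) - xh S a (star u S.v0)) + xh S a (star u S.v0 - S.v0) := by
      rw [sub_apply, mul_ap, mul_ap, map_sub]
      abel
    rw [h1]
    calc _ ≤ ‖u (xh S a (star u S.v0)) - xh S a (star u S.v0)‖ +
          ‖xh S a (star u S.v0 - S.v0)‖ := norm_add_le _ _
      _ ≤ ε * ‖xh S a (star u S.v0)‖ + 2 * ‖star u S.v0 - S.v0‖ :=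
          add_le_add (hux _) (norm_xh S hU _ _)
      _ ≤ ε * (2 * ‖star u S.v0‖) + 2 * (ε * ‖S.v0‖) := by
          have h2 := norm_xh S hU a (star u S.v0)
          have h3 := husx S.v0
          gcongr
      _ = 4 * ε := by rw [norm_unitary hus, S.norm_v0]; ring
  have hsecond : ‖A2‖ ≤ 4 * ε * (Real.sqrt p * p) := by
    rw [hA3]
    calc _ ≤ ∑ a, ‖⟪∑ b, c a b • S.d' b (S.E (a + b) S.v0),
            (u * xh S a * star u - xh S a) S.v0⟫_ℂ‖ := norm_sum_le _ _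
      _ ≤ ∑ _a : ZMod p, Real.sqrt p * (4 * ε) := by
          refine Finset.sum_le_sum fun a _ => ?_
          refine (norm_inner_le_norm _ _).trans ?_
          rw [norm_gamma]
          exact mul_le_mul_of_nonneg_left (hΔ a) hsp.le
      _ = _ := by simp; ring
  have hfin : Real.sqrt p * p ≤ 8 * ε * (Real.sqrt p * p) := by
    have h1 : ‖beta S ζ η‖ = Real.sqrt p * p := by
      rw [hβ, norm_neg, Complex.norm_real, Real.norm_of_nonneg (by positivity)]
    calc Real.sqrt p * p = ‖beta S ζ η‖ := h1.symm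
      _ = ‖A2 - (A2 - beta S ζ η)‖ := by rw [sub_sub_cancel]
      _ ≤ ‖A2‖ + ‖A2 - beta S ζ η‖ := norm_sub_le _ _
      _ ≤ 4 * ε * (Real.sqrt p * p) + 4 * ε * (Real.sqrt p * p) := add_le_add hsecond hfirst
      _ = _ := by ring
  have hpos : 0 < Real.sqrt p * p := by positivity
  have h8 : 1 ≤ 8 * ε := by
    by_contra hlt
    push Not at hlt
    have := mul_lt_mul_of_pos_right hlt hpos
    linarith
  linarith

end Crest.Agent.R078.S104.DetectF
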