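import Crest.Agent.R078.S104Alg
import Crest.Agent.R078.Ops
import Crest.Agent.R078.S104Targets

-- ▼ part R078/S104Final
section

/-!
# R78, S0104, block G: assembly
-/

set_option autoImplicit false
set_option linter.unusedSimpArgs false

noncomputable section

namespace Crest.Agent.R078.S104.Final

open scoped InnerProductSpace
open Crest.Agent.R078.S104.Alg

variable {p : ℕ} [NeZero p] {H : Type} [NormedAddCommGroup H] [InnerProductSpace ℂ H]
  [CompleteSpace H]

theorem good_star {S : Sys p H} {x : H →L[ℂ] H} (hx : S.Good x) : S.Good (star x) := by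
  refine ⟨fun a => ?_, fun b => ?_, fun b => ?_, fun b => ?_, fun b => ?_, fun b => ?_⟩
  · have := (hx.s a).star_star
    rwa [star_s] at this
  · simpa using (hx.m' b).star_star
  · exact (hx.m b).star_star
  · have := (hx.d' b).star_star
    rwa [star_d'] at this
  · simpa using (hx.E' b).star_star
  · exact (hx.E b).star_star

/-! ### The projection `e₃ - f` -/

theorem f_f (S : Sys p H) : S.f * S.f = S.f := by
  rw [Sys.f]
  calc S.J * star S.J * (S.J * star S.J) = S.J * (star S.J * S.J) * star S.J := by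
        simp only [mul_assoc]
    _ = S.J * star S.J := by
        rw [star_J_J, mul_sub, mul_one, J_e1, sub_zero]

theorem e1_f (S : Sys p H) : S.e1 * S.f = 0 := by
  rw [Sys.f, ← mul_assoc, e1_J, zero_mul]

theorem f_e1 (S : Sys p H) : S.f * S.e1 = 0 := by
  rw [Sys.f, mul_assoc, star_J_e1, mul_zero]

theorem star_f (S : Sys p H) : star S.f = S.f := by
  rw [Sys.f, star_mul, star_star]

theorem norm_g_le (S : Sys p H) : ‖1 - S.e1 - S.f‖ ≤ 1 := by
  refine IsStarProjection.norm_le (1 - S.e1 - S.f) ⟨?_, ?_⟩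
  · change (1 - S.e1 - S.f) * (1 - S.e1 - S.f) = 1 - S.e1 - S.f
    simp only [mul_sub, sub_mul, mul_one, one_mul, S.e1_e1, f_f, e1_f, f_e1]
    abel
  · change star (1 - S.e1 - S.f) = 1 - S.e1 - S.f
    rw [star_sub, star_sub, star_one, S.star_e1, star_f]

theorem inN_g (S : Sys p H) : S.InN (1 - S.e1 - S.f) := by
  refine InN.sub (InN.sub InN.one inN_e1) ?_
  rw [Sys.f]
  exact InN.mul inN_J (InN.star inN_J)

/-! ### The near inclusion -/

theorem near (hNC : NearC (p := p) (H := H)) (hNV : NearV (p := p) (H := H)) :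
    Near (p := p) (H := H) := by
  intro S hp hp2 x hx hx1
  obtain ⟨n, hn, hn1⟩ := hNV S hp hp2 x hx hx1
  obtain ⟨n', hn', hn1'⟩ := hNV S hp hp2 (star x) (good_star hx) (by rwa [norm_star])
  have hC := hNC S hp hp2 x hx hx1
  have hD : S.InN (x * star S.J - star S.J * x) :=
    InN.sub (InN.mul hx.d' (InN.star inN_J)) (InN.mul (InN.star inN_J) hx.d')
  have hD2 : S.InN (x * S.J - S.J * x) :=
    InN.sub (InN.mul hx.d' inN_J) (InN.mul inN_J hx.d')
  refine ⟨x + S.J * (x * star S.J - star S.J * x) * (1 - S.e1 - S.f)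
    - (x * S.J - S.J * x) * star S.J
    - (1 - S.e1 - S.f) * n
    + (-star n') * (1 - S.e1 - S.f)
    + star S.SS * S.Coff x * S.SS, ?_, ?_⟩
  · refine InN.add (InN.add (InN.sub (InN.sub (InN.add hx.d' ?_) ?_) ?_) ?_) ?_
    · exact InN.mul (InN.mul inN_J hD) (inN_g S)
    · exact InN.mul hD2 (InN.star inN_J)
    · exact InN.mul (inN_g S) hn
    · refine InN.mul ?_ (inN_g S)
      have := InN.sub InN.zero (InN.star hn')
      rwa [zero_sub] at this
    · exact InN.mul (InN.mul (InN.star inN_SS) (inN_Coff hx)) inN_SS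
  · rw [conjU S x hx]
    have hadj : star S.B * (x * star S.J - star S.J * x)
        = -star ((star x * S.J - S.J * star x) * S.B) := by
      rw [star_mul, star_sub, star_mul, star_mul, star_star, ← mul_neg, neg_sub]
    rw [hadj]
    have heq : x + S.J * (x * star S.J - star S.J * x) * (1 - S.e1 - S.f)
        - (x * S.J - S.J * x) * star S.J
        - (1 - S.e1 - S.f) * ((x * S.J - S.J * x) * S.B)
        + (-star ((star x * S.J - S.J * star x) * S.B)) * (1 - S.e1 - S.f)
        + star S.B * S.C x * S.B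
        - (x + S.J * (x * star S.J - star S.J * x) * (1 - S.e1 - S.f)
          - (x * S.J - S.J * x) * star S.J
          - (1 - S.e1 - S.f) * n
          + (-star n') * (1 - S.e1 - S.f)
          + star S.SS * S.Coff x * S.SS)
        = (star S.B * S.C x * S.B - star S.SS * S.Coff x * S.SS)
          - (1 - S.e1 - S.f) * ((x * S.J - S.J * x) * S.B - n)
          - star ((star x * S.J - S.J * star x) * S.B - n') * (1 - S.e1 - S.f) := by
      generalize (x * S.J - S.J * x) * S.B = a
      generalize (star x * S.J - S.J * star x) * S.B = a'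
      generalize 1 - S.e1 - S.f = g
      rw [star_sub]
      noncomm_ring
    rw [heq]
    have h1 : ‖(1 - S.e1 - S.f) * ((x * S.J - S.J * x) * S.B - n)‖
        ≤ 4 / Real.sqrt (Real.sqrt p) := by
      calc _ ≤ ‖1 - S.e1 - S.f‖ * ‖(x * S.J - S.J * x) * S.B - n‖ := norm_mul_le _ _
        _ ≤ 1 * (4 / Real.sqrt (Real.sqrt p)) := by
            gcongr
            exact norm_g_le S
        _ = _ := one_mul _
    have h2 : ‖star ((star x * S.J - S.J * star x) * S.B - n') * (1 - S.e1 - S.f)‖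
        ≤ 4 / Real.sqrt (Real.sqrt p) := by
      calc _ ≤ ‖star ((star x * S.J - S.J * star x) * S.B - n')‖ * ‖1 - S.e1 - S.f‖ :=
            norm_mul_le _ _
        _ ≤ (4 / Real.sqrt (Real.sqrt p)) * 1 := by
            rw [norm_star]
            gcongr
            exact norm_g_le S
        _ = _ := mul_one _
    calc _ ≤ ‖star S.B * S.C x * S.B - star S.SS * S.Coff x * S.SS‖
          + ‖(1 - S.e1 - S.f) * ((x * S.J - S.J * x) * S.B - n)‖
          + ‖star ((star x * S.J - S.J * star x) * S.B - n') * (1 - S.e1 - S.f)‖ := by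
            refine (norm_sub_le _ _).trans ?_
            gcongr
            exact norm_sub_le _ _
      _ ≤ 6 / Real.sqrt p + 4 / Real.sqrt (Real.sqrt p) + 4 / Real.sqrt (Real.sqrt p) := by
            gcongr
      _ = _ := by ring

/-! ### von Neumann algebras as centralizers -/

/-- the commutant of `T ∪ T^*` -/
def vn (T : Set (H →L[ℂ] H)) : VonNeumannAlgebra H where
  toStarSubalgebra := StarSubalgebra.centralizer ℂ T
  centralizer_centralizer' := by
    change Set.centralizer (Set.centralizer (StarSubalgebra.centralizer ℂ T : Set (H →L[ℂ] H)))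
      = (StarSubalgebra.centralizer ℂ T : Set (H →L[ℂ] H))
    rw [StarSubalgebra.coe_centralizer, Set.centralizer_centralizer_centralizer]

theorem mem_vn {T : Set (H →L[ℂ] H)} {x : H →L[ℂ] H} :
    x ∈ vn T ↔ ∀ g ∈ T, g * x = x * g ∧ star g * x = x * star g :=
  StarSubalgebra.mem_centralizer_iff ℂ

/-- the generators of the commutant of `M` -/
def MSet (S : Sys p H) : Set (H →L[ℂ] H) :=
  {g | ∃ y, g = S.U * y * star S.U ∧
    ((∃ a, y = S.s a) ∨ (∃ a, y = S.m a) ∨ (∃ a, y = S.d' a) ∨ (∃ a, y = S.E a))}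

theorem comm_conj_iff (S : Sys p H) (y x : H →L[ℂ] H) :
    (S.U * y * star S.U) * x = x * (S.U * y * star S.U) ↔
      Commute (star S.U * x * S.U) y := by
  have h1 := star_U_mul_U S
  have h2 := U_mul_star_U S
  constructor
  · intro h
    change star S.U * x * S.U * y = y * (star S.U * x * S.U)
    calc star S.U * x * S.U * y = star S.U * x * S.U * y * (star S.U * S.U) := by rw [h1, mul_one]
      _ = star S.U * (x * (S.U * y * star S.U)) * S.U := by simp only [mul_assoc]
      _ = star S.U * ((S.U * y * star S.U) * x) * S.U := by rw [h]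
      _ = (star S.U * S.U) * y * (star S.U * x * S.U) := by simp only [mul_assoc]
      _ = y * (star S.U * x * S.U) := by rw [h1, one_mul]
  · intro h
    have h' : star S.U * x * S.U * y = y * (star S.U * x * S.U) := h
    calc (S.U * y * star S.U) * x = (S.U * y * star S.U) * x * (S.U * star S.U) := by
          rw [h2, mul_one]
      _ = S.U * (y * (star S.U * x * S.U)) * star S.U := by simp only [mul_assoc]
      _ = S.U * (star S.U * x * S.U * y) * star S.U := by rw [h']
      _ = (S.U * star S.U) * x * (S.U * y * star S.U) := by simp only [mul_assoc]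
      _ = x * (S.U * y * star S.U) := by rw [h2, one_mul]

theorem mem_M_iff (S : Sys p H) (x : H →L[ℂ] H) :
    x ∈ vn (MSet S) ↔ S.Good (star S.U * x * S.U) := by
  rw [mem_vn]
  have hstar : ∀ y, star (S.U * y * star S.U) = S.U * star y * star S.U := by
    intro y
    simp only [star_mul, star_star, mul_assoc]
  constructor
  · intro h
    have key : ∀ y, S.U * y * star S.U ∈ MSet S →
        Commute (star S.U * x * S.U) y ∧ Commute (star S.U * x * S.U) (star y) := by
      intro y hy
      obtain ⟨h1, h2⟩ := h _ hy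
      rw [hstar] at h2
      exact ⟨(comm_conj_iff S y x).mp h1, (comm_conj_iff S (star y) x).mp h2⟩
    refine ⟨fun a => ?_, fun b => ?_, fun b => ?_, fun b => ?_, fun b => ?_, fun b => ?_⟩
    · exact (key (S.s a) ⟨_, rfl, Or.inl ⟨a, rfl⟩⟩).1
    · exact (key (S.m b) ⟨_, rfl, Or.inr (Or.inl ⟨b, rfl⟩)⟩).1
    · exact (key (S.m b) ⟨_, rfl, Or.inr (Or.inl ⟨b, rfl⟩)⟩).2
    · exact (key (S.d' b) ⟨_, rfl, Or.inr (Or.inr (Or.inl ⟨b, rfl⟩))⟩).1
    · exact (key (S.E b) ⟨_, rfl, Or.inr (Or.inr (Or.inr ⟨b, rfl⟩))⟩).1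
    · exact (key (S.E b) ⟨_, rfl, Or.inr (Or.inr (Or.inr ⟨b, rfl⟩))⟩).2
  · rintro h g ⟨y, rfl, hy⟩
    rw [hstar, comm_conj_iff, comm_conj_iff]
    rcases hy with ⟨a, rfl⟩ | ⟨a, rfl⟩ | ⟨a, rfl⟩ | ⟨a, rfl⟩
    · rw [star_s]
      exact ⟨h.s a, h.s a⟩
    · exact ⟨h.m a, h.m' a⟩
    · rw [star_d']
      exact ⟨h.d' a, h.d' a⟩
    · exact ⟨h.E a, h.E' a⟩

theorem mem_N_iff (S : Sys p H) (x : H →L[ℂ] H) :
    x ∈ vn (Set.range S.d') ↔ S.InN x := by
  rw [mem_vn]
  constructor
  · intro h b
    exact (h _ ⟨b, rfl⟩).1.symm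
  · rintro h g ⟨b, rfl⟩
    rw [star_d']
    exact ⟨(h b).eq.symm, (h b).eq.symm⟩

/-! ### The final theorem -/

theorem norm_le_one_of_unitary {u : H →L[ℂ] H} (hu : u ∈ unitary (H →L[ℂ] H)) : ‖u‖ ≤ 1 := by
  have h1 : star u * u = 1 := (Unitary.mem_iff.mp hu).1
  have h2 : ‖u‖ * ‖u‖ ≤ 1 := by
    rw [← CStarRing.norm_star_mul_self, h1]
    exact ContinuousLinearMap.norm_id_le
  nlinarith [norm_nonneg u]

theorem exists_prime (δ : ℝ) (hδ : 0 < δ) : ∃ p : ℕ, p.Prime ∧ p ≠ 2 ∧
    6 / Real.sqrt p + 8 / Real.sqrt (Real.sqrt p) < δ := by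
  obtain ⟨p, hp1, hp⟩ := Nat.exists_infinite_primes (⌈(14 / δ) ^ 4⌉₊ + 3)
  refine ⟨p, hp, by omega, ?_⟩
  have h1 : (14 / δ) ^ 4 < p := by
    have h2 : (14 / δ) ^ 4 ≤ (⌈(14 / δ) ^ 4⌉₊ : ℝ) := Nat.le_ceil _
    have h3 : ((⌈(14 / δ) ^ 4⌉₊ + 3 : ℕ) : ℝ) ≤ p := by exact_mod_cast hp1
    push_cast at h3
    linarith
  have hp1' : (1 : ℝ) ≤ p := by
    have : 1 ≤ p := hp.one_lt.le
    exact_mod_cast this
  have hs : (1 : ℝ) ≤ Real.sqrt p := Real.one_le_sqrt.mpr hp1'
  have hss : (1 : ℝ) ≤ Real.sqrt (Real.sqrt p) := Real.one_le_sqrt.mpr hs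
  have h4 : Real.sqrt (Real.sqrt p) ≤ Real.sqrt p := by
    have := Real.sqrt_le_sqrt hs
    have h5 : Real.sqrt (Real.sqrt p) * Real.sqrt (Real.sqrt p) = Real.sqrt p :=
      Real.mul_self_sqrt (Real.sqrt_nonneg _)
    nlinarith
  have h6 : 14 / δ < Real.sqrt (Real.sqrt p) := by
    rw [Real.lt_sqrt (by positivity), Real.lt_sqrt (by positivity)]
    have h9 : ((14 / δ) ^ 2) ^ 2 = (14 / δ) ^ 4 := by ring
    rw [h9]
    exact h1
  have h7 : 14 / Real.sqrt (Real.sqrt p) < δ := by
    rw [div_lt_iff₀ (by positivity)]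
    rw [div_lt_iff₀ hδ] at h6
    linarith
  have h8 : 6 / Real.sqrt p ≤ 6 / Real.sqrt (Real.sqrt p) := by
    gcongr
  calc 6 / Real.sqrt p + 8 / Real.sqrt (Real.sqrt p)
      ≤ 6 / Real.sqrt (Real.sqrt p) + 8 / Real.sqrt (Real.sqrt p) := by gcongr
    _ = 14 / Real.sqrt (Real.sqrt p) := by ring
    _ < δ := h7

theorem final
    (hmodel : ∀ (p : ℕ) [NeZero p], ModelExists p)
    (hNC : ∀ (p : ℕ) [NeZero p] (H : Type) [NormedAddCommGroup H] [InnerProductSpace ℂ H]
      [CompleteSpace H], NearC (p := p) (H := H))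
    (hNV : ∀ (p : ℕ) [NeZero p] (H : Type) [NormedAddCommGroup H] [InnerProductSpace ℂ H]
      [CompleteSpace H], NearV (p := p) (H := H))
    (hDet : ∀ (p : ℕ) [NeZero p] (H : Type) [NormedAddCommGroup H] [InnerProductSpace ℂ H]
      [CompleteSpace H], Detect (p := p) (H := H)) :
    ∃ ε₀ : ℝ, 0 < ε₀ ∧ ∀ δ : ℝ, 0 < δ →
      ∃ (H : Type) (_ : NormedAddCommGroup H) (_ : InnerProductSpace ℂ H) (_ : CompleteSpace H)
        (_ : TopologicalSpace.SeparableSpace H) (M N : VonNeumannAlgebra H),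
        (∀ x ∈ M, ‖x‖ ≤ 1 → ∃ y ∈ N, ‖x - y‖ < δ) ∧
        ∀ u : H →L[ℂ] H, u ∈ unitary (H →L[ℂ] H) →
          (∀ x ∈ M, u * x * star u ∈ N) → ε₀ ≤ ‖u - 1‖ := by
  refine ⟨1 / 8, by norm_num, fun δ hδ => ?_⟩
  obtain ⟨p, hp, hp2, hpδ⟩ := exists_prime δ hδ
  haveI : NeZero p := ⟨hp.ne_zero⟩
  obtain ⟨H, i1, i2, i3, i4, ⟨S⟩⟩ := hmodel p
  refine ⟨H, i1, i2, i3, i4, vn (MSet S), vn (Set.range S.d'), ?_, ?_⟩
  · intro x hx hx1
    rw [mem_M_iff] at hx
    have hx1' : ‖star S.U * x * S.U‖ ≤ 1 := by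
      have hU := uUnitary S
      have hU1 : ‖S.U‖ ≤ 1 := norm_le_one_of_unitary hU
      have hU2 : ‖star S.U‖ ≤ 1 := by rwa [norm_star]
      calc ‖star S.U * x * S.U‖ ≤ ‖star S.U‖ * ‖x‖ * ‖S.U‖ :=
            (norm_mul_le _ _).trans (by gcongr; exact norm_mul_le _ _)
        _ ≤ 1 * 1 * 1 := by gcongr
        _ = 1 := by norm_num
    obtain ⟨y, hy, hy1⟩ := near (hNC p H) (hNV p H) S hp hp2 _ hx hx1'
    refine ⟨y, (mem_N_iff S y).mpr hy, lt_of_le_of_lt ?_ hpδ⟩
    have h2 := U_mul_star_U S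
    have h3 : S.U * (star S.U * x * S.U) * star S.U = x := by
      calc S.U * (star S.U * x * S.U) * star S.U = (S.U * star S.U) * x * (S.U * star S.U) := by
            simp only [mul_assoc]
        _ = x := by rw [h2, one_mul, mul_one]
    rwa [h3] at hy1
  · intro u hu h
    refine hDet p H S u hu fun a b => ?_
    have h1 : S.U * S.d a * star S.U ∈ vn (MSet S) := by
      rw [mem_M_iff]
      have h2 := star_U_mul_U S
      have h3 : star S.U * (S.U * S.d a * star S.U) * S.U = S.d a := by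
        calc star S.U * (S.U * S.d a * star S.U) * S.U
            = (star S.U * S.U) * S.d a * (star S.U * S.U) := by simp only [mul_assoc]
          _ = S.d a := by rw [h2, one_mul, mul_one]
      rw [h3]
      exact goodD S a
    have h4 := (mem_N_iff S _).mp (h _ h1)
    exact h4 b

end Crest.Agent.R078.S104.Final
end
end

-- ▼ part R078/S104Model
section

/-!
# R78, S0104, block E: the concrete model on `ℓ²(L × L × Option (ZMod p))`, `L = List (ZMod p)`
-/

set_option autoImplicit false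
set_option linter.unusedSectionVars false
set_option linter.unusedSimpArgs false

noncomputable section

namespace Crest.Agent.R078.S104.Model

open scoped ENNReal InnerProductSpace
open Crest.Agent.R078.Basic Crest.Agent.R078.Ops

section peq

variable {I : Type}

/-- pull-back of a function along a partial injection -/
def pull (g : I ≃. I) (ξ : I → ℂ) (i : I) : ℂ := (g i).elim 0 ξ

theorem pull_of_isSome (g : I ≃. I) (ξ : I → ℂ) (i : {i : I // (g i).isSome}) :
    pull g ξ i.1 = ξ ((g i.1).get i.2) := by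
  obtain ⟨i, hi⟩ := i
  obtain ⟨j, hj⟩ := Option.isSome_iff_exists.mp hi
  simp [pull, hj]

theorem pull_of_not_isSome (g : I ≃. I) (ξ : I → ℂ) (i : I) (hi : ¬ (g i).isSome) :
    pull g ξ i = 0 := by
  rw [Option.not_isSome_iff_eq_none] at hi
  simp [pull, hi]

theorem get_injective (g : I ≃. I) :
    Function.Injective (fun i : {i : I // (g i).isSome} => (g i.1).get i.2) := by
  rintro ⟨i, hi⟩ ⟨j, hj⟩ h
  have h1 : (g i).get hi ∈ g i := Option.get_mem hi
  have h2 : (g j).get hj ∈ g j := Option.get_mem hj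
  have h' : (g i).get hi = (g j).get hj := h
  rw [← h'] at h2
  exact Subtype.ext (g.inj h1 h2)

theorem summable_pull (g : I ≃. I) (ξ : L2 I ℂ) : Summable fun i => ‖pull g ξ i‖ ^ 2 := by
  have h1 : Summable fun i : {i : I // (g i).isSome} => ‖pull g ξ i.1‖ ^ 2 := by
    simp only [pull_of_isSome]
    exact (hasSum_norm_sq ξ).summable.comp_injective (get_injective g)
  refine (Subtype.val_injective.summable_iff ?_).mp h1
  intro i hi
  have hi' : ¬ (g i).isSome := fun h => hi ⟨⟨i, h⟩, rfl⟩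
  rw [pull_of_not_isSome g _ i hi']
  simp

theorem tsum_pull_le (g : I ≃. I) (ξ : L2 I ℂ) :
    ∑' i, ‖pull g ξ i‖ ^ 2 ≤ ∑' i, ‖ξ i‖ ^ 2 := by
  have h1 : ∑' i : {i : I // (g i).isSome}, ‖pull g ξ i.1‖ ^ 2 = ∑' i, ‖pull g ξ i‖ ^ 2 := by
    refine Function.Injective.tsum_eq Subtype.val_injective ?_
      (f := fun i => ‖pull g ξ i‖ ^ 2)
    intro i hi
    by_contra h
    have hi' : ¬ (g i).isSome := fun h' => h ⟨⟨i, h'⟩, rfl⟩
    apply hi
    simp [pull_of_not_isSome g _ i hi']
  rw [← h1]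
  simp only [pull_of_isSome]
  exact tsum_comp_le_tsum_of_inj (hasSum_norm_sq ξ).summable (fun _ => by positivity)
    (get_injective g)

/-- pull-back along a partial injection, as a bounded operator of `ℓ²` -/
def opT (g : I ≃. I) : L2 I ℂ →L[ℂ] L2 I ℂ :=
  LinearMap.mkContinuous
    { toFun := fun ξ => ⟨pull g ξ, memℓp_two_of_summable (summable_pull g ξ)⟩
      map_add' := fun ξ η => by
        ext i
        change pull g (ξ + η : L2 I ℂ) i = pull g ξ i + pull g η i
        unfold pull
        cases g i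
        · exact (add_zero (0 : ℂ)).symm
        · rfl
      map_smul' := fun c ξ => by
        ext i
        change pull g (c • ξ : L2 I ℂ) i = c • pull g ξ i
        unfold pull
        cases g i
        · exact (smul_zero c).symm
        · rfl } 1
    (fun ξ => by
      have h : ‖(⟨pull g ξ, memℓp_two_of_summable (summable_pull g ξ)⟩ : L2 I ℂ)‖ ^ 2 ≤
          (1 * ‖ξ‖) ^ 2 := by
        rw [norm_sq_eq, one_mul, norm_sq_eq ξ]
        exact tsum_pull_le g ξ
      exact le_of_sq_le_sq h (by positivity))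

theorem opT_apply (g : I ≃. I) (ξ : L2 I ℂ) (i : I) : opT g ξ i = (g i).elim 0 ξ := rfl




theorem opT_single [DecidableEq I] (g : I ≃. I) (i : I) (a : ℂ) :
    opT g (lp.single 2 i a : L2 I ℂ) = (g.symm i).elim 0 (fun j => lp.single 2 j a) := by
  ext k
  rw [opT_apply]
  rcases hg : g.symm i with _ | j
  · rcases hk : g k with _ | l
    · rfl
    · have hl : l ≠ i := by
        rintro rfl
        have : g.symm l = some k := (PEquiv.eq_some_iff g).mpr hk
        rw [hg] at this
        cases this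
      change (lp.single 2 i a : L2 I ℂ) l = (0 : L2 I ℂ) k
      rw [lp.single_apply_ne _ _ _ hl]
      rfl
  · have hj : g j = some i := (PEquiv.eq_some_iff g).mp hg
    change _ = (lp.single 2 j a : L2 I ℂ) k
    by_cases hkj : k = j
    · subst hkj
      rw [hj]
      change (lp.single 2 i a : L2 I ℂ) i = _
      rw [lp.single_apply_self, lp.single_apply_self]
    · rw [lp.single_apply_ne _ _ _ hkj]
      rcases hk : g k with _ | l
      · rfl
      · have hl : l ≠ i := by
          rintro rfl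
          exact hkj (g.inj (Option.mem_def.mpr hk) (Option.mem_def.mpr hj))
        change (lp.single 2 i a : L2 I ℂ) l = 0
        rw [lp.single_apply_ne _ _ _ hl]

theorem star_opT [DecidableEq I] (g : I ≃. I) : star (opT g) = opT g.symm := by
  ext ξ i
  have h1 : ⟪(lp.single 2 i (1 : ℂ) : L2 I ℂ), star (opT g) ξ⟫_ℂ =
      ⟪opT g (lp.single 2 i (1 : ℂ) : L2 I ℂ), ξ⟫_ℂ := by
    rw [ContinuousLinearMap.star_eq_adjoint, ContinuousLinearMap.adjoint_inner_right]
  rw [lp.inner_single_left, opT_single] at h1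
  have h2 : ⟪(1 : ℂ), (star (opT g) ξ : L2 I ℂ) i⟫_ℂ = (star (opT g) ξ : L2 I ℂ) i := by simp
  rw [h2] at h1
  rw [h1, opT_apply]
  rcases g.symm i with _ | j
  · simp
  · change ⟪(lp.single 2 j (1 : ℂ) : L2 I ℂ), ξ⟫_ℂ = ξ j
    rw [lp.inner_single_left]
    simp

end peq

section factors

variable {A B C : Type}

/-- act on the first factor -/
def onA (f : A ≃. A) : (A × B × C) ≃. (A × B × C) where
  toFun x := (f x.1).map fun u => (u, x.2.1, x.2.2)
  invFun x := (f.symm x.1).map fun u => (u, x.2.1, x.2.2)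
  inv := by
    rintro ⟨a, b, c⟩ ⟨a', b', c'⟩
    simp only [Option.map_eq_some_iff, Prod.mk.injEq]
    constructor
    · rintro ⟨x, hx, rfl, rfl, rfl⟩
      exact ⟨a', (PEquiv.eq_some_iff f).mp hx, rfl, rfl, rfl⟩
    · rintro ⟨x, hx, rfl, rfl, rfl⟩
      exact ⟨a, (PEquiv.eq_some_iff f).mpr hx, rfl, rfl, rfl⟩

/-- act on the second factor -/
def onB (f : B ≃. B) : (A × B × C) ≃. (A × B × C) where
  toFun x := (f x.2.1).map fun u => (x.1, u, x.2.2)
  invFun x := (f.symm x.2.1).map fun u => (x.1, u, x.2.2)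
  inv := by
    rintro ⟨a, b, c⟩ ⟨a', b', c'⟩
    simp only [Option.map_eq_some_iff, Prod.mk.injEq]
    constructor
    · rintro ⟨x, hx, rfl, rfl, rfl⟩
      exact ⟨b', (PEquiv.eq_some_iff f).mp hx, rfl, rfl, rfl⟩
    · rintro ⟨x, hx, rfl, rfl, rfl⟩
      exact ⟨b, (PEquiv.eq_some_iff f).mpr hx, rfl, rfl, rfl⟩

/-- act on the third factor -/
def onC (f : C ≃. C) : (A × B × C) ≃. (A × B × C) where
  toFun x := (f x.2.2).map fun u => (x.1, x.2.1, u)
  invFun x := (f.symm x.2.2).map fun u => (x.1, x.2.1, u)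
  inv := by
    rintro ⟨a, b, c⟩ ⟨a', b', c'⟩
    simp only [Option.map_eq_some_iff, Prod.mk.injEq]
    constructor
    · rintro ⟨x, hx, rfl, rfl, rfl⟩
      exact ⟨c', (PEquiv.eq_some_iff f).mp hx, rfl, rfl, rfl⟩
    · rintro ⟨x, hx, rfl, rfl, rfl⟩
      exact ⟨c, (PEquiv.eq_some_iff f).mpr hx, rfl, rfl, rfl⟩


def opA (f : A ≃. A) : L2 (A × B × C) ℂ →L[ℂ] L2 (A × B × C) ℂ := opT (onA f)
def opB (f : B ≃. B) : L2 (A × B × C) ℂ →L[ℂ] L2 (A × B × C) ℂ := opT (onB f)
def opC (f : C ≃. C) : L2 (A × B × C) ℂ →L[ℂ] L2 (A × B × C) ℂ := opT (onC f)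

theorem opA_apply (f : A ≃. A) (ξ : L2 (A × B × C) ℂ) (a : A) (b : B) (c : C) :
    opA f ξ (a, b, c) = (f a).elim 0 (fun a' => ξ (a', b, c)) := by
  change (((f a).map fun u => (u, b, c)) : Option (A × B × C)).elim 0 ξ = _
  cases f a <;> rfl

theorem opB_apply (f : B ≃. B) (ξ : L2 (A × B × C) ℂ) (a : A) (b : B) (c : C) :
    opB f ξ (a, b, c) = (f b).elim 0 (fun b' => ξ (a, b', c)) := by
  change (((f b).map fun u => (a, u, c)) : Option (A × B × C)).elim 0 ξ = _
  cases f b <;> rfl

theorem opC_apply (f : C ≃. C) (ξ : L2 (A × B × C) ℂ) (a : A) (b : B) (c : C) :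
    opC f ξ (a, b, c) = (f c).elim 0 (fun c' => ξ (a, b, c')) := by
  change (((f c).map fun u => (a, b, u)) : Option (A × B × C)).elim 0 ξ = _
  cases f c <;> rfl

variable [DecidableEq A] [DecidableEq B] [DecidableEq C]

theorem star_opA (f : A ≃. A) :
    star (opA f : L2 (A × B × C) ℂ →L[ℂ] L2 (A × B × C) ℂ) = opA f.symm := star_opT _
theorem star_opB (f : B ≃. B) :
    star (opB f : L2 (A × B × C) ℂ →L[ℂ] L2 (A × B × C) ℂ) = opB f.symm := star_opT _
theorem star_opC (f : C ≃. C) :
    star (opC f : L2 (A × B × C) ℂ →L[ℂ] L2 (A × B × C) ℂ) = opC f.symm := star_opT _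

omit [DecidableEq A] [DecidableEq B] [DecidableEq C] in
theorem commute_AB (f : A ≃. A) (g : B ≃. B) :
    Commute (opA f : L2 (A × B × C) ℂ →L[ℂ] L2 (A × B × C) ℂ) (opB g) := by
  ext ξ ⟨a, b, c⟩
  change opA f (opB g ξ) (a, b, c) = opB g (opA f ξ) (a, b, c)
  rw [opA_apply, opB_apply]
  cases hf : f a <;> cases hg : g b <;> simp [opA_apply, opB_apply, hf, hg]

omit [DecidableEq A] [DecidableEq B] [DecidableEq C] in
theorem commute_AC (f : A ≃. A) (g : C ≃. C) :
    Commute (opA f : L2 (A × B × C) ℂ →L[ℂ] L2 (A × B × C) ℂ) (opC g) := by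
  ext ξ ⟨a, b, c⟩
  change opA f (opC g ξ) (a, b, c) = opC g (opA f ξ) (a, b, c)
  rw [opA_apply, opC_apply]
  cases hf : f a <;> cases hg : g c <;> simp [opA_apply, opC_apply, hf, hg]

omit [DecidableEq A] [DecidableEq B] [DecidableEq C] in
theorem commute_BC (f : B ≃. B) (g : C ≃. C) :
    Commute (opB f : L2 (A × B × C) ℂ →L[ℂ] L2 (A × B × C) ℂ) (opC g) := by
  ext ξ ⟨a, b, c⟩
  change opB f (opC g ξ) (a, b, c) = opC g (opB f ξ) (a, b, c)
  rw [opB_apply, opC_apply]
  cases hf : f b <;> cases hg : g c <;> simp [opB_apply, opC_apply, hf, hg]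

end factors

section lists

variable {Z : Type} [DecidableEq Z]

/-- `u ↦ a :: u` -/
def consE (a : Z) : List Z ≃. List Z where
  toFun u := some (a :: u)
  invFun v := match v with
    | [] => none
    | c :: u => if c = a then some u else none
  inv := by
    intro u v
    cases v with
    | nil => simp
    | cons c v =>
      by_cases h : c = a
      · subst h; simp [eq_comm]
      · simp [h, Ne.symm h]

theorem consE_apply (a : Z) (u : List Z) : consE a u = some (a :: u) := rfl
theorem consE_symm_nil (a : Z) : (consE a).symm [] = none := rfl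
theorem consE_symm_cons (a c : Z) (u : List Z) :
    (consE a).symm (c :: u) = if c = a then some u else none := rfl

/-- `u ↦ u ++ [a]` -/
def snocE (a : Z) : List Z ≃. List Z where
  toFun u := some (u ++ [a])
  invFun v := if v.getLast? = some a then some v.dropLast else none
  inv := by
    intro u v
    rcases List.eq_nil_or_concat v with rfl | ⟨v, c, rfl⟩
    · simp
    · by_cases h : c = a
      · subst h; simp [eq_comm]
      · simp [h, Ne.symm h]

theorem snocE_apply (a : Z) (u : List Z) : snocE a u = some (u ++ [a]) := rfl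
theorem snocE_symm_nil (a : Z) : (snocE a).symm [] = none := by
  change (if ([] : List Z).getLast? = some a then some ([] : List Z).dropLast else none) = none
  simp
theorem snocE_symm_concat (a c : Z) (u : List Z) :
    (snocE a).symm (u ++ [c]) = if c = a then some u else none := by
  change (if (u ++ [c]).getLast? = some a then some (u ++ [c]).dropLast else none) = _
  simp

/-- projection on the empty word -/
def nilE : List Z ≃. List Z where
  toFun u := match u with
    | [] => some []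
    | _ :: _ => none
  invFun u := match u with
    | [] => some []
    | _ :: _ => none
  inv := by
    intro u v
    cases u <;> cases v <;> simp


/-- `none ↦ some b` -/
def lev (b : Z) : Option Z ≃. Option Z where
  toFun o := match o with
    | none => some (some b)
    | some _ => none
  invFun o := match o with
    | none => none
    | some c => if c = b then some none else none
  inv := by
    intro u v
    cases u <;> cases v <;> simp
    · exact eq_comm

theorem lev_none (b : Z) : lev b none = some (some b) := rfl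
theorem lev_some (b c : Z) : lev b (some c) = none := rfl
theorem lev_symm_some (b c : Z) : (lev b).symm (some c) = if c = b then some none else none := rfl

/-- projection on level 1 -/
def lev1 : Option Z ≃. Option Z where
  toFun o := match o with
    | none => some none
    | some _ => none
  invFun o := match o with
    | none => some none
    | some _ => none
  inv := by
    intro u v
    cases u <;> cases v <;> simp


end lists

section sys

variable (p : ℕ) [NeZero p]

/-- the index set -/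
abbrev Idx : Type := List (ZMod p) × List (ZMod p) × Option (ZMod p)

/-- the Hilbert space -/
abbrev HH : Type := L2 (Idx p) ℂ

variable {p}

def l (a : ZMod p) : HH p →L[ℂ] HH p := opA (consE a).symm
def r (a : ZMod p) : HH p →L[ℂ] HH p := opA (snocE a).symm
def m (a : ZMod p) : HH p →L[ℂ] HH p := opB (consE a).symm
def t (a : ZMod p) : HH p →L[ℂ] HH p := opB (snocE a).symm
def E (b : ZMod p) : HH p →L[ℂ] HH p := opC (lev b).symm
def e1 : HH p →L[ℂ] HH p := opC lev1
def P : HH p →L[ℂ] HH p := opA nilE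
def v0 : HH p := lp.single 2 ([], [], none) 1

theorem star_l (a : ZMod p) : star (l a) = opA (consE a) := star_opA _
theorem star_r (a : ZMod p) : star (r a) = opA (snocE a) := star_opA _
theorem star_m (a : ZMod p) : star (m a) = opB (consE a) := star_opB _
theorem star_t (a : ZMod p) : star (t a) = opB (snocE a) := star_opB _
theorem star_E (a : ZMod p) : star (E a) = opC (lev a) := star_opC _

theorem star_l_l (a b : ZMod p) : star (l a) * l b = if a = b then 1 else 0 := by
  rw [star_l]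
  ext ξ ⟨u, w, o⟩
  change opA (consE a) (opA (consE b).symm ξ) (u, w, o) = _
  rw [opA_apply, consE_apply]
  change opA (consE b).symm ξ (a :: u, w, o) = _
  rw [opA_apply, consE_symm_cons]
  split_ifs with h <;> rfl

theorem star_r_r (a b : ZMod p) : star (r a) * r b = if a = b then 1 else 0 := by
  rw [star_r]
  ext ξ ⟨u, w, o⟩
  change opA (snocE a) (opA (snocE b).symm ξ) (u, w, o) = _
  rw [opA_apply, snocE_apply]
  change opA (snocE b).symm ξ (u ++ [a], w, o) = _
  rw [opA_apply, snocE_symm_concat]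
  split_ifs with h <;> rfl

theorem star_m_m (a b : ZMod p) : star (m a) * m b = if a = b then 1 else 0 := by
  rw [star_m]
  ext ξ ⟨u, w, o⟩
  change opB (consE a) (opB (consE b).symm ξ) (u, w, o) = _
  rw [opB_apply, consE_apply]
  change opB (consE b).symm ξ (u, a :: w, o) = _
  rw [opB_apply, consE_symm_cons]
  split_ifs with h <;> rfl

theorem star_t_t (a b : ZMod p) : star (t a) * t b = if a = b then 1 else 0 := by
  rw [star_t]
  ext ξ ⟨u, w, o⟩
  change opB (snocE a) (opB (snocE b).symm ξ) (u, w, o) = _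
  rw [opB_apply, snocE_apply]
  change opB (snocE b).symm ξ (u, w ++ [a], o) = _
  rw [opB_apply, snocE_symm_concat]
  split_ifs with h <;> rfl

theorem star_E_E (a b : ZMod p) : star (E a) * E b = if a = b then e1 else 0 := by
  rw [star_E]
  ext ξ ⟨u, w, o⟩
  change opC (lev a) (opC (lev b).symm ξ) (u, w, o) = _
  rw [opC_apply]
  cases o with
  | none =>
    rw [lev_none]
    change opC (lev b).symm ξ (u, w, some a) = _
    rw [opC_apply, lev_symm_some]
    split_ifs with h <;> rfl
  | some c =>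
    rw [lev_some]
    split_ifs with h <;> rfl

theorem star_e1 : star (e1 : HH p →L[ℂ] HH p) = e1 := star_opC _

theorem e1_e1 : (e1 : HH p →L[ℂ] HH p) * e1 = e1 := by
  ext ξ ⟨u, w, o⟩
  change opC lev1 (opC lev1 ξ) (u, w, o) = opC lev1 ξ (u, w, o)
  cases o <;> rfl

theorem E_e1 (b : ZMod p) : E b * e1 = E b := by
  ext ξ ⟨u, w, o⟩
  change opC (lev b).symm (opC lev1 ξ) (u, w, o) = opC (lev b).symm ξ (u, w, o)
  rw [opC_apply, opC_apply]
  cases o with
  | none => rfl
  | some c =>
    rw [lev_symm_some]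
    split_ifs <;> rfl

theorem e1_E (b : ZMod p) : e1 * E b = 0 := by
  ext ξ ⟨u, w, o⟩
  change opC lev1 (opC (lev b).symm ξ) (u, w, o) = _
  rw [opC_apply]
  cases o <;> rfl

theorem E_star_E_none (b : ZMod p) (ξ : HH p) (u w : List (ZMod p)) :
    (E b * star (E b)) ξ (u, w, none) = 0 := by
  rw [star_E]
  change opC (lev b).symm (opC (lev b) ξ) (u, w, none) = _
  rw [opC_apply]
  rfl

theorem E_star_E_some (b c : ZMod p) (ξ : HH p) (u w : List (ZMod p)) :
    (E b * star (E b)) ξ (u, w, some c) = if c = b then ξ (u, w, some c) else 0 := by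
  rw [star_E]
  change opC (lev b).symm (opC (lev b) ξ) (u, w, some c) = _
  rw [opC_apply, lev_symm_some]
  split_ifs with h
  · subst h
    rfl
  · rfl

theorem sum_E : ∑ b : ZMod p, E b * star (E b) = 1 - e1 := by
  ext ξ ⟨u, w, o⟩
  rw [sum_apply, lp.coeFn_sum, Finset.sum_apply]
  change _ = ξ (u, w, o) - opC lev1 ξ (u, w, o)
  rw [opC_apply]
  cases o with
  | none =>
    simp only [E_star_E_none]
    change ∑ _b : ZMod p, (0 : ℂ) = ξ (u, w, none) - ξ (u, w, none)
    simp
  | some c =>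
    simp only [E_star_E_some]
    change ∑ b : ZMod p, (if c = b then ξ (u, w, some c) else 0) = ξ (u, w, some c) - 0
    simp

theorem opA_cons_symm_nil (a : ZMod p) (ξ : HH p) (w : List (ZMod p)) (o : Option (ZMod p)) :
    opA (consE a).symm ξ ([], w, o) = 0 := by
  rw [opA_apply, consE_symm_nil]
  rfl

theorem opA_cons_symm_cons (a c : ZMod p) (ξ : HH p) (u w : List (ZMod p))
    (o : Option (ZMod p)) :
    opA (consE a).symm ξ (c :: u, w, o) = if c = a then ξ (u, w, o) else 0 := by
  rw [opA_apply, consE_symm_cons]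
  split_ifs <;> rfl

theorem opA_snoc_symm_nil (a : ZMod p) (ξ : HH p) (w : List (ZMod p)) (o : Option (ZMod p)) :
    opA (snocE a).symm ξ ([], w, o) = 0 := by
  rw [opA_apply, snocE_symm_nil]
  rfl

theorem opA_snoc_symm_concat (a c : ZMod p) (ξ : HH p) (u w : List (ZMod p))
    (o : Option (ZMod p)) :
    opA (snocE a).symm ξ (u ++ [c], w, o) = if c = a then ξ (u, w, o) else 0 := by
  rw [opA_apply, snocE_symm_concat]
  split_ifs <;> rfl

theorem opA_snoc_symm_single (a c : ZMod p) (ξ : HH p) (w : List (ZMod p))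
    (o : Option (ZMod p)) :
    opA (snocE a).symm ξ ([c], w, o) = if c = a then ξ ([], w, o) else 0 :=
  opA_snoc_symm_concat a c ξ [] w o

theorem opA_snoc_symm_cons_concat (a c c' : ZMod p) (ξ : HH p) (u w : List (ZMod p))
    (o : Option (ZMod p)) :
    opA (snocE a).symm ξ (c' :: (u ++ [c]), w, o) = if c = a then ξ (c' :: u, w, o) else 0 :=
  opA_snoc_symm_concat a c ξ (c' :: u) w o

theorem opA_cons (a : ZMod p) (ξ : HH p) (u w : List (ZMod p)) (o : Option (ZMod p)) :
    opA (consE a) ξ (u, w, o) = ξ (a :: u, w, o) := rfl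

theorem opA_snoc (a : ZMod p) (ξ : HH p) (u w : List (ZMod p)) (o : Option (ZMod p)) :
    opA (snocE a) ξ (u, w, o) = ξ (u ++ [a], w, o) := rfl

/-- coordinates of `s_a` -/
def sc (a : ZMod p) : HH p →L[ℂ] HH p := l a + star (l a)
/-- coordinates of `d_a` -/
def dc (a : ZMod p) : HH p →L[ℂ] HH p := r a + star (r a)

theorem sc_apply (a : ZMod p) (ξ : HH p) (i : Idx p) :
    sc a ξ i = opA (consE a).symm ξ i + opA (consE a) ξ i := by
  rw [sc, star_l]
  rfl

theorem dc_apply (a : ZMod p) (ξ : HH p) (i : Idx p) :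
    dc a ξ i = opA (snocE a).symm ξ i + opA (snocE a) ξ i := by
  rw [dc, star_r]
  rfl

theorem eq_nil_or_append {Z : Type} (u : List Z) : u = [] ∨ ∃ v c, u = v ++ [c] := by
  rcases List.eq_nil_or_concat u with rfl | ⟨v, c, rfl⟩
  · exact Or.inl rfl
  · exact Or.inr ⟨v, c, by simp⟩

theorem comm_s_d (a b : ZMod p) : Commute (l a + star (l a)) (r b + star (r b)) := by
  change sc a * dc b = dc b * sc a
  ext ξ ⟨u, w, o⟩
  change sc a (dc b ξ) (u, w, o) = dc b (sc a ξ) (u, w, o)
  simp only [sc_apply, dc_apply]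
  rcases u with _ | ⟨c, u⟩
  · simp only [opA_cons_symm_nil, opA_snoc_symm_nil, opA_cons, opA_snoc, List.nil_append,
      dc_apply, sc_apply, opA_cons_symm_cons, opA_snoc_symm_single, List.cons_append, zero_add]
    by_cases h : a = b
    · subst h; simp
    · simp [h, Ne.symm h]
  · rcases eq_nil_or_append u with rfl | ⟨u, c', rfl⟩
    · simp only [opA_cons_symm_nil, opA_snoc_symm_nil, opA_cons, opA_snoc, List.nil_append,
        dc_apply, sc_apply, opA_cons_symm_cons, opA_snoc_symm_single, List.cons_append, zero_add]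
      have h1 := opA_snoc_symm_cons_concat b c a ξ [] w o
      simp only [List.nil_append] at h1
      rw [h1]
      by_cases h : c = a <;> by_cases h' : c = b <;> simp [h, h']
      all_goals ring
    · simp only [opA_snoc_symm_cons_concat, opA_cons, opA_snoc, 
        dc_apply, sc_apply, opA_cons_symm_cons, opA_snoc_symm_concat, List.cons_append]
      have h1 := opA_snoc_symm_concat b c' ξ (a :: c :: u) w o
      simp only [List.cons_append] at h1
      rw [h1]
      by_cases h : c = a <;> by_cases h' : c' = b <;> simp [h, h']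
      all_goals ring

theorem opB_cons_symm_nil (a : ZMod p) (ξ : HH p) (w : List (ZMod p)) (o : Option (ZMod p)) :
    opB (consE a).symm ξ (w, [], o) = 0 := by
  rw [opB_apply, consE_symm_nil]
  rfl

theorem opB_cons_symm_cons (a c : ZMod p) (ξ : HH p) (u w : List (ZMod p))
    (o : Option (ZMod p)) :
    opB (consE a).symm ξ (w, c :: u, o) = if c = a then ξ (w, u, o) else 0 := by
  rw [opB_apply, consE_symm_cons]
  split_ifs <;> rfl

theorem opB_snoc_symm_nil (a : ZMod p) (ξ : HH p) (w : List (ZMod p)) (o : Option (ZMod p)) :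
    opB (snocE a).symm ξ (w, [], o) = 0 := by
  rw [opB_apply, snocE_symm_nil]
  rfl

theorem opB_snoc_symm_concat (a c : ZMod p) (ξ : HH p) (u w : List (ZMod p))
    (o : Option (ZMod p)) :
    opB (snocE a).symm ξ (w, u ++ [c], o) = if c = a then ξ (w, u, o) else 0 := by
  rw [opB_apply, snocE_symm_concat]
  split_ifs <;> rfl

theorem opB_snoc_symm_single (a c : ZMod p) (ξ : HH p) (w : List (ZMod p))
    (o : Option (ZMod p)) :
    opB (snocE a).symm ξ (w, [c], o) = if c = a then ξ (w, [], o) else 0 :=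
  opB_snoc_symm_concat a c ξ [] w o

theorem opB_snoc_symm_cons_concat (a c c' : ZMod p) (ξ : HH p) (u w : List (ZMod p))
    (o : Option (ZMod p)) :
    opB (snocE a).symm ξ (w, c' :: (u ++ [c]), o) = if c = a then ξ (w, c' :: u, o) else 0 :=
  opB_snoc_symm_concat a c ξ (c' :: u) w o

theorem opB_cons (a : ZMod p) (ξ : HH p) (u w : List (ZMod p)) (o : Option (ZMod p)) :
    opB (consE a) ξ (w, u, o) = ξ (w, a :: u, o) := rfl

theorem opB_snoc (a : ZMod p) (ξ : HH p) (u w : List (ZMod p)) (o : Option (ZMod p)) :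
    opB (snocE a) ξ (w, u, o) = ξ (w, u ++ [a], o) := rfl

/-- coordinates of `s'_a` -/
def sc' (a : ZMod p) : HH p →L[ℂ] HH p := m a + star (m a)
/-- coordinates of `d'_a` -/
def dc' (a : ZMod p) : HH p →L[ℂ] HH p := t a + star (t a)

theorem sc'_apply (a : ZMod p) (ξ : HH p) (i : Idx p) :
    sc' a ξ i = opB (consE a).symm ξ i + opB (consE a) ξ i := by
  rw [sc', star_m]
  rfl

theorem dc'_apply (a : ZMod p) (ξ : HH p) (i : Idx p) :
    dc' a ξ i = opB (snocE a).symm ξ i + opB (snocE a) ξ i := by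
  rw [dc', star_t]
  rfl

theorem comm_s_d' (a b : ZMod p) : Commute (m a + star (m a)) (t b + star (t b)) := by
  change sc' a * dc' b = dc' b * sc' a
  ext ξ ⟨w, u, o⟩
  change sc' a (dc' b ξ) (w, u, o) = dc' b (sc' a ξ) (w, u, o)
  simp only [sc'_apply, dc'_apply]
  rcases u with _ | ⟨c, u⟩
  · simp only [opB_cons_symm_nil, opB_snoc_symm_nil, opB_cons, opB_snoc, List.nil_append,
      dc'_apply, sc'_apply, opB_cons_symm_cons, opB_snoc_symm_single, List.cons_append, zero_add]
    by_cases h : a = b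
    · subst h; simp
    · simp [h, Ne.symm h]
  · rcases eq_nil_or_append u with rfl | ⟨u, c', rfl⟩
    · simp only [opB_cons_symm_nil, opB_snoc_symm_nil, opB_cons, opB_snoc, List.nil_append,
        dc'_apply, sc'_apply, opB_cons_symm_cons, opB_snoc_symm_single, List.cons_append, zero_add]
      have h1 := opB_snoc_symm_cons_concat b c a ξ [] w o
      simp only [List.nil_append] at h1
      rw [h1]
      by_cases h : c = a <;> by_cases h' : c = b <;> simp [h, h']
      all_goals ring
    · simp only [opB_snoc_symm_cons_concat, opB_cons, opB_snoc,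
        dc'_apply, sc'_apply, opB_cons_symm_cons, opB_snoc_symm_concat, List.cons_append]
      have h1 := opB_snoc_symm_concat b c' ξ (a :: c :: u) w o
      simp only [List.cons_append] at h1
      rw [h1]
      by_cases h : c = a <;> by_cases h' : c' = b <;> simp [h, h']
      all_goals ring

theorem P_apply_nil (ξ : HH p) (w : List (ZMod p)) (o : Option (ZMod p)) :
    P ξ ([], w, o) = ξ ([], w, o) := by
  rw [P, opA_apply]
  rfl

theorem P_apply_cons (ξ : HH p) (c : ZMod p) (u w : List (ZMod p)) (o : Option (ZMod p)) :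
    P ξ (c :: u, w, o) = 0 := by
  rw [P, opA_apply]
  rfl

theorem d_l (a b : ZMod p) :
    (r a + star (r a)) * l b - l b * (r a + star (r a)) = if a = b then P else 0 := by
  change dc a * l b - l b * dc a = _
  ext ξ ⟨u, w, o⟩
  change dc a (opA (consE b).symm ξ) (u, w, o) - opA (consE b).symm (dc a ξ) (u, w, o) = _
  rcases u with _ | ⟨c, u⟩
  · simp only [opA_cons_symm_nil, opA_snoc_symm_nil, opA_cons, opA_snoc, List.nil_append,
      dc_apply, sc_apply, opA_cons_symm_cons, opA_snoc_symm_single, List.cons_append, zero_add]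
    split_ifs with h
    · rw [P_apply_nil, sub_zero]
    · simp
  · have hR : (if a = b then P else 0 : HH p →L[ℂ] HH p) ξ (c :: u, w, o) = 0 := by
      split_ifs
      · exact P_apply_cons _ _ _ _ _
      · rfl
    rw [hR, sub_eq_zero]
    rcases eq_nil_or_append u with rfl | ⟨u, c', rfl⟩
    · simp only [opA_cons_symm_nil, opA_snoc_symm_nil, opA_cons, opA_snoc, List.nil_append,
        dc_apply, sc_apply, opA_cons_symm_cons, opA_snoc_symm_single, List.cons_append, zero_add]
      by_cases h : c = a <;> simp [h]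
    · simp only [opA_snoc_symm_cons_concat, opA_cons, opA_snoc,
        dc_apply, sc_apply, opA_cons_symm_cons, opA_snoc_symm_concat, List.cons_append]
      by_cases h : c = b <;> by_cases h' : c' = a <;> simp [h, h']

theorem star_l_P (a : ZMod p) : star (l a) * P = 0 := by
  rw [star_l]
  ext ξ ⟨u, w, o⟩
  change opA (consE a) (P ξ) (u, w, o) = _
  rw [opA_cons, P_apply_cons]
  rfl

theorem norm_v0 : ‖(v0 : HH p)‖ = 1 := by
  have h := lp.norm_single (E := fun _ : Idx p => ℂ) (p := 2) (by norm_num)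
    (([], [], none) : Idx p) (1 : ℂ)
  rw [v0]
  rw [h, norm_one]

theorem opT_single_of_none (g : Idx p ≃. Idx p) (i : Idx p) (a : ℂ) (h : g.symm i = none) :
    opT g (lp.single 2 i a : HH p) = 0 := by
  rw [opT_single, h]
  rfl

theorem opT_single_of_some (g : Idx p ≃. Idx p) (i j : Idx p) (a : ℂ) (h : g.symm i = some j) :
    opT g (lp.single 2 i a : HH p) = lp.single 2 j a := by
  rw [opT_single, h]
  rfl

theorem P_v0 : P (v0 : HH p) = v0 := opT_single_of_some _ _ _ _ rfl

theorem e1_v0 : e1 (v0 : HH p) = v0 := opT_single_of_some _ _ _ _ rfl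

theorem star_m_v0 (a : ZMod p) : star (m a) (v0 : HH p) = 0 := by
  rw [star_m]
  exact opT_single_of_none _ _ _ rfl

theorem star_t_v0 (a : ZMod p) : star (t a) (v0 : HH p) = 0 := by
  rw [star_t]
  refine opT_single_of_none _ _ _ ?_
  have h : ((onB (snocE a)) : Idx p ≃. Idx p).symm ([], [], none) =
      ((snocE a).symm []).map (fun u => ([], u, none)) := rfl
  rw [h, snocE_symm_nil]
  rfl

theorem t_v0 (b : ZMod p) : t b (v0 : HH p) = lp.single 2 ([], [b], none) 1 :=
  opT_single_of_some _ _ _ _ rfl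

theorem star_m_t_v0 (a b : ZMod p) : star (m a) (t b (v0 : HH p)) = if a = b then v0 else 0 := by
  rw [star_m, t_v0]
  split_ifs with h
  · subst h
    refine opT_single_of_some _ _ _ _ ?_
    have h : ((onB (consE a)) : Idx p ≃. Idx p).symm ([], [a], none) =
      ((consE a).symm [a]).map (fun u => ([], u, none)) := rfl
    rw [h, consE_symm_cons, if_pos rfl]
    rfl
  · refine opT_single_of_none _ _ _ ?_
    have h' : ((onB (consE a)) : Idx p ≃. Idx p).symm ([], [b], none) =
      ((consE a).symm [b]).map (fun u => ([], u, none)) := rfl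
    rw [h', consE_symm_cons, if_neg (Ne.symm h)]
    rfl

/-- the system -/
def sys : Sys p (HH p) where
  l := l
  r := r
  m := m
  t := t
  E := E
  e1 := e1
  P := P
  v0 := v0
  star_l_l := star_l_l
  star_r_r := star_r_r
  star_m_m := star_m_m
  star_t_t := star_t_t
  star_E_E := star_E_E
  star_e1 := star_e1
  e1_e1 := e1_e1
  E_e1 := E_e1
  e1_E := e1_E
  sum_E := sum_E
  comm_s_d := comm_s_d
  comm_s_d' := comm_s_d'
  d_l := d_l
  star_l_P := star_l_P
  comm_l_m := fun _ _ => commute_AB _ _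
  comm_l_m' := fun a b => by rw [star_m]; exact commute_AB _ _
  comm_l_t := fun _ _ => commute_AB _ _
  comm_l_t' := fun a b => by rw [star_t]; exact commute_AB _ _
  comm_r_m := fun _ _ => commute_AB _ _
  comm_r_m' := fun a b => by rw [star_m]; exact commute_AB _ _
  comm_r_t := fun _ _ => commute_AB _ _
  comm_r_t' := fun a b => by rw [star_t]; exact commute_AB _ _
  comm_l_E := fun _ _ => commute_AC _ _
  comm_l_E' := fun a b => by rw [star_E]; exact commute_AC _ _
  comm_r_E := fun _ _ => commute_AC _ _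
  comm_r_E' := fun a b => by rw [star_E]; exact commute_AC _ _
  comm_m_E := fun _ _ => commute_BC _ _
  comm_m_E' := fun a b => by rw [star_E]; exact commute_BC _ _
  comm_t_E := fun _ _ => commute_BC _ _
  comm_t_E' := fun a b => by rw [star_E]; exact commute_BC _ _
  comm_P_E := fun _ => commute_AC _ _
  norm_v0 := norm_v0
  P_v0 := P_v0
  e1_v0 := e1_v0
  star_m_v0 := star_m_v0
  star_t_v0 := star_t_v0
  star_m_t_v0 := star_m_t_v0

end sys

/-- block E of S0104 -/
theorem modelExists (p : ℕ) [NeZero p] : ModelExists p :=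
  ⟨HH p, inferInstance, inferInstance, inferInstance, inferInstance, ⟨sys⟩⟩

end Crest.Agent.R078.S104.Model
end
end

-- ▼ part R078/S104NearC

set_option autoImplicit false
set_option linter.unusedSectionVars false

/-!
# R78, S0104, block C: `B^* C B` is near `S^* C_off S`
-/

noncomputable section

namespace Crest.Agent.R078.S104.NearCFile

open scoped InnerProductSpace
open Crest.Agent.R078.S104

variable {p : ℕ} [NeZero p] {H : Type} [NormedAddCommGroup H] [InnerProductSpace ℂ H]
  [CompleteSpace H] (S : Sys p H)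

theorem comm_uh {T : H →L[ℂ] H} (h1 : ∀ b, Commute T (S.E b))
    (h2 : ∀ b, Commute T (star (S.E b))) (a : ZMod p) : Commute T (S.uh a) := by
  unfold Sys.uh
  exact Commute.sum_right _ _ _ (fun b _ => ((h1 _).mul_right (h2 _)).smul_right _)

theorem comm_star_uh {T : H →L[ℂ] H} (h1 : ∀ b, Commute T (S.E b))
    (h2 : ∀ b, Commute T (star (S.E b))) (a : ZMod p) : Commute T (star (S.uh a)) := by
  unfold Sys.uh
  rw [star_sum]
  refine Commute.sum_right _ _ _ (fun b _ => ?_)
  rw [star_smul, star_mul, star_star]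
  exact ((h1 _).mul_right (h2 _)).smul_right _

theorem comm_l_star {a b : ZMod p} : Commute (star (S.l a)) (S.E b) := by
  have h := (S.comm_l_E' a b).star_star
  rwa [star_star] at h

theorem comm_l_star' {a b : ZMod p} : Commute (star (S.l a)) (star (S.E b)) :=
  (S.comm_l_E a b).star_star

variable {x : H →L[ℂ] H} (hx : S.Good x)

include hx

theorem comm_X_E (a b : ZMod p) : Commute (S.X x a) (S.E b) := by
  unfold Sys.X
  exact ((hx.E b).mul_left (S.comm_l_E a b)).sub_left ((S.comm_l_E a b).mul_left (hx.E b))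

theorem comm_X_E' (a b : ZMod p) : Commute (S.X x a) (star (S.E b)) := by
  unfold Sys.X
  exact ((hx.E' b).mul_left (S.comm_l_E' a b)).sub_left ((S.comm_l_E' a b).mul_left (hx.E' b))

theorem comm_X_m (a b : ZMod p) : Commute (S.X x a) (S.m b) := by
  unfold Sys.X
  exact ((hx.m b).mul_left (S.comm_l_m a b)).sub_left ((S.comm_l_m a b).mul_left (hx.m b))

theorem comm_X_m' (a b : ZMod p) : Commute (S.X x a) (star (S.m b)) := by
  unfold Sys.X
  exact ((hx.m' b).mul_left (S.comm_l_m' a b)).sub_left ((S.comm_l_m' a b).mul_left (hx.m' b))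

/-- `T_aa' = l_a^* X_a'` commutes with `E` -/
theorem comm_T_E (a a' b : ZMod p) : Commute (star (S.l a) * S.X x a') (S.E b) :=
  (comm_l_star S).mul_left (comm_X_E S hx a' b)

theorem comm_T_E' (a a' b : ZMod p) : Commute (star (S.l a) * S.X x a') (star (S.E b)) :=
  (comm_l_star' S).mul_left (comm_X_E' S hx a' b)

omit hx in
theorem sqrt_sq_inv : ((((Real.sqrt p)⁻¹ : ℝ) : ℂ)) * ((((Real.sqrt p)⁻¹ : ℝ) : ℂ)) =
    ((p : ℂ)⁻¹) := by
  rw [← Complex.ofReal_mul, ← mul_inv, Real.mul_self_sqrt (Nat.cast_nonneg p)]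
  push_cast
  rfl

theorem commutator_J : x * S.J - S.J * x =
    (((Real.sqrt p)⁻¹ : ℝ) : ℂ) • ∑ a, S.X x a * S.uh a := by
  unfold Sys.J
  rw [mul_smul_comm, smul_mul_assoc, ← smul_sub]
  congr 1
  rw [Finset.mul_sum, Finset.sum_mul, ← Finset.sum_sub_distrib]
  refine Finset.sum_congr rfl fun a _ => ?_
  have h1 : S.uh a * x = x * S.uh a := (comm_uh S hx.E hx.E' a).symm
  unfold Sys.X
  rw [sub_mul, mul_assoc (S.l a) x, ← h1]
  simp only [mul_assoc]

omit hx in
theorem star_J : star S.J =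
    (((Real.sqrt p)⁻¹ : ℝ) : ℂ) • ∑ a, star (S.uh a) * star (S.l a) := by
  unfold Sys.J
  rw [star_smul, star_sum]
  congr 1
  · exact Complex.conj_ofReal _
  · exact Finset.sum_congr rfl fun a _ => star_mul _ _

theorem C_eq : S.C x = ((p : ℂ)⁻¹) •
    ∑ a, ∑ a', (star (S.l a) * S.X x a') * (star (S.uh a) * S.uh a') := by
  unfold Sys.C
  rw [commutator_J S hx, star_J, smul_mul_smul_comm, sqrt_sq_inv]
  congr 1
  rw [Finset.sum_mul]
  refine Finset.sum_congr rfl fun a _ => ?_
  rw [Finset.mul_sum]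
  refine Finset.sum_congr rfl fun a' _ => ?_
  have h1 : star (S.uh a) * (star (S.l a) * S.X x a') =
      (star (S.l a) * S.X x a') * star (S.uh a) :=
    (comm_star_uh S (comm_T_E S hx a a') (comm_T_E' S hx a a') a).symm
  calc star (S.uh a) * star (S.l a) * (S.X x a' * S.uh a')
      = (star (S.uh a) * (star (S.l a) * S.X x a')) * S.uh a' := by simp only [mul_assoc]
    _ = _ := by rw [h1]; simp only [mul_assoc]

/-- the diagonal part -/
theorem C_sub_Coff (hU : StarUhUh (p := p) (H := H)) : S.C x - S.Coff x =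
    (((p : ℂ)⁻¹) • ∑ a, star (S.l a) * S.X x a) * (1 - S.e1) := by
  rw [C_eq S hx]
  unfold Sys.Coff
  rw [← smul_sub, ← Finset.sum_sub_distrib, smul_mul_assoc, Finset.sum_mul]
  congr 1
  refine Finset.sum_congr rfl fun a _ => ?_
  rw [← Finset.sum_sub_distrib]
  rw [Finset.sum_eq_single a]
  · rw [if_pos rfl, sub_zero, hU S a]
  · intro b _ hb
    rw [if_neg (Ne.symm hb), sub_self]
  · intro h
    exact absurd (Finset.mem_univ a) h

omit hx in
theorem SS_eq : S.SS = S.B + S.B' := by
  unfold Sys.SS Sys.B Sys.B'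
  rw [← Finset.sum_add_distrib]
  refine Finset.sum_congr rfl fun b _ => ?_
  unfold Sys.s'
  rw [add_mul, add_comm]

theorem comm_Coff_m (b : ZMod p) : Commute (S.Coff x) (S.m b) := by
  unfold Sys.Coff
  refine Commute.smul_left ?_ _
  refine Commute.sum_left _ _ _ fun a _ => Commute.sum_left _ _ _ fun a' _ => ?_
  split_ifs
  · exact Commute.zero_left _
  · have h1 : Commute (star (S.l a)) (S.m b) := by
      have h := (S.comm_l_m' a b).star_star
      rwa [star_star] at h
    have h2 : ∀ a, Commute (S.m b) (S.uh a) := comm_uh S (S.comm_m_E b) (S.comm_m_E' b)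
    have h3 : ∀ a, Commute (S.m b) (star (S.uh a)) := comm_star_uh S (S.comm_m_E b) (S.comm_m_E' b)
    exact (h1.mul_left (comm_X_m S hx a' b)).mul_left ((h3 a).symm.mul_left (h2 a').symm)

omit hx in
theorem uh_E (a b : ZMod p) : S.uh a * S.E b = c a b • S.E (a + b) := by
  unfold Sys.uh
  rw [Finset.sum_mul, Finset.sum_eq_single b]
  · rw [smul_mul_assoc, mul_assoc, S.star_E_E, if_pos rfl, S.E_e1]
  · intro b' _ hb'
    rw [smul_mul_assoc, mul_assoc, S.star_E_E, if_neg hb', mul_zero, smul_zero]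
  · intro h
    exact absurd (Finset.mem_univ b) h

omit hx in
theorem E_uh_uh_E {a a' : ZMod p} (h : a ≠ a') (b : ZMod p) :
    star (S.E b) * (star (S.uh a) * S.uh a') * S.E b = 0 := by
  have h1 : star (S.E b) * (star (S.uh a) * S.uh a') * S.E b =
      star (S.uh a * S.E b) * (S.uh a' * S.E b) := by
    rw [star_mul]
    simp only [mul_assoc]
  rw [h1, uh_E, uh_E, star_smul, smul_mul_smul_comm, S.star_E_E, if_neg, smul_zero]
  intro h2
  exact h (add_right_cancel h2)

theorem E_Coff_E (b : ZMod p) : star (S.E b) * S.Coff x * S.E b = 0 := by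
  unfold Sys.Coff
  rw [mul_smul_comm, smul_mul_assoc, Finset.mul_sum, Finset.sum_mul]
  rw [Finset.sum_eq_zero, smul_zero]
  intro a _
  rw [Finset.mul_sum, Finset.sum_mul]
  refine Finset.sum_eq_zero fun a' _ => ?_
  split_ifs with h
  · rw [mul_zero, zero_mul]
  · have h1 : star (S.E b) * (star (S.l a) * S.X x a') = (star (S.l a) * S.X x a') * star (S.E b) :=
      (comm_T_E' S hx a a' b).symm
    calc star (S.E b) * ((star (S.l a) * S.X x a') * (star (S.uh a) * S.uh a')) * S.E b
        = (star (S.E b) * (star (S.l a) * S.X x a')) * (star (S.uh a) * S.uh a') * S.E b := by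
          simp only [mul_assoc]
      _ = (star (S.l a) * S.X x a') * (star (S.E b) * (star (S.uh a) * S.uh a') * S.E b) := by
          rw [h1]; simp only [mul_assoc]
      _ = 0 := by rw [E_uh_uh_E S h, mul_zero]

omit hx in
theorem star_B' : star S.B' = ∑ b, star (S.E b) * star (S.m b) := by
  unfold Sys.B'
  rw [star_sum]
  exact Finset.sum_congr rfl fun b _ => star_mul _ _

theorem B'_Coff_B' : star S.B' * S.Coff x * S.B' = 0 := by
  rw [star_B']
  unfold Sys.B'
  rw [Finset.sum_mul, Finset.sum_mul]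
  refine Finset.sum_eq_zero fun b _ => ?_
  rw [Finset.mul_sum]
  refine Finset.sum_eq_zero fun b' _ => ?_
  have h1 : S.Coff x * S.m b' = S.m b' * S.Coff x := comm_Coff_m S hx b'
  calc star (S.E b) * star (S.m b) * S.Coff x * (S.m b' * S.E b')
      = star (S.E b) * (star (S.m b) * (S.Coff x * S.m b')) * S.E b' := by simp only [mul_assoc]
    _ = star (S.E b) * ((star (S.m b) * S.m b') * S.Coff x) * S.E b' := by
        rw [h1]; simp only [mul_assoc]
    _ = 0 := by
        rw [S.star_m_m]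
        split_ifs with h
        · subst h
          rw [one_mul]
          exact E_Coff_E S hx b
        · simp

theorem decomp (hU : StarUhUh (p := p) (H := H)) :
    star S.B * S.C x * S.B - star S.SS * S.Coff x * S.SS =
    star S.B * ((((p : ℂ)⁻¹) • ∑ a, star (S.l a) * S.X x a) * (1 - S.e1)) * S.B
      - star S.B * (S.Coff x * S.B') - star S.B' * S.Coff x * S.B := by
  rw [← C_sub_Coff S hx hU, SS_eq, star_add]
  have h := B'_Coff_B' S hx
  have e : (star S.B + star S.B') * S.Coff x * (S.B + S.B') =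
      star S.B * S.Coff x * S.B + star S.B * (S.Coff x * S.B') + star S.B' * S.Coff x * S.B
      + star S.B' * S.Coff x * S.B' := by
    noncomm_ring
  rw [e, h, add_zero, mul_sub, sub_mul]
  abel

omit hx in
/-- `‖B‖ ≤ 1` -/
theorem norm_B_le (hB : B_star_B (p := p) (H := H)) : ‖S.B‖ ≤ 1 ∧ ‖star S.B‖ ≤ 1 := by
  have h1 : ‖(1 - S.e1 : H →L[ℂ] H)‖ ≤ 1 := by
    have h2 : star (1 - S.e1) * (1 - S.e1) = 1 - S.e1 := by
      rw [star_sub, star_one, S.star_e1]
      have := S.e1_e1
      calc (1 - S.e1) * (1 - S.e1) = 1 - S.e1 - S.e1 + S.e1 * S.e1 := by noncomm_ring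
        _ = _ := by rw [this]; abel
    have h3 : ‖(1 - S.e1 : H →L[ℂ] H)‖ * ‖(1 - S.e1 : H →L[ℂ] H)‖ = ‖(1 - S.e1 : H →L[ℂ] H)‖ := by
      rw [← CStarRing.norm_star_mul_self (x := (1 - S.e1 : H →L[ℂ] H)), h2]
    by_contra h4
    push Not at h4
    nlinarith
  have h5 : ‖S.B‖ * ‖S.B‖ ≤ 1 := by
    rw [← CStarRing.norm_self_mul_star (x := S.B), hB S]
    exact h1
  have h6 : ‖S.B‖ ≤ 1 := by
    by_contra h4
    push Not at h4
    nlinarith
  exact ⟨h6, by rw [norm_star]; exact h6⟩

omit hx in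
theorem norm_one_sub_e1_le : ‖(1 - S.e1 : H →L[ℂ] H)‖ ≤ 1 := by
  have h2 : star (1 - S.e1) * (1 - S.e1) = 1 - S.e1 := by
    rw [star_sub, star_one, S.star_e1]
    have := S.e1_e1
    calc (1 - S.e1) * (1 - S.e1) = 1 - S.e1 - S.e1 + S.e1 * S.e1 := by noncomm_ring
      _ = _ := by rw [this]; abel
  have h3 : ‖(1 - S.e1 : H →L[ℂ] H)‖ * ‖(1 - S.e1 : H →L[ℂ] H)‖ = ‖(1 - S.e1 : H →L[ℂ] H)‖ := by
    rw [← CStarRing.norm_star_mul_self (x := (1 - S.e1 : H →L[ℂ] H)), h2]
  by_contra h4
  push Not at h4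
  nlinarith

omit hx in
theorem sqrt_pos : 0 < Real.sqrt p :=
  Real.sqrt_pos.mpr (Nat.cast_pos.mpr (Nat.pos_of_ne_zero (NeZero.ne p)))

/-- the diagonal part has norm `≤ 2/√p` -/
theorem norm_diag_le (hS : SumX (p := p) (H := H)) (hN : NormSumStarL (p := p) (H := H))
    (hx1 : ‖x‖ ≤ 1) :
    ‖((p : ℂ)⁻¹) • ∑ a, star (S.l a) * S.X x a‖ ≤ 2 / Real.sqrt p := by
  have hp := sqrt_pos (p := p)
  refine ContinuousLinearMap.opNorm_le_bound _ (by positivity) fun ζ => ?_
  have h1 : (((p : ℂ)⁻¹) • ∑ a, star (S.l a) * S.X x a) ζ =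
      ((p : ℂ)⁻¹) • ∑ a, star (S.l a) (S.X x a ζ) := by
    simp [ContinuousLinearMap.sum_apply]
  rw [h1, norm_smul]
  have h2 := hN S (fun a => S.X x a ζ)
  have h3 := hS S x hx hx1 ζ
  have h4 : ‖∑ a, star (S.l a) (S.X x a ζ)‖ ^ 2 ≤ (Real.sqrt p * (2 * ‖ζ‖)) ^ 2 := by
    refine h2.trans ?_
    rw [mul_pow, Real.sq_sqrt (Nat.cast_nonneg p), mul_pow]
    have : (p : ℝ) * ∑ a, ‖S.X x a ζ‖ ^ 2 ≤ p * (4 * ‖ζ‖ ^ 2) := by gcongr
    linarith
  have h5 := le_of_sq_le_sq h4 (by positivity)
  have h6 : ‖((p : ℂ)⁻¹)‖ = (Real.sqrt p)⁻¹ * (Real.sqrt p)⁻¹ := by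
    rw [norm_inv, Complex.norm_natCast, ← mul_inv, Real.mul_self_sqrt (Nat.cast_nonneg p)]
  rw [h6]
  calc (Real.sqrt p)⁻¹ * (Real.sqrt p)⁻¹ * ‖∑ a, star (S.l a) (S.X x a ζ)‖
      ≤ (Real.sqrt p)⁻¹ * (Real.sqrt p)⁻¹ * (Real.sqrt p * (2 * ‖ζ‖)) := by gcongr
    _ = 2 / Real.sqrt p * ‖ζ‖ := by field_simp

omit hx in
theorem norm_sq_helper {A : ℝ} {ζ : H} (h : A ^ 2 ≤ 4 / p * ‖ζ‖ ^ 2) :
    A ≤ 2 / Real.sqrt p * ‖ζ‖ := by
  have hp := sqrt_pos (p := p)
  refine le_of_sq_le_sq ?_ (by positivity)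
  rw [mul_pow, div_pow, Real.sq_sqrt (Nat.cast_nonneg p)]
  norm_num
  exact h

omit hx in
/-- abstract form of the two off-diagonal bounds -/
theorem norm_mB_le (hNM : NormSumM (p := p) (H := H)) (hSi : Sidon (p := p) (H := H))
    (hpp : p.Prime) (hp2 : p ≠ 2) (T : ZMod p → ZMod p → (H →L[ℂ] H))
    (hTE : ∀ a a' b, Commute (T a a') (S.E b))
    (hT : ∀ ζ : H, ∑ a, ∑ a', ‖T a a' ζ‖ ^ 2 ≤ 4 * ‖ζ‖ ^ 2)
    (D : H →L[ℂ] H)
    (hD : D = ((p : ℂ)⁻¹) • ∑ a, ∑ a', if a = a' then 0 else T a a' * (star (S.uh a) * S.uh a'))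
    (hDm : ∀ b, Commute D (S.m b)) : ‖D * S.B'‖ ≤ 2 / Real.sqrt p := by
  have hp := sqrt_pos (p := p)
  have hp0 : (0 : ℝ) < p := Nat.cast_pos.mpr (Nat.pos_of_ne_zero (NeZero.ne p))
  refine ContinuousLinearMap.opNorm_le_bound _ (by positivity) fun ζ => ?_
  apply norm_sq_helper
  have h1 : (D * S.B') ζ = ∑ b, S.m b (D (S.E b ζ)) := by
    have h2 : D * S.B' = ∑ b, S.m b * (D * S.E b) := by
      unfold Sys.B'
      rw [Finset.mul_sum]
      refine Finset.sum_congr rfl fun b _ => ?_
      rw [← mul_assoc, (hDm b).eq, mul_assoc]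
    rw [h2]
    simp [ContinuousLinearMap.sum_apply]
  rw [h1, hNM S]
  set T' : ZMod p → ZMod p → (H →L[ℂ] H) := fun a a' =>
    if a = a' then 0 else ((p : ℂ)⁻¹) • T a a' with hT'
  have hD' : D = ∑ a, ∑ a', T' a a' * (star (S.uh a) * S.uh a') := by
    rw [hD, Finset.smul_sum]
    refine Finset.sum_congr rfl fun a _ => ?_
    rw [Finset.smul_sum]
    refine Finset.sum_congr rfl fun a' _ => ?_
    simp only [hT']
    split_ifs
    · simp
    · rw [smul_mul_assoc]
  have h3 := hSi S hpp hp2 T' (by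
    intro a a' b
    simp only [hT']
    split_ifs
    · exact Commute.zero_left _
    · exact (hTE a a' b).smul_left _) ζ
  rw [← hD'] at h3
  refine h3.trans ?_
  have h4 : ∑ a, T' a a = 0 := by
    refine Finset.sum_eq_zero fun a _ => ?_
    simp [hT']
  rw [h4, ContinuousLinearMap.zero_apply, norm_zero]
  have h5 : ∑ a, ∑ a', (if a = a' then 0 else ‖T' a a' ζ‖ ^ 2) ≤
      (p : ℝ)⁻¹ ^ 2 * ∑ a, ∑ a', ‖T a a' ζ‖ ^ 2 := by
    rw [Finset.mul_sum]
    refine Finset.sum_le_sum fun a _ => ?_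
    rw [Finset.mul_sum]
    refine Finset.sum_le_sum fun a' _ => ?_
    split_ifs with h
    · positivity
    · simp only [hT', if_neg h]
      rw [ContinuousLinearMap.smul_apply, norm_smul, mul_pow, norm_inv, Complex.norm_natCast]
  have h6 := hT ζ
  calc (p : ℝ) * 0 ^ 2 + p * ∑ a, ∑ a', (if a = a' then 0 else ‖T' a a' ζ‖ ^ 2)
      ≤ (p : ℝ) * 0 ^ 2 + p * ((p : ℝ)⁻¹ ^ 2 * (4 * ‖ζ‖ ^ 2)) := by
        gcongr
        exact h5.trans (by gcongr)
    _ = 4 / p * ‖ζ‖ ^ 2 := by field_simp; ring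

theorem norm_Coff_B'_le (hNM : NormSumM (p := p) (H := H)) (hSi : Sidon (p := p) (H := H))
    (hS : SumX (p := p) (H := H)) (hL : SumStarL (p := p) (H := H))
    (hpp : p.Prime) (hp2 : p ≠ 2) (hx1 : ‖x‖ ≤ 1) : ‖S.Coff x * S.B'‖ ≤ 2 / Real.sqrt p := by
  refine norm_mB_le S hNM hSi hpp hp2 (fun a a' => star (S.l a) * S.X x a')
    (fun a a' b => comm_T_E S hx a a' b) ?_ _ rfl (comm_Coff_m S hx)
  intro ζ
  rw [Finset.sum_comm]
  refine le_trans ?_ (hS S x hx hx1 ζ)
  exact Finset.sum_le_sum fun a' _ => hL S (S.X x a' ζ)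

theorem norm_star_Coff_B'_le (hNM : NormSumM (p := p) (H := H)) (hSi : Sidon (p := p) (H := H))
    (hS : SumXstar (p := p) (H := H)) (hL : SumStarL (p := p) (H := H))
    (hLX : StarLX (p := p) (H := H))
    (hpp : p.Prime) (hp2 : p ≠ 2) (hx1 : ‖x‖ ≤ 1) :
    ‖star (S.Coff x) * S.B'‖ ≤ 2 / Real.sqrt p := by
  have hcomm : ∀ a b, Commute (star (S.X x a)) (S.E b) := by
    intro a b
    have h := (comm_X_E' S hx a b).star_star
    rwa [star_star] at h
  have hcomm' : ∀ a b, Commute (star (S.X x a)) (star (S.E b)) := fun a b =>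
    (comm_X_E S hx a b).star_star
  have hTcomm : ∀ a a' b, Commute (star (S.l a) * star (S.X x a')) (S.E b) :=
    fun a a' b => (comm_l_star S).mul_left (hcomm a' b)
  have hTcomm' : ∀ a a' b, Commute (star (S.l a) * star (S.X x a')) (star (S.E b)) :=
    fun a a' b => (comm_l_star' S).mul_left (hcomm' a' b)
  refine norm_mB_le S hNM hSi hpp hp2 (fun a a' => star (S.l a) * star (S.X x a'))
    hTcomm ?_ _ ?_ ?_
  · intro ζ
    rw [Finset.sum_comm]
    refine le_trans ?_ (hS S x hx hx1 ζ)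
    exact Finset.sum_le_sum fun a' _ => hL S (star (S.X x a') ζ)
  · unfold Sys.Coff
    rw [star_smul, star_sum]
    congr 1
    · simp
    · have h1 : ∀ a : ZMod p, star (∑ a', if a = a' then 0 else
          (star (S.l a) * S.X x a') * (star (S.uh a) * S.uh a')) =
          ∑ a', if a = a' then 0 else
            (star (S.l a') * star (S.X x a)) * (star (S.uh a') * S.uh a) := by
        intro a
        rw [star_sum]
        refine Finset.sum_congr rfl fun a' _ => ?_
        split_ifs with h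
        · exact star_zero _
        · rw [hLX S x hx a a', star_mul, star_mul, star_mul, star_star]
          have hc1 : Commute (star (S.l a') * star (S.X x a)) (star (S.uh a') * S.uh a) :=
            (comm_star_uh S (hTcomm a' a) (hTcomm' a' a) a').mul_right
              (comm_uh S (hTcomm a' a) (hTcomm' a' a) a)
          exact hc1.symm.eq
      simp only [h1]
      rw [Finset.sum_comm]
      refine Finset.sum_congr rfl fun a _ => Finset.sum_congr rfl fun a' _ => ?_
      simp only [eq_comm]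
  · intro b
    have h1 : Commute (S.Coff x) (star (S.m b)) := by
      unfold Sys.Coff
      refine Commute.smul_left ?_ _
      refine Commute.sum_left _ _ _ fun a _ => Commute.sum_left _ _ _ fun a' _ => ?_
      split_ifs
      · exact Commute.zero_left _
      · have h1 : Commute (star (S.l a)) (star (S.m b)) := (S.comm_l_m a b).star_star
        have hmE : ∀ b', Commute (star (S.m b)) (S.E b') := by
          intro b'
          have h := (S.comm_m_E' b b').star_star
          rwa [star_star] at h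
        have hmE' : ∀ b', Commute (star (S.m b)) (star (S.E b')) := fun b' =>
          (S.comm_m_E b b').star_star
        have h2 : ∀ a, Commute (star (S.m b)) (S.uh a) := comm_uh S hmE hmE'
        have h3 : ∀ a, Commute (star (S.m b)) (star (S.uh a)) := comm_star_uh S hmE hmE'
        exact (h1.mul_left (comm_X_m' S hx a' b)).mul_left ((h3 a).symm.mul_left (h2 a').symm)
    have h := h1.star_star
    rwa [star_star] at h

/-- **Block C**: `NearC` -/
theorem nearC (hU : StarUhUh (p := p) (H := H)) (hB : B_star_B (p := p) (H := H))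
    (hNM : NormSumM (p := p) (H := H)) (hSi : Sidon (p := p) (H := H))
    (hSX : SumX (p := p) (H := H)) (hSXs : SumXstar (p := p) (H := H))
    (hL : SumStarL (p := p) (H := H)) (hNL : NormSumStarL (p := p) (H := H))
    (hLX : StarLX (p := p) (H := H)) : NearC (p := p) (H := H) := by
  intro S hpp hp2 x hx hx1
  have hp := sqrt_pos (p := p)
  obtain ⟨hB1, hB2⟩ := norm_B_le S hB
  rw [decomp S hx hU]
  have n1 : ‖star S.B * ((((p : ℂ)⁻¹) • ∑ a, star (S.l a) * S.X x a) * (1 - S.e1)) * S.B‖ ≤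
      2 / Real.sqrt p := by
    have h1 := norm_diag_le S hx hSX hNL hx1
    calc ‖star S.B * ((((p : ℂ)⁻¹) • ∑ a, star (S.l a) * S.X x a) * (1 - S.e1)) * S.B‖
        ≤ ‖star S.B * ((((p : ℂ)⁻¹) • ∑ a, star (S.l a) * S.X x a) * (1 - S.e1))‖ * ‖S.B‖ :=
          norm_mul_le _ _
      _ ≤ (‖star S.B‖ * (‖((p : ℂ)⁻¹) • ∑ a, star (S.l a) * S.X x a‖ * ‖1 - S.e1‖)) * ‖S.B‖ := by
          gcongr
          refine (norm_mul_le _ _).trans ?_
          gcongr
          exact norm_mul_le _ _
      _ ≤ (1 * ((2 / Real.sqrt p) * 1)) * 1 := by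
          gcongr
          exact norm_one_sub_e1_le S
      _ = 2 / Real.sqrt p := by ring
  have n2 : ‖star S.B * (S.Coff x * S.B')‖ ≤ 2 / Real.sqrt p := by
    have h1 := norm_Coff_B'_le S hx hNM hSi hSX hL hpp hp2 hx1
    calc ‖star S.B * (S.Coff x * S.B')‖ ≤ ‖star S.B‖ * ‖S.Coff x * S.B'‖ := norm_mul_le _ _
      _ ≤ 1 * (2 / Real.sqrt p) := by gcongr
      _ = _ := one_mul _
  have n3 : ‖star S.B' * S.Coff x * S.B‖ ≤ 2 / Real.sqrt p := by
    have h1 := norm_star_Coff_B'_le S hx hNM hSi hSXs hL hLX hpp hp2 hx1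
    have h2 : star S.B' * S.Coff x = star (star (S.Coff x) * S.B') := by
      rw [star_mul, star_star]
    calc ‖star S.B' * S.Coff x * S.B‖ ≤ ‖star S.B' * S.Coff x‖ * ‖S.B‖ := norm_mul_le _ _
      _ = ‖star (S.Coff x) * S.B'‖ * ‖S.B‖ := by rw [h2, norm_star]
      _ ≤ (2 / Real.sqrt p) * 1 := by gcongr
      _ = _ := mul_one _
  refine (norm_sub_le _ _).trans ?_
  refine (add_le_add (norm_sub_le _ _) le_rfl).trans ?_
  have : 6 / Real.sqrt p = 2 / Real.sqrt p + 2 / Real.sqrt p + 2 / Real.sqrt p := by ring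
  rw [this]
  gcongr

end Crest.Agent.R078.S104.NearCFile
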